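import Vale.Agent.P032.H437.Ev3.T

namespace Vale.Agent.P032.H437.Ev3
open Vale.Agent.P032.H859.Rup Vale.Agent.P032.H437

def c256_0 : Tr :=
 .n (.n (.n (.n (.n (.n (.p (nat_lit 0x1) (nat_lit 0x0) (nat_lit 0))
 (.p (nat_lit 0x268727bb02) (nat_lit 0x2c0000000200) (nat_lit 36)))
 (.p (nat_lit 0x164a164816441642120311fd06) (nat_lit 0x12000016806) (nat_lit 52)))
 (.n (.p (nat_lit 0x17a115f102) (nat_lit 0x146b00) (nat_lit 16))
 (.p (nat_lit 0x1af7193b02) (nat_lit 0x210a1d) (nat_lit 16))))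
 (.n (.n (.n (.p (nat_lit 0xc4d0a6702) (nat_lit 0x204500) (nat_lit 16))
 (.p (nat_lit 0x82a284f02) (nat_lit 0x4a0d84344000300000000) (nat_lit 50)))
 (.p (nat_lit 0x4be04bc04b804b604b41e0f06) (nat_lit 0x4000048b11) (nat_lit 52)))
 (.n (.p (nat_lit 0x1570156e156c15681566006b156b07) (nat_lit 0x200a03) (nat_lit 7))
 (.p (nat_lit 0x8f808f408f208f008ee025d08f707) (nat_lit 0x40032a) (nat_lit 7)))))
 (.n (.n (.n (.n (.p (nat_lit 0x68a0688068606840682050d06) (nat_lit 0x800008200) (nat_lit 52))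
 (.p (nat_lit 0x272d102302) (nat_lit 0x160060000700) (nat_lit 39)))
 (.p (nat_lit 0x1c1c1c1a1c181c161c141ca506) (nat_lit 0x80004820a) (nat_lit 51)))
 (.n (.p (nat_lit 0x147614721470146e146c0047147507) (nat_lit 0x440902) (nat_lit 7))
 (.p (nat_lit 0x1f2716df02) (nat_lit 0x212b23) (nat_lit 16))))
 (.n (.n (.p (nat_lit 0x127e127c1278127410b310af06) (nat_lit 0x5000056800) (nat_lit 51))
 (.p (nat_lit 0x1092108e108c108a10881ad906) (nat_lit 0x80000d4517) (nat_lit 52)))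
 (.n (.p (nat_lit 0x1504150214fe14fa17e117dd06) (nat_lit 0x5000050b04) (nat_lit 51))
 (.p (nat_lit 0x12a0128012601220135006b06) (nat_lit 0x214411) (nat_lit 26))))))
 (.n (.n (.n (.n (.n (.p (nat_lit 0xd6038f02) (nat_lit 0x140000) (nat_lit 1))
 (.p (nat_lit 0x26af0ba302) (nat_lit 0x40000000500) (nat_lit 38)))
 (.p (nat_lit 0xa7908e102) (nat_lit 0x500307) (nat_lit 15)))
 (.n (.p (nat_lit 0x146a0dcf02) (nat_lit 0x540901) (nat_lit 5))
 (.p (nat_lit 0x6020a0b02) (nat_lit 0x140123) (nat_lit 5))))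
 (.n (.n (.n (.p (nat_lit 0xfa20fa00f9c0f9a0f980ddf06) (nat_lit 0x4000014700) (nat_lit 52))
 (.p (nat_lit 0xc7a288d02) (nat_lit 0x356221ca4000500040000) (nat_lit 49)))
 (.p (nat_lit 0xc5b0c4f02) (nat_lit 0x308515) (nat_lit 16)))
 (.n (.p (nat_lit 0xb8a13eb02) (nat_lit 0x40404) (nat_lit 5))
 (.p (nat_lit 0x1f94206f02) (nat_lit 0x54022f) (nat_lit 4)))))
 (.n (.n (.n (.n (.p (nat_lit 0x9820980097e097a07b107af06) (nat_lit 0x30000d4300) (nat_lit 51))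
 (.p (nat_lit 0x271d13b502) (nat_lit 0x260060000900) (nat_lit 39)))
 (.p (nat_lit 0xc440c420c400c3e0116010f01050c470c3d09) (nat_lit 0x280050e) (nat_lit 10)))
 (.n (.p (nat_lit 0xed40ed20ed00eca17c717c506) (nat_lit 0x3000054b02) (nat_lit 52))
 (.p (nat_lit 0x2142213e213c213a2138024f214107) (nat_lit 0x400129) (nat_lit 7))))
 (.n (.n (.p (nat_lit 0x1549135902) (nat_lit 0x30aa00) (nat_lit 16))
 (.p (nat_lit 0x157c157815741572043d043906) (nat_lit 0xa0000d401c) (nat_lit 52)))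
 (.n (.p (nat_lit 0x92409220920091e091c10f106) (nat_lit 0x8000c6705) (nat_lit 51))
 (.p (nat_lit 0x2860284028202800255022306) (nat_lit 0x51432c) (nat_lit 26))))))

def c256_128 : Tr :=
 .n (.n (.n (.n (.n (.n (.p (nat_lit 0x1a601a401a201ab04) (nat_lit 0xe00040001c) (nat_lit 17))
 (.p (nat_lit 0x26eb27cd02) (nat_lit 0x280040000300) (nat_lit 36)))
 (.p (nat_lit 0x14ea14e814e614e414e2148306) (nat_lit 0x1000004e906) (nat_lit 52)))
 (.n (.p (nat_lit 0x11e40da502) (nat_lit 0x200801) (nat_lit 4))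
 (.p (nat_lit 0x20dc1fcf02) (nat_lit 0x540721) (nat_lit 5))))
 (.n (.n (.n (.p (nat_lit 0xe250d7102) (nat_lit 0x50a600) (nat_lit 16))
 (.p (nat_lit 0x914286f02) (nat_lit 0x588872b44000300040000) (nat_lit 49)))
 (.p (nat_lit 0x149229502) (nat_lit 0x200415) (nat_lit 30)))
 (.n (.p (nat_lit 0x170d170102) (nat_lit 0x114b03) (nat_lit 16))
 (.p (nat_lit 0x192218d302) (nat_lit 0x4092b) (nat_lit 5)))))
 (.n (.n (.n (.n (.p (nat_lit 0x19e06e902) (nat_lit 0x300) (nat_lit 1))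
 (.p (nat_lit 0x2723281702) (nat_lit 0x200060000800) (nat_lit 36)))
 (.p (nat_lit 0x67406720670066e09a909a506) (nat_lit 0x280004030e) (nat_lit 51)))
 (.n (.p (nat_lit 0x81c081a081808160814163506) (nat_lit 0x10000046a02) (nat_lit 52))
 (.p (nat_lit 0x195e241902) (nat_lit 0x400025) (nat_lit 29))))
 (.n (.n (.p (nat_lit 0x13c313b702) (nat_lit 0x440900) (nat_lit 34))
 (.p (nat_lit 0xa0208d02) (nat_lit 0x14051a) (nat_lit 1)))
 (.n (.p (nat_lit 0x16881684168216800e490e4506) (nat_lit 0x14000010605) (nat_lit 52))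
 (.p (nat_lit 0x1f725ff02) (nat_lit 0x23) (nat_lit 28))))))
 (.n (.n (.n (.n (.n (.p (nat_lit 0x523034f02) (nat_lit 0x506100) (nat_lit 16))
 (.p (nat_lit 0x26d90d5d02) (nat_lit 0xa0020000600) (nat_lit 40)))
 (.p (nat_lit 0xdf70deb02) (nat_lit 0x304607) (nat_lit 16)))
 (.n (.p (nat_lit 0x1996199419921990198e198c004a07) (nat_lit 0x202) (nat_lit 8))
 (.p (nat_lit 0xe18238b02) (nat_lit 0x500623) (nat_lit 29))))
 (.n (.n (.n (.p (nat_lit 0x10f90eeb02) (nat_lit 0x454700) (nat_lit 16))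
 (.p (nat_lit 0x66028ad02) (nat_lit 0x354a621b0000200000000) (nat_lit 50)))
 (.p (nat_lit 0x14522e502) (nat_lit 0x915) (nat_lit 30)))
 (.n (.p (nat_lit 0xbaa0ba80ba60ba40ba20f2906) (nat_lit 0x1000004a604) (nat_lit 52))
 (.p (nat_lit 0x9f24f102) (nat_lit 0x205) (nat_lit 28)))))
 (.n (.n (.n (.n (.p (nat_lit 0x9960ac702) (nat_lit 0x540400) (nat_lit 5))
 (.p (nat_lit 0x26d9171902) (nat_lit 0xa0020000b00) (nat_lit 39)))
 (.p (nat_lit 0x1a68198902) (nat_lit 0x400410) (nat_lit 5)))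
 (.n (.p (nat_lit 0xb8909c302) (nat_lit 0x540303) (nat_lit 15))
 (.p (nat_lit 0x70e0ca702) (nat_lit 0x10022a) (nat_lit 5))))
 (.n (.n (.p (nat_lit 0x1668166616641662151b151706) (nat_lit 0xa000008b00) (nat_lit 51))
 (.p (nat_lit 0x4390d1b02) (nat_lit 0x24051c) (nat_lit 15)))
 (.n (.p (nat_lit 0x12c712bb02) (nat_lit 0x14c805) (nat_lit 16))
 (.p (nat_lit 0x274f02b702) (nat_lit 0x240080000000) (nat_lit 40))))))

def c128_0 : Tr := .n c256_0 c256_128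

def c256_64 : Tr :=
 .n (.n (.n (.n (.n (.n (.p (nat_lit 0xa800a400a200ab04) (nat_lit 0x16000400005) (nat_lit 17))
 (.p (nat_lit 0x276b066902) (nat_lit 0x80080000200) (nat_lit 40)))
 (.p (nat_lit 0x22222220221e221c221a221800c607) (nat_lit 0x906) (nat_lit 8)))
 (.n (.p (nat_lit 0x6220e8702) (nat_lit 0x540101) (nat_lit 5))
 (.p (nat_lit 0x1f321fe902) (nat_lit 0x300021) (nat_lit 5))))
 (.n (.n (.n (.p (nat_lit 0xd270b4702) (nat_lit 0x24c500) (nat_lit 16))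
 (.p (nat_lit 0x56a286302) (nat_lit 0x281d30344000100040000) (nat_lit 49)))
 (.p (nat_lit 0x356228b02) (nat_lit 0x300015) (nat_lit 29)))
 (.n (.p (nat_lit 0x17021dd102) (nat_lit 0x200b03) (nat_lit 29))
 (.p (nat_lit 0x15420c1702) (nat_lit 0xa2a) (nat_lit 5)))))
 (.n (.n (.n (.n (.p (nat_lit 0x5f2072f02) (nat_lit 0x540200) (nat_lit 4))
 (.p (nat_lit 0x280c0ff902) (nat_lit 0x14800) (nat_lit 48)))
 (.p (nat_lit 0x21dc211f02) (nat_lit 0x20080d) (nat_lit 4)))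
 (.n (.p (nat_lit 0x1030102c102a10281565156106) (nat_lit 0x1400008ea02) (nat_lit 51))
 (.p (nat_lit 0x23f623f423f223f023ee23ec021607) (nat_lit 0x824) (nat_lit 8))))
 (.n (.n (.p (nat_lit 0x13221320131e131a131811a706) (nat_lit 0x200008c900) (nat_lit 51))
 (.p (nat_lit 0x1daa1ca102) (nat_lit 0x440518) (nat_lit 4)))
 (.n (.p (nat_lit 0x1de09c702) (nat_lit 0x240305) (nat_lit 1))
 (.p (nat_lit 0x1a601a401a2019e0147000b06) (nat_lit 0xd0201c) (nat_lit 26))))))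
 (.n (.n (.n (.n (.n (.p (nat_lit 0x473038f02) (nat_lit 0x154000) (nat_lit 16))
 (.p (nat_lit 0x27ec0a7502) (nat_lit 0x60002500) (nat_lit 48)))
 (.p (nat_lit 0xa7402fd02) (nat_lit 0x300407) (nat_lit 5)))
 (.n (.p (nat_lit 0x194b155902) (nat_lit 0x508a01) (nat_lit 16))
 (.p (nat_lit 0x7060aff02) (nat_lit 0x300223) (nat_lit 4))))
 (.n (.n (.n (.p (nat_lit 0x1031102502) (nat_lit 0x440700) (nat_lit 34))
 (.p (nat_lit 0x57a289f02) (nat_lit 0x354868ca4000100040000) (nat_lit 50)))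
 (.p (nat_lit 0xdfe06b102) (nat_lit 0x100615) (nat_lit 5)))
 (.n (.p (nat_lit 0x81c081a0818081608140e3d06) (nat_lit 0x10000006604) (nat_lit 52))
 (.p (nat_lit 0x2c24b902) (nat_lit 0x400b02) (nat_lit 27)))))
 (.n (.n (.n (.n (.p (nat_lit 0xa120a100a0c0a0808d108cd06) (nat_lit 0x5000082400) (nat_lit 51))
 (.p (nat_lit 0x26c7282d02) (nat_lit 0x1c0020000a00) (nat_lit 37)))
 (.p (nat_lit 0x11c211c011be11b801180109010711bd11bb09) (nat_lit 0x110080e) (nat_lit 10)))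
 (.n (.p (nat_lit 0x636112b02) (nat_lit 0x340103) (nat_lit 5))
 (.p (nat_lit 0x262026b026d0c910bbd05) (nat_lit 0x6110012a) (nat_lit 9))))
 (.n (.n (.p (nat_lit 0x15d415d215d015ce15ca143f06) (nat_lit 0x10000cea00) (nat_lit 52))
 (.p (nat_lit 0x696069406920690068c05f706) (nat_lit 0x10000c811c) (nat_lit 52)))
 (.n (.p (nat_lit 0x11f611f411f011ec00b400a500a111f311ef09) (nat_lit 0x1900805) (nat_lit 10))
 (.p (nat_lit 0x268b038102) (nat_lit 0x280000000000) (nat_lit 41))))))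

def c256_192 : Tr :=
 .n (.n (.n (.n (.n (.n (.p (nat_lit 0x2be02b302) (nat_lit 0x200000) (nat_lit 5))
 (.p (nat_lit 0x26af09cd02) (nat_lit 0x40000000400) (nat_lit 38)))
 (.p (nat_lit 0x99b07bb02) (nat_lit 0x140207) (nat_lit 15)))
 (.n (.p (nat_lit 0x138a0db902) (nat_lit 0x901) (nat_lit 4))
 (.p (nat_lit 0x44a0adf02) (nat_lit 0x540023) (nat_lit 5))))
 (.n (.n (.n (.p (nat_lit 0xec80ec40ec20ec00ebe0e6b06) (nat_lit 0x80000d2600) (nat_lit 52))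
 (.p (nat_lit 0xabe287d02) (nat_lit 0x585a12b21000400040000) (nat_lit 50)))
 (.p (nat_lit 0x22b222b022ae22ac22aa22a8015007) (nat_lit 0x515) (nat_lit 8)))
 (.n (.p (nat_lit 0x1e1317d902) (nat_lit 0x542b03) (nat_lit 16))
 (.p (nat_lit 0x1b9c1b9a1b961b941b921c0506) (nat_lit 0x400008612d) (nat_lit 52)))))
 (.n (.n (.n (.n (.p (nat_lit 0x8cb06e902) (nat_lit 0x300) (nat_lit 15))
 (.p (nat_lit 0x26c5281d02) (nat_lit 0x1e0020000900) (nat_lit 37)))
 (.p (nat_lit 0xb5c05a502) (nat_lit 0x14040e) (nat_lit 4)))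
 (.n (.p (nat_lit 0x491b3902) (nat_lit 0x500b02) (nat_lit 30))
 (.p (nat_lit 0x1df01d0b02) (nat_lit 0xb26) (nat_lit 4))))
 (.n (.n (.p (nat_lit 0x1356148902) (nat_lit 0x200a00) (nat_lit 4))
 (.p (nat_lit 0x172a1728172617220367035f06) (nat_lit 0x1100009601c) (nat_lit 51)))
 (.n (.p (nat_lit 0x65e065c065a06580654100706) (nat_lit 0x1000004705) (nat_lit 52))
 (.p (nat_lit 0x20f263f02) (nat_lit 0x200a24) (nat_lit 28))))))
 (.n (.n (.n (.n (.n (.p (nat_lit 0x5fb042302) (nat_lit 0x346100) (nat_lit 16))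
 (.p (nat_lit 0x27fc1ad102) (nat_lit 0x44700) (nat_lit 47)))
 (.p (nat_lit 0x21222120211e211c16b716b106) (nat_lit 0x9000010b07) (nat_lit 52)))
 (.n (.p (nat_lit 0x451a9302) (nat_lit 0x300502) (nat_lit 30))
 (.p (nat_lit 0x137823b702) (nat_lit 0x300923) (nat_lit 29))))
 (.n (.n (.n (.p (nat_lit 0x11c50fc902) (nat_lit 0x4800) (nat_lit 16))
 (.p (nat_lit 0xac428bd02) (nat_lit 0x352868d64000400040000) (nat_lit 50)))
 (.p (nat_lit 0x19816c902) (nat_lit 0x300b15) (nat_lit 1)))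
 (.n (.p (nat_lit 0x10fb10ef02) (nat_lit 0x556704) (nat_lit 16))
 (.p (nat_lit 0x25c252b02) (nat_lit 0x400407) (nat_lit 27)))))
 (.n (.n (.n (.n (.p (nat_lit 0xa6c0a6a0a680a660a6200030a6507) (nat_lit 0x100500) (nat_lit 7))
 (.p (nat_lit 0x72c283f02) (nat_lit 0x4a1a22344000200040000) (nat_lit 49)))
 (.p (nat_lit 0x2276227422722270226e226c012c07) (nat_lit 0x40511) (nat_lit 8)))
 (.n (.p (nat_lit 0xe2a124b02) (nat_lit 0x200603) (nat_lit 4))
 (.p (nat_lit 0x7d60cb702) (nat_lit 0x34022a) (nat_lit 4))))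
 (.n (.n (.p (nat_lit 0x15f815f615f415f015ee000515f307) (nat_lit 0x240b00) (nat_lit 7))
 (.p (nat_lit 0x23422340233e233c233a233801ac15351533152d0a) (nat_lit 0x16100a1c) (nat_lit 31)))
 (.n (.p (nat_lit 0x10fe167902) (nat_lit 0x240706) (nat_lit 4))
 (.p (nat_lit 0x272527b502) (nat_lit 0x1e0060000100) (nat_lit 36))))))

def c128_64 : Tr := .n c256_64 c256_192

def c64_0 : Tr := .n c128_0 c128_64

def c256_32 : Tr :=
 .n (.n (.n (.n (.n (.n (.p (nat_lit 0x590051004c03) (nat_lit 0x21000002) (nat_lit 19))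
 (.p (nat_lit 0x26c5065702) (nat_lit 0x1e0020000200) (nat_lit 38)))
 (.p (nat_lit 0x65e065c06580656065412cb06) (nat_lit 0x4000044806) (nat_lit 52)))
 (.n (.p (nat_lit 0x4540d7b02) (nat_lit 0x540001) (nat_lit 5))
 (.p (nat_lit 0x1b761ccf02) (nat_lit 0x40001f) (nat_lit 5))))
 (.n (.n (.n (.p (nat_lit 0xc980c940c900c8e0b4b0b4706) (nat_lit 0xa000042500) (nat_lit 51))
 (.p (nat_lit 0x12d6285902) (nat_lit 0x4a8874b44000300000600) (nat_lit 49)))
 (.p (nat_lit 0x1782177e177c177a177821bf06) (nat_lit 0x80000d2414) (nat_lit 52)))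
 (.n (.p (nat_lit 0x163e118702) (nat_lit 0x440a03) (nat_lit 4))
 (.p (nat_lit 0xe1a0c0102) (nat_lit 0x62a) (nat_lit 4)))))
 (.n (.n (.n (.n (.p (nat_lit 0x6f7050f02) (nat_lit 0x100200) (nat_lit 16))
 (.p (nat_lit 0x26b1120502) (nat_lit 0x20000000800) (nat_lit 39)))
 (.p (nat_lit 0xd81ddd02) (nat_lit 0x200b0a) (nat_lit 1)))
 (.n (.p (nat_lit 0x15641562155e155a005a004500411561155d09) (nat_lit 0x1900a02) (nat_lit 10))
 (.p (nat_lit 0xdaa0da80da40da20da0180d06) (nat_lit 0x4000010124) (nat_lit 52))))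
 (.n (.n (.p (nat_lit 0x12cb10b302) (nat_lit 0x356800) (nat_lit 16))
 (.p (nat_lit 0x1b1e1b1c1b1a1b180174017101671b211b1709) (nat_lit 0x2840a17) (nat_lit 10)))
 (.n (.p (nat_lit 0x810159b02) (nat_lit 0x440205) (nat_lit 4))
 (.p (nat_lit 0x259425922590258c258a018b015007) (nat_lit 0x214815) (nat_lit 25))))))
 (.n (.n (.n (.n (.n (.p (nat_lit 0x3fa03f803f603f40397038f06) (nat_lit 0x11000050000) (nat_lit 51))
 (.p (nat_lit 0x27130ba702) (nat_lit 0x40000500) (nat_lit 38)))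
 (.p (nat_lit 0x65e065a06580656065409a106) (nat_lit 0x8000044307) (nat_lit 52)))
 (.n (.p (nat_lit 0x1588158415821580157e146906) (nat_lit 0x80000d4901) (nat_lit 51))
 (.p (nat_lit 0xbac0baa0ba80ba60ba2060306) (nat_lit 0x100004a123) (nat_lit 52))))
 (.n (.n (.n (.p (nat_lit 0x10090ddd02) (nat_lit 0x214700) (nat_lit 16))
 (.p (nat_lit 0x12d6289502) (nat_lit 0x356068ca4000300000600) (nat_lit 49)))
 (.p (nat_lit 0x918091609140912090e0d0d06) (nat_lit 0x10000c6515) (nat_lit 52)))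
 (.n (.p (nat_lit 0xe3c0e3a0e380e340e3200810e3707) (nat_lit 0x200604) (nat_lit 7))
 (.p (nat_lit 0x27249502) (nat_lit 0x100801) (nat_lit 28)))))
 (.n (.n (.n (.n (.p (nat_lit 0x8cc09cf02) (nat_lit 0x100400) (nat_lit 4))
 (.p (nat_lit 0x2691157f02) (nat_lit 0x220000000a00) (nat_lit 41)))
 (.p (nat_lit 0x1ee90d0702) (nat_lit 0x45250e) (nat_lit 16)))
 (.n (.p (nat_lit 0x6d1bbb02) (nat_lit 0x300103) (nat_lit 30))
 (.p (nat_lit 0x21fa21af02) (nat_lit 0x100829) (nat_lit 4))))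
 (.n (.n (.p (nat_lit 0xa4144302) (nat_lit 0x340a00) (nat_lit 1))
 (.p (nat_lit 0x522232b02) (nat_lit 0x50011c) (nat_lit 29)))
 (.n (.p (nat_lit 0x20db10f902) (nat_lit 0x446705) (nat_lit 16))
 (.p (nat_lit 0x26a7037502) (nat_lit 0xc0000000000) (nat_lit 39))))))

def c256_160 : Tr :=
 .n (.n (.n (.n (.n (.n (.p (nat_lit 0x25e025a0256026104) (nat_lit 0x1500040002a) (nat_lit 17))
 (.p (nat_lit 0x27d020ad02) (nat_lit 0x60014300) (nat_lit 48)))
 (.p (nat_lit 0x8db06f902) (nat_lit 0x200207) (nat_lit 15)))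
 (.n (.p (nat_lit 0x12b612b412b212ae12ac002912b107) (nat_lit 0x240801) (nat_lit 7))
 (.p (nat_lit 0x3700ad102) (nat_lit 0x400023) (nat_lit 5))))
 (.n (.n (.n (.p (nat_lit 0xe6a0e5302) (nat_lit 0x440600) (nat_lit 4))
 (.p (nat_lit 0x2a2287902) (nat_lit 0x588bb0344000000000000) (nat_lit 49)))
 (.p (nat_lit 0x147229f02) (nat_lit 0x140415) (nat_lit 30)))
 (.n (.p (nat_lit 0x9d609d209d009ce09cc17d706) (nat_lit 0x8000048b03) (nat_lit 52))
 (.p (nat_lit 0x1086108410821080107c1a1906) (nat_lit 0x100005422c) (nat_lit 51)))))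
 (.n (.n (.n (.n (.p (nat_lit 0x83608340832082e082c06ed06) (nat_lit 0x2000000300) (nat_lit 52))
 (.p (nat_lit 0x2759111b02) (nat_lit 0x1a0080000800) (nat_lit 40)))
 (.p (nat_lit 0xaba0ab80ab40ab20ab00a8106) (nat_lit 0x400008840e) (nat_lit 52)))
 (.n (.p (nat_lit 0x172c172a172817241722162f06) (nat_lit 0x20000d6a02) (nat_lit 51))
 (.p (nat_lit 0x1bf61cf702) (nat_lit 0x100126) (nat_lit 4))))
 (.n (.n (.p (nat_lit 0x142e142c142a14261424129106) (nat_lit 0x2000056900) (nat_lit 51))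
 (.p (nat_lit 0x570056e056c05680566036106) (nat_lit 0x200008201c) (nat_lit 52)))
 (.n (.p (nat_lit 0x1748174617441742173e0f2d06) (nat_lit 0x100004e605) (nat_lit 51))
 (.p (nat_lit 0x1fb262102) (nat_lit 0x200823) (nat_lit 28))))))
 (.n (.n (.n (.n (.n (.p (nat_lit 0x422057902) (nat_lit 0x340100) (nat_lit 5))
 (.p (nat_lit 0x27fa110102) (nat_lit 0x60054600) (nat_lit 48)))
 (.p (nat_lit 0x11c111b502) (nat_lit 0x404807) (nat_lit 16)))
 (.n (.p (nat_lit 0x7ee105302) (nat_lit 0x540202) (nat_lit 5))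
 (.p (nat_lit 0x23a223a0239e239c239a2398020207) (nat_lit 0x823) (nat_lit 8))))
 (.n (.n (.n (.p (nat_lit 0x113411321130112e0fcf0fc906) (nat_lit 0x4800006800) (nat_lit 52))
 (.p (nat_lit 0xe4a28b502) (nat_lit 0x3503a8d64000000040600) (nat_lit 49)))
 (.p (nat_lit 0x1e481e461e441e40144f144b06) (nat_lit 0x500004c915) (nat_lit 51)))
 (.n (.p (nat_lit 0x1272126e126c126810010ffb06) (nat_lit 0x9000094704) (nat_lit 51))
 (.p (nat_lit 0xa800a600a2009e0083000306) (nat_lit 0x1910705) (nat_lit 26)))))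
 (.n (.n (.n (.n (.p (nat_lit 0xb4b099502) (nat_lit 0x440400) (nat_lit 15))
 (.p (nat_lit 0x2751172b02) (nat_lit 0x220080000b00) (nat_lit 41)))
 (.p (nat_lit 0x1d561c1f02) (nat_lit 0x40411) (nat_lit 4)))
 (.n (.p (nat_lit 0x1d361d341d321d301d2e0b8506) (nat_lit 0x4000042403) (nat_lit 51))
 (.p (nat_lit 0xf4a0f480f460f440f42071706) (nat_lit 0x1000000e22a) (nat_lit 51))))
 (.n (.n (.p (nat_lit 0x16df151702) (nat_lit 0x208b00) (nat_lit 16))
 (.p (nat_lit 0x1535137102) (nat_lit 0x50091c) (nat_lit 15)))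
 (.n (.p (nat_lit 0x101a101810161014101200bb101107) (nat_lit 0x706) (nat_lit 7))
 (.p (nat_lit 0x26fd048902) (nat_lit 0x160040000100) (nat_lit 38))))))

def c128_32 : Tr := .n c256_32 c256_160

def c256_96 : Tr :=
 .n (.n (.n (.n (.n (.n (.p (nat_lit 0x12801260120012d04) (nat_lit 0xc800400011) (nat_lit 17))
 (.p (nat_lit 0x2687081502) (nat_lit 0x2c0000000300) (nat_lit 38)))
 (.p (nat_lit 0x147a177b02) (nat_lit 0x140906) (nat_lit 4)))
 (.n (.p (nat_lit 0x18921890188e188c188a188806) (nat_lit 0x14401) (nat_lit 52))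
 (.p (nat_lit 0x20a81ffd02) (nat_lit 0x100721) (nat_lit 4))))
 (.n (.n (.n (.p (nat_lit 0xdb60db40db20db00d690d6706) (nat_lit 0x1800090600) (nat_lit 52))
 (.p (nat_lit 0x1724286702) (nat_lit 0x1a2274b50000500040600) (nat_lit 50)))
 (.p (nat_lit 0x430067f02) (nat_lit 0x440015) (nat_lit 5)))
 (.n (.p (nat_lit 0x92409220920091c091a170306) (nat_lit 0x2000086b03) (nat_lit 51))
 (.p (nat_lit 0x20762074207220701617161306) (nat_lit 0x2800046a2a) (nat_lit 52)))))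
 (.n (.n (.n (.n (.p (nat_lit 0x7af05eb02) (nat_lit 0x140200) (nat_lit 15))
 (.p (nat_lit 0x26ff111702) (nat_lit 0x140040000800) (nat_lit 40)))
 (.p (nat_lit 0x69606920690068e068c08eb06) (nat_lit 0x800008830e) (nat_lit 52)))
 (.n (.p (nat_lit 0x162e108d02) (nat_lit 0x240a02) (nat_lit 4))
 (.p (nat_lit 0xae80ae60ae40ae20ae0191706) (nat_lit 0x10000002924) (nat_lit 51))))
 (.n (.n (.p (nat_lit 0x139511ad02) (nat_lit 0x50c900) (nat_lit 16))
 (.p (nat_lit 0x1ef21e7502) (nat_lit 0x340519) (nat_lit 4)))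
 (.n (.p (nat_lit 0x205a2058205620542052205000aa07) (nat_lit 0x40505) (nat_lit 8))
 (.p (nat_lit 0x1a325db02) (nat_lit 0x200a1c) (nat_lit 28))))))
 (.n (.n (.n (.n (.n (.p (nat_lit 0x4a604a204a0049e049c034d06) (nat_lit 0x8000006100) (nat_lit 52))
 (.p (nat_lit 0x26a70d4f02) (nat_lit 0xc0000000600) (nat_lit 38)))
 (.p (nat_lit 0xb5403d502) (nat_lit 0x340407) (nat_lit 4)))
 (.n (.p (nat_lit 0x4580f5102) (nat_lit 0x140002) (nat_lit 5))
 (.p (nat_lit 0x7ce0b0f02) (nat_lit 0x540223) (nat_lit 4))))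
 (.n (.n (.n (.p (nat_lit 0x109e109c109a10960ee70ee306) (nat_lit 0x2800056700) (nat_lit 52))
 (.p (nat_lit 0xc8828a302) (nat_lit 0x350521a84000500040000) (nat_lit 50)))
 (.p (nat_lit 0x14522cd02) (nat_lit 0x40715) (nat_lit 30)))
 (.n (.p (nat_lit 0xf24140702) (nat_lit 0x340604) (nat_lit 4))
 (.p (nat_lit 0x6d24d902) (nat_lit 0x300603) (nat_lit 28)))))
 (.n (.n (.n (.n (.p (nat_lit 0xa8308d302) (nat_lit 0x402400) (nat_lit 16))
 (.p (nat_lit 0x2832171102) (nat_lit 0x60010a00) (nat_lit 47)))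
 (.p (nat_lit 0x1894181f02) (nat_lit 0x40f) (nat_lit 5)))
 (.n (.p (nat_lit 0x7f6123702) (nat_lit 0x340203) (nat_lit 4))
 (.p (nat_lit 0x616061406120610060e0255060d07) (nat_lit 0x4012a) (nat_lit 7))))
 (.n (.n (.p (nat_lit 0x1621143f02) (nat_lit 0x14ca00) (nat_lit 16))
 (.p (nat_lit 0xb020b000afe0afc0af80c5706) (nat_lit 0x100000451c) (nat_lit 52)))
 (.n (.p (nat_lit 0x8012bd02) (nat_lit 0x240805) (nat_lit 1))
 (.p (nat_lit 0x26bd038302) (nat_lit 0x260020000000) (nat_lit 41))))))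

def c256_224 : Tr :=
 .n (.n (.n (.n (.n (.n (.p (nat_lit 0x30002fe02fc02fa02bd02bb06) (nat_lit 0x1800008000) (nat_lit 51))
 (.p (nat_lit 0x26d50ab302) (nat_lit 0xe0020000400) (nat_lit 39)))
 (.p (nat_lit 0x2ac02aa02a802a602a408d706) (nat_lit 0x800000307) (nat_lit 52)))
 (.n (.p (nat_lit 0xaba0ab80ab40ab20ab0139106) (nat_lit 0x4000088901) (nat_lit 52))
 (.p (nat_lit 0x72e072c072807260724052b06) (nat_lit 0x4000084123) (nat_lit 52))))
 (.n (.n (.n (.p (nat_lit 0xf350e6d02) (nat_lit 0x554600) (nat_lit 16))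
 (.p (nat_lit 0x1206288502) (nat_lit 0x344580a64000200040600) (nat_lit 49)))
 (.p (nat_lit 0x7380734073207300c510c4b06) (nat_lit 0x9000084515) (nat_lit 51)))
 (.n (.p (nat_lit 0x7fc12f902) (nat_lit 0x40204) (nat_lit 5))
 (.p (nat_lit 0x1e501ec902) (nat_lit 0x30022e) (nat_lit 4)))))
 (.n (.n (.n (.n (.p (nat_lit 0x7b0091f02) (nat_lit 0x240300) (nat_lit 5))
 (.p (nat_lit 0x26e7281f02) (nat_lit 0x2c0040000900) (nat_lit 36)))
 (.p (nat_lit 0xe5e0e5c0e580e560b650b5f06) (nat_lit 0x120000cc40e) (nat_lit 51)))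
 (.n (.p (nat_lit 0x431b3f02) (nat_lit 0x240b02) (nat_lit 30))
 (.p (nat_lit 0xa01f5902) (nat_lit 0x140128) (nat_lit 1))))
 (.n (.n (.p (nat_lit 0x14f814f614f414f214ee135506) (nat_lit 0x100008ea00) (nat_lit 51))
 (.p (nat_lit 0x43e093d02) (nat_lit 0x54001c) (nat_lit 4)))
 (.n (.p (nat_lit 0x10f215cd02) (nat_lit 0x140705) (nat_lit 4))
 (.p (nat_lit 0x257265d02) (nat_lit 0x10012a) (nat_lit 28))))))
 (.n (.n (.n (.n (.n (.p (nat_lit 0x661065502) (nat_lit 0x200) (nat_lit 34))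
 (.p (nat_lit 0x26f1280502) (nat_lit 0x220040000700) (nat_lit 36)))
 (.p (nat_lit 0x1791178702) (nat_lit 0x144b07) (nat_lit 16)))
 (.n (.p (nat_lit 0x139e0f8902) (nat_lit 0x400902) (nat_lit 4))
 (.p (nat_lit 0x16df153b02) (nat_lit 0x200a23) (nat_lit 15))))
 (.n (.n (.n (.p (nat_lit 0x1215120902) (nat_lit 0x240800) (nat_lit 34))
 (.p (nat_lit 0x91828c302) (nat_lit 0x3508a9d84000300040000) (nat_lit 49)))
 (.p (nat_lit 0x1aa4199902) (nat_lit 0x517) (nat_lit 4)))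
 (.n (.p (nat_lit 0x1510150e150c1508170f170b06) (nat_lit 0x2800090b04) (nat_lit 51))
 (.p (nat_lit 0x10a01080106010400dd000b06) (nat_lit 0x250a40e) (nat_lit 26)))))
 (.n (.n (.n (.n (.p (nat_lit 0xbda0bd80bd60bd20bd00a6706) (nat_lit 0x2000004500) (nat_lit 52))
 (.p (nat_lit 0x164c284702) (nat_lit 0x4a1a36344000500000600) (nat_lit 49)))
 (.p (nat_lit 0x1dea1be302) (nat_lit 0x300b11) (nat_lit 5)))
 (.n (.p (nat_lit 0x691db702) (nat_lit 0x140603) (nat_lit 30))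
 (.p (nat_lit 0x102410221020101e101c07db06) (nat_lit 0x100000ce22a) (nat_lit 52))))
 (.n (.n (.p (nat_lit 0x176a1768176617641762176006) (nat_lit 0xd0b00) (nat_lit 52))
 (.p (nat_lit 0x16d2098702) (nat_lit 0x200b1c) (nat_lit 5)))
 (.n (.p (nat_lit 0x120011fe11fc11fa11f800c5120307) (nat_lit 0x500806) (nat_lit 7))
 (.p (nat_lit 0x279b049b02) (nat_lit 0x800a0000100) (nat_lit 40))))))

def c128_96 : Tr := .n c256_96 c256_224

def c64_32 : Tr := .n c128_32 c128_96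

def c32_0 : Tr := .n c64_0 c64_32

def c256_16 : Tr :=
 .n (.n (.n (.n (.n (.n (.p (nat_lit 0x3d0039003203) (nat_lit 0x82900001) (nat_lit 19))
 (.p (nat_lit 0x26df066302) (nat_lit 0x40020000200) (nat_lit 40)))
 (.p (nat_lit 0x12ca176702) (nat_lit 0x340806) (nat_lit 4)))
 (.n (.p (nat_lit 0x17d315f302) (nat_lit 0x250b00) (nat_lit 16))
 (.p (nat_lit 0x1090108e108c108a1088197706) (nat_lit 0x100000d401e) (nat_lit 52))))
 (.n (.n (.n (.p (nat_lit 0xb440c7902) (nat_lit 0x140500) (nat_lit 4))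
 (.p (nat_lit 0xc8a285102) (nat_lit 0x4a8876344000500040000) (nat_lit 50)))
 (.p (nat_lit 0x14f814f614f414f214ee201106) (nat_lit 0x100008e413) (nat_lit 51)))
 (.n (.p (nat_lit 0x1636126902) (nat_lit 0x40a03) (nat_lit 5))
 (.p (nat_lit 0x9b20cc902) (nat_lit 0x14032a) (nat_lit 4)))))
 (.n (.n (.n (.n (.p (nat_lit 0x6ae06ac06aa06a8050f050d06) (nat_lit 0x180008a200) (nat_lit 51))
 (.p (nat_lit 0x2808103102) (nat_lit 0x80040700) (nat_lit 46)))
 (.p (nat_lit 0x1ce41b5902) (nat_lit 0x44030a) (nat_lit 5)))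
 (.n (.p (nat_lit 0x155a0f9902) (nat_lit 0xa02) (nat_lit 4))
 (.p (nat_lit 0x17b40b4102) (nat_lit 0x540b23) (nat_lit 5))))
 (.n (.n (.p (nat_lit 0x12a310af02) (nat_lit 0x148800) (nat_lit 16))
 (.p (nat_lit 0x74407420740073c073a1aeb06) (nat_lit 0x2000000a17) (nat_lit 52)))
 (.n (.p (nat_lit 0x1f4a1f481f461f44055f055b06) (nat_lit 0x2800008105) (nat_lit 52))
 (.p (nat_lit 0x14e014c014801460179000706) (nat_lit 0x310515) (nat_lit 26))))))
 (.n (.n (.n (.n (.n (.p (nat_lit 0x3a0039e039c039a0398038d06) (nat_lit 0x800044000) (nat_lit 51))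
 (.p (nat_lit 0x27e20a6f02) (nat_lit 0x2500) (nat_lit 48)))
 (.p (nat_lit 0xd9224102) (nat_lit 0x240307) (nat_lit 30)))
 (.n (.p (nat_lit 0x81e081c081808160814146706) (nat_lit 0x4000046901) (nat_lit 52))
 (.p (nat_lit 0x60a0a1302) (nat_lit 0x540123) (nat_lit 5))))
 (.n (.n (.n (.p (nat_lit 0xfd10de102) (nat_lit 0x400700) (nat_lit 15))
 (.p (nat_lit 0x382289302) (nat_lit 0x354221ca4000000040000) (nat_lit 50)))
 (.p (nat_lit 0xd140d100d0e0d0c0d0a014d0d1307) (nat_lit 0x440515) (nat_lit 7)))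
 (.n (.p (nat_lit 0xb920b900b8e0b8a00940087007f0b950b8d09) (nat_lit 0x2940404) (nat_lit 10))
 (.p (nat_lit 0x20de208102) (nat_lit 0x4072f) (nat_lit 5)))))
 (.n (.n (.n (.n (.p (nat_lit 0x9b107ad02) (nat_lit 0x4a300) (nat_lit 16))
 (.p (nat_lit 0x2783282502) (nat_lit 0x2000a0000900) (nat_lit 37)))
 (.p (nat_lit 0xd0204db02) (nat_lit 0x24050e) (nat_lit 5)))
 (.n (.p (nat_lit 0x1b9c1b9a1b981b961b941b9206) (nat_lit 0xc6003) (nat_lit 52))
 (.p (nat_lit 0x24b242d02) (nat_lit 0x200729) (nat_lit 30))))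
 (.n (.n (.p (nat_lit 0x9e143d02) (nat_lit 0x40a00) (nat_lit 1))
 (.p (nat_lit 0x19f232102) (nat_lit 0x11c) (nat_lit 30)))
 (.n (.p (nat_lit 0xf3e0f3c0f3a0f3610fb10f306) (nat_lit 0x1100004e705) (nat_lit 52))
 (.p (nat_lit 0x27722770276e276c276a27682766276427622760275e275c275a27582756275427522750274e274c274a27482746274418) (nat_lit 0x80000000) (nat_lit 35))))))

def c256_144 : Tr :=
 .n (.n (.n (.n (.n (.n (.p (nat_lit 0x1fc01fa01f8020304) (nat_lit 0x7000400023) (nat_lit 17))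
 (.p (nat_lit 0x272f082702) (nat_lit 0x140060000300) (nat_lit 40)))
 (.p (nat_lit 0x6fe02d102) (nat_lit 0x500207) (nat_lit 4)))
 (.n (.p (nat_lit 0xfc40fc20fc00fbc11eb11e306) (nat_lit 0x11000096801) (nat_lit 51))
 (.p (nat_lit 0x85a085608540852085021f506) (nat_lit 0x8000082822) (nat_lit 51))))
 (.n (.n (.n (.p (nat_lit 0xe640e4d02) (nat_lit 0x140600) (nat_lit 4))
 (.p (nat_lit 0x1486287502) (nat_lit 0x588872b44000400000600) (nat_lit 49)))
 (.p (nat_lit 0x85a08580856085408520a8706) (nat_lit 0x800082415) (nat_lit 51)))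
 (.n (.p (nat_lit 0x17d617d417d217d017ce007117d907) (nat_lit 0x540b03) (nat_lit 7))
 (.p (nat_lit 0x4219bd02) (nat_lit 0x20022c) (nat_lit 1)))))
 (.n (.n (.n (.n (.p (nat_lit 0x1a406ef02) (nat_lit 0x300300) (nat_lit 1))
 (.p (nat_lit 0x2769111b02) (nat_lit 0xa0080000800) (nat_lit 40)))
 (.p (nat_lit 0xa8204bd02) (nat_lit 0x40040e) (nat_lit 4)))
 (.n (.p (nat_lit 0x102610241022101e101c162f06) (nat_lit 0x20000cea02) (nat_lit 52))
 (.p (nat_lit 0x1b221a5902) (nat_lit 0x40a25) (nat_lit 4))))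
 (.n (.n (.p (nat_lit 0x13fc13fa13f813f613f4129706) (nat_lit 0x1000004c900) (nat_lit 51))
 (.p (nat_lit 0x35e092902) (nat_lit 0x10001c) (nat_lit 5)))
 (.n (.p (nat_lit 0x9f209b02) (nat_lit 0x40605) (nat_lit 30))
 (.p (nat_lit 0x1a0260902) (nat_lit 0x100223) (nat_lit 27))))))
 (.n (.n (.n (.n (.n (.p (nat_lit 0x551034f02) (nat_lit 0x510100) (nat_lit 16))
 (.p (nat_lit 0x27f60e4d02) (nat_lit 0x20040600) (nat_lit 45)))
 (.p (nat_lit 0x11b70fdb02) (nat_lit 0x500707) (nat_lit 15)))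
 (.n (.p (nat_lit 0x7e60f6302) (nat_lit 0x140202) (nat_lit 4))
 (.p (nat_lit 0x187a18781876187418720f0506) (nat_lit 0x100000c2623) (nat_lit 51))))
 (.n (.n (.n (.p (nat_lit 0xfcc111702) (nat_lit 0x200800) (nat_lit 5))
 (.p (nat_lit 0x148428b102) (nat_lit 0x350521a82800400000600) (nat_lit 49)))
 (.p (nat_lit 0x1ae1136102) (nat_lit 0x20e915) (nat_lit 16)))
 (.n (.p (nat_lit 0x660ff902) (nat_lit 0x704) (nat_lit 1))
 (.p (nat_lit 0x2502250024fe24fc24fa01a900aa07) (nat_lit 0x50e305) (nat_lit 25)))))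
 (.n (.n (.n (.n (.p (nat_lit 0xaf60af40af00aee0aec099306) (nat_lit 0x40000c2400) (nat_lit 52))
 (.p (nat_lit 0x28380e4302) (nat_lit 0x40012b00) (nat_lit 47)))
 (.p (nat_lit 0x1d1a1bcb02) (nat_lit 0x200411) (nat_lit 4)))
 (.n (.p (nat_lit 0xb80114102) (nat_lit 0x140403) (nat_lit 4))
 (.p (nat_lit 0x57c057a057605740572071306) (nat_lit 0x400008222a) (nat_lit 51))))
 (.n (.n (.p (nat_lit 0xd69151502) (nat_lit 0x100b00) (nat_lit 15))
 (.p (nat_lit 0x11d2088702) (nat_lit 0x20081c) (nat_lit 5)))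
 (.n (.p (nat_lit 0x24a0aa902) (nat_lit 0x200406) (nat_lit 1))
 (.p (nat_lit 0x27ac18f902) (nat_lit 0xc100) (nat_lit 47))))))

def c128_16 : Tr := .n c256_16 c256_144

def c256_80 : Tr :=
 .n (.n (.n (.n (.n (.n (.p (nat_lit 0xde00dc00d800e104) (nat_lit 0x1a000400007) (nat_lit 17))
 (.p (nat_lit 0x2755065d02) (nat_lit 0x1e0080000200) (nat_lit 38)))
 (.p (nat_lit 0x13aa169f02) (nat_lit 0x400906) (nat_lit 5)))
 (.n (.p (nat_lit 0x7e907df02) (nat_lit 0x250201) (nat_lit 16))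
 (.p (nat_lit 0x1f3c1ff302) (nat_lit 0x240021) (nat_lit 4))))
 (.n (.n (.n (.p (nat_lit 0xd6a0d5f02) (nat_lit 0x200600) (nat_lit 5))
 (.p (nat_lit 0x924286502) (nat_lit 0x281d30346800300040000) (nat_lit 50)))
 (.p (nat_lit 0x4c804c604c404c204c0035b06) (nat_lit 0x10000088015) (nat_lit 51)))
 (.n (.p (nat_lit 0x2ac02aa02a802a402a2170306) (nat_lit 0x2000000b03) (nat_lit 52))
 (.p (nat_lit 0x16120ceb02) (nat_lit 0x40a2a) (nat_lit 4)))))
 (.n (.n (.n (.n (.p (nat_lit 0x768076607620760075e05ef06) (nat_lit 0x40000c8200) (nat_lit 51))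
 (.p (nat_lit 0x26c5281102) (nat_lit 0x1e0020000800) (nat_lit 36)))
 (.p (nat_lit 0x8ec08ea08e808e408e2010908e707) (nat_lit 0x20030e) (nat_lit 7)))
 (.n (.p (nat_lit 0x16fd156502) (nat_lit 0x500a02) (nat_lit 15))
 (.p (nat_lit 0x213240102) (nat_lit 0x440824) (nat_lit 30))))
 (.n (.n (.p (nat_lit 0x135d11ad02) (nat_lit 0x500900) (nat_lit 15))
 (.p (nat_lit 0x1ee21e3502) (nat_lit 0x500519) (nat_lit 4)))
 (.n (.p (nat_lit 0xb96201902) (nat_lit 0x40405) (nat_lit 29))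
 (.p (nat_lit 0x19f25c102) (nat_lit 0x51c) (nat_lit 28))))))
 (.n (.n (.n (.n (.n (.p (nat_lit 0x34e034c034a034603440005034907) (nat_lit 0x200100) (nat_lit 7))
 (.p (nat_lit 0x27870bb902) (nat_lit 0x1c00a0000500) (nat_lit 40)))
 (.p (nat_lit 0xc0a0c080c060c040c020a6f06) (nat_lit 0x80000c407) (nat_lit 52)))
 (.n (.p (nat_lit 0x16260dd502) (nat_lit 0x440a01) (nat_lit 5))
 (.p (nat_lit 0x7c40b0502) (nat_lit 0x40223) (nat_lit 4))))
 (.n (.n (.n (.p (nat_lit 0x107a1076107410700eeb0ee506) (nat_lit 0x90000d2700) (nat_lit 51))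
 (.p (nat_lit 0x82428a102) (nat_lit 0x340a621b0000300000000) (nat_lit 50)))
 (.p (nat_lit 0xfe422c302) (nat_lit 0x100715) (nat_lit 29)))
 (.n (.p (nat_lit 0x13c213c013bc13ba0e3d0e3706) (nat_lit 0x12000092604) (nat_lit 51))
 (.p (nat_lit 0x6d24cd02) (nat_lit 0x300103) (nat_lit 28)))))
 (.n (.n (.n (.n (.p (nat_lit 0xa6308cb02) (nat_lit 0x400) (nat_lit 15))
 (.p (nat_lit 0x26ef283102) (nat_lit 0x240040000a00) (nat_lit 37)))
 (.p (nat_lit 0x1bda1bd81bd61bd41bd2129d06) (nat_lit 0x40000c880e) (nat_lit 51)))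
 (.n (.p (nat_lit 0x7f3063302) (nat_lit 0x140103) (nat_lit 15))
 (.p (nat_lit 0x53a053805360530026c025902570535053309) (nat_lit 0x110012a) (nat_lit 10))))
 (.n (.n (.p (nat_lit 0x15ec15ea15e615e41443143d06) (nat_lit 0x48000d0a00) (nat_lit 52))
 (.p (nat_lit 0xc58086102) (nat_lit 0x20051c) (nat_lit 4)))
 (.n (.p (nat_lit 0x20fb11f502) (nat_lit 0x402805) (nat_lit 16))
 (.p (nat_lit 0x26df02b102) (nat_lit 0x40020000000) (nat_lit 40))))))

def c256_208 : Tr :=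
 .n (.n (.n (.n (.n (.n (.p (nat_lit 0x2d002ce02cc02ca02bd02bb06) (nat_lit 0x1800004000) (nat_lit 52))
 (.p (nat_lit 0x268709cd02) (nat_lit 0x2c0000000400) (nat_lit 38)))
 (.p (nat_lit 0xd7223302) (nat_lit 0x100307) (nat_lit 30)))
 (.n (.p (nat_lit 0x2ac02aa02a802a602a4138b06) (nat_lit 0x800000901) (nat_lit 52))
 (.p (nat_lit 0x5280ae502) (nat_lit 0x200123) (nat_lit 5))))
 (.n (.n (.n (.p (nat_lit 0xef10e6502) (nat_lit 0x140600) (nat_lit 16))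
 (.p (nat_lit 0xd4e288302) (nat_lit 0x342221ca4000000000600) (nat_lit 49)))
 (.p (nat_lit 0xc520c4e0c4c0c4a0c48014d0c5107) (nat_lit 0x400515) (nat_lit 7)))
 (.n (.p (nat_lit 0x563055702) (nat_lit 0x416104) (nat_lit 16))
 (.p (nat_lit 0x1c7e1d7d02) (nat_lit 0x40022d) (nat_lit 4)))))
 (.n (.n (.n (.n (.p (nat_lit 0x8f106eb02) (nat_lit 0x10a300) (nat_lit 16))
 (.p (nat_lit 0x270513bf02) (nat_lit 0xe0040000900) (nat_lit 41)))
 (.p (nat_lit 0x49804960494049204900b6506) (nat_lit 0x1000004240e) (nat_lit 51)))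
 (.n (.p (nat_lit 0x170916fd02) (nat_lit 0x512b02) (nat_lit 16))
 (.p (nat_lit 0x1e221eb102) (nat_lit 0x200127) (nat_lit 5))))
 (.n (.n (.p (nat_lit 0x14b614b414b214b014ae135b06) (nat_lit 0x8000084a00) (nat_lit 51))
 (.p (nat_lit 0x436093502) (nat_lit 0x14001c) (nat_lit 4)))
 (.n (.p (nat_lit 0xe600e5c0e5a0e580e56100d06) (nat_lit 0x800008c705) (nat_lit 51))
 (.p (nat_lit 0x250024c024a0246024100bd06) (nat_lit 0x2112129) (nat_lit 26))))))
 (.n (.n (.n (.n (.n (.p (nat_lit 0x633041f02) (nat_lit 0x150100) (nat_lit 16))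
 (.p (nat_lit 0x280012af02) (nat_lit 0x20056700) (nat_lit 48)))
 (.p (nat_lit 0x178a041702) (nat_lit 0x340b07) (nat_lit 4)))
 (.n (.p (nat_lit 0xd38106302) (nat_lit 0x540502) (nat_lit 4))
 (.p (nat_lit 0x15380b2502) (nat_lit 0x100a23) (nat_lit 5))))
 (.n (.n (.n (.p (nat_lit 0x11fb0fcb02) (nat_lit 0x116800) (nat_lit 16))
 (.p (nat_lit 0x48c28c102) (nat_lit 0x332a05d81000100000000) (nat_lit 49)))
 (.p (nat_lit 0x1904184502) (nat_lit 0x100916) (nat_lit 4)))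
 (.n (.p (nat_lit 0x1710142b02) (nat_lit 0x300b04) (nat_lit 5))
 (.p (nat_lit 0xfe254102) (nat_lit 0x500a0a) (nat_lit 27)))))
 (.n (.n (.n (.n (.p (nat_lit 0xbb70bab02) (nat_lit 0x400500) (nat_lit 34))
 (.p (nat_lit 0x12d2284502) (nat_lit 0x4a1a22344000300000600) (nat_lit 49)))
 (.p (nat_lit 0x1b501b4e1b4c1b4a1b481d9706) (nat_lit 0x8000c4511) (nat_lit 52)))
 (.n (.p (nat_lit 0xfac0faa0fa80fa60fa40e3106) (nat_lit 0x10000094603) (nat_lit 51))
 (.p (nat_lit 0x65e065c06580656065407d706) (nat_lit 0x400004422a) (nat_lit 52))))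
 (.n (.n (.p (nat_lit 0x15f815f615f215f000100007000115f515ef09) (nat_lit 0x1840b00) (nat_lit 10))
 (.p (nat_lit 0x160a08af02) (nat_lit 0x240a1c) (nat_lit 4)))
 (.n (.p (nat_lit 0xdcc0dca0dc80dc60dc4110506) (nat_lit 0x100000d2706) (nat_lit 51))
 (.p (nat_lit 0x275f056f02) (nat_lit 0x140080000100) (nat_lit 39))))))

def c128_80 : Tr := .n c256_80 c256_208

def c64_16 : Tr := .n c128_16 c128_80

def c256_48 : Tr :=
 .n (.n (.n (.n (.n (.n (.p (nat_lit 0x7b0079007403) (nat_lit 0xa1a00003) (nat_lit 19))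
 (.p (nat_lit 0x27be066502) (nat_lit 0x40000200) (nat_lit 46)))
 (.p (nat_lit 0x102410221020101e101c12cf06) (nat_lit 0x100000ce806) (nat_lit 52)))
 (.n (.p (nat_lit 0x1809053d02) (nat_lit 0x108101) (nat_lit 16))
 (.p (nat_lit 0x1e1a1e9302) (nat_lit 0x300020) (nat_lit 4))))
 (.n (.n (.n (.p (nat_lit 0x38d0b4302) (nat_lit 0x40500) (nat_lit 15))
 (.p (nat_lit 0x1652285b02) (nat_lit 0x281d30344000500000600) (nat_lit 50)))
 (.p (nat_lit 0x220c215902) (nat_lit 0x540814) (nat_lit 5)))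
 (.n (.p (nat_lit 0x142e142a142814261424163f06) (nat_lit 0x8000056a03) (nat_lit 51))
 (.p (nat_lit 0xf100cd902) (nat_lit 0x54062a) (nat_lit 5)))))
 (.n (.n (.n (.n (.p (nat_lit 0x14405e902) (nat_lit 0x40200) (nat_lit 1))
 (.p (nat_lit 0x268f110702) (nat_lit 0x240000000800) (nat_lit 38)))
 (.p (nat_lit 0x3e203e003de03dc03da1e0106) (nat_lit 0x200004cb0a) (nat_lit 51)))
 (.n (.p (nat_lit 0x92409220920091c091a155f06) (nat_lit 0x2000086a02) (nat_lit 51))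
 (.p (nat_lit 0xe760e740e720e700e6e183306) (nat_lit 0x20000c0124) (nat_lit 52))))
 (.n (.n (.p (nat_lit 0x12e312d702) (nat_lit 0x300900) (nat_lit 34))
 (.p (nat_lit 0x12a1bb302) (nat_lit 0x540018) (nat_lit 1)))
 (.n (.p (nat_lit 0xa31f9b02) (nat_lit 0x200305) (nat_lit 30))
 (.p (nat_lit 0x18325ab02) (nat_lit 0x500018) (nat_lit 28))))))
 (.n (.n (.n (.n (.n (.p (nat_lit 0x43f039702) (nat_lit 0x546000) (nat_lit 16))
 (.p (nat_lit 0x273d27ed02) (nat_lit 0x60060000500) (nat_lit 36)))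
 (.p (nat_lit 0xb53099d02) (nat_lit 0x240307) (nat_lit 15)))
 (.n (.p (nat_lit 0x15540ed102) (nat_lit 0x300a01) (nat_lit 4))
 (.p (nat_lit 0x7c7060302) (nat_lit 0x140123) (nat_lit 15))))
 (.n (.n (.n (.p (nat_lit 0xee4102b02) (nat_lit 0x140700) (nat_lit 5))
 (.p (nat_lit 0x171a289702) (nat_lit 0x344580ca4000500040600) (nat_lit 49)))
 (.p (nat_lit 0x12da12d812d412d212d00d1106) (nat_lit 0x4000052515) (nat_lit 52)))
 (.n (.p (nat_lit 0x2b802b602b402b202ae0e3506) (nat_lit 0x1000000604) (nat_lit 51))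
 (.p (nat_lit 0x4800460040003e0005028506) (nat_lit 0x1314502) (nat_lit 26)))))
 (.n (.n (.n (.n (.p (nat_lit 0x20008d502) (nat_lit 0x500400) (nat_lit 1))
 (.p (nat_lit 0x2826208b02) (nat_lit 0x44a00) (nat_lit 48)))
 (.p (nat_lit 0x10c604f102) (nat_lit 0x44070e) (nat_lit 4)))
 (.n (.p (nat_lit 0x1c101c0e1c0c1c0a1c081c06007207) (nat_lit 0x40103) (nat_lit 8))
 (.p (nat_lit 0x2210219902) (nat_lit 0x240829) (nat_lit 5))))
 (.n (.n (.p (nat_lit 0x159c159a159815941592144106) (nat_lit 0x20000c4a00) (nat_lit 52))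
 (.p (nat_lit 0x5fe05fc05fa05f805f6019f05f507) (nat_lit 0x4011c) (nat_lit 7)))
 (.n (.p (nat_lit 0x11f015db02) (nat_lit 0x200805) (nat_lit 4))
 (.p (nat_lit 0x2697037502) (nat_lit 0x1c0000000000) (nat_lit 39))))))

def c256_176 : Tr :=
 .n (.n (.n (.n (.n (.n (.p (nat_lit 0x2920290028c029904) (nat_lit 0x680040002d) (nat_lit 17))
 (.p (nat_lit 0x279f081f02) (nat_lit 0x400a0000300) (nat_lit 38)))
 (.p (nat_lit 0xe200e900e703a702db05) (nat_lit 0x44440207) (nat_lit 9)))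
 (.n (.p (nat_lit 0x107a107810741072107012b306) (nat_lit 0x40000d2801) (nat_lit 51))
 (.p (nat_lit 0x440235d02) (nat_lit 0x40023) (nat_lit 29))))
 (.n (.n (.n (.p (nat_lit 0xea20ea00e9e0e9a0e6d0e6506) (nat_lit 0x11000050600) (nat_lit 51))
 (.p (nat_lit 0x656287b02) (nat_lit 0x5898b0b44000200000000) (nat_lit 49)))
 (.p (nat_lit 0xb7022a702) (nat_lit 0x540415) (nat_lit 29)))
 (.n (.p (nat_lit 0x111c11181114111217d717d306) (nat_lit 0xa000050b03) (nat_lit 51))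
 (.p (nat_lit 0x1b081b041b021b001afe02871b0707) (nat_lit 0x400a2c) (nat_lit 7)))))
 (.n (.n (.n (.n (.p (nat_lit 0x85a085608540852085006f106) (nat_lit 0x8000082300) (nat_lit 51))
 (.p (nat_lit 0x268b13af02) (nat_lit 0x280000000900) (nat_lit 39)))
 (.p (nat_lit 0x13c213c013be13bc13ba0a8506) (nat_lit 0x1000009240e) (nat_lit 51)))
 (.n (.p (nat_lit 0x16f6109902) (nat_lit 0x200b02) (nat_lit 4))
 (.p (nat_lit 0x1c581d0302) (nat_lit 0x140126) (nat_lit 5))))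
 (.n (.n (.p (nat_lit 0x1457128f02) (nat_lit 0x146900) (nat_lit 16))
 (.p (nat_lit 0x1110110e110c110a1106035f06) (nat_lit 0x100001001c) (nat_lit 52)))
 (.n (.p (nat_lit 0x100a14e902) (nat_lit 0x300705) (nat_lit 4))
 (.p (nat_lit 0x2140210020e020a021b002d06) (nat_lit 0xc10124) (nat_lit 26))))))
 (.n (.n (.n (.n (.n (.p (nat_lit 0x5a0059a059805960425042306) (nat_lit 0xc000048100) (nat_lit 51))
 (.p (nat_lit 0x2693101d02) (nat_lit 0x200000000700) (nat_lit 39)))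
 (.p (nat_lit 0x178b160102) (nat_lit 0x340a07) (nat_lit 15)))
 (.n (.p (nat_lit 0xb720f6d02) (nat_lit 0x40402) (nat_lit 4))
 (.p (nat_lit 0x12a623ab02) (nat_lit 0x340823) (nat_lit 29))))
 (.n (.n (.n (.p (nat_lit 0x11941192118e118c0fcf0fc906) (nat_lit 0x4800016800) (nat_lit 52))
 (.p (nat_lit 0x72628bb02) (nat_lit 0x352868d84000200040000) (nat_lit 49)))
 (.p (nat_lit 0x14d230502) (nat_lit 0x400a15) (nat_lit 30)))
 (.n (.p (nat_lit 0x10ec142102) (nat_lit 0x440704) (nat_lit 4))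
 (.p (nat_lit 0xc000be00bc00ba000901f306) (nat_lit 0x2510306) (nat_lit 26)))))
 (.n (.n (.n (.n (.p (nat_lit 0xb7b099502) (nat_lit 0x44e400) (nat_lit 16))
 (.p (nat_lit 0x2a2283d02) (nat_lit 0x260d84344000000000000) (nat_lit 49)))
 (.p (nat_lit 0x122e122c1228122612241d5d06) (nat_lit 0x40000c2411) (nat_lit 52)))
 (.n (.p (nat_lit 0x1d830c6d02) (nat_lit 0x102503) (nat_lit 16))
 (.p (nat_lit 0x172c172a172817241722071106) (nat_lit 0x200009622a) (nat_lit 51))))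
 (.n (.n (.p (nat_lit 0x1713151b02) (nat_lit 0x412b00) (nat_lit 16))
 (.p (nat_lit 0x152e08a302) (nat_lit 0x200a1c) (nat_lit 4)))
 (.n (.p (nat_lit 0xdc20dbe0dbc0dba0db8101906) (nat_lit 0x8000012706) (nat_lit 52))
 (.p (nat_lit 0x27b0057702) (nat_lit 0x40040100) (nat_lit 46))))))

def c128_48 : Tr := .n c256_48 c256_176

def c256_112 : Tr :=
 .n (.n (.n (.n (.n (.n (.p (nat_lit 0x14e0146015303) (nat_lit 0x11000500015) (nat_lit 17))
 (.p (nat_lit 0x2709091f02) (nat_lit 0xa0040000300) (nat_lit 41)))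
 (.p (nat_lit 0x1482147e147c147a147800c3148107) (nat_lit 0x440906) (nat_lit 7)))
 (.n (.p (nat_lit 0xd240d9702) (nat_lit 0x140501) (nat_lit 5))
 (.p (nat_lit 0x96c096a09660964096220ad06) (nat_lit 0x400008a721) (nat_lit 51))))
 (.n (.n (.n (.p (nat_lit 0xde70d6902) (nat_lit 0x100600) (nat_lit 16))
 (.p (nat_lit 0x488286d02) (nat_lit 0x568bb0344000100000000) (nat_lit 49)))
 (.p (nat_lit 0x5aa05a805a605a405a2043306) (nat_lit 0x100000c8015) (nat_lit 52)))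
 (.n (.p (nat_lit 0x12e412e212e012de12dc170906) (nat_lit 0x10000012b03) (nat_lit 51))
 (.p (nat_lit 0x16f0246f02) (nat_lit 0x500b2a) (nat_lit 29)))))
 (.n (.n (.n (.n (.p (nat_lit 0x7d905f102) (nat_lit 0x44a200) (nat_lit 16))
 (.p (nat_lit 0x26e5120902) (nat_lit 0x2e0040000800) (nat_lit 39)))
 (.p (nat_lit 0x9a604ab02) (nat_lit 0x14030e) (nat_lit 4)))
 (.n (.p (nat_lit 0x2b802b602b402b202b0162b06) (nat_lit 0x800040a02) (nat_lit 51))
 (.p (nat_lit 0x1948189102) (nat_lit 0x400a24) (nat_lit 4))))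
 (.n (.n (.p (nat_lit 0x128e13b102) (nat_lit 0x140900) (nat_lit 4))
 (.p (nat_lit 0x6ac06aa06a806a606a41f0d06) (nat_lit 0x1000008a619) (nat_lit 51)))
 (.n (.p (nat_lit 0xe4015b502) (nat_lit 0x100605) (nat_lit 5))
 (.p (nat_lit 0x1e201e001de01da01a1024306) (nat_lit 0xd0e521) (nat_lit 26))))))
 (.n (.n (.n (.n (.n (.p (nat_lit 0x4e004de04dc04da04d8034706) (nat_lit 0x100008a100) (nat_lit 51))
 (.p (nat_lit 0x268f0d5b02) (nat_lit 0x240000000600) (nat_lit 40)))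
 (.p (nat_lit 0xcfc0cfa0cf60cf40b550b4f06) (nat_lit 0x48000d6407) (nat_lit 51)))
 (.n (.p (nat_lit 0x628104302) (nat_lit 0x240102) (nat_lit 4))
 (.p (nat_lit 0x7d907cd02) (nat_lit 0x440223) (nat_lit 16))))
 (.n (.n (.n (.p (nat_lit 0x10c70eeb02) (nat_lit 0x442700) (nat_lit 16))
 (.p (nat_lit 0xd5c28ab02) (nat_lit 0x350521a86800000000600) (nat_lit 50)))
 (.p (nat_lit 0x11c622db02) (nat_lit 0x100815) (nat_lit 29)))
 (.n (.p (nat_lit 0x4980494049204900f290f2506) (nat_lit 0x14000042604) (nat_lit 51))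
 (.p (nat_lit 0x8400820080007c000300ff06) (nat_lit 0xd0c004) (nat_lit 26)))))
 (.n (.n (.n (.n (.p (nat_lit 0x1f8098f02) (nat_lit 0x140400) (nat_lit 1))
 (.p (nat_lit 0x2693283702) (nat_lit 0x200000000b00) (nat_lit 37)))
 (.p (nat_lit 0x191a17f302) (nat_lit 0x14090f) (nat_lit 4)))
 (.n (.p (nat_lit 0x8fe113302) (nat_lit 0x400303) (nat_lit 4))
 (.p (nat_lit 0x6160ca302) (nat_lit 0x54012a) (nat_lit 5))))
 (.n (.n (.p (nat_lit 0x1516164702) (nat_lit 0x200b00) (nat_lit 4))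
 (.p (nat_lit 0xd200d1e0d1a0d180d1601a50d1d07) (nat_lit 0x34051c) (nat_lit 7)))
 (.n (.p (nat_lit 0x12c2151102) (nat_lit 0x540805) (nat_lit 5))
 (.p (nat_lit 0x26fd02a702) (nat_lit 0x160040000000) (nat_lit 38))))))

def c256_240 : Tr :=
 .n (.n (.n (.n (.n (.n (.p (nat_lit 0x34d02c302) (nat_lit 0x400000) (nat_lit 15))
 (.p (nat_lit 0x27da21fd02) (nat_lit 0x40016400) (nat_lit 48)))
 (.p (nat_lit 0x111c111811161114111208df06) (nat_lit 0x8000010307) (nat_lit 51)))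
 (.n (.p (nat_lit 0x1397138b02) (nat_lit 0x10901) (nat_lit 16))
 (.p (nat_lit 0x13b813b613b213b013ae052b06) (nat_lit 0x4000092123) (nat_lit 52))))
 (.n (.n (.n (.p (nat_lit 0x480de302) (nat_lit 0x500700) (nat_lit 1))
 (.p (nat_lit 0x910288b02) (nat_lit 0x342221ca4000300040000) (nat_lit 49)))
 (.p (nat_lit 0x111c111a1118111411120c4d06) (nat_lit 0x2000010515) (nat_lit 51)))
 (.n (.p (nat_lit 0x806130302) (nat_lit 0x540204) (nat_lit 5))
 (.p (nat_lit 0x1f64205f02) (nat_lit 0x10022f) (nat_lit 5)))))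
 (.n (.n (.n (.n (.p (nat_lit 0x92e092c092a092607b707af06) (nat_lit 0x11000040300) (nat_lit 51))
 (.p (nat_lit 0x273313c102) (nat_lit 0x100060000900) (nat_lit 41)))
 (.p (nat_lit 0x21c10b6502) (nat_lit 0x55640e) (nat_lit 16)))
 (.n (.p (nat_lit 0x1b441b421b401b3e1b3c1b3a004c17c917c717c50a) (nat_lit 0xd140b02) (nat_lit 31))
 (.p (nat_lit 0x243242702) (nat_lit 0x500628) (nat_lit 30))))
 (.n (.n (.p (nat_lit 0x1510150c150a1506135b135506) (nat_lit 0x9000090a00) (nat_lit 51))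
 (.p (nat_lit 0xe600e5c0e580e56043d043906) (nat_lit 0xa0000cc01c) (nat_lit 51)))
 (.n (.p (nat_lit 0x10fa14f902) (nat_lit 0x540705) (nat_lit 5))
 (.p (nat_lit 0x1f8266902) (nat_lit 0x10032a) (nat_lit 27))))))
 (.n (.n (.n (.n (.n (.p (nat_lit 0x14c051502) (nat_lit 0x400200) (nat_lit 1))
 (.p (nat_lit 0x2802102d02) (nat_lit 0x40040700) (nat_lit 46)))
 (.p (nat_lit 0x1ca41b4702) (nat_lit 0x4020a) (nat_lit 4)))
 (.n (.p (nat_lit 0x1561139d02) (nat_lit 0x300902) (nat_lit 15))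
 (.p (nat_lit 0x16e00b3502) (nat_lit 0x300b23) (nat_lit 5))))
 (.n (.n (.n (.p (nat_lit 0x12221220121e121c10af10ad06) (nat_lit 0x1800042800) (nat_lit 52))
 (.p (nat_lit 0x149828c702) (nat_lit 0x3508a9d84000400000600) (nat_lit 50)))
 (.p (nat_lit 0x109e109c109a109810961aa506) (nat_lit 0x800016517) (nat_lit 52)))
 (.n (.p (nat_lit 0x17de143502) (nat_lit 0x240b04) (nat_lit 5))
 (.p (nat_lit 0x17e256702) (nat_lit 0x300311) (nat_lit 27)))))
 (.n (.n (.n (.n (.p (nat_lit 0xbfe0bfa0bf80bf60bf40a6b06) (nat_lit 0x8000086500) (nat_lit 51))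
 (.p (nat_lit 0xd5c284d02) (nat_lit 0x4a1a34344000000000600) (nat_lit 50)))
 (.p (nat_lit 0x1e081c4b02) (nat_lit 0x40b11) (nat_lit 4)))
 (.n (.p (nat_lit 0x106c106a106610640f1d0f1706) (nat_lit 0x12000052603) (nat_lit 51))
 (.p (nat_lit 0x9bb07db02) (nat_lit 0x54022a) (nat_lit 15))))
 (.n (.n (.p (nat_lit 0x1782177e177c177a177815f706) (nat_lit 0x80000d2b00) (nat_lit 52))
 (.p (nat_lit 0x17fe185902) (nat_lit 0x20011d) (nat_lit 4)))
 (.n (.p (nat_lit 0x918091609140912090e11fb06) (nat_lit 0x1000086806) (nat_lit 52))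
 (.p (nat_lit 0x26ad27b902) (nat_lit 0x60000000200) (nat_lit 37))))))

def c128_112 : Tr := .n c256_112 c256_240

def c64_48 : Tr := .n c128_48 c128_112

def c32_16 : Tr := .n c64_16 c64_48

def c16_0 : Tr := .n c32_0 c32_16

def c256_8 : Tr :=
 .n (.n (.n (.n (.n (.n (.p (nat_lit 0x21001d0019001104) (nat_lit 0x568800000) (nat_lit 21))
 (.p (nat_lit 0x27b81ae702) (nat_lit 0xe200) (nat_lit 47)))
 (.p (nat_lit 0x2203120302) (nat_lit 0x508806) (nat_lit 16)))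
 (.n (.p (nat_lit 0x17bb15f302) (nat_lit 0x24ab00) (nat_lit 16))
 (.p (nat_lit 0x196c1a4302) (nat_lit 0x4001e) (nat_lit 4))))
 (.n (.n (.n (.p (nat_lit 0xc5f0a6d02) (nat_lit 0x506500) (nat_lit 16))
 (.p (nat_lit 0x578285102) (nat_lit 0x4a8876344000100040000) (nat_lit 50)))
 (.p (nat_lit 0x1ee8228102) (nat_lit 0x440512) (nat_lit 29)))
 (.n (.p (nat_lit 0x131613121310130e130c156f06) (nat_lit 0x800000ca03) (nat_lit 52))
 (.p (nat_lit 0xae80ae60ae40ae20ae008f906) (nat_lit 0x1000000232a) (nat_lit 51)))))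
 (.n (.n (.n (.n (.p (nat_lit 0x6a206a0069e069c0698050f06) (nat_lit 0x100000a200) (nat_lit 52))
 (.p (nat_lit 0x28060e2d02) (nat_lit 0x60012700) (nat_lit 48)))
 (.p (nat_lit 0x1cde1b9502) (nat_lit 0x14030a) (nat_lit 4)))
 (.n (.p (nat_lit 0x11661160115e115c1475147306) (nat_lit 0xc00004c902) (nat_lit 51))
 (.p (nat_lit 0x1fb23d902) (nat_lit 0x240b23) (nat_lit 30))))
 (.n (.n (.p (nat_lit 0x128f10af02) (nat_lit 0x140800) (nat_lit 15))
 (.p (nat_lit 0x1ca21ca01c9c1c9a1c981ae306) (nat_lit 0x400008a917) (nat_lit 52)))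
 (.n (.p (nat_lit 0x47814a302) (nat_lit 0x440005) (nat_lit 4))
 (.p (nat_lit 0x1a6257d02) (nat_lit 0x400415) (nat_lit 27))))))
 (.n (.n (.n (.n (.n (.p (nat_lit 0x392038702) (nat_lit 0x340000) (nat_lit 5))
 (.p (nat_lit 0x269127e502) (nat_lit 0x220000000500) (nat_lit 37)))
 (.p (nat_lit 0x99803b702) (nat_lit 0x40307) (nat_lit 4)))
 (.n (.p (nat_lit 0x38a0388038603840380146306) (nat_lit 0x10000c0901) (nat_lit 51))
 (.p (nat_lit 0x6060a0f02) (nat_lit 0x340123) (nat_lit 5))))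
 (.n (.n (.n (.p (nat_lit 0xfb80fb60fb40fb20fb00de306) (nat_lit 0x10000016700) (nat_lit 51))
 (.p (nat_lit 0x12d2288f02) (nat_lit 0x356221ca4000300000600) (nat_lit 49)))
 (.p (nat_lit 0xd0c077902) (nat_lit 0x140515) (nat_lit 4)))
 (.n (.p (nat_lit 0xb901ea902) (nat_lit 0x340404) (nat_lit 29))
 (.p (nat_lit 0x1fd6207702) (nat_lit 0x50032f) (nat_lit 4)))))
 (.n (.n (.n (.n (.p (nat_lit 0x99b07af02) (nat_lit 0x140300) (nat_lit 16))
 (.p (nat_lit 0x282213c102) (nat_lit 0x60040900) (nat_lit 46)))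
 (.p (nat_lit 0xc510c4502) (nat_lit 0x40650e) (nat_lit 16)))
 (.n (.p (nat_lit 0x1b841b821b801b7e1b7c1b7a007207) (nat_lit 0x40003) (nat_lit 8))
 (.p (nat_lit 0x21c2218302) (nat_lit 0x729) (nat_lit 5))))
 (.n (.n (.p (nat_lit 0x1561135902) (nat_lit 0x30ea00) (nat_lit 16))
 (.p (nat_lit 0x449043d02) (nat_lit 0x44a01c) (nat_lit 16)))
 (.n (.p (nat_lit 0xbac0baa0ba80ba60ba210f306) (nat_lit 0x100004a705) (nat_lit 52))
 (.p (nat_lit 0x29402920290028c025f028106) (nat_lit 0x291662d) (nat_lit 26))))))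

def c256_136 : Tr :=
 .n (.n (.n (.n (.n (.n (.p (nat_lit 0x1c101bf01b701ae04) (nat_lit 0x7610001c) (nat_lit 20))
 (.p (nat_lit 0x273727d302) (nat_lit 0xc0060000300) (nat_lit 37)))
 (.p (nat_lit 0x6f802cb02) (nat_lit 0x200207) (nat_lit 4)))
 (.n (.p (nat_lit 0x11ea0dab02) (nat_lit 0x500801) (nat_lit 4))
 (.p (nat_lit 0x8b408b208b008aa20d720d506) (nat_lit 0x30000d4721) (nat_lit 52))))
 (.n (.n (.n (.p (nat_lit 0xe3f0d6702) (nat_lit 0x14600) (nat_lit 16))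
 (.p (nat_lit 0xd4e287502) (nat_lit 0x588872b44000000000600) (nat_lit 49)))
 (.p (nat_lit 0xa90068b02) (nat_lit 0x500415) (nat_lit 4)))
 (.n (.p (nat_lit 0x17d817d617d417d017ce006b17d307) (nat_lit 0x240b03) (nat_lit 7))
 (.p (nat_lit 0x192a18e702) (nat_lit 0x44092b) (nat_lit 4)))))
 (.n (.n (.n (.n (.p (nat_lit 0x822081606eb03) (nat_lit 0x100300) (nat_lit 6))
 (.p (nat_lit 0x2717110d02) (nat_lit 0x2c0060000800) (nat_lit 38)))
 (.p (nat_lit 0xa7c04b702) (nat_lit 0x10040e) (nat_lit 4)))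
 (.n (.p (nat_lit 0xaba0ab80ab40ab20ab0163106) (nat_lit 0x40000c8a02) (nat_lit 52))
 (.p (nat_lit 0x1ce1a0f02) (nat_lit 0x240225) (nat_lit 1))))
 (.n (.n (.p (nat_lit 0x13cc13ca13c813c61293129106) (nat_lit 0x60000c0900) (nat_lit 51))
 (.p (nat_lit 0x21001f8502) (nat_lit 0x10081a) (nat_lit 5)))
 (.n (.p (nat_lit 0x16aa16a816a616a20e490e4106) (nat_lit 0x11000092605) (nat_lit 51))
 (.p (nat_lit 0x20001fe01fa01f8019f000706) (nat_lit 0x304123) (nat_lit 26))))))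
 (.n (.n (.n (.n (.n (.p (nat_lit 0x539034d02) (nat_lit 0x40a100) (nat_lit 16))
 (.p (nat_lit 0x26c327f702) (nat_lit 0x200020000600) (nat_lit 36)))
 (.p (nat_lit 0xef8031f02) (nat_lit 0x540607) (nat_lit 4)))
 (.n (.p (nat_lit 0x19a219a0199e199c199a199806) (nat_lit 0xa202) (nat_lit 52))
 (.p (nat_lit 0xefc238f02) (nat_lit 0x140623) (nat_lit 29))))
 (.n (.n (.n (.p (nat_lit 0xfc8111302) (nat_lit 0x800) (nat_lit 5))
 (.p (nat_lit 0xd5828b102) (nat_lit 0x350521a82800000000600) (nat_lit 49)))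
 (.p (nat_lit 0x136206cb02) (nat_lit 0x400915) (nat_lit 4)))
 (.n (.p (nat_lit 0x12e412e212e012de12dc0f2906) (nat_lit 0x10000052604) (nat_lit 51))
 (.p (nat_lit 0xa124fd02) (nat_lit 0x100305) (nat_lit 28)))))
 (.n (.n (.n (.n (.p (nat_lit 0xade0ada0ad80ad60995098d06) (nat_lit 0x88000c0400) (nat_lit 51))
 (.p (nat_lit 0x26f7171b02) (nat_lit 0x1c0040000b00) (nat_lit 39)))
 (.p (nat_lit 0x1cb81cb61cb41cb21cb0012b1cbb07) (nat_lit 0x500311) (nat_lit 7)))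
 (.n (.p (nat_lit 0xaa21cf302) (nat_lit 0x500403) (nat_lit 29))
 (.p (nat_lit 0x71607120710070e070c025d071507) (nat_lit 0x40022a) (nat_lit 7))))
 (.n (.n (.p (nat_lit 0x168a1688168216801519151706) (nat_lit 0x6000010b00) (nat_lit 52))
 (.p (nat_lit 0x10d6087f02) (nat_lit 0x34071c) (nat_lit 5)))
 (.n (.p (nat_lit 0x64e173102) (nat_lit 0x240106) (nat_lit 5))
 (.p (nat_lit 0x26af049102) (nat_lit 0x40000000100) (nat_lit 40))))))

def c128_8 : Tr := .n c256_8 c256_136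

def c256_72 : Tr :=
 .n (.n (.n (.n (.n (.n (.p (nat_lit 0xb900b700ac03) (nat_lit 0x22c00005) (nat_lit 19))
 (.p (nat_lit 0x275b065d02) (nat_lit 0x180080000200) (nat_lit 38)))
 (.p (nat_lit 0x13a4221b02) (nat_lit 0x100906) (nat_lit 29)))
 (.n (.p (nat_lit 0x62d062102) (nat_lit 0x450101) (nat_lit 16))
 (.p (nat_lit 0x234e234c234a23482346234401e607) (nat_lit 0x40021) (nat_lit 8))))
 (.n (.n (.n (.p (nat_lit 0x240d6702) (nat_lit 0x600) (nat_lit 1))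
 (.p (nat_lit 0xc7e286302) (nat_lit 0x281d30344000500040000) (nat_lit 49)))
 (.p (nat_lit 0x35a0358035603520156014901450355035109) (nat_lit 0x1000015) (nat_lit 10)))
 (.n (.p (nat_lit 0x17061dd502) (nat_lit 0x400b03) (nat_lit 29))
 (.p (nat_lit 0x1548245f02) (nat_lit 0x300a2a) (nat_lit 29)))))
 (.n (.n (.n (.n (.p (nat_lit 0x750074e074c074605ed05eb06) (nat_lit 0x30000c0200) (nat_lit 52))
 (.p (nat_lit 0x26d5281302) (nat_lit 0xe0020000800) (nat_lit 37)))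
 (.p (nat_lit 0x8ec08ea08e808e608e4010508e307) (nat_lit 0x30e) (nat_lit 7)))
 (.n (.p (nat_lit 0x13c413c213c013ba155f155d06) (nat_lit 0x3000092a02) (nat_lit 51))
 (.p (nat_lit 0x1a761a741a721a701a6e18eb06) (nat_lit 0x800000824) (nat_lit 51))))
 (.n (.n (.p (nat_lit 0x13421340133e133c11ad11a306) (nat_lit 0x10800016900) (nat_lit 52))
 (.p (nat_lit 0x1eda1e6502) (nat_lit 0x100519) (nat_lit 5)))
 (.n (.p (nat_lit 0x1ff81ff61ff41ff21ff01fee06) (nat_lit 0xc0305) (nat_lit 52))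
 (.p (nat_lit 0x1a601a401a2019e01f3000306) (nat_lit 0x291601c) (nat_lit 26))))))
 (.n (.n (.n (.n (.n (.p (nat_lit 0x106034702) (nat_lit 0x100100) (nat_lit 1))
 (.p (nat_lit 0x275127ef02) (nat_lit 0x220080000500) (nat_lit 37)))
 (.p (nat_lit 0xbc40bc20bc00bbc0bba0a7306) (nat_lit 0x2000002407) (nat_lit 52)))
 (.n (.p (nat_lit 0x16200ed902) (nat_lit 0x140a01) (nat_lit 4))
 (.p (nat_lit 0x7080704070207000208020101fd070b070709) (nat_lit 0x2b00223) (nat_lit 10))))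
 (.n (.n (.n (.p (nat_lit 0x105a1058105610540ee90ee706) (nat_lit 0x60000c8700) (nat_lit 51))
 (.p (nat_lit 0xc88289f02) (nat_lit 0x354868ca4000500040000) (nat_lit 50)))
 (.p (nat_lit 0x14d22bd02) (nat_lit 0x400615) (nat_lit 30)))
 (.n (.p (nat_lit 0xc8c0c880c860c840c820e3b06) (nat_lit 0x800008a604) (nat_lit 51))
 (.p (nat_lit 0xf624c502) (nat_lit 0x500003) (nat_lit 27)))))
 (.n (.n (.n (.n (.p (nat_lit 0xa320a300a2e0a2c0a2a08cf06) (nat_lit 0x200000c400) (nat_lit 52))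
 (.p (nat_lit 0x282a17dd02) (nat_lit 0x20050a00) (nat_lit 48)))
 (.p (nat_lit 0x11c711bb02) (nat_lit 0x10680e) (nat_lit 16)))
 (.n (.p (nat_lit 0x1c281c261c241c221c201c1e06) (nat_lit 0xc8103) (nat_lit 52))
 (.p (nat_lit 0x5380bc302) (nat_lit 0x40012a) (nat_lit 4))))
 (.n (.n (.p (nat_lit 0x15e015de15dc15da143f143d06) (nat_lit 0x1800050a00) (nat_lit 52))
 (.p (nat_lit 0x60705fb02) (nat_lit 0x34a11c) (nat_lit 16)))
 (.n (.p (nat_lit 0x133813341332132e11f511ef06) (nat_lit 0x900008e805) (nat_lit 51))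
 (.p (nat_lit 0x2685038102) (nat_lit 0x2e0000000000) (nat_lit 41))))))

def c256_200 : Tr :=
 .n (.n (.n (.n (.n (.n (.p (nat_lit 0x2b702ab02) (nat_lit 0x400000) (nat_lit 34))
 (.p (nat_lit 0x268f27d702) (nat_lit 0x240000000400) (nat_lit 37)))
 (.p (nat_lit 0x215f07c102) (nat_lit 0x456207) (nat_lit 16)))
 (.n (.p (nat_lit 0x13900eb902) (nat_lit 0x300901) (nat_lit 5))
 (.p (nat_lit 0xbf20bec0bea0be80449044706) (nat_lit 0xc000046023) (nat_lit 51))))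
 (.n (.n (.n (.p (nat_lit 0xede0edc0eda0ed80e6d0e6306) (nat_lit 0x108000d4600) (nat_lit 52))
 (.p (nat_lit 0x1110288102) (nat_lit 0x585a12b21000200000600) (nat_lit 49)))
 (.p (nat_lit 0xc4c069d02) (nat_lit 0x200515) (nat_lit 4)))
 (.n (.p (nat_lit 0x46e13cd02) (nat_lit 0x540004) (nat_lit 5))
 (.p (nat_lit 0x1b5a1b581b561b541b521c6906) (nat_lit 0x40000c612d) (nat_lit 51)))))
 (.n (.n (.n (.n (.p (nat_lit 0x8dd06ef02) (nat_lit 0x300300) (nat_lit 16))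
 (.p (nat_lit 0x281c12bb02) (nat_lit 0x20056900) (nat_lit 47)))
 (.p (nat_lit 0xb6204c902) (nat_lit 0x44040e) (nat_lit 5)))
 (.n (.p (nat_lit 0xeb00eac0eaa0ea816fb16f306) (nat_lit 0x8800090b02) (nat_lit 51))
 (.p (nat_lit 0x1df81d1302) (nat_lit 0x400b26) (nat_lit 4))))
 (.n (.n (.p (nat_lit 0x135a149902) (nat_lit 0x400a00) (nat_lit 5))
 (.p (nat_lit 0x1e1b036302) (nat_lit 0x31201c) (nat_lit 16)))
 (.n (.p (nat_lit 0x9d609d409d209ce09cc100906) (nat_lit 0x2000008705) (nat_lit 52))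
 (.p (nat_lit 0x23e023c023a023800a7029f06) (nat_lit 0x2502028) (nat_lit 26))))))
 (.n (.n (.n (.n (.n (.p (nat_lit 0x615042502) (nat_lit 0x44a100) (nat_lit 16))
 (.p (nat_lit 0x26c9280102) (nat_lit 0x1a0020000700) (nat_lit 36)))
 (.p (nat_lit 0xd5224902) (nat_lit 0x40b07) (nat_lit 30)))
 (.n (.p (nat_lit 0xd32105d02) (nat_lit 0x240502) (nat_lit 4))
 (.p (nat_lit 0x1381137502) (nat_lit 0x100923) (nat_lit 16))))
 (.n (.n (.n (.p (nat_lit 0x11e70fcf02) (nat_lit 0x30c800) (nat_lit 16))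
 (.p (nat_lit 0x121428bf02) (nat_lit 0x3503a8d84000200040600) (nat_lit 50)))
 (.p (nat_lit 0x179e07ab02) (nat_lit 0x540b15) (nat_lit 4)))
 (.n (.p (nat_lit 0x170c142702) (nat_lit 0x100b04) (nat_lit 5))
 (.p (nat_lit 0x2536253425322530252e017b00f807) (nat_lit 0x10620a) (nat_lit 25)))))
 (.n (.n (.n (.n (.p (nat_lit 0xa680ba902) (nat_lit 0x300500) (nat_lit 4))
 (.p (nat_lit 0x172b1721157f157913bf13b11211120d102f10210e590e4b28400d) (nat_lit 0x4a1a22344000000040600) (nat_lit 33)))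
 (.p (nat_lit 0x125227102) (nat_lit 0x240511) (nat_lit 30)))
 (.n (.p (nat_lit 0xe300e2c0e2a0e280e26006f0e2f07) (nat_lit 0x400603) (nat_lit 7))
 (.p (nat_lit 0x7d807d607d407d00272025f025707db07d309) (nat_lit 0x294022a) (nat_lit 10))))
 (.n (.n (.p (nat_lit 0x15f6172b02) (nat_lit 0x440b00) (nat_lit 5))
 (.p (nat_lit 0x153b152f02) (nat_lit 0x20aa1c) (nat_lit 16)))
 (.n (.p (nat_lit 0x110221d702) (nat_lit 0x440706) (nat_lit 29))
 (.p (nat_lit 0x27b4048b02) (nat_lit 0x60000100) (nat_lit 45))))))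

def c128_72 : Tr := .n c256_72 c256_200

def c64_8 : Tr := .n c128_8 c128_72

def c256_40 : Tr :=
 .n (.n (.n (.n (.n (.n (.p (nat_lit 0x6c006a0066007304) (nat_lit 0x6800400003) (nat_lit 17))
 (.p (nat_lit 0x270727bf02) (nat_lit 0xc0040000200) (nat_lit 37)))
 (.p (nat_lit 0x92409220920091c091a12c906) (nat_lit 0x20000c6806) (nat_lit 51)))
 (.n (.p (nat_lit 0x11e054102) (nat_lit 0x300101) (nat_lit 1))
 (.p (nat_lit 0x1cfe1cfc1cf81cf61cf41d9106) (nat_lit 0x400000251f) (nat_lit 52))))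
 (.n (.n (.n (.p (nat_lit 0xcc40cc20cc00cbe0cbc0b4b06) (nat_lit 0x8000046500) (nat_lit 52))
 (.p (nat_lit 0xf48285b02) (nat_lit 0x281d30344000100000600) (nat_lit 50)))
 (.p (nat_lit 0x4a604a204a0049e049c21eb06) (nat_lit 0x8000006814) (nat_lit 52)))
 (.n (.p (nat_lit 0x711dcb02) (nat_lit 0x540a03) (nat_lit 30))
 (.p (nat_lit 0xe220c0902) (nat_lit 0x40062a) (nat_lit 4)))))
 (.n (.n (.n (.n (.p (nat_lit 0x711051102) (nat_lit 0x20a200) (nat_lit 16))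
 (.p (nat_lit 0x26ab121102) (nat_lit 0x80000000800) (nat_lit 41)))
 (.p (nat_lit 0x1dfe1ba102) (nat_lit 0x140b0a) (nat_lit 4)))
 (.n (.p (nat_lit 0x570056e056c056a0566155d06) (nat_lit 0x1000082a02) (nat_lit 52))
 (.p (nat_lit 0x1832187702) (nat_lit 0x240124) (nat_lit 5))))
 (.n (.n (.p (nat_lit 0x11a412df02) (nat_lit 0x100900) (nat_lit 5))
 (.p (nat_lit 0x1baa230902) (nat_lit 0x40018) (nat_lit 29)))
 (.n (.p (nat_lit 0x1fa01f9e1f9c1f9a1f981f9600aa07) (nat_lit 0x305) (nat_lit 8))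
 (.p (nat_lit 0x19025a102) (nat_lit 0x500915) (nat_lit 27))))))
 (.n (.n (.n (.n (.n (.p (nat_lit 0x421039102) (nat_lit 0x240000) (nat_lit 15))
 (.p (nat_lit 0x26e90bb302) (nat_lit 0x2a0040000500) (nat_lit 40)))
 (.p (nat_lit 0x1110110e110a11081106099f06) (nat_lit 0x4000050307) (nat_lit 52)))
 (.n (.p (nat_lit 0x1471146502) (nat_lit 0x250901) (nat_lit 16))
 (.p (nat_lit 0x111c111a111811141112060506) (nat_lit 0x2000050123) (nat_lit 51))))
 (.n (.n (.n (.p (nat_lit 0x101b0de302) (nat_lit 0x516700) (nat_lit 16))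
 (.p (nat_lit 0x1026289702) (nat_lit 0x344580ca4000100040600) (nat_lit 49)))
 (.p (nat_lit 0xf4a0f480f460f440f420d1506) (nat_lit 0x1000004e515) (nat_lit 51)))
 (.n (.p (nat_lit 0xe3c0e380e360e340e3200850e3b07) (nat_lit 0x400604) (nat_lit 7))
 (.p (nat_lit 0x218249d02) (nat_lit 0x402) (nat_lit 27)))))
 (.n (.n (.n (.n (.p (nat_lit 0x8d009df02) (nat_lit 0x300400) (nat_lit 5))
 (.p (nat_lit 0x268b149102) (nat_lit 0x280000000a00) (nat_lit 40)))
 (.p (nat_lit 0xe030df702) (nat_lit 0x30660e) (nat_lit 16)))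
 (.n (.p (nat_lit 0x550112502) (nat_lit 0x500103) (nat_lit 5))
 (.p (nat_lit 0x220221b702) (nat_lit 0x500829) (nat_lit 4))))
 (.n (.n (.p (nat_lit 0x144614421440143e143c0009144507) (nat_lit 0x440a00) (nat_lit 7))
 (.p (nat_lit 0x7740770076e076c076a052106) (nat_lit 0x800000a11c) (nat_lit 51)))
 (.n (.p (nat_lit 0x11f611f411f211f011ee009f11ed07) (nat_lit 0x805) (nat_lit 7))
 (.p (nat_lit 0x269f037502) (nat_lit 0x140000000000) (nat_lit 39))))))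

def c256_168 : Tr :=
 .n (.n (.n (.n (.n (.n (.p (nat_lit 0x2690267026203) (nat_lit 0x110002a) (nat_lit 19))
 (.p (nat_lit 0x274f081d02) (nat_lit 0x240080000300) (nat_lit 38)))
 (.p (nat_lit 0x10807bd02) (nat_lit 0x240207) (nat_lit 1)))
 (.n (.p (nat_lit 0x12b60eb102) (nat_lit 0x540801) (nat_lit 5))
 (.p (nat_lit 0xcba0cb80cb60cb40cb0036b06) (nat_lit 0x1000084023) (nat_lit 52))))
 (.n (.n (.n (.p (nat_lit 0xe610e5502) (nat_lit 0x540600) (nat_lit 34))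
 (.p (nat_lit 0x9ce287902) (nat_lit 0x588bb0344000400000000) (nat_lit 49)))
 (.p (nat_lit 0xb700b6e0b6a0b680b66014b0b6d07) (nat_lit 0x340415) (nat_lit 7)))
 (.n (.p (nat_lit 0xf4c0f480f460f440f4217d706) (nat_lit 0x800004eb03) (nat_lit 51))
 (.p (nat_lit 0x1b001a9b02) (nat_lit 0x100a2c) (nat_lit 5)))))
 (.n (.n (.n (.n (.p (nat_lit 0x840083e083c083a083806f306) (nat_lit 0x10000080300) (nat_lit 51))
 (.p (nat_lit 0x26ad281902) (nat_lit 0x60000000900) (nat_lit 36)))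
 (.p (nat_lit 0x1030102e102c102a10280a8506) (nat_lit 0x1000008e40e) (nat_lit 51)))
 (.n (.p (nat_lit 0x1b381b361b341b321b301b2e004a07) (nat_lit 0xb02) (nat_lit 8))
 (.p (nat_lit 0x1bfe1cff02) (nat_lit 0x500126) (nat_lit 4))))
 (.n (.n (.p (nat_lit 0x1441129102) (nat_lit 0x240900) (nat_lit 15))
 (.p (nat_lit 0xc8c0c860c840c820365036306) (nat_lit 0xc00008a01c) (nat_lit 51)))
 (.n (.p (nat_lit 0x10fb0f3502) (nat_lit 0x540605) (nat_lit 15))
 (.p (nat_lit 0x1f7262902) (nat_lit 0xb23) (nat_lit 28))))))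
 (.n (.n (.n (.n (.n (.p (nat_lit 0x426057d02) (nat_lit 0x540100) (nat_lit 5))
 (.p (nat_lit 0x26b327fd02) (nat_lit 0x700) (nat_lit 37)))
 (.p (nat_lit 0x1604160215fe15fc15fa00db160107) (nat_lit 0x340a07) (nat_lit 7)))
 (.n (.p (nat_lit 0x1a081a061a041a021a0007e506) (nat_lit 0x8000d4202) (nat_lit 51))
 (.p (nat_lit 0x18ed11db02) (nat_lit 0x10c823) (nat_lit 16))))
 (.n (.n (.n (.p (nat_lit 0x117c117a117811761174117206) (nat_lit 0x14800) (nat_lit 52))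
 (.p (nat_lit 0x157228b502) (nat_lit 0x3503a8d64000400040600) (nat_lit 49)))
 (.p (nat_lit 0x14722ff02) (nat_lit 0x100a15) (nat_lit 30)))
 (.n (.p (nat_lit 0x10e6141b02) (nat_lit 0x140704) (nat_lit 4))
 (.p (nat_lit 0x84251702) (nat_lit 0x400805) (nat_lit 27)))))
 (.n (.n (.n (.n (.p (nat_lit 0xb5f099102) (nat_lit 0x242400) (nat_lit 16))
 (.p (nat_lit 0x2799172102) (nat_lit 0xa00a0000b00) (nat_lit 39)))
 (.p (nat_lit 0x1d5c1c2502) (nat_lit 0x340411) (nat_lit 4)))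
 (.n (.p (nat_lit 0x28e0c6d02) (nat_lit 0x100503) (nat_lit 1))
 (.p (nat_lit 0x12da12d812d612d412d0070f06) (nat_lit 0x100001222a) (nat_lit 52))))
 (.n (.n (.p (nat_lit 0x16fb151b02) (nat_lit 0x40eb00) (nat_lit 16))
 (.p (nat_lit 0x1611145f02) (nat_lit 0x54091c) (nat_lit 15)))
 (.n (.p (nat_lit 0x1018167302) (nat_lit 0x400706) (nat_lit 4))
 (.p (nat_lit 0x26ed048902) (nat_lit 0x260040000100) (nat_lit 38))))))

def c128_40 : Tr := .n c256_40 c256_168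

def c256_104 : Tr :=
 .n (.n (.n (.n (.n (.n (.p (nat_lit 0x14e014a0146015104) (nat_lit 0x15000400015) (nat_lit 17))
 (.p (nat_lit 0x26cf27cb02) (nat_lit 0x140020000300) (nat_lit 37)))
 (.p (nat_lit 0x14821480147e147a147800bf147d07) (nat_lit 0x240906) (nat_lit 7)))
 (.n (.p (nat_lit 0x18d018ce18cc18ca18c818c6003007) (nat_lit 0x501) (nat_lit 8))
 (.p (nat_lit 0x20ae200302) (nat_lit 0x400721) (nat_lit 4))))
 (.n (.n (.n (.p (nat_lit 0xdd60dd40dd20dd00d690d6706) (nat_lit 0x1800094600) (nat_lit 51))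
 (.p (nat_lit 0x910286b02) (nat_lit 0x281d30342800300040000) (nat_lit 49)))
 (.p (nat_lit 0x588058405820580057e043106) (nat_lit 0x8000046015) (nat_lit 51)))
 (.n (.p (nat_lit 0xc8a0c880c860c840c82170906) (nat_lit 0x1000008ab03) (nat_lit 51))
 (.p (nat_lit 0x16ea0c2b02) (nat_lit 0x200b2a) (nat_lit 4)))))
 (.n (.n (.n (.n (.p (nat_lit 0x7c105f102) (nat_lit 0x440200) (nat_lit 16))
 (.p (nat_lit 0x26ef281502) (nat_lit 0x240040000800) (nat_lit 36)))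
 (.p (nat_lit 0xa7d08e502) (nat_lit 0x10030e) (nat_lit 15)))
 (.n (.p (nat_lit 0x16320fad02) (nat_lit 0x440a02) (nat_lit 5))
 (.p (nat_lit 0x194a1948194619441940020d194307) (nat_lit 0x100a24) (nat_lit 7))))
 (.n (.n (.p (nat_lit 0x13ad11ad02) (nat_lit 0x516900) (nat_lit 16))
 (.p (nat_lit 0x13221320131c131a13181ef306) (nat_lit 0x40000cc519) (nat_lit 51)))
 (.n (.p (nat_lit 0xd4a14c702) (nat_lit 0x440505) (nat_lit 4))
 (.p (nat_lit 0x21e25e702) (nat_lit 0x30051e) (nat_lit 27))))))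
 (.n (.n (.n (.n (.n (.p (nat_lit 0x4be04ba04b604b4034d034906) (nat_lit 0xa000008100) (nat_lit 52))
 (.p (nat_lit 0x26970d4f02) (nat_lit 0x1c0000000600) (nat_lit 38)))
 (.p (nat_lit 0xb560b540b520b500b4e00df0b5907) (nat_lit 0x540407) (nat_lit 7)))
 (.n (.p (nat_lit 0x62d045d02) (nat_lit 0x440002) (nat_lit 15))
 (.p (nat_lit 0x95409520950094e094c07c506) (nat_lit 0x8000c2223) (nat_lit 52))))
 (.n (.n (.n (.p (nat_lit 0x10ad0ee302) (nat_lit 0x40700) (nat_lit 15))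
 (.p (nat_lit 0x111228a902) (nat_lit 0x350521a84000200000600) (nat_lit 50)))
 (.p (nat_lit 0x10d2079102) (nat_lit 0x540715) (nat_lit 4)))
 (.n (.p (nat_lit 0xf280f220f200f1e009a008500830f270f2509) (nat_lit 0x2340604) (nat_lit 10))
 (.p (nat_lit 0x8224e102) (nat_lit 0x300a03) (nat_lit 27)))))
 (.n (.n (.n (.n (.p (nat_lit 0xa9f08cd02) (nat_lit 0x110400) (nat_lit 16))
 (.p (nat_lit 0x2834157b02) (nat_lit 0x80040a00) (nat_lit 45)))
 (.p (nat_lit 0x18fa17e902) (nat_lit 0x10090f) (nat_lit 4)))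
 (.n (.p (nat_lit 0x1ca21ca01c9e1c9c1c9a1c9806) (nat_lit 0xca203) (nat_lit 52))
 (.p (nat_lit 0x6120bcb02) (nat_lit 0x34012a) (nat_lit 4))))
 (.n (.n (.p (nat_lit 0x1639143f02) (nat_lit 0x150a00) (nat_lit 16))
 (.p (nat_lit 0xd16096302) (nat_lit 0x4051c) (nat_lit 5)))
 (.n (.p (nat_lit 0x12be210f02) (nat_lit 0x340805) (nat_lit 29))
 (.p (nat_lit 0x26b5038302) (nat_lit 0x2e0020000000) (nat_lit 41))))))

def c256_232 : Tr :=
 .n (.n (.n (.n (.n (.n (.p (nat_lit 0x31403120310030e02c302bb06) (nat_lit 0x880000c000) (nat_lit 52))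
 (.p (nat_lit 0x27d80c5702) (nat_lit 0x20004400) (nat_lit 47)))
 (.p (nat_lit 0xf4c0f480f460f440f4208df06) (nat_lit 0x800000e307) (nat_lit 51)))
 (.n (.p (nat_lit 0x13b813b413b213b013ae139306) (nat_lit 0x8000092901) (nat_lit 52))
 (.p (nat_lit 0xe600e5e0e5c0e5a0e58052506) (nat_lit 0x80008c123) (nat_lit 51))))
 (.n (.n (.n (.p (nat_lit 0xddc0f4702) (nat_lit 0x200700) (nat_lit 5))
 (.p (nat_lit 0xbb50ba709d909d5082508170661065b0499048f02b102a328860d) (nat_lit 0x342221ca4000000000000) (nat_lit 33)))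
 (.p (nat_lit 0xd580d560d540d520d500c4906) (nat_lit 0x80000c515) (nat_lit 52)))
 (.n (.p (nat_lit 0x80213e502) (nat_lit 0x340204) (nat_lit 4))
 (.p (nat_lit 0x1e861ed302) (nat_lit 0x24022e) (nat_lit 5)))))
 (.n (.n (.n (.n (.p (nat_lit 0x7b6091902) (nat_lit 0x540300) (nat_lit 4))
 (.p (nat_lit 0x274112d702) (nat_lit 0x20060000900) (nat_lit 38)))
 (.p (nat_lit 0x1588158415821580157e0b6306) (nat_lit 0x80000d440e) (nat_lit 51)))
 (.n (.p (nat_lit 0x17ca1b4302) (nat_lit 0x440b02) (nat_lit 29))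
 (.p (nat_lit 0x2426242424222420241e241c024407) (nat_lit 0x628) (nat_lit 8))))
 (.n (.n (.p (nat_lit 0x1504150014fe14fc14fa135b06) (nat_lit 0x8000010a00) (nat_lit 51))
 (.p (nat_lit 0x82a0828082608220820043906) (nat_lit 0x200004601c) (nat_lit 51)))
 (.n (.p (nat_lit 0x10f614f502) (nat_lit 0x340705) (nat_lit 5))
 (.p (nat_lit 0x266426622660265e265a0003026007) (nat_lit 0x10612a) (nat_lit 25))))))
 (.n (.n (.n (.n (.n (.p (nat_lit 0x6640658051103) (nat_lit 0x200200) (nat_lit 6))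
 (.p (nat_lit 0x26e90f3b02) (nat_lit 0x2a0040000700) (nat_lit 38)))
 (.p (nat_lit 0x1a30196502) (nat_lit 0x100309) (nat_lit 5)))
 (.n (.p (nat_lit 0x1250124c124a1246139f139906) (nat_lit 0x900000c902) (nat_lit 52))
 (.p (nat_lit 0x16dc0b3102) (nat_lit 0x100b23) (nat_lit 5))))
 (.n (.n (.n (.p (nat_lit 0x10b4121902) (nat_lit 0x440800) (nat_lit 5))
 (.p (nat_lit 0xd5c28c702) (nat_lit 0x3508a9d84000000000600) (nat_lit 50)))
 (.p (nat_lit 0x1aaa19df02) (nat_lit 0x300517) (nat_lit 5)))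
 (.n (.p (nat_lit 0x17da134702) (nat_lit 0x40b04) (nat_lit 4))
 (.p (nat_lit 0x124255902) (nat_lit 0x20080e) (nat_lit 27)))))
 (.n (.n (.n (.n (.p (nat_lit 0xbe60be20be00bde0bdc0a6b06) (nat_lit 0x8000084500) (nat_lit 51))
 (.p (nat_lit 0x910284902) (nat_lit 0x4a1a36344000300040000) (nat_lit 49)))
 (.p (nat_lit 0x588058605840582057e1de706) (nat_lit 0x1000006b11) (nat_lit 51)))
 (.n (.p (nat_lit 0xf1a1dbd02) (nat_lit 0x440603) (nat_lit 29))
 (.p (nat_lit 0x13c213c013be13bc13ba07db06) (nat_lit 0x100000d222a) (nat_lit 51))))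
 (.n (.n (.p (nat_lit 0x176817661764176015f915f106) (nat_lit 0x110000d0b00) (nat_lit 52))
 (.p (nat_lit 0x17a008c102) (nat_lit 0x140b1c) (nat_lit 4)))
 (.n (.p (nat_lit 0x57c057a05760574057211ff06) (nat_lit 0x4000082806) (nat_lit 51))
 (.p (nat_lit 0x2775049b02) (nat_lit 0x2e00a0000100) (nat_lit 40))))))

def c128_104 : Tr := .n c256_104 c256_232

def c64_40 : Tr := .n c128_40 c128_104

def c32_8 : Tr := .n c64_8 c64_40

def c256_24 : Tr :=
 .n (.n (.n (.n (.n (.n (.p (nat_lit 0x4800460042004b04) (nat_lit 0x1a000400002) (nat_lit 17))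
 (.p (nat_lit 0x26d1066302) (nat_lit 0x120020000200) (nat_lit 40)))
 (.p (nat_lit 0x2ac02aa02a802a602a412c506) (nat_lit 0x800040806) (nat_lit 52)))
 (.n (.p (nat_lit 0x44c0d7302) (nat_lit 0x40001) (nat_lit 5))
 (.p (nat_lit 0x1afc1a2d02) (nat_lit 0x500a1e) (nat_lit 4))))
 (.n (.n (.n (.p (nat_lit 0x25c0b4b02) (nat_lit 0x440500) (nat_lit 1))
 (.p (nat_lit 0x1494285702) (nat_lit 0x4a8876344000400000600) (nat_lit 50)))
 (.p (nat_lit 0x20fc1f5502) (nat_lit 0x500813) (nat_lit 5)))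
 (.n (.p (nat_lit 0x163a118302) (nat_lit 0x240a03) (nat_lit 4))
 (.p (nat_lit 0x9ba09b609b409b209b0025d09b907) (nat_lit 0x44032a) (nat_lit 7)))))
 (.n (.n (.n (.n (.p (nat_lit 0x6e606e406e206e0050f050d06) (nat_lit 0x1800016200) (nat_lit 51))
 (.p (nat_lit 0x2787280b02) (nat_lit 0x1c00a0000700) (nat_lit 36)))
 (.p (nat_lit 0x28c1d4f02) (nat_lit 0x4040a) (nat_lit 1)))
 (.n (.p (nat_lit 0x1560108302) (nat_lit 0x300a02) (nat_lit 5))
 (.p (nat_lit 0x180a186d02) (nat_lit 0x200124) (nat_lit 4))))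
 (.n (.n (.p (nat_lit 0x12b710b702) (nat_lit 0x54c800) (nat_lit 16))
 (.p (nat_lit 0x1b1a1a0302) (nat_lit 0x240a17) (nat_lit 5)))
 (.n (.p (nat_lit 0x80814af02) (nat_lit 0x40205) (nat_lit 5))
 (.p (nat_lit 0x258825862584258225800041015007) (nat_lit 0x10a715) (nat_lit 25))))))
 (.n (.n (.n (.n (.n (.p (nat_lit 0x3cc03ca03c803c603c4038d06) (nat_lit 0x800048000) (nat_lit 52))
 (.p (nat_lit 0x26d327e702) (nat_lit 0x100020000500) (nat_lit 36)))
 (.p (nat_lit 0x9a203c102) (nat_lit 0x540307) (nat_lit 4)))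
 (.n (.p (nat_lit 0xf3e0f3c0f3a0f380f36146b06) (nat_lit 0x1000004e901) (nat_lit 52))
 (.p (nat_lit 0x66a0666066406620660060906) (nat_lit 0x8000044123) (nat_lit 51))))
 (.n (.n (.n (.p (nat_lit 0xfeb0de102) (nat_lit 0x404700) (nat_lit 16))
 (.p (nat_lit 0xc7a289302) (nat_lit 0x354221ca4000500040000) (nat_lit 49)))
 (.p (nat_lit 0x38a03880386038403800d0d06) (nat_lit 0x10000c0515) (nat_lit 51)))
 (.n (.p (nat_lit 0xe32130d02) (nat_lit 0x604) (nat_lit 4))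
 (.p (nat_lit 0xbf20bf00bec0bea0be820e506) (nat_lit 0x400004672f) (nat_lit 51)))))
 (.n (.n (.n (.n (.p (nat_lit 0x9cb07b702) (nat_lit 0x554300) (nat_lit 16))
 (.p (nat_lit 0x26af282702) (nat_lit 0x40000000a00) (nat_lit 36)))
 (.p (nat_lit 0x2dc02da02d802d602d20d0106) (nat_lit 0x10000c450e) (nat_lit 52)))
 (.n (.p (nat_lit 0x691bb702) (nat_lit 0x100103) (nat_lit 30))
 (.p (nat_lit 0x21cc21ab02) (nat_lit 0x500729) (nat_lit 4))))
 (.n (.n (.p (nat_lit 0x143e158102) (nat_lit 0x140a00) (nat_lit 5))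
 (.p (nat_lit 0x51e084b02) (nat_lit 0x30011c) (nat_lit 5)))
 (.n (.p (nat_lit 0x149a149814961494149210f106) (nat_lit 0x800054705) (nat_lit 51))
 (.p (nat_lit 0x26af038102) (nat_lit 0x40000000000) (nat_lit 41))))))

def c256_152 : Tr :=
 .n (.n (.n (.n (.n (.n (.p (nat_lit 0x220021e021c022504) (nat_lit 0xe000400025) (nat_lit 17))
 (.p (nat_lit 0x2727082702) (nat_lit 0x1c0060000300) (nat_lit 40)))
 (.p (nat_lit 0x4be04bc04ba04b804b406f706) (nat_lit 0x1000008207) (nat_lit 52)))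
 (.n (.p (nat_lit 0x12ac0dad02) (nat_lit 0x40801) (nat_lit 4))
 (.p (nat_lit 0x36a235302) (nat_lit 0x100023) (nat_lit 29))))
 (.n (.n (.n (.p (nat_lit 0xe6c0e6a0e680e640e6200050e6707) (nat_lit 0x240600) (nat_lit 7))
 (.p (nat_lit 0x1110287702) (nat_lit 0x568872b44000200000600) (nat_lit 49)))
 (.p (nat_lit 0x18a30a9102) (nat_lit 0x50c415) (nat_lit 16)))
 (.n (.p (nat_lit 0x57c057a05760574057217d506) (nat_lit 0x40000c2b03) (nat_lit 51))
 (.p (nat_lit 0x1a1a1abd02) (nat_lit 0x24022c) (nat_lit 4)))))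
 (.n (.n (.n (.n (.p (nat_lit 0x1a806f302) (nat_lit 0x500300) (nat_lit 1))
 (.p (nat_lit 0x2761111b02) (nat_lit 0x120080000800) (nat_lit 40)))
 (.p (nat_lit 0x57c057a0576057405720a8106) (nat_lit 0x400008240e) (nat_lit 51)))
 (.n (.p (nat_lit 0x120c120a120612041635162f06) (nat_lit 0x120000d0a02) (nat_lit 52))
 (.p (nat_lit 0x1b2a1a6102) (nat_lit 0x440a25) (nat_lit 4))))
 (.n (.n (.p (nat_lit 0x1416141414121410140e140c06) (nat_lit 0x4e900) (nat_lit 52))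
 (.p (nat_lit 0x364083502) (nat_lit 0x40001c) (nat_lit 4)))
 (.n (.p (nat_lit 0xf3014dd02) (nat_lit 0x340605) (nat_lit 4))
 (.p (nat_lit 0x1fb261702) (nat_lit 0x200623) (nat_lit 28))))))
 (.n (.n (.n (.n (.n (.p (nat_lit 0x41e056902) (nat_lit 0x140100) (nat_lit 4))
 (.p (nat_lit 0x27f817c702) (nat_lit 0x40050600) (nat_lit 47)))
 (.p (nat_lit 0x11ae03f502) (nat_lit 0x807) (nat_lit 5)))
 (.n (.p (nat_lit 0x7ea19c902) (nat_lit 0x340202) (nat_lit 29))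
 (.p (nat_lit 0xff60b1902) (nat_lit 0x500723) (nat_lit 4))))
 (.n (.n (.n (.p (nat_lit 0xfd0111b02) (nat_lit 0x400800) (nat_lit 5))
 (.p (nat_lit 0x110828b302) (nat_lit 0x352868d84000200000600) (nat_lit 49)))
 (.p (nat_lit 0x144c22f502) (nat_lit 0x240915) (nat_lit 29)))
 (.n (.p (nat_lit 0x100210000ffc0ffa0ff800830fff07) (nat_lit 0x300704) (nat_lit 7))
 (.p (nat_lit 0xa3250b02) (nat_lit 0x200605) (nat_lit 28)))))
 (.n (.n (.n (.n (.p (nat_lit 0xb0c0b0a0b080b060b04099706) (nat_lit 0x100000c4400) (nat_lit 52))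
 (.p (nat_lit 0x2723283b02) (nat_lit 0x200060000b00) (nat_lit 37)))
 (.p (nat_lit 0x701d2102) (nat_lit 0x500411) (nat_lit 1)))
 (.n (.p (nat_lit 0x6d1d2902) (nat_lit 0x340403) (nat_lit 30))
 (.p (nat_lit 0xbac0baa0ba80ba40ba2071106) (nat_lit 0x200000a22a) (nat_lit 52))))
 (.n (.n (.p (nat_lit 0x16c3151b02) (nat_lit 0x402b00) (nat_lit 16))
 (.p (nat_lit 0x1366088d02) (nat_lit 0x91c) (nat_lit 4)))
 (.n (.p (nat_lit 0xaae166902) (nat_lit 0x500406) (nat_lit 5))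
 (.p (nat_lit 0x270f27b102) (nat_lit 0x40040000100) (nat_lit 37))))))

def c128_24 : Tr := .n c256_24 c256_152

def c256_88 : Tr :=
 .n (.n (.n (.n (.n (.n (.p (nat_lit 0x10d010b01090105011005) (nat_lit 0xe80040000e) (nat_lit 18))
 (.p (nat_lit 0x26b327c902) (nat_lit 0x300) (nat_lit 36)))
 (.p (nat_lit 0x14d414d014ce14ca13ab13a506) (nat_lit 0x900000c906) (nat_lit 52)))
 (.n (.p (nat_lit 0x2100a9902) (nat_lit 0x300401) (nat_lit 1))
 (.p (nat_lit 0x1f40234d02) (nat_lit 0x440021) (nat_lit 29))))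
 (.n (.n (.n (.p (nat_lit 0xd700d6e0d6c0d6a000c000300010d690d6709) (nat_lit 0x800600) (nat_lit 10))
 (.p (nat_lit 0x102e286702) (nat_lit 0x1a2274b50000100040600) (nat_lit 50)))
 (.p (nat_lit 0x42c074b02) (nat_lit 0x240015) (nat_lit 4)))
 (.n (.p (nat_lit 0x65e065a065806560654170706) (nat_lit 0x8000004b03) (nat_lit 52))
 (.p (nat_lit 0x161c0cf102) (nat_lit 0x540a2a) (nat_lit 4)))))
 (.n (.n (.n (.n (.p (nat_lit 0x780077e077c077a077805e906) (nat_lit 0x8000ca200) (nat_lit 52))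
 (.p (nat_lit 0x28100ffb02) (nat_lit 0x20014800) (nat_lit 48)))
 (.p (nat_lit 0x10d225d02) (nat_lit 0x40030e) (nat_lit 30)))
 (.n (.p (nat_lit 0x1571156502) (nat_lit 0x512a02) (nat_lit 16))
 (.p (nat_lit 0x1910188302) (nat_lit 0x200924) (nat_lit 5))))
 (.n (.n (.p (nat_lit 0x137711a702) (nat_lit 0x208900) (nat_lit 16))
 (.p (nat_lit 0x14221420141e141c141a1ed906) (nat_lit 0x80008e519) (nat_lit 52)))
 (.n (.p (nat_lit 0xb9e202102) (nat_lit 0x440405) (nat_lit 29))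
 (.p (nat_lit 0x1ce25cf02) (nat_lit 0x20071c) (nat_lit 27))))))
 (.n (.n (.n (.n (.n (.p (nat_lit 0x34c048d02) (nat_lit 0x400100) (nat_lit 4))
 (.p (nat_lit 0x26b10e5702) (nat_lit 0x20000000600) (nat_lit 41)))
 (.p (nat_lit 0x2540b4f02) (nat_lit 0x40407) (nat_lit 1)))
 (.n (.p (nat_lit 0x16881686168416821680162906) (nat_lit 0x10000050a01) (nat_lit 52))
 (.p (nat_lit 0x7ce07cc07ca07c607c401fb07c907) (nat_lit 0x240223) (nat_lit 7))))
 (.n (.n (.n (.p (nat_lit 0x10921090108e108a10880ee706) (nat_lit 0x20000d4700) (nat_lit 52))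
 (.p (nat_lit 0x57628a302) (nat_lit 0x350521a84000100040000) (nat_lit 50)))
 (.p (nat_lit 0x14d22c902) (nat_lit 0x400715) (nat_lit 30)))
 (.n (.p (nat_lit 0xe470e3b02) (nat_lit 0x416604) (nat_lit 16))
 (.p (nat_lit 0x70006e006a00680007017906) (nat_lit 0x1816203) (nat_lit 26)))))
 (.n (.n (.n (.n (.p (nat_lit 0xa7308cf02) (nat_lit 0x200400) (nat_lit 16))
 (.p (nat_lit 0x282e208f02) (nat_lit 0x40044a00) (nat_lit 48)))
 (.p (nat_lit 0xdf916c302) (nat_lit 0x400b0e) (nat_lit 15)))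
 (.n (.p (nat_lit 0x7f01c8302) (nat_lit 0x40203) (nat_lit 29))
 (.p (nat_lit 0x30c030a030603040302053706) (nat_lit 0x400008812a) (nat_lit 51))))
 (.n (.n (.p (nat_lit 0x15f9144702) (nat_lit 0x540a00) (nat_lit 15))
 (.p (nat_lit 0xc5e086702) (nat_lit 0x50051c) (nat_lit 4)))
 (.n (.p (nat_lit 0x12b8150702) (nat_lit 0x40805) (nat_lit 5))
 (.p (nat_lit 0x26c727a702) (nat_lit 0x1c0020000000) (nat_lit 36))))))

def c256_216 : Tr :=
 .n (.n (.n (.n (.n (.n (.p (nat_lit 0x2e802e602e402e202e002de06) (nat_lit 0x6000) (nat_lit 52))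
 (.p (nat_lit 0x27d420b302) (nat_lit 0x14400) (nat_lit 48)))
 (.p (nat_lit 0x8de03b302) (nat_lit 0x400307) (nat_lit 5)))
 (.n (.p (nat_lit 0x66a0668066606620660138f06) (nat_lit 0x2000004901) (nat_lit 51))
 (.p (nat_lit 0x52c052a0528052605240201052f07) (nat_lit 0x500123) (nat_lit 7))))
 (.n (.n (.n (.p (nat_lit 0xf1b0e6b02) (nat_lit 0x450600) (nat_lit 16))
 (.p (nat_lit 0x148c288302) (nat_lit 0x342221ca4000400000600) (nat_lit 49)))
 (.p (nat_lit 0x2ac02aa02a802a602a40c4906) (nat_lit 0x800000515) (nat_lit 52)))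
 (.n (.p (nat_lit 0x72012f302) (nat_lit 0x300204) (nat_lit 5))
 (.p (nat_lit 0x2841db102) (nat_lit 0x30062d) (nat_lit 1)))))
 (.n (.n (.n (.n (.p (nat_lit 0x7ac091b02) (nat_lit 0x40300) (nat_lit 5))
 (.p (nat_lit 0x26f912e102) (nat_lit 0x1a0040000900) (nat_lit 40)))
 (.p (nat_lit 0x81e081c0818081608140b6106) (nat_lit 0x400004640e) (nat_lit 52)))
 (.n (.p (nat_lit 0x17c40fbf02) (nat_lit 0x140b02) (nat_lit 5))
 (.p (nat_lit 0x23a1f2502) (nat_lit 0x100b27) (nat_lit 1))))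
 (.n (.n (.p (nat_lit 0x14d014ce14cc14ca135d135b06) (nat_lit 0x1800000ca00) (nat_lit 52))
 (.p (nat_lit 0x43a083f02) (nat_lit 0x34001c) (nat_lit 5)))
 (.n (.p (nat_lit 0x20b1100f02) (nat_lit 0x506705) (nat_lit 16))
 (.p (nat_lit 0x238265102) (nat_lit 0x929) (nat_lit 27))))))
 (.n (.n (.n (.n (.n (.p (nat_lit 0x64b042702) (nat_lit 0x554100) (nat_lit 16))
 (.p (nat_lit 0x26ff0f3b02) (nat_lit 0x140040000700) (nat_lit 38)))
 (.p (nat_lit 0x178e041b02) (nat_lit 0x540b07) (nat_lit 4)))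
 (.n (.p (nat_lit 0x13a0139e139c139a1398003f139707) (nat_lit 0x902) (nat_lit 7))
 (.p (nat_lit 0x153c23c302) (nat_lit 0x300a23) (nat_lit 29))))
 (.n (.n (.n (.p (nat_lit 0x1211120502) (nat_lit 0x40800) (nat_lit 34))
 (.p (nat_lit 0xba428c102) (nat_lit 0x332a05d81000500000000) (nat_lit 49)))
 (.p (nat_lit 0x1a8419d102) (nat_lit 0x140417) (nat_lit 5)))
 (.n (.p (nat_lit 0x1714142f02) (nat_lit 0x500b04) (nat_lit 5))
 (.p (nat_lit 0x105254d02) (nat_lit 0x30e) (nat_lit 28)))))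
 (.n (.n (.n (.n (.p (nat_lit 0xbc40bc20bbe0bba0a690a6506) (nat_lit 0x5000002500) (nat_lit 52))
 (.p (nat_lit 0xf3a284702) (nat_lit 0x4a1a36344000100000600) (nat_lit 49)))
 (.p (nat_lit 0x1041de502) (nat_lit 0xb11) (nat_lit 1)))
 (.n (.p (nat_lit 0xf12125302) (nat_lit 0x40603) (nat_lit 4))
 (.p (nat_lit 0xbb80bb60bb20bb00bae07d706) (nat_lit 0x400004a22a) (nat_lit 51))))
 (.n (.n (.p (nat_lit 0x174617441742173e15f915f106) (nat_lit 0x1100004eb00) (nat_lit 51))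
 (.p (nat_lit 0x160e160c160a160601b801a901a11611160909) (nat_lit 0x2940a1c) (nat_lit 10)))
 (.n (.p (nat_lit 0x1202120011fe11fa11f800bf11fd07) (nat_lit 0x200806) (nat_lit 7))
 (.p (nat_lit 0x27b6035902) (nat_lit 0x80006100) (nat_lit 48))))))

def c128_88 : Tr := .n c256_88 c256_216

def c64_24 : Tr := .n c128_24 c128_88

def c256_56 : Tr :=
 .n (.n (.n (.n (.n (.n (.p (nat_lit 0x99008f008a03) (nat_lit 0x42800004) (nat_lit 19))
 (.p (nat_lit 0x272327c502) (nat_lit 0x200060000200) (nat_lit 36)))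
 (.p (nat_lit 0x13c413c213be13bc13ba12cb06) (nat_lit 0x40000d2806) (nat_lit 51)))
 (.n (.p (nat_lit 0x61c0d8902) (nat_lit 0x240101) (nat_lit 4))
 (.p (nat_lit 0x1f311e1902) (nat_lit 0x216020) (nat_lit 16))))
 (.n (.n (.n (.p (nat_lit 0xd0f0b4702) (nat_lit 0x244500) (nat_lit 16))
 (.p (nat_lit 0x157a285d02) (nat_lit 0x1a2260b50000400040600) (nat_lit 49)))
 (.p (nat_lit 0x352073d02) (nat_lit 0x100015) (nat_lit 4)))
 (.n (.p (nat_lit 0x16fe127502) (nat_lit 0xb03) (nat_lit 5))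
 (.p (nat_lit 0x29a138702) (nat_lit 0x40092a) (nat_lit 1)))))
 (.n (.n (.n (.n (.p (nat_lit 0x5ec073302) (nat_lit 0x240200) (nat_lit 5))
 (.p (nat_lit 0x2687280d02) (nat_lit 0x2c0000000800) (nat_lit 36)))
 (.p (nat_lit 0x216e212702) (nat_lit 0x14030d) (nat_lit 4)))
 (.n (.p (nat_lit 0xbaa0ba80ba60ba40ba2156506) (nat_lit 0x1000000aa02) (nat_lit 52))
 (.p (nat_lit 0x184e23e302) (nat_lit 0x140224) (nat_lit 29))))
 (.n (.n (.p (nat_lit 0x12ee12ec12ea12e811ad11a506) (nat_lit 0x11000082900) (nat_lit 51))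
 (.p (nat_lit 0x1cd01cce1ccc1cca1cc81d6906) (nat_lit 0x4000040418) (nat_lit 51)))
 (.n (.p (nat_lit 0x1fac1faa1fa81fa60905090306) (nat_lit 0x1800000305) (nat_lit 52))
 (.p (nat_lit 0x17b25af02) (nat_lit 0x100618) (nat_lit 28))))))
 (.n (.n (.n (.n (.n (.p (nat_lit 0x45f039702) (nat_lit 0x54e000) (nat_lit 16))
 (.p (nat_lit 0x273127ed02) (nat_lit 0x120060000500) (nat_lit 36)))
 (.p (nat_lit 0xa6e02f702) (nat_lit 0x407) (nat_lit 5)))
 (.n (.p (nat_lit 0x175c175a175817561754155906) (nat_lit 0x10000010a01) (nat_lit 51))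
 (.p (nat_lit 0x7000a1502) (nat_lit 0x223) (nat_lit 5))))
 (.n (.n (.n (.p (nat_lit 0x440ee902) (nat_lit 0x340700) (nat_lit 1))
 (.p (nat_lit 0x732289d02) (nat_lit 0x356068ca4000200040000) (nat_lit 50)))
 (.p (nat_lit 0x42d0d0f02) (nat_lit 0x240515) (nat_lit 15)))
 (.n (.p (nat_lit 0x65e065c065a065806540e3506) (nat_lit 0x1000004604) (nat_lit 52))
 (.p (nat_lit 0x24ae24ac24aa24a824a60007004a07) (nat_lit 0x316902) (nat_lit 25)))))
 (.n (.n (.n (.n (.p (nat_lit 0x9fa09f809f609f209f008cf06) (nat_lit 0x2000080400) (nat_lit 52))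
 (.p (nat_lit 0x26d5282b02) (nat_lit 0xe0020000a00) (nat_lit 36)))
 (.p (nat_lit 0x11ba05d102) (nat_lit 0x10080e) (nat_lit 5)))
 (.n (.p (nat_lit 0x63a06380636063406300069063307) (nat_lit 0x140103) (nat_lit 7))
 (.p (nat_lit 0x5300bbb02) (nat_lit 0x12a) (nat_lit 4))))
 (.n (.n (.p (nat_lit 0x15c815c615c415c215c0143d06) (nat_lit 0x80004ea00) (nat_lit 51))
 (.p (nat_lit 0x5fa085702) (nat_lit 0x34011c) (nat_lit 5)))
 (.n (.p (nat_lit 0x11f415df02) (nat_lit 0x400805) (nat_lit 4))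
 (.p (nat_lit 0x268f27a502) (nat_lit 0x240000000000) (nat_lit 37))))))

def c256_184 : Tr :=
 .n (.n (.n (.n (.n (.n (.p (nat_lit 0x2af02a302) (nat_lit 0x0) (nat_lit 34))
 (.p (nat_lit 0x277d091902) (nat_lit 0x2600a0000300) (nat_lit 39)))
 (.p (nat_lit 0x4d604d204d004ce07c107b906) (nat_lit 0x880004a207) (nat_lit 51)))
 (.n (.p (nat_lit 0x10aa10a810a610a210a012b106) (nat_lit 0x20000d6801) (nat_lit 52))
 (.p (nat_lit 0x44609f702) (nat_lit 0x340023) (nat_lit 4))))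
 (.n (.n (.n (.p (nat_lit 0xebc0eba0eb80eb40e670e6306) (nat_lit 0x2800052600) (nat_lit 51))
 (.p (nat_lit 0x378287d02) (nat_lit 0x585a12b21000000040000) (nat_lit 49)))
 (.p (nat_lit 0x97809740972096e0b6f0b6906) (nat_lit 0x9000054415) (nat_lit 51)))
 (.n (.p (nat_lit 0x157c15761574157217d717d506) (nat_lit 0xc0000d4b03) (nat_lit 52))
 (.p (nat_lit 0x247a24782476247424722470029807) (nat_lit 0x12d) (nat_lit 8)))))
 (.n (.n (.n (.n (.p (nat_lit 0x8820880087e087c06ed06e906) (nat_lit 0x280008e300) (nat_lit 51))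
 (.p (nat_lit 0x281a12b902) (nat_lit 0x56900) (nat_lit 47)))
 (.p (nat_lit 0x18970a7d02) (nat_lit 0x10c40e) (nat_lit 16)))
 (.n (.p (nat_lit 0x451b3502) (nat_lit 0x300b02) (nat_lit 30))
 (.p (nat_lit 0x1c601d4302) (nat_lit 0x540126) (nat_lit 4))))
 (.n (.n (.p (nat_lit 0x9e135302) (nat_lit 0xa00) (nat_lit 1))
 (.p (nat_lit 0x13c413c213c013bc13ba036106) (nat_lit 0x200009201c) (nat_lit 51)))
 (.n (.p (nat_lit 0x2b802b602b402b202ae100706) (nat_lit 0x1000000705) (nat_lit 51))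
 (.p (nat_lit 0x21e263702) (nat_lit 0x300824) (nat_lit 27))))))
 (.n (.n (.n (.n (.n (.p (nat_lit 0x5c405c005be05bc05ba042506) (nat_lit 0x80000ca100) (nat_lit 52))
 (.p (nat_lit 0x27fc1a2f02) (nat_lit 0x700) (nat_lit 47)))
 (.p (nat_lit 0x16b2040b02) (nat_lit 0x200b07) (nat_lit 4)))
 (.n (.p (nat_lit 0xb7c105b02) (nat_lit 0x540402) (nat_lit 5))
 (.p (nat_lit 0x13720a3d02) (nat_lit 0x923) (nat_lit 5))))
 (.n (.n (.n (.p (nat_lit 0x11a90fcf02) (nat_lit 0x300800) (nat_lit 15))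
 (.p (nat_lit 0x37428bd02) (nat_lit 0x352868d64000000040000) (nat_lit 49)))
 (.p (nat_lit 0x230623042302230022fe22fc01521529152715210a) (nat_lit 0x16100a15) (nat_lit 31)))
 (.n (.p (nat_lit 0x125c125a12561254125210eb06) (nat_lit 0x40000cc704) (nat_lit 52))
 (.p (nat_lit 0xbf251f02) (nat_lit 0x200906) (nat_lit 28)))))
 (.n (.n (.n (.n (.p (nat_lit 0xbb80bb60bb40bb20bb00bae06) (nat_lit 0x500) (nat_lit 3))
 (.p (nat_lit 0x9ce283d02) (nat_lit 0x260d84344000400000000) (nat_lit 49)))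
 (.p (nat_lit 0x119e119c119a119811961d6106) (nat_lit 0x100000d6411) (nat_lit 51)))
 (.n (.p (nat_lit 0xd42115b02) (nat_lit 0x540503) (nat_lit 4))
 (.p (nat_lit 0x1f6d071702) (nat_lit 0x51422a) (nat_lit 16))))
 (.n (.n (.p (nat_lit 0x15f0171902) (nat_lit 0x140b00) (nat_lit 4))
 (.p (nat_lit 0x1532097702) (nat_lit 0x400a1c) (nat_lit 5)))
 (.n (.p (nat_lit 0x1203101b02) (nat_lit 0x500706) (nat_lit 15))
 (.p (nat_lit 0x273727b302) (nat_lit 0xc0060000100) (nat_lit 37))))))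

def c128_56 : Tr := .n c256_56 c256_184

def c256_120 : Tr :=
 .n (.n (.n (.n (.n (.n (.p (nat_lit 0x165015b015203) (nat_lit 0x82900015) (nat_lit 19))
 (.p (nat_lit 0x26ff082502) (nat_lit 0x140040000300) (nat_lit 40)))
 (.p (nat_lit 0x1482147e147c147800ce00c300bd1481147b09) (nat_lit 0x2140906) (nat_lit 10)))
 (.n (.p (nat_lit 0xd2f0d2302) (nat_lit 0x50501) (nat_lit 16))
 (.p (nat_lit 0x20d61fc902) (nat_lit 0x240721) (nat_lit 5))))
 (.n (.n (.n (.p (nat_lit 0xe090d6702) (nat_lit 0x6600) (nat_lit 16))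
 (.p (nat_lit 0xba8286d02) (nat_lit 0x568bb0344000500000000) (nat_lit 49)))
 (.p (nat_lit 0x145229102) (nat_lit 0x415) (nat_lit 30)))
 (.n (.p (nat_lit 0xe29170102) (nat_lit 0x100b03) (nat_lit 15))
 (.p (nat_lit 0x17bc0c3702) (nat_lit 0x340b2a) (nat_lit 4)))))
 (.n (.n (.n (.n (.p (nat_lit 0x7f105e902) (nat_lit 0x50200) (nat_lit 16))
 (.p (nat_lit 0x2814147102) (nat_lit 0x4004c800) (nat_lit 48)))
 (.p (nat_lit 0x9ae09ac09a809a609a4010b09ab07) (nat_lit 0x34030e) (nat_lit 7)))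
 (.n (.p (nat_lit 0x4980496049204901635162f06) (nat_lit 0x12000042a02) (nat_lit 51))
 (.p (nat_lit 0x19581a6f02) (nat_lit 0x100025) (nat_lit 5))))
 (.n (.n (.p (nat_lit 0x13bf13b302) (nat_lit 0x240900) (nat_lit 34))
 (.p (nat_lit 0x203c1f6f02) (nat_lit 0x4041a) (nat_lit 5)))
 (.n (.p (nat_lit 0xe4615bb02) (nat_lit 0x400605) (nat_lit 5))
 (.p (nat_lit 0x1e925f502) (nat_lit 0x122) (nat_lit 28))))))
 (.n (.n (.n (.n (.n (.p (nat_lit 0x511034902) (nat_lit 0x200100) (nat_lit 15))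
 (.p (nat_lit 0x27f416f302) (nat_lit 0x10600) (nat_lit 48)))
 (.p (nat_lit 0xde8031102) (nat_lit 0x200607) (nat_lit 4)))
 (.n (.p (nat_lit 0x62c198102) (nat_lit 0x440102) (nat_lit 29))
 (.p (nat_lit 0xe12238302) (nat_lit 0x100623) (nat_lit 29))))
 (.n (.n (.n (.p (nat_lit 0x10e30eed02) (nat_lit 0x548700) (nat_lit 16))
 (.p (nat_lit 0x149828ab02) (nat_lit 0x350521a86800400000600) (nat_lit 50)))
 (.p (nat_lit 0x11ce06c502) (nat_lit 0x500815) (nat_lit 4)))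
 (.n (.p (nat_lit 0x8280824082208200f290f2506) (nat_lit 0x14000046604) (nat_lit 51))
 (.p (nat_lit 0x8400820080007c00a1000b06) (nat_lit 0xd16604) (nat_lit 26)))))
 (.n (.n (.n (.n (.p (nat_lit 0x9920ab702) (nat_lit 0x340400) (nat_lit 4))
 (.p (nat_lit 0x268b283702) (nat_lit 0x280000000b00) (nat_lit 37)))
 (.p (nat_lit 0x142193102) (nat_lit 0x300a0f) (nat_lit 1)))
 (.n (.p (nat_lit 0x9bc1cbf02) (nat_lit 0x140303) (nat_lit 29))
 (.p (nat_lit 0x30002fe02fc02f80611060d06) (nat_lit 0x280004812a) (nat_lit 51))))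
 (.n (.n (.p (nat_lit 0x151a164b02) (nat_lit 0x400b00) (nat_lit 4))
 (.p (nat_lit 0xade0adc0ad80ad60ad40d1d06) (nat_lit 0x40000c051c) (nat_lit 51)))
 (.n (.p (nat_lit 0x140a140814061402140012bd06) (nat_lit 0x20000cc805) (nat_lit 52))
 (.p (nat_lit 0x27a8061302) (nat_lit 0x60048000) (nat_lit 48))))))

def c256_248 : Tr :=
 .n (.n (.n (.n (.n (.n (.p (nat_lit 0x36902bb02) (nat_lit 0x8000) (nat_lit 16))
 (.p (nat_lit 0x27dc0d1d02) (nat_lit 0x60044400) (nat_lit 48)))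
 (.p (nat_lit 0x157c157a15781574157208db06) (nat_lit 0x2000094307) (nat_lit 52)))
 (.n (.p (nat_lit 0x14640dc902) (nat_lit 0x240901) (nat_lit 5))
 (.p (nat_lit 0x1bf9052902) (nat_lit 0x210123) (nat_lit 16))))
 (.n (.n (.n (.p (nat_lit 0xf7c0f7a0f780f760de30de106) (nat_lit 0x1800008a700) (nat_lit 51))
 (.p (nat_lit 0x570288d02) (nat_lit 0x356221ca4000100040000) (nat_lit 49)))
 (.p (nat_lit 0x149a14961494149214900c5106) (nat_lit 0x8000014515) (nat_lit 51)))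
 (.n (.p (nat_lit 0x1e761e741e721e701e6e080706) (nat_lit 0x100000ca204) (nat_lit 52))
 (.p (nat_lit 0x15c815c615c415c015be1f6706) (nat_lit 0x200000e22f) (nat_lit 51)))))
 (.n (.n (.n (.n (.p (nat_lit 0x95409520950094c094a07b106) (nat_lit 0x20000c2300) (nat_lit 52))
 (.p (nat_lit 0x272b13c102) (nat_lit 0x180060000900) (nat_lit 41)))
 (.p (nat_lit 0xc4004d102) (nat_lit 0x20050e) (nat_lit 5)))
 (.n (.p (nat_lit 0xdb60db20db00dae0dac17cb06) (nat_lit 0x80000d0b02) (nat_lit 52))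
 (.p (nat_lit 0x20bc203b02) (nat_lit 0x500728) (nat_lit 4))))
 (.n (.n (.p (nat_lit 0x1527135b02) (nat_lit 0x404a00) (nat_lit 16))
 (.p (nat_lit 0x121a121612121210043d043906) (nat_lit 0xa0000d001c) (nat_lit 51)))
 (.n (.p (nat_lit 0x48e048a04880486048410f906) (nat_lit 0x8000042705) (nat_lit 52))
 (.p (nat_lit 0x281267302) (nat_lit 0x10032c) (nat_lit 28))))))
 (.n (.n (.n (.n (.n (.p (nat_lit 0x51605120510050e0012000900010515050d09) (nat_lit 0x2000200) (nat_lit 10))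
 (.p (nat_lit 0x273b0f4902) (nat_lit 0x80060000700) (nat_lit 40)))
 (.p (nat_lit 0x1ca81b8b02) (nat_lit 0x24020a) (nat_lit 5)))
 (.n (.p (nat_lit 0x14700f9102) (nat_lit 0x240902) (nat_lit 4))
 (.p (nat_lit 0x16e423d302) (nat_lit 0x500b23) (nat_lit 29))))
 (.n (.n (.p (nat_lit 0x1250124c1248124610b510b106) (nat_lit 0xa00004c800) (nat_lit 52))
 (.p (nat_lit 0x1ad819e902) (nat_lit 0x440517) (nat_lit 4)))
 (.n (.p (nat_lit 0x15bc15ba15b615b415b217e106) (nat_lit 0x400004cb04) (nat_lit 51))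
 (.p (nat_lit 0x128012601240120010f017b06) (nat_lit 0x2916311) (nat_lit 26)))))
 (.n (.n (.n (.n (.p (nat_lit 0x2bf0a6702) (nat_lit 0x200500) (nat_lit 15))
 (.p (nat_lit 0x1656284d02) (nat_lit 0x4a1a34344000500000600) (nat_lit 50)))
 (.p (nat_lit 0x1e101c5302) (nat_lit 0x440b11) (nat_lit 4)))
 (.n (.p (nat_lit 0xf230f1702) (nat_lit 0x254603) (nat_lit 16))
 (.p (nat_lit 0x8f00cbf02) (nat_lit 0x10032a) (nat_lit 4))))
 (.n (.n (.p (nat_lit 0xe6d15f902) (nat_lit 0x540b00) (nat_lit 15))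
 (.p (nat_lit 0x1ea193902) (nat_lit 0x100a1d) (nat_lit 1)))
 (.n (.p (nat_lit 0xf4c0f480f460f440f42120106) (nat_lit 0x800000e806) (nat_lit 51))
 (.p (nat_lit 0x268f27bb02) (nat_lit 0x240000000200) (nat_lit 36))))))

def c128_120 : Tr := .n c256_120 c256_248

def c64_56 : Tr := .n c128_56 c128_120

def c32_24 : Tr := .n c64_24 c64_56

def c16_8 : Tr := .n c32_8 c32_24

def c8_0 : Tr := .n c16_0 c16_8

def c256_4 : Tr :=
 .n (.n (.n (.n (.n (.n (.p (nat_lit 0x801) (nat_lit 0x400000) (nat_lit 0))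
 (.p (nat_lit 0x27b8066102) (nat_lit 0x200) (nat_lit 46)))
 (.p (nat_lit 0x21eb120102) (nat_lit 0x402806) (nat_lit 16)))
 (.n (.p (nat_lit 0x17af15f302) (nat_lit 0x248b00) (nat_lit 16))
 (.p (nat_lit 0x19521a3f02) (nat_lit 0x30001e) (nat_lit 5))))
 (.n (.n (.n (.p (nat_lit 0xc570a6502) (nat_lit 0x106500) (nat_lit 16))
 (.p (nat_lit 0xbb6284f02) (nat_lit 0x4a0d84344000500000000) (nat_lit 50)))
 (.p (nat_lit 0x135227902) (nat_lit 0x40512) (nat_lit 30)))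
 (.n (.p (nat_lit 0x156e126502) (nat_lit 0x400a03) (nat_lit 5))
 (.p (nat_lit 0x8f808f408f208ee0270025d025708f708f109) (nat_lit 0x210032a) (nat_lit 10)))))
 (.n (.n (.n (.n (.p (nat_lit 0x69606940692068e068c051106) (nat_lit 0x2000088200) (nat_lit 52))
 (.p (nat_lit 0x2723102302) (nat_lit 0x200060000700) (nat_lit 39)))
 (.p (nat_lit 0x1c3c1c3a1c381c361c341ca506) (nat_lit 0x8000ca20a) (nat_lit 52)))
 (.n (.p (nat_lit 0x147614721470146c005c004700411475146f09) (nat_lit 0x2140902) (nat_lit 10))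
 (.p (nat_lit 0x1f723d502) (nat_lit 0x40b23) (nat_lit 30))))
 (.n (.n (.p (nat_lit 0x128a128812861284128010af06) (nat_lit 0x10000d6800) (nat_lit 52))
 (.p (nat_lit 0x1ae019f102) (nat_lit 0x200917) (nat_lit 5)))
 (.n (.p (nat_lit 0x470149d02) (nat_lit 0x40005) (nat_lit 4))
 (.p (nat_lit 0x14e014c014a01440005010706) (nat_lit 0x110a015) (nat_lit 26))))))
 (.n (.n (.n (.n (.n (.p (nat_lit 0x390037902) (nat_lit 0x240000) (nat_lit 4))
 (.p (nat_lit 0x26ab0ba302) (nat_lit 0x80000000500) (nat_lit 38)))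
 (.p (nat_lit 0x8f308db02) (nat_lit 0x208307) (nat_lit 16)))
 (.n (.p (nat_lit 0x2b802b602b402b002ae146506) (nat_lit 0x2000040901) (nat_lit 51))
 (.p (nat_lit 0x6040af102) (nat_lit 0x240123) (nat_lit 4))))
 (.n (.n (.n (.p (nat_lit 0xfae0fac0faa0fa60fa40ddd06) (nat_lit 0x2000094700) (nat_lit 51))
 (.p (nat_lit 0xf40288f02) (nat_lit 0x356221ca4000100000600) (nat_lit 49)))
 (.p (nat_lit 0x1edb0c4b02) (nat_lit 0x112515) (nat_lit 16)))
 (.n (.p (nat_lit 0xb8e13ef02) (nat_lit 0x240404) (nat_lit 5))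
 (.p (nat_lit 0x23e1fd302) (nat_lit 0x30032f) (nat_lit 1)))))
 (.n (.n (.n (.n (.p (nat_lit 0x99107b102) (nat_lit 0x240300) (nat_lit 15))
 (.p (nat_lit 0x271913b502) (nat_lit 0x2a0060000900) (nat_lit 39)))
 (.p (nat_lit 0x2f402f002ee02ec02ea0c4506) (nat_lit 0x800008650e) (nat_lit 51)))
 (.n (.p (nat_lit 0x17d517c902) (nat_lit 0x352b02) (nat_lit 16))
 (.p (nat_lit 0x177617741770176e176c213f06) (nat_lit 0x4000012129) (nat_lit 52))))
 (.n (.n (.p (nat_lit 0x1555135902) (nat_lit 0x30ca00) (nat_lit 16))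
 (.p (nat_lit 0x5fd043d02) (nat_lit 0x44001c) (nat_lit 15)))
 (.n (.p (nat_lit 0x9e209e009de09dc09d810f306) (nat_lit 0x1000048705) (nat_lit 51))
 (.p (nat_lit 0x290267f02) (nat_lit 0x20092c) (nat_lit 27))))))

def c256_132 : Tr :=
 .n (.n (.n (.n (.n (.n (.p (nat_lit 0x19e01af02) (nat_lit 0x80060001c) (nat_lit 17))
 (.p (nat_lit 0x27cc081902) (nat_lit 0x40000300) (nat_lit 45)))
 (.p (nat_lit 0x10606f702) (nat_lit 0x100207) (nat_lit 1)))
 (.n (.p (nat_lit 0x11ea11e811e411e211e0002b11e707) (nat_lit 0x300801) (nat_lit 7))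
 (.p (nat_lit 0x9540950094e094c094a20db06) (nat_lit 0x80000c2721) (nat_lit 52))))
 (.n (.n (.n (.p (nat_lit 0xe330d6702) (nat_lit 0x12600) (nat_lit 16))
 (.p (nat_lit 0xc7e286f02) (nat_lit 0x588872b44000500040000) (nat_lit 49)))
 (.p (nat_lit 0x14b229702) (nat_lit 0x300415) (nat_lit 30)))
 (.n (.p (nat_lit 0x17d0128302) (nat_lit 0x140b03) (nat_lit 4))
 (.p (nat_lit 0x192618d702) (nat_lit 0x24092b) (nat_lit 5)))))
 (.n (.n (.n (.n (.p (nat_lit 0x821081502) (nat_lit 0x300) (nat_lit 34))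
 (.p (nat_lit 0x271f110d02) (nat_lit 0x240060000800) (nat_lit 38)))
 (.p (nat_lit 0x7740770076e076c076a09ad06) (nat_lit 0x800004a30e) (nat_lit 51)))
 (.n (.p (nat_lit 0x9d609d409d209ce09cc162f06) (nat_lit 0x2000048a02) (nat_lit 52))
 (.p (nat_lit 0x1ac21ac01abe1aba1ab8195b06) (nat_lit 0x2000084025) (nat_lit 52))))
 (.n (.n (.p (nat_lit 0x129412921290128e128c000b129707) (nat_lit 0x540900) (nat_lit 7))
 (.p (nat_lit 0x20921f8102) (nat_lit 0x54051a) (nat_lit 4)))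
 (.n (.p (nat_lit 0x177617721770176e176c0e4706) (nat_lit 0x8000012605) (nat_lit 52))
 (.p (nat_lit 0x25e260702) (nat_lit 0x500023) (nat_lit 27))))))
 (.n (.n (.n (.n (.n (.p (nat_lit 0x52d034d02) (nat_lit 0x408100) (nat_lit 16))
 (.p (nat_lit 0x26cb27f702) (nat_lit 0x180020000600) (nat_lit 36)))
 (.p (nat_lit 0xef0031902) (nat_lit 0x140607) (nat_lit 4)))
 (.n (.p (nat_lit 0x45199302) (nat_lit 0x300202) (nat_lit 30))
 (.p (nat_lit 0x2396239423922390238e238c020207) (nat_lit 0x40623) (nat_lit 8))))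
 (.n (.n (.n (.p (nat_lit 0x11030eeb02) (nat_lit 0x456700) (nat_lit 16))
 (.p (nat_lit 0x9e228ad02) (nat_lit 0x354a621b0000400000000) (nat_lit 50)))
 (.p (nat_lit 0x136006c902) (nat_lit 0x200915) (nat_lit 4)))
 (.n (.p (nat_lit 0xf4c0f460f440f420f270f2506) (nat_lit 0xc00004e604) (nat_lit 51))
 (.p (nat_lit 0x19624f902) (nat_lit 0x500205) (nat_lit 27)))))
 (.n (.n (.n (.n (.p (nat_lit 0xad00ace0acc0ac80997098f06) (nat_lit 0x11000040400) (nat_lit 51))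
 (.p (nat_lit 0x26c3172502) (nat_lit 0x200020000b00) (nat_lit 41)))
 (.p (nat_lit 0x1cb01bc102) (nat_lit 0x311) (nat_lit 4)))
 (.n (.p (nat_lit 0x6b1ced02) (nat_lit 0x200403) (nat_lit 30))
 (.p (nat_lit 0x7120bd702) (nat_lit 0x30022a) (nat_lit 4))))
 (.n (.n (.p (nat_lit 0x1672166e166c166a151d151906) (nat_lit 0x1400000eb00) (nat_lit 52))
 (.p (nat_lit 0xe0a087702) (nat_lit 0x10061c) (nat_lit 5)))
 (.n (.p (nat_lit 0x47e165d02) (nat_lit 0x140006) (nat_lit 4))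
 (.p (nat_lit 0x274702b702) (nat_lit 0x2c0080000000) (nat_lit 40))))))

def c128_4 : Tr := .n c256_4 c256_132

def c256_68 : Tr :=
 .n (.n (.n (.n (.n (.n (.p (nat_lit 0xa800a600a400ab04) (nat_lit 0x1c000400005) (nat_lit 17))
 (.p (nat_lit 0x2763066902) (nat_lit 0x100080000200) (nat_lit 40)))
 (.p (nat_lit 0xbb221902) (nat_lit 0x906) (nat_lit 30)))
 (.n (.p (nat_lit 0x182f061902) (nat_lit 0x48101) (nat_lit 16))
 (.p (nat_lit 0x1f361fed02) (nat_lit 0x500021) (nat_lit 5))))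
 (.n (.n (.n (.p (nat_lit 0xd3d0b4702) (nat_lit 0x250500) (nat_lit 16))
 (.p (nat_lit 0x910286302) (nat_lit 0x281d30344000300040000) (nat_lit 49)))
 (.p (nat_lit 0x14d228d02) (nat_lit 0x400015) (nat_lit 30)))
 (.n (.p (nat_lit 0x17041dd302) (nat_lit 0x300b03) (nat_lit 29))
 (.p (nat_lit 0x15460c1902) (nat_lit 0x200a2a) (nat_lit 5)))))
 (.n (.n (.n (.n (.p (nat_lit 0x74407420740073e073c073a06) (nat_lit 0x40200) (nat_lit 52))
 (.p (nat_lit 0x280c1da302) (nat_lit 0x44800) (nat_lit 48)))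
 (.p (nat_lit 0x225e225c225a225822562254011007) (nat_lit 0x30e) (nat_lit 8)))
 (.n (.p (nat_lit 0x12181216121412121210156506) (nat_lit 0x10000090a02) (nat_lit 51))
 (.p (nat_lit 0x18ee23f102) (nat_lit 0x200824) (nat_lit 29))))
 (.n (.n (.p (nat_lit 0x134413421340133e133c133a06) (nat_lit 0x16900) (nat_lit 52))
 (.p (nat_lit 0x119e119c119a119811961dad06) (nat_lit 0x100000d6518) (nat_lit 51)))
 (.n (.p (nat_lit 0x9c814bd02) (nat_lit 0x440305) (nat_lit 5))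
 (.p (nat_lit 0x1a601a401a2019e01d5000306) (nat_lit 0x290e01c) (nat_lit 26))))))
 (.n (.n (.n (.n (.n (.p (nat_lit 0x483039702) (nat_lit 0x556000) (nat_lit 16))
 (.p (nat_lit 0x27570bb702) (nat_lit 0x1c0080000500) (nat_lit 40)))
 (.p (nat_lit 0xe200e900e702ff03cb05) (nat_lit 0x44400407) (nat_lit 9)))
 (.n (.p (nat_lit 0x1565155902) (nat_lit 0x510a01) (nat_lit 16))
 (.p (nat_lit 0x7080b0102) (nat_lit 0x400223) (nat_lit 4))))
 (.n (.n (.n (.p (nat_lit 0xeea0ee80ee60ee40ee2000b0eed07) (nat_lit 0x540700) (nat_lit 7))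
 (.p (nat_lit 0x91a289f02) (nat_lit 0x354868ca4000300040000) (nat_lit 50)))
 (.p (nat_lit 0xe0022b902) (nat_lit 0x200615) (nat_lit 29)))
 (.n (.p (nat_lit 0x9e209de09dc09da09d80e3b06) (nat_lit 0x8000008604) (nat_lit 51))
 (.p (nat_lit 0x6724bd02) (nat_lit 0x3) (nat_lit 28)))))
 (.n (.n (.n (.n (.p (nat_lit 0xa1e0a1c0a1a0a180a1408cd06) (nat_lit 0x1000004400) (nat_lit 51))
 (.p (nat_lit 0x282c170d02) (nat_lit 0x20010a00) (nat_lit 47)))
 (.p (nat_lit 0x1c301c2e1c2c1c2a11c111bb06) (nat_lit 0x900000a80e) (nat_lit 52)))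
 (.n (.p (nat_lit 0x12a063b02) (nat_lit 0x540103) (nat_lit 1))
 (.p (nat_lit 0xda053702) (nat_lit 0x30012a) (nat_lit 1))))
 (.n (.n (.p (nat_lit 0x15d415d015ce15ca1445143f06) (nat_lit 0x90000cea00) (nat_lit 52))
 (.p (nat_lit 0x780077e077c077a077805f506) (nat_lit 0x8000ca11c) (nat_lit 52)))
 (.n (.p (nat_lit 0x13fe13fc13f813f613f411f306) (nat_lit 0x400000c805) (nat_lit 51))
 (.p (nat_lit 0x268727a502) (nat_lit 0x2c0000000000) (nat_lit 37))))))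

def c256_196 : Tr :=
 .n (.n (.n (.n (.n (.n (.p (nat_lit 0x2c002b502) (nat_lit 0x300000) (nat_lit 5))
 (.p (nat_lit 0x26a927d502) (nat_lit 0xa0000000400) (nat_lit 36)))
 (.p (nat_lit 0x7d907c102) (nat_lit 0x448207) (nat_lit 16)))
 (.n (.p (nat_lit 0x138e0dbd02) (nat_lit 0x200901) (nat_lit 4))
 (.p (nat_lit 0xbe60be20be00bde0bdc044906) (nat_lit 0x80000c4023) (nat_lit 51))))
 (.n (.n (.n (.p (nat_lit 0xed00ece0ecc0eca0e6d0e6b06) (nat_lit 0x18000054600) (nat_lit 52))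
 (.p (nat_lit 0xd52288102) (nat_lit 0x585a12b21000000000600) (nat_lit 49)))
 (.p (nat_lit 0xc4a069b02) (nat_lit 0x100515) (nat_lit 4)))
 (.n (.p (nat_lit 0x17e517d902) (nat_lit 0x554b03) (nat_lit 16))
 (.p (nat_lit 0x1c6a1d7102) (nat_lit 0x44012d) (nat_lit 4)))))
 (.n (.n (.n (.n (.p (nat_lit 0x8d306f102) (nat_lit 0x400300) (nat_lit 15))
 (.p (nat_lit 0x281c1e1702) (nat_lit 0x20006900) (nat_lit 47)))
 (.p (nat_lit 0xb640b620b600b5c0b5a01090b5f07) (nat_lit 0x24040e) (nat_lit 7)))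
 (.n (.p (nat_lit 0x1b381b361b341b321b301b2e004c16fd16fb16f30a) (nat_lit 0x16000b02) (nat_lit 31))
 (.p (nat_lit 0x1df41d0f02) (nat_lit 0x200b26) (nat_lit 4))))
 (.n (.n (.p (nat_lit 0x1358149702) (nat_lit 0x300a00) (nat_lit 5))
 (.p (nat_lit 0x36b035f02) (nat_lit 0x10a01c) (nat_lit 16)))
 (.n (.p (nat_lit 0x81e081c081808160814100b06) (nat_lit 0x4000006705) (nat_lit 52))
 (.p (nat_lit 0x215264502) (nat_lit 0x500a24) (nat_lit 28))))))
 (.n (.n (.n (.n (.n (.p (nat_lit 0x605042102) (nat_lit 0x248100) (nat_lit 16))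
 (.p (nat_lit 0x27fe12ad02) (nat_lit 0x56700) (nat_lit 48)))
 (.p (nat_lit 0x16f116b902) (nat_lit 0x508b07) (nat_lit 16)))
 (.n (.p (nat_lit 0x1aa21a9e1a9c1a9a1a980c6906) (nat_lit 0x8000014502) (nat_lit 51))
 (.p (nat_lit 0x137c23bb02) (nat_lit 0x500923) (nat_lit 29))))
 (.n (.n (.n (.p (nat_lit 0x11d90fc902) (nat_lit 0x8800) (nat_lit 16))
 (.p (nat_lit 0xe5828bf02) (nat_lit 0x3503a8d84000000040600) (nat_lit 50)))
 (.p (nat_lit 0x16d516c902) (nat_lit 0x308b15) (nat_lit 16)))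
 (.n (.p (nat_lit 0x171417121710170e170c007d170b07) (nat_lit 0xb04) (nat_lit 7))
 (.p (nat_lit 0xf1253102) (nat_lit 0x20020a) (nat_lit 28)))))
 (.n (.n (.n (.n (.p (nat_lit 0xbb20ba60a6703) (nat_lit 0x200500) (nat_lit 6))
 (.p (nat_lit 0xab6283f02) (nat_lit 0x4a1a22344000400040000) (nat_lit 49)))
 (.p (nat_lit 0x1d96226d02) (nat_lit 0x40511) (nat_lit 29)))
 (.n (.p (nat_lit 0xe2c124d02) (nat_lit 0x300603) (nat_lit 4))
 (.p (nat_lit 0x7da07d607d407d207d0025d07d907) (nat_lit 0x44022a) (nat_lit 7))))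
 (.n (.n (.p (nat_lit 0x15f4172902) (nat_lit 0x340b00) (nat_lit 5))
 (.p (nat_lit 0x1fcc1fca1fc81fc41535152d06) (nat_lit 0x1100008ea1c) (nat_lit 51)))
 (.n (.p (nat_lit 0x1100174f02) (nat_lit 0x340706) (nat_lit 5))
 (.p (nat_lit 0x271b049702) (nat_lit 0x280060000100) (nat_lit 40))))))

def c128_68 : Tr := .n c256_68 c256_196

def c64_4 : Tr := .n c128_4 c128_68

def c256_36 : Tr :=
 .n (.n (.n (.n (.n (.n (.p (nat_lit 0x5d0055004c03) (nat_lit 0x80800002) (nat_lit 19))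
 (.p (nat_lit 0x270f27bf02) (nat_lit 0x40040000200) (nat_lit 37)))
 (.p (nat_lit 0x82a082808260822082012c906) (nat_lit 0x2000046806) (nat_lit 51)))
 (.n (.p (nat_lit 0x53c0e7902) (nat_lit 0x100101) (nat_lit 5))
 (.p (nat_lit 0x1d8e1cd502) (nat_lit 0x10051f) (nat_lit 5))))
 (.n (.n (.n (.p (nat_lit 0xcba0cb80cb60cb40cb20cb006) (nat_lit 0xc4500) (nat_lit 52))
 (.p (nat_lit 0x1656285902) (nat_lit 0x4a8874b44000500000600) (nat_lit 50)))
 (.p (nat_lit 0x21e8214b02) (nat_lit 0x300814) (nat_lit 5)))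
 (.n (.p (nat_lit 0x1640118902) (nat_lit 0x540a03) (nat_lit 4))
 (.p (nat_lit 0xe1e0c0502) (nat_lit 0x20062a) (nat_lit 4)))))
 (.n (.n (.n (.n (.p (nat_lit 0x705051102) (nat_lit 0x208200) (nat_lit 16))
 (.p (nat_lit 0x26ad111302) (nat_lit 0x60000000800) (nat_lit 40)))
 (.p (nat_lit 0x1de21b6f02) (nat_lit 0x500b0a) (nat_lit 5)))
 (.n (.p (nat_lit 0x2ac02aa02a802a402a2155f06) (nat_lit 0x2000000a02) (nat_lit 52))
 (.p (nat_lit 0x18381836183418321830020b182f07) (nat_lit 0x40124) (nat_lit 7))))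
 (.n (.n (.p (nat_lit 0x11a212dd02) (nat_lit 0x900) (nat_lit 5))
 (.p (nat_lit 0x7740770076e076c076a1b1f06) (nat_lit 0x800004aa17) (nat_lit 51)))
 (.n (.p (nat_lit 0x810080e080c080800b800a900a10813080b09) (nat_lit 0x2940205) (nat_lit 10))
 (.p (nat_lit 0x18a259b02) (nat_lit 0x200915) (nat_lit 27))))))
 (.n (.n (.n (.n (.n (.p (nat_lit 0x41a041804160414038f038d06) (nat_lit 0x18000d6000) (nat_lit 52))
 (.p (nat_lit 0x270b27eb02) (nat_lit 0x80040000500) (nat_lit 36)))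
 (.p (nat_lit 0xd580d560d540d520d50099906) (nat_lit 0x80004c307) (nat_lit 52)))
 (.n (.p (nat_lit 0x1627146902) (nat_lit 0x440901) (nat_lit 15))
 (.p (nat_lit 0xe540e520e500e4e0e4c060106) (nat_lit 0x8000cc123) (nat_lit 52))))
 (.n (.n (.n (.p (nat_lit 0x10130ddb02) (nat_lit 0x116700) (nat_lit 16))
 (.p (nat_lit 0x1646289502) (nat_lit 0x356068ca4000500000600) (nat_lit 49)))
 (.p (nat_lit 0xd640d620d600d5e0d5a0d0d06) (nat_lit 0x100004c515) (nat_lit 51)))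
 (.n (.p (nat_lit 0xe3c0e3a0e360e340e3200830e3907) (nat_lit 0x300604) (nat_lit 7))
 (.p (nat_lit 0x249a24982496249424920005003007) (nat_lit 0x214801) (nat_lit 25)))))
 (.n (.n (.n (.n (.p (nat_lit 0x8ce09d102) (nat_lit 0x200400) (nat_lit 4))
 (.p (nat_lit 0x268d282902) (nat_lit 0x260000000a00) (nat_lit 37)))
 (.p (nat_lit 0xdfa0df80df40df20df0010b0df707) (nat_lit 0x30060e) (nat_lit 7)))
 (.n (.p (nat_lit 0x54e1bbd02) (nat_lit 0x400103) (nat_lit 29))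
 (.p (nat_lit 0x21fe21b302) (nat_lit 0x300829) (nat_lit 4))))
 (.n (.n (.p (nat_lit 0x1585157902) (nat_lit 0x340a00) (nat_lit 34))
 (.p (nat_lit 0x68a0688068606840682051906) (nat_lit 0x80000811c) (nat_lit 52)))
 (.n (.p (nat_lit 0x110510fb02) (nat_lit 0x54c705) (nat_lit 16))
 (.p (nat_lit 0x26a3037502) (nat_lit 0x100000000000) (nat_lit 39))))))

def c256_164 : Tr :=
 .n (.n (.n (.n (.n (.n (.p (nat_lit 0x25e0254026303) (nat_lit 0x1080050002a) (nat_lit 17))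
 (.p (nat_lit 0x276f081d02) (nat_lit 0x40080000300) (nat_lit 38)))
 (.p (nat_lit 0x71506fd02) (nat_lit 0x408207) (nat_lit 16)))
 (.n (.p (nat_lit 0x12b40db502) (nat_lit 0x440801) (nat_lit 4))
 (.p (nat_lit 0x372235b02) (nat_lit 0x500023) (nat_lit 29))))
 (.n (.n (.n (.p (nat_lit 0x2e0e6d02) (nat_lit 0x540600) (nat_lit 1))
 (.p (nat_lit 0x654287902) (nat_lit 0x588bb0344000200000000) (nat_lit 49)))
 (.p (nat_lit 0x14922a102) (nat_lit 0x240415) (nat_lit 30)))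
 (.n (.p (nat_lit 0xbaa0ba80ba60ba40ba217d906) (nat_lit 0x1000004ab03) (nat_lit 52))
 (.p (nat_lit 0x2541aff02) (nat_lit 0xa2c) (nat_lit 1)))))
 (.n (.n (.n (.n (.p (nat_lit 0x8320830082e082c06f306f106) (nat_lit 0x18000000300) (nat_lit 52))
 (.p (nat_lit 0x26b1281902) (nat_lit 0x20000000900) (nat_lit 36)))
 (.p (nat_lit 0xe540e520e500e4e0e4c0a7b06) (nat_lit 0x80008c40e) (nat_lit 52)))
 (.n (.p (nat_lit 0x1b1f163302) (nat_lit 0x444a02) (nat_lit 16))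
 (.p (nat_lit 0x1bfa1cfb02) (nat_lit 0x300126) (nat_lit 4))))
 (.n (.n (.p (nat_lit 0x143a1438143614301291128f06) (nat_lit 0x30000d6900) (nat_lit 51))
 (.p (nat_lit 0x81e0818081608140365036306) (nat_lit 0xc00000601c) (nat_lit 52)))
 (.n (.p (nat_lit 0x1696169416921690168c0f2d06) (nat_lit 0x10000d0605) (nat_lit 51))
 (.p (nat_lit 0x234262702) (nat_lit 0x500823) (nat_lit 27))))))
 (.n (.n (.n (.n (.n (.p (nat_lit 0x424057b02) (nat_lit 0x440100) (nat_lit 5))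
 (.p (nat_lit 0x274b0e5f02) (nat_lit 0x280080000600) (nat_lit 41)))
 (.p (nat_lit 0x15fc032902) (nat_lit 0x140a07) (nat_lit 5)))
 (.n (.p (nat_lit 0x19d619d419d219d019ce07ef06) (nat_lit 0x100000c8202) (nat_lit 51))
 (.p (nat_lit 0x1fd239f02) (nat_lit 0x300823) (nat_lit 30))))
 (.n (.n (.n (.p (nat_lit 0x116611641160115e0fcf0fc906) (nat_lit 0x480000c800) (nat_lit 51))
 (.p (nat_lit 0x120628b502) (nat_lit 0x3503a8d64000200040600) (nat_lit 49)))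
 (.p (nat_lit 0x14522fd02) (nat_lit 0xa15) (nat_lit 30)))
 (.n (.p (nat_lit 0x10e4141902) (nat_lit 0x40704) (nat_lit 4))
 (.p (nat_lit 0xa800a400a200a0007d000906) (nat_lit 0x410705) (nat_lit 26)))))
 (.n (.n (.n (.n (.p (nat_lit 0xb55099302) (nat_lit 0x340400) (nat_lit 16))
 (.p (nat_lit 0x2749172b02) (nat_lit 0x2a0080000b00) (nat_lit 41)))
 (.p (nat_lit 0x1d581bd502) (nat_lit 0x140411) (nat_lit 5)))
 (.n (.p (nat_lit 0x1d510b8102) (nat_lit 0x140403) (nat_lit 16))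
 (.p (nat_lit 0x1110110e110c110a1108070d06) (nat_lit 0x80001022a) (nat_lit 52))))
 (.n (.n (.p (nat_lit 0x16eb151702) (nat_lit 0x20ab00) (nat_lit 16))
 (.p (nat_lit 0x145a089d02) (nat_lit 0x34091c) (nat_lit 4)))
 (.n (.p (nat_lit 0x1014166f02) (nat_lit 0x200706) (nat_lit 4))
 (.p (nat_lit 0x26f5048902) (nat_lit 0x1e0040000100) (nat_lit 38))))))

def c128_36 : Tr := .n c256_36 c256_164

def c256_100 : Tr :=
 .n (.n (.n (.n (.n (.n (.p (nat_lit 0x13c01380136013f04) (nat_lit 0x13000400012) (nat_lit 17))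
 (.p (nat_lit 0x27c80b6702) (nat_lit 0x42300) (nat_lit 48)))
 (.p (nat_lit 0xbd222702) (nat_lit 0x140906) (nat_lit 30)))
 (.n (.p (nat_lit 0xaad0a9b02) (nat_lit 0x414401) (nat_lit 16))
 (.p (nat_lit 0x20aa1fbd02) (nat_lit 0x200721) (nat_lit 5))))
 (.n (.n (.n (.p (nat_lit 0xdc20dc00dbe0dbc0db80d6906) (nat_lit 0x1000012600) (nat_lit 52))
 (.p (nat_lit 0x56a286b02) (nat_lit 0x281d30342800100040000) (nat_lit 49)))
 (.p (nat_lit 0x430042e042c042a0428014f043307) (nat_lit 0x540015) (nat_lit 7)))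
 (.n (.p (nat_lit 0xbb80bb60bb20bb00bae170506) (nat_lit 0x400000ab03) (nat_lit 51))
 (.p (nat_lit 0x16e60c2702) (nat_lit 0xb2a) (nat_lit 4)))))
 (.n (.n (.n (.n (.p (nat_lit 0x7b705f302) (nat_lit 0x540200) (nat_lit 15))
 (.p (nat_lit 0x26f3281502) (nat_lit 0x200040000800) (nat_lit 36)))
 (.p (nat_lit 0x780077e077c0778077608e706) (nat_lit 0x200008a30e) (nat_lit 52)))
 (.n (.p (nat_lit 0x1630108f02) (nat_lit 0x340a02) (nat_lit 4))
 (.p (nat_lit 0x1940188902) (nat_lit 0xa24) (nat_lit 4))))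
 (.n (.n (.p (nat_lit 0x139d11a902) (nat_lit 0x30e900) (nat_lit 16))
 (.p (nat_lit 0x1ef61e7902) (nat_lit 0x540519) (nat_lit 4)))
 (.n (.p (nat_lit 0xd4614c302) (nat_lit 0x240505) (nat_lit 4))
 (.p (nat_lit 0x1c801c601c401c201ef002506) (nat_lit 0x181401d) (nat_lit 26))))))
 (.n (.n (.n (.n (.n (.p (nat_lit 0x4b204b004ac04aa04a8034b06) (nat_lit 0x4000086100) (nat_lit 52))
 (.p (nat_lit 0x269f0d4f02) (nat_lit 0x140000000600) (nat_lit 38)))
 (.p (nat_lit 0xb56030b02) (nat_lit 0x440407) (nat_lit 5)))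
 (.n (.p (nat_lit 0x45e103d02) (nat_lit 0x540002) (nat_lit 4))
 (.p (nat_lit 0x83608340830082e082c07cb06) (nat_lit 0x4000040223) (nat_lit 52))))
 (.n (.n (.n (.p (nat_lit 0x10aa10a810a610a00ee70ee506) (nat_lit 0x30000d6700) (nat_lit 52))
 (.p (nat_lit 0xd5c28a902) (nat_lit 0x350521a84000000000600) (nat_lit 50)))
 (.p (nat_lit 0x10cc22d102) (nat_lit 0x240715) (nat_lit 29)))
 (.n (.p (nat_lit 0xf26132102) (nat_lit 0x440604) (nat_lit 5))
 (.p (nat_lit 0x70006e006800660007004306) (nat_lit 0x1a16603) (nat_lit 26)))))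
 (.n (.n (.n (.n (.p (nat_lit 0xa8b08cf02) (nat_lit 0x204400) (nat_lit 16))
 (.p (nat_lit 0x2767283502) (nat_lit 0xc0080000a00) (nat_lit 36)))
 (.p (nat_lit 0xe760e740e720e700e6e189906) (nat_lit 0x200008040f) (nat_lit 52)))
 (.n (.p (nat_lit 0x7f81c8b02) (nat_lit 0x440203) (nat_lit 29))
 (.p (nat_lit 0x60e244302) (nat_lit 0x14012a) (nat_lit 29))))
 (.n (.n (.p (nat_lit 0x162f144102) (nat_lit 0x24ea00) (nat_lit 16))
 (.p (nat_lit 0x3650c5d02) (nat_lit 0x40051c) (nat_lit 15)))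
 (.n (.p (nat_lit 0x12bc210d02) (nat_lit 0x240805) (nat_lit 29))
 (.p (nat_lit 0x26b9038302) (nat_lit 0x2a0020000000) (nat_lit 41))))))

def c256_228 : Tr :=
 .n (.n (.n (.n (.n (.n (.p (nat_lit 0x30002fc02fa02f802f602c306) (nat_lit 0x8000008000) (nat_lit 51))
 (.p (nat_lit 0x26cb27d902) (nat_lit 0x180020000400) (nat_lit 37)))
 (.p (nat_lit 0x918091609140912090e08d906) (nat_lit 0x1000086307) (nat_lit 52)))
 (.n (.p (nat_lit 0xf4a0f480f460f440f42139506) (nat_lit 0x1000000e901) (nat_lit 51))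
 (.p (nat_lit 0x9d609d409d209d009cc052706) (nat_lit 0x1000008123) (nat_lit 52))))
 (.n (.n (.n (.p (nat_lit 0xdda0f3902) (nat_lit 0x100700) (nat_lit 4))
 (.p (nat_lit 0x1572288502) (nat_lit 0x344580a64000400040600) (nat_lit 49)))
 (.p (nat_lit 0x92409220920091c091a0c4d06) (nat_lit 0x2000086515) (nat_lit 51)))
 (.n (.p (nat_lit 0x8a0097009512fb13e105) (nat_lit 0x8a940204) (nat_lit 9))
 (.p (nat_lit 0x1322131e131c131a13181e5306) (nat_lit 0x800008c22e) (nat_lit 51)))))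
 (.n (.n (.n (.n (.p (nat_lit 0x921091502) (nat_lit 0x340300) (nat_lit 34))
 (.p (nat_lit 0x281e13b302) (nat_lit 0x40040900) (nat_lit 45)))
 (.p (nat_lit 0x12da12d812d612d412d00b5d06) (nat_lit 0x100005240e) (nat_lit 52)))
 (.n (.p (nat_lit 0x451b4102) (nat_lit 0x340b02) (nat_lit 30))
 (.p (nat_lit 0x1f601f5e1f5a1f581f56023f1f5d07) (nat_lit 0x340128) (nat_lit 7))))
 (.n (.n (.p (nat_lit 0x15041502150014fa1357135506) (nat_lit 0x3000010a00) (nat_lit 51))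
 (.p (nat_lit 0x43e043a0436043401ba01a701a3043d043909) (nat_lit 0x224001c) (nat_lit 10)))
 (.n (.p (nat_lit 0x10f415cf02) (nat_lit 0x240705) (nat_lit 4))
 (.p (nat_lit 0xde266502) (nat_lit 0x50012a) (nat_lit 27))))))
 (.n (.n (.n (.n (.n (.p (nat_lit 0x663065702) (nat_lit 0x100200) (nat_lit 34))
 (.p (nat_lit 0x26ed280502) (nat_lit 0x260040000700) (nat_lit 36)))
 (.p (nat_lit 0x17bf178d02) (nat_lit 0x448b07) (nat_lit 16)))
 (.n (.p (nat_lit 0x13a0106f02) (nat_lit 0x500902) (nat_lit 5))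
 (.p (nat_lit 0x23d223d023ce23cc23ca23c8020207) (nat_lit 0xb23) (nat_lit 8))))
 (.n (.n (.n (.p (nat_lit 0x10b610b410b010ae10ac000710b307) (nat_lit 0x340800) (nat_lit 7))
 (.p (nat_lit 0xc7a28c302) (nat_lit 0x3508a9d84000500040000) (nat_lit 49)))
 (.p (nat_lit 0x1aa8199d02) (nat_lit 0x200517) (nat_lit 4)))
 (.n (.p (nat_lit 0xe39171102) (nat_lit 0x300b04) (nat_lit 15))
 (.p (nat_lit 0x10a010801060104013d000906) (nat_lit 0x2c1240e) (nat_lit 26)))))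
 (.n (.n (.n (.n (.p (nat_lit 0xbd80bd40bd20bd00a6d0a6906) (nat_lit 0x14000004500) (nat_lit 52))
 (.p (nat_lit 0x56a284902) (nat_lit 0x4a1a36344000100040000) (nat_lit 49)))
 (.p (nat_lit 0x12e013301311be51c4705) (nat_lit 0x44400b11) (nat_lit 9)))
 (.n (.p (nat_lit 0xf18125902) (nat_lit 0x340603) (nat_lit 4))
 (.p (nat_lit 0x121812161214121007db07d306) (nat_lit 0x110000d022a) (nat_lit 51))))
 (.n (.n (.p (nat_lit 0x176a176617641762176015f706) (nat_lit 0x80000d0b00) (nat_lit 52))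
 (.p (nat_lit 0x16d6098b02) (nat_lit 0x400b1c) (nat_lit 5)))
 (.n (.p (nat_lit 0x2b602b402b002ae120311fd06) (nat_lit 0x12000000806) (nat_lit 51))
 (.p (nat_lit 0x2793057d02) (nat_lit 0x1000a0000100) (nat_lit 41))))))

def c128_100 : Tr := .n c256_100 c256_228

def c64_36 : Tr := .n c128_36 c128_100

def c32_4 : Tr := .n c64_4 c64_36

def c256_20 : Tr :=
 .n (.n (.n (.n (.n (.n (.p (nat_lit 0x480044003e004b04) (nat_lit 0x14800400002) (nat_lit 17))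
 (.p (nat_lit 0x26d7066302) (nat_lit 0xc0020000200) (nat_lit 40)))
 (.p (nat_lit 0x12cc169502) (nat_lit 0x440806) (nat_lit 5)))
 (.n (.p (nat_lit 0x17e115f502) (nat_lit 0x352b00) (nat_lit 16))
 (.p (nat_lit 0x1af41a2502) (nat_lit 0x100a1e) (nat_lit 4))))
 (.n (.n (.n (.p (nat_lit 0xb460c8702) (nat_lit 0x240500) (nat_lit 5))
 (.p (nat_lit 0xf48285702) (nat_lit 0x4a8876344000100000600) (nat_lit 50)))
 (.p (nat_lit 0x13820f902) (nat_lit 0x200813) (nat_lit 1)))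
 (.n (.p (nat_lit 0x1638118102) (nat_lit 0x140a03) (nat_lit 4))
 (.p (nat_lit 0x9b60ccd02) (nat_lit 0x34032a) (nat_lit 4)))))
 (.n (.n (.n (.n (.p (nat_lit 0x6c406c206c006bc06ba051106) (nat_lit 0x2000010200) (nat_lit 52))
 (.p (nat_lit 0x278f103302) (nat_lit 0x1400a0000700) (nat_lit 41)))
 (.p (nat_lit 0x1250124c124a124812461ce506) (nat_lit 0x800004c30a) (nat_lit 52)))
 (.n (.p (nat_lit 0x156415621560155e155a0041155d07) (nat_lit 0x100a02) (nat_lit 7))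
 (.p (nat_lit 0x1806186902) (nat_lit 0x124) (nat_lit 4))))
 (.n (.n (.p (nat_lit 0x12af10af02) (nat_lit 0x14c800) (nat_lit 16))
 (.p (nat_lit 0x1461b1902) (nat_lit 0x140a17) (nat_lit 1)))
 (.n (.p (nat_lit 0x64a159102) (nat_lit 0x540105) (nat_lit 5))
 (.p (nat_lit 0x16a258302) (nat_lit 0x200715) (nat_lit 27))))))
 (.n (.n (.n (.n (.n (.p (nat_lit 0x3b403b203b003ac03aa039106) (nat_lit 0x2000046000) (nat_lit 51))
 (.p (nat_lit 0x27e2044102) (nat_lit 0x46500) (nat_lit 48)))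
 (.p (nat_lit 0x9a003bf02) (nat_lit 0x440307) (nat_lit 4)))
 (.n (.p (nat_lit 0x916091409120910090e146b06) (nat_lit 0x100000c6901) (nat_lit 52))
 (.p (nat_lit 0x2ac02aa02a802a402a2060506) (nat_lit 0x2000040123) (nat_lit 52))))
 (.n (.n (.n (.p (nat_lit 0xfdf0ddd02) (nat_lit 0x202700) (nat_lit 16))
 (.p (nat_lit 0x730289302) (nat_lit 0x354221ca4000200040000) (nat_lit 50)))
 (.p (nat_lit 0x2b802b602b402b202b00d0b06) (nat_lit 0x800040515) (nat_lit 51)))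
 (.n (.p (nat_lit 0x1ec01ebe1ebc1eba1eb80b9306) (nat_lit 0x8000056404) (nat_lit 51))
 (.p (nat_lit 0x20e4208702) (nat_lit 0x34072f) (nat_lit 5)))))
 (.n (.n (.n (.n (.p (nat_lit 0x9bf07b102) (nat_lit 0x250300) (nat_lit 16))
 (.p (nat_lit 0x26b3282702) (nat_lit 0xa00) (nat_lit 36)))
 (.p (nat_lit 0xd0604df02) (nat_lit 0x44050e) (nat_lit 5)))
 (.n (.p (nat_lit 0x5461bb502) (nat_lit 0x103) (nat_lit 29))
 (.p (nat_lit 0x21c8242f02) (nat_lit 0x300729) (nat_lit 29))))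
 (.n (.n (.p (nat_lit 0x1446144414421440143e0001143d07) (nat_lit 0x40a00) (nat_lit 7))
 (.p (nat_lit 0x51c094302) (nat_lit 0x20011c) (nat_lit 4)))
 (.n (.p (nat_lit 0x121a121812141212121010f706) (nat_lit 0x40000d0705) (nat_lit 51))
 (.p (nat_lit 0x26b102af02) (nat_lit 0x20000000000) (nat_lit 40))))))

def c256_148 : Tr :=
 .n (.n (.n (.n (.n (.n (.p (nat_lit 0x1fa01f6020503) (nat_lit 0x2800500023) (nat_lit 17))
 (.p (nat_lit 0x272b082702) (nat_lit 0x180060000300) (nat_lit 40)))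
 (.p (nat_lit 0x4a604a404a0049e049c06fb06) (nat_lit 0x4000006207) (nat_lit 52)))
 (.n (.p (nat_lit 0x11fd11e502) (nat_lit 0x214801) (nat_lit 16))
 (.p (nat_lit 0x3680ac902) (nat_lit 0x23) (nat_lit 5))))
 (.n (.n (.n (.p (nat_lit 0xe590e4d02) (nat_lit 0x140600) (nat_lit 34))
 (.p (nat_lit 0xd4e287702) (nat_lit 0x568872b44000000000600) (nat_lit 49)))
 (.p (nat_lit 0x8720870086c086a08680a8d06) (nat_lit 0x400008a415) (nat_lit 52)))
 (.n (.p (nat_lit 0x2b802b402b202b002ae17d706) (nat_lit 0x8000040b03) (nat_lit 51))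
 (.p (nat_lit 0xf960f940f900f8e0f8c19bf06) (nat_lit 0x400009222c) (nat_lit 52)))))
 (.n (.n (.n (.n (.p (nat_lit 0x1a606f102) (nat_lit 0x400300) (nat_lit 1))
 (.p (nat_lit 0x2765111b02) (nat_lit 0xe0080000800) (nat_lit 40)))
 (.p (nat_lit 0x2ac02aa02a802a602a40a7b06) (nat_lit 0x80000040e) (nat_lit 52)))
 (.n (.p (nat_lit 0x1110110e110a11081106163106) (nat_lit 0x4000050a02) (nat_lit 52))
 (.p (nat_lit 0x1b261a5d02) (nat_lit 0x240a25) (nat_lit 4))))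
 (.n (.n (.p (nat_lit 0x140a1406140414021400129506) (nat_lit 0x80000cc900) (nat_lit 52))
 (.p (nat_lit 0x36603640362035e035c01a3036107) (nat_lit 0x20001c) (nat_lit 7)))
 (.n (.p (nat_lit 0xf2e14db02) (nat_lit 0x240605) (nat_lit 4))
 (.p (nat_lit 0x201261102) (nat_lit 0x500223) (nat_lit 28))))))
 (.n (.n (.n (.n (.n (.p (nat_lit 0x561034b02) (nat_lit 0x314100) (nat_lit 16))
 (.p (nat_lit 0x270f27f902) (nat_lit 0x40040000600) (nat_lit 37)))
 (.p (nat_lit 0x10bc03f102) (nat_lit 0x440707) (nat_lit 5)))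
 (.n (.p (nat_lit 0x7e80f6502) (nat_lit 0x240202) (nat_lit 4))
 (.p (nat_lit 0xff00b1302) (nat_lit 0x200723) (nat_lit 4))))
 (.n (.n (.n (.p (nat_lit 0xfce111902) (nat_lit 0x300800) (nat_lit 5))
 (.p (nat_lit 0xd4e28b302) (nat_lit 0x352868d84000000000600) (nat_lit 49)))
 (.p (nat_lit 0x14521450144e144c14480147144b07) (nat_lit 0x140915) (nat_lit 7)))
 (.n (.p (nat_lit 0xffc141102) (nat_lit 0x200704) (nat_lit 4))
 (.p (nat_lit 0xa800a400a2009e0003024106) (nat_lit 0xc0e405) (nat_lit 26)))))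
 (.n (.n (.n (.n (.p (nat_lit 0xb000afe0afc0afa0af8099706) (nat_lit 0x10000044400) (nat_lit 52))
 (.p (nat_lit 0x2838162302) (nat_lit 0x4004eb00) (nat_lit 47)))
 (.p (nat_lit 0x1d1c1c1902) (nat_lit 0x300411) (nat_lit 5)))
 (.n (.p (nat_lit 0x6b1d2702) (nat_lit 0x240403) (nat_lit 30))
 (.p (nat_lit 0x81c081a081808160814071706) (nat_lit 0x1000000622a) (nat_lit 52))))
 (.n (.n (.p (nat_lit 0x16b3151702) (nat_lit 0x200b00) (nat_lit 16))
 (.p (nat_lit 0x1d811d702) (nat_lit 0x40081c) (nat_lit 1)))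
 (.n (.p (nat_lit 0xaaa166702) (nat_lit 0x300406) (nat_lit 5))
 (.p (nat_lit 0x27ac1e0902) (nat_lit 0x50100) (nat_lit 47))))))

def c128_20 : Tr := .n c256_20 c256_148

def c256_84 : Tr :=
 .n (.n (.n (.n (.n (.n (.p (nat_lit 0xeb00e900e203) (nat_lit 0x21a00007) (nat_lit 19))
 (.p (nat_lit 0x274f27c702) (nat_lit 0x240080000200) (nat_lit 36)))
 (.p (nat_lit 0x13ac222302) (nat_lit 0x500906) (nat_lit 29)))
 (.n (.p (nat_lit 0xa920d8f02) (nat_lit 0x401) (nat_lit 5))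
 (.p (nat_lit 0x1f421f401f3c1f3a1f3801e11f3f07) (nat_lit 0x340021) (nat_lit 7))))
 (.n (.n (.n (.p (nat_lit 0xd6e0d6302) (nat_lit 0x400600) (nat_lit 5))
 (.p (nat_lit 0xc86286502) (nat_lit 0x281d30346800500040000) (nat_lit 50)))
 (.p (nat_lit 0x428074702) (nat_lit 0x40015) (nat_lit 4)))
 (.n (.p (nat_lit 0x570056e056c05680566170306) (nat_lit 0x2000082b03) (nat_lit 52))
 (.p (nat_lit 0x16160c2102) (nat_lit 0x240a2a) (nat_lit 5)))))
 (.n (.n (.n (.n (.p (nat_lit 0x77407720770076e076a05eb06) (nat_lit 0x100004a200) (nat_lit 51))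
 (.p (nat_lit 0x26c3110902) (nat_lit 0x200020000800) (nat_lit 38)))
 (.p (nat_lit 0x10b225b02) (nat_lit 0x30030e) (nat_lit 30)))
 (.n (.p (nat_lit 0x1b05156102) (nat_lit 0x30aa02) (nat_lit 16))
 (.p (nat_lit 0x190c187f02) (nat_lit 0x924) (nat_lit 5))))
 (.n (.n (.p (nat_lit 0x136911a502) (nat_lit 0x106900) (nat_lit 16))
 (.p (nat_lit 0x130012fe12fa12f81ee31edd06) (nat_lit 0x12000084519) (nat_lit 51)))
 (.n (.p (nat_lit 0xa3201d02) (nat_lit 0x240405) (nat_lit 30))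
 (.p (nat_lit 0x1a925c902) (nat_lit 0x50051c) (nat_lit 28))))))
 (.n (.n (.n (.n (.n (.p (nat_lit 0x496048a034b03) (nat_lit 0x300100) (nat_lit 6))
 (.p (nat_lit 0x27f00b5902) (nat_lit 0xa0042500) (nat_lit 47)))
 (.p (nat_lit 0xc3a0c380c360c340c320a7106) (nat_lit 0x1000096407) (nat_lit 52)))
 (.n (.p (nat_lit 0x1626162416221620161e002f162907) (nat_lit 0x540a01) (nat_lit 7))
 (.p (nat_lit 0x7c60a2102) (nat_lit 0x140223) (nat_lit 5))))
 (.n (.n (.n (.p (nat_lit 0x108610821080107e107c0eeb06) (nat_lit 0x8000054700) (nat_lit 51))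
 (.p (nat_lit 0xbb428a102) (nat_lit 0x340a621b0000500000000) (nat_lit 50)))
 (.p (nat_lit 0xfe822c702) (nat_lit 0x300715) (nat_lit 29)))
 (.n (.p (nat_lit 0x1f090e3702) (nat_lit 0x204604) (nat_lit 16))
 (.p (nat_lit 0x24d024ce24cc24c824c60139007207) (nat_lit 0x214103) (nat_lit 25)))))
 (.n (.n (.n (.n (.p (nat_lit 0xa6b08d302) (nat_lit 0x400400) (nat_lit 15))
 (.p (nat_lit 0x26e5282f02) (nat_lit 0x2e0040000a00) (nat_lit 36)))
 (.p (nat_lit 0x16be050502) (nat_lit 0x200b0e) (nat_lit 5)))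
 (.n (.p (nat_lit 0x1c6d063b02) (nat_lit 0x54a103) (nat_lit 16))
 (.p (nat_lit 0x2dc02da02d802d402d2053506) (nat_lit 0x200008412a) (nat_lit 52))))
 (.n (.n (.p (nat_lit 0x15f1143f02) (nat_lit 0x140a00) (nat_lit 15))
 (.p (nat_lit 0xc5a095d02) (nat_lit 0x30051c) (nat_lit 5)))
 (.n (.p (nat_lit 0x120111f502) (nat_lit 0x40c805) (nat_lit 16))
 (.p (nat_lit 0x26d127a702) (nat_lit 0x120020000000) (nat_lit 36))))))

def c256_212 : Tr :=
 .n (.n (.n (.n (.n (.n (.p (nat_lit 0x2dc02da02d802d602d402bb06) (nat_lit 0x800084000) (nat_lit 52))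
 (.p (nat_lit 0x27d408ef02) (nat_lit 0x400) (nat_lit 48)))
 (.p (nat_lit 0x8dc02e502) (nat_lit 0x300307) (nat_lit 4)))
 (.n (.p (nat_lit 0x4980496049404920490139506) (nat_lit 0x10000002901) (nat_lit 51))
 (.p (nat_lit 0x52c0a0502) (nat_lit 0x400123) (nat_lit 4))))
 (.n (.n (.n (.p (nat_lit 0xf070e6302) (nat_lit 0x4a600) (nat_lit 16))
 (.p (nat_lit 0x110c288302) (nat_lit 0x342221ca4000200000600) (nat_lit 49)))
 (.p (nat_lit 0xc500c4e0c4c0c4a0c48014f0c5307) (nat_lit 0x500515) (nat_lit 7)))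
 (.n (.p (nat_lit 0x64212ef02) (nat_lit 0x440104) (nat_lit 5))
 (.p (nat_lit 0x2486248424822480247e247c029807) (nat_lit 0x62d) (nat_lit 8)))))
 (.n (.n (.n (.n (.p (nat_lit 0x90b06f102) (nat_lit 0x414300) (nat_lit 16))
 (.p (nat_lit 0x270113bf02) (nat_lit 0x120040000900) (nat_lit 41)))
 (.p (nat_lit 0x65e065c065a065806540b5d06) (nat_lit 0x100004440e) (nat_lit 52)))
 (.n (.p (nat_lit 0x17cc17ca17c817c617c4003f17c307) (nat_lit 0x40b02) (nat_lit 7))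
 (.p (nat_lit 0x13fe13fc13f813f613f41e2506) (nat_lit 0x400000c127) (nat_lit 51))))
 (.n (.n (.p (nat_lit 0x14d414d214d014ce14cc14ca06) (nat_lit 0xca00) (nat_lit 52))
 (.p (nat_lit 0x438083d02) (nat_lit 0x24001c) (nat_lit 5)))
 (.n (.p (nat_lit 0x12da12d812d612d412d0100706) (nat_lit 0x1000012705) (nat_lit 52))
 (.p (nat_lit 0x210264b02) (nat_lit 0x300729) (nat_lit 27))))))
 (.n (.n (.n (.n (.n (.p (nat_lit 0x63b042702) (nat_lit 0x550100) (nat_lit 16))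
 (.p (nat_lit 0x2711102d02) (nat_lit 0x20040000700) (nat_lit 41)))
 (.p (nat_lit 0x178c041902) (nat_lit 0x440b07) (nat_lit 4)))
 (.n (.p (nat_lit 0x1ac21abe1abc1aba0d370d2f06) (nat_lit 0x88000c4502) (nat_lit 52))
 (.p (nat_lit 0x153a0b2702) (nat_lit 0x200a23) (nat_lit 5))))
 (.n (.n (.n (.p (nat_lit 0x121a1218121612141212121006) (nat_lit 0x40800) (nat_lit 3))
 (.p (nat_lit 0x81428c102) (nat_lit 0x332a05d81000300000000) (nat_lit 49)))
 (.p (nat_lit 0x750074e074a07480746190906) (nat_lit 0x4000080916) (nat_lit 52)))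
 (.n (.p (nat_lit 0x17141710170e170c170a0085171307) (nat_lit 0x400b04) (nat_lit 7))
 (.p (nat_lit 0xda254702) (nat_lit 0x300b0a) (nat_lit 27)))))
 (.n (.n (.n (.n (.p (nat_lit 0xbb90bad02) (nat_lit 0x500500) (nat_lit 34))
 (.p (nat_lit 0x164c284502) (nat_lit 0x4a1a22344000500000600) (nat_lit 49)))
 (.p (nat_lit 0x1b6e1b6c1b6a1b681b661d9706) (nat_lit 0x800056511) (nat_lit 51)))
 (.n (.p (nat_lit 0xe390e2d02) (nat_lit 0x314603) (nat_lit 16))
 (.p (nat_lit 0x82a082608240822082007d906) (nat_lit 0x800004622a) (nat_lit 51))))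
 (.n (.n (.p (nat_lit 0x173c173a1738173615f915f106) (nat_lit 0x11000048b00) (nat_lit 52))
 (.p (nat_lit 0x160e08b302) (nat_lit 0x440a1c) (nat_lit 4)))
 (.n (.p (nat_lit 0x11fa168302) (nat_lit 0x100806) (nat_lit 4))
 (.p (nat_lit 0x275327b702) (nat_lit 0x200080000100) (nat_lit 36))))))

def c128_84 : Tr := .n c256_84 c256_212

def c64_20 : Tr := .n c128_20 c128_84

def c256_52 : Tr :=
 .n (.n (.n (.n (.n (.n (.p (nat_lit 0x80007e008b03) (nat_lit 0x3000500004) (nat_lit 17))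
 (.p (nat_lit 0x27c009a902) (nat_lit 0x40040200) (nat_lit 48)))
 (.p (nat_lit 0x121a121612141212121012cd06) (nat_lit 0x80000d0806) (nat_lit 51)))
 (.n (.p (nat_lit 0x6180e8102) (nat_lit 0x40101) (nat_lit 5))
 (.p (nat_lit 0x1e1e1e9702) (nat_lit 0x500020) (nat_lit 4))))
 (.n (.n (.n (.p (nat_lit 0x3950b4b02) (nat_lit 0x440500) (nat_lit 15))
 (.p (nat_lit 0x1206285d02) (nat_lit 0x1a2260b50000200040600) (nat_lit 49)))
 (.p (nat_lit 0x228e228c228a228822862284015007) (nat_lit 0x15) (nat_lit 8)))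
 (.n (.p (nat_lit 0x17d7163f02) (nat_lit 0x440a03) (nat_lit 15))
 (.p (nat_lit 0x137e0c0d02) (nat_lit 0x92a) (nat_lit 5)))))
 (.n (.n (.n (.n (.p (nat_lit 0x14605eb02) (nat_lit 0x140200) (nat_lit 1))
 (.p (nat_lit 0x268b110702) (nat_lit 0x280000000800) (nat_lit 38)))
 (.p (nat_lit 0x215e211902) (nat_lit 0x44020d) (nat_lit 4)))
 (.n (.p (nat_lit 0xac60ac20ac00abe0abc156306) (nat_lit 0x8000088a02) (nat_lit 51))
 (.p (nat_lit 0x184d182f02) (nat_lit 0x40124) (nat_lit 15))))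
 (.n (.n (.p (nat_lit 0x11ac12db02) (nat_lit 0x500900) (nat_lit 4))
 (.p (nat_lit 0x1d621c6f02) (nat_lit 0x40418) (nat_lit 4)))
 (.n (.p (nat_lit 0x90c15a702) (nat_lit 0x500305) (nat_lit 4))
 (.p (nat_lit 0x182017e017c0178014d012306) (nat_lit 0x2116018) (nat_lit 26))))))
 (.n (.n (.n (.n (.n (.p (nat_lit 0x44f038f02) (nat_lit 0x14c000) (nat_lit 16))
 (.p (nat_lit 0x27370ba902) (nat_lit 0xc0060000500) (nat_lit 38)))
 (.p (nat_lit 0x1cdf099b02) (nat_lit 0x150307) (nat_lit 16)))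
 (.n (.p (nat_lit 0x155415521550154e003c002f002d1559155709) (nat_lit 0x2c00a01) (nat_lit 10))
 (.p (nat_lit 0x1c59060302) (nat_lit 0x150123) (nat_lit 16))))
 (.n (.n (.n (.p (nat_lit 0xee6102102) (nat_lit 0x240700) (nat_lit 4))
 (.p (nat_lit 0x374289d02) (nat_lit 0x356068ca4000000040000) (nat_lit 49)))
 (.p (nat_lit 0x157c157a1578157415720d0f06) (nat_lit 0x20000d4515) (nat_lit 52)))
 (.n (.p (nat_lit 0x48e048a0488048604840e3b06) (nat_lit 0x8000002604) (nat_lit 52))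
 (.p (nat_lit 0x4724ad02) (nat_lit 0x400902) (nat_lit 28)))))
 (.n (.n (.n (.n (.p (nat_lit 0x8d408d208ce08ca00180007000308d108cd09) (nat_lit 0x1900400) (nat_lit 10))
 (.p (nat_lit 0x282617db02) (nat_lit 0x50a00) (nat_lit 48)))
 (.p (nat_lit 0x11b804f502) (nat_lit 0x80e) (nat_lit 4)))
 (.n (.p (nat_lit 0x671c0702) (nat_lit 0x40103) (nat_lit 30))
 (.p (nat_lit 0xa040a020a0009fe09fc221706) (nat_lit 0x10000042829) (nat_lit 52))))
 (.n (.n (.p (nat_lit 0x15bc15ba15b615b415b2144306) (nat_lit 0x400004ca00) (nat_lit 51))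
 (.p (nat_lit 0x5f8094f02) (nat_lit 0x24011c) (nat_lit 4)))
 (.n (.p (nat_lit 0x11f215dd02) (nat_lit 0x300805) (nat_lit 4))
 (.p (nat_lit 0x269302af02) (nat_lit 0x200000000000) (nat_lit 40))))))

def c256_180 : Tr :=
 .n (.n (.n (.n (.n (.n (.p (nat_lit 0x2ba02a302) (nat_lit 0x0) (nat_lit 4))
 (.p (nat_lit 0x2781091902) (nat_lit 0x2200a0000300) (nat_lit 39)))
 (.p (nat_lit 0x7c207be07bc07ba00e600dd00d507c107b909) (nat_lit 0x2040207) (nat_lit 10)))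
 (.n (.p (nat_lit 0xfba0fb80fb60fb212b112ad06) (nat_lit 0x2800056801) (nat_lit 51))
 (.p (nat_lit 0x44409f502) (nat_lit 0x240023) (nat_lit 4))))
 (.n (.n (.n (.p (nat_lit 0xeb00eac0eaa0ea80ea60e6b06) (nat_lit 0x80000d0600) (nat_lit 51))
 (.p (nat_lit 0x9d2287b02) (nat_lit 0x5898b0b44000400000000) (nat_lit 49)))
 (.p (nat_lit 0x842083e083c083a08380b6f06) (nat_lit 0x80000c0415) (nat_lit 51)))
 (.n (.p (nat_lit 0x13b813b413b213b013ae17d706) (nat_lit 0x80000d2b03) (nat_lit 52))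
 (.p (nat_lit 0xcac0caa0ca80ca60ca41b0906) (nat_lit 0x10000004a2c) (nat_lit 51)))))
 (.n (.n (.n (.n (.p (nat_lit 0x8720870086c086a086806ef06) (nat_lit 0x400008a300) (nat_lit 52))
 (.p (nat_lit 0x28181e4b02) (nat_lit 0xa900) (nat_lit 48)))
 (.p (nat_lit 0x1720171e171a171817160a8106) (nat_lit 0x400009640e) (nat_lit 52)))
 (.n (.p (nat_lit 0x431b3302) (nat_lit 0x200b02) (nat_lit 30))
 (.p (nat_lit 0x1c5c1d0702) (nat_lit 0x340126) (nat_lit 5))))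
 (.n (.n (.p (nat_lit 0x1469129502) (nat_lit 0x44c900) (nat_lit 16))
 (.p (nat_lit 0x120e120c120812061204036306) (nat_lit 0x400009001c) (nat_lit 52)))
 (.n (.p (nat_lit 0x100e100a10081006100400a7100d07) (nat_lit 0x400705) (nat_lit 7))
 (.p (nat_lit 0x2120210020c020a024b002f06) (nat_lit 0x1514124) (nat_lit 26))))))
 (.n (.n (.n (.n (.n (.p (nat_lit 0x5ac05a805a605a405a2042506) (nat_lit 0x80000c8100) (nat_lit 52))
 (.p (nat_lit 0x268d27ff02) (nat_lit 0x260000000700) (nat_lit 36)))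
 (.p (nat_lit 0x16ae040702) (nat_lit 0xb07) (nat_lit 4)))
 (.n (.p (nat_lit 0xb760f7102) (nat_lit 0x240402) (nat_lit 4))
 (.p (nat_lit 0x12aa23af02) (nat_lit 0x540823) (nat_lit 29))))
 (.n (.n (.n (.p (nat_lit 0x11a0119e119811960fcf0fcd06) (nat_lit 0x6000096800) (nat_lit 51))
 (.p (nat_lit 0xaba28bb02) (nat_lit 0x352868d84000400040000) (nat_lit 49)))
 (.p (nat_lit 0x14f230702) (nat_lit 0x500a15) (nat_lit 30)))
 (.n (.p (nat_lit 0x10ee133902) (nat_lit 0x540704) (nat_lit 5))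
 (.p (nat_lit 0xc400c200bc00ba00a5000506) (nat_lit 0x1a12806) (nat_lit 26)))))
 (.n (.n (.n (.n (.p (nat_lit 0xb91099302) (nat_lit 0x352400) (nat_lit 16))
 (.p (nat_lit 0x654283d02) (nat_lit 0x260d84344000200000000) (nat_lit 49)))
 (.p (nat_lit 0x127e127c127a127812741d5906) (nat_lit 0x1000056411) (nat_lit 51)))
 (.n (.p (nat_lit 0xd3c115502) (nat_lit 0x240503) (nat_lit 4))
 (.p (nat_lit 0x19c1071502) (nat_lit 0x40e22a) (nat_lit 16))))
 (.n (.n (.p (nat_lit 0x15ee171702) (nat_lit 0x40b00) (nat_lit 4))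
 (.p (nat_lit 0x153008a502) (nat_lit 0x300a1c) (nat_lit 4)))
 (.n (.p (nat_lit 0xec60ec40ec20ec00ebe101b06) (nat_lit 0x10000092706) (nat_lit 52))
 (.p (nat_lit 0x273f049702) (nat_lit 0x40060000100) (nat_lit 40))))))

def c128_52 : Tr := .n c256_52 c256_180

def c256_116 : Tr :=
 .n (.n (.n (.n (.n (.n (.p (nat_lit 0x15d015b015203) (nat_lit 0x22c00015) (nat_lit 19))
 (.p (nat_lit 0x2705082502) (nat_lit 0xe0040000300) (nat_lit 40)))
 (.p (nat_lit 0x1482178302) (nat_lit 0x540906) (nat_lit 4)))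
 (.n (.p (nat_lit 0xd2c0d280d260d240d22002d0d2b07) (nat_lit 0x440501) (nat_lit 7))
 (.p (nat_lit 0x20d2200702) (nat_lit 0x40721) (nat_lit 4))))
 (.n (.n (.n (.p (nat_lit 0xdfb0d7102) (nat_lit 0x502600) (nat_lit 16))
 (.p (nat_lit 0x81e286d02) (nat_lit 0x568bb0344000300000000) (nat_lit 49)))
 (.p (nat_lit 0x1bad042d02) (nat_lit 0x250015) (nat_lit 16)))
 (.n (.p (nat_lit 0x1588158615821580157e170506) (nat_lit 0x4000094b03) (nat_lit 51))
 (.p (nat_lit 0x17c017be17bc17ba17b8025517b707) (nat_lit 0x40b2a) (nat_lit 7)))))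
 (.n (.n (.n (.n (.p (nat_lit 0x7e505e902) (nat_lit 0x4e200) (nat_lit 16))
 (.p (nat_lit 0x28140ffd02) (nat_lit 0x40014800) (nat_lit 48)))
 (.p (nat_lit 0x9a8058f02) (nat_lit 0x24030e) (nat_lit 5)))
 (.n (.p (nat_lit 0x38a0388038603840382162b06) (nat_lit 0x8000c0a02) (nat_lit 51))
 (.p (nat_lit 0x219421922190218e218c194706) (nat_lit 0x4000010a24) (nat_lit 51))))
 (.n (.n (.p (nat_lit 0x80129102) (nat_lit 0x240900) (nat_lit 1))
 (.p (nat_lit 0x1f141e8102) (nat_lit 0x540619) (nat_lit 4)))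
 (.n (.p (nat_lit 0xe4414d102) (nat_lit 0x300605) (nat_lit 4))
 (.p (nat_lit 0x1a425f102) (nat_lit 0x300721) (nat_lit 27))))))
 (.n (.n (.n (.n (.n (.p (nat_lit 0x4fc04fa04f804f4034f034706) (nat_lit 0x11000010100) (nat_lit 52))
 (.p (nat_lit 0x268b0d5b02) (nat_lit 0x280000000600) (nat_lit 40)))
 (.p (nat_lit 0x1d550b5502) (nat_lit 0x350407) (nat_lit 16)))
 (.n (.p (nat_lit 0x62a0f5b02) (nat_lit 0x340102) (nat_lit 5))
 (.p (nat_lit 0x238a23882386238423822380020207) (nat_lit 0x623) (nat_lit 8))))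
 (.n (.n (.n (.p (nat_lit 0x10d10eeb02) (nat_lit 0x444700) (nat_lit 16))
 (.p (nat_lit 0x111228ab02) (nat_lit 0x350521a86800200000600) (nat_lit 50)))
 (.p (nat_lit 0x11ca06c102) (nat_lit 0x300815) (nat_lit 4)))
 (.n (.p (nat_lit 0x66a06680664066206600f2506) (nat_lit 0x4000044604) (nat_lit 51))
 (.p (nat_lit 0x8400820080007c0003019106) (nat_lit 0xd0c204) (nat_lit 26)))))
 (.n (.n (.n (.n (.p (nat_lit 0x9900ab502) (nat_lit 0x240400) (nat_lit 4))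
 (.p (nat_lit 0x268f283702) (nat_lit 0x240000000b00) (nat_lit 37)))
 (.p (nat_lit 0x4b204b004ae04ac04aa191906) (nat_lit 0x8000c690f) (nat_lit 52)))
 (.n (.p (nat_lit 0x1cbb090102) (nat_lit 0x502303) (nat_lit 16))
 (.p (nat_lit 0x3b403b203ae03ac03aa061306) (nat_lit 0x400004612a) (nat_lit 51))))
 (.n (.n (.p (nat_lit 0x1518164902) (nat_lit 0x300b00) (nat_lit 4))
 (.p (nat_lit 0xd20087302) (nat_lit 0x54051c) (nat_lit 4)))
 (.n (.p (nat_lit 0x13f213f013ee13ec13ea12c306) (nat_lit 0x100000c8805) (nat_lit 51))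
 (.p (nat_lit 0x26f502a702) (nat_lit 0x1e0040000000) (nat_lit 38))))))

def c256_244 : Tr :=
 .n (.n (.n (.n (.n (.n (.p (nat_lit 0x35d02bb02) (nat_lit 0x6000) (nat_lit 16))
 (.p (nat_lit 0x273709d302) (nat_lit 0xc0060000400) (nat_lit 38)))
 (.p (nat_lit 0x13b813b613b413ae08db08d906) (nat_lit 0x3000092307) (nat_lit 52)))
 (.n (.p (nat_lit 0x14600dc502) (nat_lit 0x40901) (nat_lit 5))
 (.p (nat_lit 0x705052902) (nat_lit 0x200123) (nat_lit 15))))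
 (.n (.n (.n (.p (nat_lit 0xf540f520f500f4e0de10ddd06) (nat_lit 0xa000080700) (nat_lit 51))
 (.p (nat_lit 0xc7a288b02) (nat_lit 0x342221ca4000500040000) (nat_lit 49)))
 (.p (nat_lit 0x13c413c213c013be13ba0c4b06) (nat_lit 0x1000092515) (nat_lit 51)))
 (.n (.p (nat_lit 0x8040802080007fc00940087007f080707ff09) (nat_lit 0x2940204) (nat_lit 10))
 (.p (nat_lit 0x1f6a204d02) (nat_lit 0x40022f) (nat_lit 4)))))
 (.n (.n (.n (.n (.p (nat_lit 0x948094609440942093e07af06) (nat_lit 0x1000042300) (nat_lit 52))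
 (.p (nat_lit 0x272f13c102) (nat_lit 0x140060000900) (nat_lit 41)))
 (.p (nat_lit 0xc3e05b102) (nat_lit 0x10050e) (nat_lit 4)))
 (.n (.p (nat_lit 0xea40ea20e9e0e9a17c917c506) (nat_lit 0x5000050b02) (nat_lit 51))
 (.p (nat_lit 0x20b6203502) (nat_lit 0x200728) (nat_lit 4))))
 (.n (.n (.p (nat_lit 0x151b135b02) (nat_lit 0x400a00) (nat_lit 15))
 (.p (nat_lit 0x1032102e102a1028043d043906) (nat_lit 0xa0000ce01c) (nat_lit 51)))
 (.n (.p (nat_lit 0x2ac02aa02a802a602a410f106) (nat_lit 0x800040705) (nat_lit 52))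
 (.p (nat_lit 0x266e266c266a266826660007026007) (nat_lit 0x30232a) (nat_lit 25))))))
 (.n (.n (.n (.n (.n (.p (nat_lit 0x669065d02) (nat_lit 0x400200) (nat_lit 34))
 (.p (nat_lit 0x27430f4902) (nat_lit 0x60000700) (nat_lit 40)))
 (.p (nat_lit 0x1ca61b4902) (nat_lit 0x14020a) (nat_lit 4)))
 (.n (.p (nat_lit 0x146c107102) (nat_lit 0x40902) (nat_lit 5))
 (.p (nat_lit 0x16e20b3702) (nat_lit 0x400b23) (nat_lit 5))))
 (.n (.n (.p (nat_lit 0x124412421240123e123c10af06) (nat_lit 0x10000c8800) (nat_lit 51))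
 (.p (nat_lit 0x1ad419a702) (nat_lit 0x240517) (nat_lit 5)))
 (.n (.p (nat_lit 0x17e2134f02) (nat_lit 0x440b04) (nat_lit 4))
 (.p (nat_lit 0x12a012801220120006b017f06) (nat_lit 0x1308311) (nat_lit 26)))))
 (.n (.n (.n (.n (.p (nat_lit 0xc300c2e0c2c0c280c260a6706) (nat_lit 0x2000016500) (nat_lit 52))
 (.p (nat_lit 0x12e0284d02) (nat_lit 0x4a1a34344000300000600) (nat_lit 50)))
 (.p (nat_lit 0x1e0c1c4f02) (nat_lit 0x240b11) (nat_lit 4)))
 (.n (.p (nat_lit 0x10921090108e108a10880f1706) (nat_lit 0x20000d4603) (nat_lit 52))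
 (.p (nat_lit 0x1e8b07db02) (nat_lit 0x55222a) (nat_lit 16))))
 (.n (.n (.p (nat_lit 0xe6515f102) (nat_lit 0x140b00) (nat_lit 15))
 (.p (nat_lit 0x1840183e183c183a180117ff06) (nat_lit 0x600000811d) (nat_lit 52)))
 (.n (.p (nat_lit 0xbaa0ba80ba60ba40ba2120306) (nat_lit 0x1000000a806) (nat_lit 52))
 (.p (nat_lit 0x26a927b902) (nat_lit 0xa0000000200) (nat_lit 37))))))

def c128_116 : Tr := .n c256_116 c256_244

def c64_52 : Tr := .n c128_52 c128_116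

def c32_20 : Tr := .n c64_20 c64_52

def c16_4 : Tr := .n c32_4 c32_20

def c256_12 : Tr :=
 .n (.n (.n (.n (.n (.n (.p (nat_lit 0x2c002a0028003104) (nat_lit 0xe000400001) (nat_lit 17))
 (.p (nat_lit 0x27b805f502) (nat_lit 0x48200) (nat_lit 47)))
 (.p (nat_lit 0x12c6168f02) (nat_lit 0x140806) (nat_lit 5)))
 (.n (.p (nat_lit 0x17c715f302) (nat_lit 0x24eb00) (nat_lit 16))
 (.p (nat_lit 0x197619741970196e196c01d1197307) (nat_lit 0x34001e) (nat_lit 7))))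
 (.n (.n (.n (.p (nat_lit 0xc6f0a6702) (nat_lit 0x210500) (nat_lit 16))
 (.p (nat_lit 0x91a285102) (nat_lit 0x4a8876344000300040000) (nat_lit 50)))
 (.p (nat_lit 0x20121f4702) (nat_lit 0x300413) (nat_lit 4)))
 (.n (.p (nat_lit 0x1338133613341330156b156706) (nat_lit 0x280008ea03) (nat_lit 51))
 (.p (nat_lit 0x1fd108f102) (nat_lit 0x11432a) (nat_lit 16)))))
 (.n (.n (.n (.n (.p (nat_lit 0x6a2069e069c069a0515050d06) (nat_lit 0x880000a200) (nat_lit 52))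
 (.p (nat_lit 0x2767280902) (nat_lit 0xc0080000700) (nat_lit 37)))
 (.p (nat_lit 0x1ce21b9902) (nat_lit 0x34030a) (nat_lit 4)))
 (.n (.p (nat_lit 0x127e127c127a12781274146f06) (nat_lit 0x1000056902) (nat_lit 51))
 (.p (nat_lit 0x24e17b302) (nat_lit 0x440b23) (nat_lit 1))))
 (.n (.n (.p (nat_lit 0x129710b702) (nat_lit 0x540800) (nat_lit 15))
 (.p (nat_lit 0x1aec19fb02) (nat_lit 0x300a17) (nat_lit 5)))
 (.n (.p (nat_lit 0x55e14a902) (nat_lit 0x200105) (nat_lit 4))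
 (.p (nat_lit 0x14e014a014801460009019f06) (nat_lit 0x200a415) (nat_lit 26))))))
 (.n (.n (.n (.n (.n (.p (nat_lit 0x396037f02) (nat_lit 0x540000) (nat_lit 4))
 (.p (nat_lit 0x26890baf02) (nat_lit 0x2a0000000500) (nat_lit 40)))
 (.p (nat_lit 0x99a02ed02) (nat_lit 0x140307) (nat_lit 5)))
 (.n (.p (nat_lit 0x65e065c065a06580656146106) (nat_lit 0x800044901) (nat_lit 52))
 (.p (nat_lit 0x6080a1102) (nat_lit 0x440123) (nat_lit 5))))
 (.n (.n (.n (.p (nat_lit 0xfc60fc20fbe0fbc0de10ddd06) (nat_lit 0xa000096700) (nat_lit 51))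
 (.p (nat_lit 0x1646288f02) (nat_lit 0x356221ca4000500000600) (nat_lit 49)))
 (.p (nat_lit 0xd10077d02) (nat_lit 0x340515) (nat_lit 4)))
 (.n (.p (nat_lit 0xb921eab02) (nat_lit 0x440404) (nat_lit 29))
 (.p (nat_lit 0x25e20c502) (nat_lit 0x50072f) (nat_lit 1)))))
 (.n (.n (.n (.n (.p (nat_lit 0x9a507ad02) (nat_lit 0x42300) (nat_lit 16))
 (.p (nat_lit 0x278b282502) (nat_lit 0x1800a0000900) (nat_lit 37)))
 (.p (nat_lit 0xcfe04d902) (nat_lit 0x4050e) (nat_lit 5)))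
 (.n (.p (nat_lit 0x6d1b8102) (nat_lit 0x340003) (nat_lit 30))
 (.p (nat_lit 0x21c4242b02) (nat_lit 0x100729) (nat_lit 29))))
 (.n (.n (.p (nat_lit 0x156b135702) (nat_lit 0x210a00) (nat_lit 16))
 (.p (nat_lit 0x232a2328232623242322232001aa07) (nat_lit 0x11c) (nat_lit 8)))
 (.n (.p (nat_lit 0xbaa0ba80ba60ba40ba210fb06) (nat_lit 0x1000004a705) (nat_lit 52))
 (.p (nat_lit 0x26b226b026ae26ac26aa26a826a626a426a226a0269e269c269a26982696269426922690268e268c268a26882686268418) (nat_lit 0x0) (nat_lit 35))))))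

def c256_140 : Tr :=
 .n (.n (.n (.n (.n (.n (.p (nat_lit 0x1e201e001da01e704) (nat_lit 0xc800400021) (nat_lit 17))
 (.p (nat_lit 0x2733082702) (nat_lit 0x100060000300) (nat_lit 40)))
 (.p (nat_lit 0x6fe06fc06f806f606f400db06fb07) (nat_lit 0x300207) (nat_lit 7)))
 (.n (.p (nat_lit 0xfa20fa00f9e0f9c0f9811e306) (nat_lit 0x1000014801) (nat_lit 52))
 (.p (nat_lit 0x21f0216502) (nat_lit 0x200822) (nat_lit 5))))
 (.n (.n (.n (.p (nat_lit 0xe620e4b02) (nat_lit 0x40600) (nat_lit 4))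
 (.p (nat_lit 0x1110287502) (nat_lit 0x588872b44000200000600) (nat_lit 49)))
 (.p (nat_lit 0xa900a8c0a880a860160014d01490a8f0a8b09) (nat_lit 0x2200415) (nat_lit 10)))
 (.n (.p (nat_lit 0x17d6119f02) (nat_lit 0x440b03) (nat_lit 5))
 (.p (nat_lit 0xbc40bc00bbe0bbc0bba192b06) (nat_lit 0x800004292b) (nat_lit 52)))))
 (.n (.n (.n (.n (.p (nat_lit 0x6ec081902) (nat_lit 0x200300) (nat_lit 4))
 (.p (nat_lit 0x276f111b02) (nat_lit 0x40080000800) (nat_lit 40)))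
 (.p (nat_lit 0xa7e059b02) (nat_lit 0x20040e) (nat_lit 5)))
 (.n (.p (nat_lit 0xd640d620d600d5e0d5a162d06) (nat_lit 0x100004ca02) (nat_lit 51))
 (.p (nat_lit 0x1a121a5502) (nat_lit 0x440225) (nat_lit 5))))
 (.n (.n (.p (nat_lit 0x13fe13fc13fa13f613f4129106) (nat_lit 0x200004c900) (nat_lit 51))
 (.p (nat_lit 0x1e481e461e441e421e40210306) (nat_lit 0x400000c81a) (nat_lit 51)))
 (.n (.p (nat_lit 0x20970e4302) (nat_lit 0x208605) (nat_lit 16))
 (.p (nat_lit 0x20001fe01fa01f8023f000106) (nat_lit 0x1814123) (nat_lit 26))))))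
 (.n (.n (.n (.n (.n (.p (nat_lit 0x549034702) (nat_lit 0x110100) (nat_lit 16))
 (.p (nat_lit 0x26b90d5d02) (nat_lit 0x2a0020000600) (nat_lit 40)))
 (.p (nat_lit 0xfd403e502) (nat_lit 0x200707) (nat_lit 5)))
 (.n (.p (nat_lit 0x16607e502) (nat_lit 0x40202) (nat_lit 1))
 (.p (nat_lit 0x1fd239302) (nat_lit 0x340623) (nat_lit 30))))
 (.n (.n (.n (.p (nat_lit 0xfca111502) (nat_lit 0x100800) (nat_lit 5))
 (.p (nat_lit 0x110c28b102) (nat_lit 0x350521a82800200000600) (nat_lit 49)))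
 (.p (nat_lit 0x1364079902) (nat_lit 0x500915) (nat_lit 5)))
 (.n (.p (nat_lit 0x10ed0f2702) (nat_lit 0x440604) (nat_lit 15))
 (.p (nat_lit 0xa7250302) (nat_lit 0x400305) (nat_lit 28)))))
 (.n (.n (.n (.n (.p (nat_lit 0xaea0ae80ae60ae20991098d06) (nat_lit 0x2800042400) (nat_lit 51))
 (.p (nat_lit 0x26ed283902) (nat_lit 0x260040000b00) (nat_lit 37)))
 (.p (nat_lit 0x1d161bc902) (nat_lit 0x411) (nat_lit 4)))
 (.n (.p (nat_lit 0x1d2c1d2a1d281d261d241d22007207) (nat_lit 0x40403) (nat_lit 8))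
 (.p (nat_lit 0x2b802b602b402b202ae070f06) (nat_lit 0x100000022a) (nat_lit 51))))
 (.n (.n (.p (nat_lit 0x16a0169e169a16981519151706) (nat_lit 0x6000012b00) (nat_lit 51))
 (.p (nat_lit 0x2336233423322330232e232c01aa07) (nat_lit 0x81c) (nat_lit 8)))
 (.n (.p (nat_lit 0xaa4173702) (nat_lit 0x406) (nat_lit 4))
 (.p (nat_lit 0x269327af02) (nat_lit 0x200000000100) (nat_lit 36))))))

def c128_12 : Tr := .n c256_12 c256_140

def c256_76 : Tr :=
 .n (.n (.n (.n (.n (.n (.p (nat_lit 0xc400c200bc00c704) (nat_lit 0x19000400006) (nat_lit 17))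
 (.p (nat_lit 0x275727c702) (nat_lit 0x1c0080000200) (nat_lit 36)))
 (.p (nat_lit 0x13a8177302) (nat_lit 0x300906) (nat_lit 4)))
 (.n (.p (nat_lit 0x7dc0e8902) (nat_lit 0x40201) (nat_lit 5))
 (.p (nat_lit 0xa01f3b02) (nat_lit 0x140021) (nat_lit 1))))
 (.n (.n (.n (.p (nat_lit 0x260d6902) (nat_lit 0x100600) (nat_lit 1))
 (.p (nat_lit 0x578286502) (nat_lit 0x281d30346800100040000) (nat_lit 50)))
 (.p (nat_lit 0x5a0059e059c059a0596035306) (nat_lit 0x1000008015) (nat_lit 51)))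
 (.n (.p (nat_lit 0x170617041702170016fe0071170907) (nat_lit 0x500b03) (nat_lit 7))
 (.p (nat_lit 0x154c0c1d02) (nat_lit 0x500a2a) (nat_lit 5)))))
 (.n (.n (.n (.n (.p (nat_lit 0x75c075a07580754075205ed06) (nat_lit 0x2000048200) (nat_lit 51))
 (.p (nat_lit 0x26cb121302) (nat_lit 0x180020000800) (nat_lit 41)))
 (.p (nat_lit 0x8ec08ea08e808e608e2010708e507) (nat_lit 0x10030e) (nat_lit 7)))
 (.n (.p (nat_lit 0x164c164a164816441642155f06) (nat_lit 0x2000016a02) (nat_lit 52))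
 (.p (nat_lit 0x18f223f902) (nat_lit 0x40824) (nat_lit 29))))
 (.n (.n (.p (nat_lit 0x135311a302) (nat_lit 0x900) (nat_lit 15))
 (.p (nat_lit 0x1ede1e3102) (nat_lit 0x300519) (nat_lit 4)))
 (.n (.p (nat_lit 0x200e200c200a2008200609c706) (nat_lit 0x20000ce305) (nat_lit 52))
 (.p (nat_lit 0x1a525bb02) (nat_lit 0x30011c) (nat_lit 28))))))
 (.n (.n (.n (.n (.n (.p (nat_lit 0x108034902) (nat_lit 0x200100) (nat_lit 1))
 (.p (nat_lit 0x278b0bb902) (nat_lit 0x1800a0000500) (nat_lit 40)))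
 (.p (nat_lit 0xcac0caa0ca80ca60ca40a7906) (nat_lit 0x10000004407) (nat_lit 51)))
 (.n (.p (nat_lit 0x16240edd02) (nat_lit 0x340a01) (nat_lit 4))
 (.p (nat_lit 0x84e084c084808460844070706) (nat_lit 0x4000002223) (nat_lit 51))))
 (.n (.n (.n (.p (nat_lit 0x107a10781076107410700ee506) (nat_lit 0x10000d2700) (nat_lit 51))
 (.p (nat_lit 0x49228a102) (nat_lit 0x340a621b0000100000000) (nat_lit 50)))
 (.p (nat_lit 0x22ca22c822c622c422c222c0015007) (nat_lit 0x715) (nat_lit 8)))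
 (.n (.p (nat_lit 0x1110110e110a110811060e3906) (nat_lit 0x4000010604) (nat_lit 52))
 (.p (nat_lit 0x12024c702) (nat_lit 0x103) (nat_lit 27)))))
 (.n (.n (.n (.n (.p (nat_lit 0xa4e0a4c0a4a0a4808cd08cb06) (nat_lit 0x1800014400) (nat_lit 52))
 (.p (nat_lit 0x270d282f02) (nat_lit 0x60040000a00) (nat_lit 36)))
 (.p (nat_lit 0x124129b02) (nat_lit 0x24080e) (nat_lit 1)))
 (.n (.p (nat_lit 0x1c481c461c441c421c401c3e06) (nat_lit 0x56103) (nat_lit 52))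
 (.p (nat_lit 0x53a0bc502) (nat_lit 0x50012a) (nat_lit 4))))
 (.n (.n (.p (nat_lit 0x15de15dc15da15d815d6144706) (nat_lit 0x10000050a00) (nat_lit 52))
 (.p (nat_lit 0x1f80c5702) (nat_lit 0x10051c) (nat_lit 1)))
 (.n (.p (nat_lit 0x143a14381434143211f311ed06) (nat_lit 0x4800096805) (nat_lit 51))
 (.p (nat_lit 0x27a40cff02) (nat_lit 0x44000) (nat_lit 47))))))

def c256_204 : Tr :=
 .n (.n (.n (.n (.n (.n (.p (nat_lit 0x2c402c202c002be000c0003000102bd02bb09) (nat_lit 0x800000) (nat_lit 10))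
 (.p (nat_lit 0x268b0abd02) (nat_lit 0x280000000400) (nat_lit 41)))
 (.p (nat_lit 0x8d603ab02) (nat_lit 0x307) (nat_lit 5)))
 (.n (.p (nat_lit 0x13941390138e138c138a002d139307) (nat_lit 0x400901) (nat_lit 7))
 (.p (nat_lit 0x5240ae102) (nat_lit 0x123) (nat_lit 5))))
 (.n (.n (.n (.p (nat_lit 0xee90e6902) (nat_lit 0x340600) (nat_lit 15))
 (.p (nat_lit 0x148a288102) (nat_lit 0x585a12b21000400000600) (nat_lit 49)))
 (.p (nat_lit 0xc4e077102) (nat_lit 0x300515) (nat_lit 5)))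
 (.n (.p (nat_lit 0x55413d102) (nat_lit 0x300104) (nat_lit 4))
 (.p (nat_lit 0x1c7a1d7902) (nat_lit 0x20022d) (nat_lit 4)))))
 (.n (.n (.n (.n (.p (nat_lit 0x8e706ed02) (nat_lit 0x202300) (nat_lit 16))
 (.p (nat_lit 0x270d281f02) (nat_lit 0x60040000900) (nat_lit 36)))
 (.p (nat_lit 0xb640b620b600b5c0114010901050b5f0b5b09) (nat_lit 0x104040e) (nat_lit 10)))
 (.n (.p (nat_lit 0xdcc0dca0dc80dc60dc416fd06) (nat_lit 0x10000092b02) (nat_lit 51))
 (.p (nat_lit 0x9ee09ec09e809e609e41df706) (nat_lit 0x4000000b26) (nat_lit 52))))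
 (.n (.n (.p (nat_lit 0x149b148f02) (nat_lit 0x500a00) (nat_lit 34))
 (.p (nat_lit 0x434093302) (nat_lit 0x4001c) (nat_lit 4)))
 (.n (.p (nat_lit 0xbb80bb60bb40bb00bae100906) (nat_lit 0x200000a705) (nat_lit 51))
 (.p (nat_lit 0x242023e023c023a0237009f06) (nat_lit 0x2010128) (nat_lit 26))))))
 (.n (.n (.n (.n (.n (.p (nat_lit 0x621042502) (nat_lit 0x44c100) (nat_lit 16))
 (.p (nat_lit 0x26c3101f02) (nat_lit 0x200020000700) (nat_lit 39)))
 (.p (nat_lit 0x102178902) (nat_lit 0x240b07) (nat_lit 1)))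
 (.n (.p (nat_lit 0xd36106102) (nat_lit 0x440502) (nat_lit 4))
 (.p (nat_lit 0x15360a4502) (nat_lit 0xa23) (nat_lit 4))))
 (.n (.n (.n (.p (nat_lit 0x11f30fcf02) (nat_lit 0x314800) (nat_lit 16))
 (.p (nat_lit 0x158628bf02) (nat_lit 0x3503a8d84000400040600) (nat_lit 50)))
 (.p (nat_lit 0x189e183d02) (nat_lit 0x100416) (nat_lit 4)))
 (.n (.p (nat_lit 0x170e142902) (nat_lit 0x200b04) (nat_lit 5))
 (.p (nat_lit 0xfa253902) (nat_lit 0x100a0a) (nat_lit 27)))))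
 (.n (.n (.n (.n (.p (nat_lit 0xbb50ba902) (nat_lit 0x300500) (nat_lit 34))
 (.p (nat_lit 0xf3a284502) (nat_lit 0x4a1a22344000100000600) (nat_lit 49)))
 (.p (nat_lit 0x1d9e227502) (nat_lit 0x440511) (nat_lit 29)))
 (.n (.p (nat_lit 0x107a1074107210700e2f0e2d06) (nat_lit 0xc000092603) (nat_lit 51))
 (.p (nat_lit 0x37e037c037a0378037607d106) (nat_lit 0x8000c022a) (nat_lit 52))))
 (.n (.n (.p (nat_lit 0x15f8172d02) (nat_lit 0x540b00) (nat_lit 5))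
 (.p (nat_lit 0x1da160702) (nat_lit 0x40a1c) (nat_lit 1)))
 (.n (.p (nat_lit 0xea20ea00e9e0e9c0e9a110506) (nat_lit 0x10000050706) (nat_lit 51))
 (.p (nat_lit 0x27b407bf02) (nat_lit 0x6004a100) (nat_lit 48))))))

def c128_76 : Tr := .n c256_76 c256_204

def c64_12 : Tr := .n c128_12 c128_76

def c256_44 : Tr :=
 .n (.n (.n (.n (.n (.n (.p (nat_lit 0x70006e0068007304) (nat_lit 0x19000400003) (nat_lit 17))
 (.p (nat_lit 0x26e927c102) (nat_lit 0x2a0040000200) (nat_lit 36)))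
 (.p (nat_lit 0xbb60bb40bb20bb00bae12cf06) (nat_lit 0x1000004a806) (nat_lit 51)))
 (.n (.p (nat_lit 0x5440e7f02) (nat_lit 0x500101) (nat_lit 5))
 (.p (nat_lit 0x1e141e9902) (nat_lit 0x20) (nat_lit 5))))
 (.n (.n (.n (.p (nat_lit 0xce00cde0cdc0cda0b490b4706) (nat_lit 0x6000052500) (nat_lit 52))
 (.p (nat_lit 0x12e6285b02) (nat_lit 0x281d30344000300000600) (nat_lit 50)))
 (.p (nat_lit 0x2204215102) (nat_lit 0x40814) (nat_lit 5)))
 (.n (.p (nat_lit 0x13fc13fa13f813f613f4164106) (nat_lit 0x1000004ca03) (nat_lit 51))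
 (.p (nat_lit 0x18dc18da18d618d418d20e2106) (nat_lit 0x400009262a) (nat_lit 51)))))
 (.n (.n (.n (.n (.p (nat_lit 0x719050d02) (nat_lit 0xe200) (nat_lit 16))
 (.p (nat_lit 0x2693280d02) (nat_lit 0x200000000800) (nat_lit 36)))
 (.p (nat_lit 0x1e041ba702) (nat_lit 0x440b0a) (nat_lit 4)))
 (.n (.p (nat_lit 0x82a0828082608240822155b06) (nat_lit 0x800006a02) (nat_lit 51))
 (.p (nat_lit 0x1836187b02) (nat_lit 0x440124) (nat_lit 5))))
 (.n (.n (.p (nat_lit 0x11a612e102) (nat_lit 0x200900) (nat_lit 5))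
 (.p (nat_lit 0x1bae1c9302) (nat_lit 0x340018) (nat_lit 4)))
 (.n (.p (nat_lit 0x90415a102) (nat_lit 0x100305) (nat_lit 4))
 (.p (nat_lit 0x12025a302) (nat_lit 0x18) (nat_lit 27))))))
 (.n (.n (.n (.n (.n (.p (nat_lit 0x429038d02) (nat_lit 0x44000) (nat_lit 16))
 (.p (nat_lit 0x27ea0a7302) (nat_lit 0x40002500) (nat_lit 48)))
 (.p (nat_lit 0x13c413c213c013ba099d099b06) (nat_lit 0x30000d2307) (nat_lit 51)))
 (.n (.p (nat_lit 0x1483146b02) (nat_lit 0x554901) (nat_lit 16))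
 (.p (nat_lit 0x13c413c213c013bc13ba060506) (nat_lit 0x20000d2123) (nat_lit 51))))
 (.n (.n (.n (.p (nat_lit 0xee2102902) (nat_lit 0x40700) (nat_lit 5))
 (.p (nat_lit 0x13b6289702) (nat_lit 0x344580ca4000300040600) (nat_lit 49)))
 (.p (nat_lit 0x1110110e110c110a11080d0b06) (nat_lit 0x800050515) (nat_lit 52)))
 (.n (.p (nat_lit 0xe3c13ff02) (nat_lit 0x500604) (nat_lit 5))
 (.p (nat_lit 0x22224a502) (nat_lit 0x500402) (nat_lit 27)))))
 (.n (.n (.n (.n (.p (nat_lit 0x8d209d502) (nat_lit 0x400400) (nat_lit 4))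
 (.p (nat_lit 0x28261f6302) (nat_lit 0xaa00) (nat_lit 48)))
 (.p (nat_lit 0xfe204e902) (nat_lit 0x40070e) (nat_lit 4)))
 (.n (.p (nat_lit 0x1be61be41be21be01bdc054906) (nat_lit 0x1000016103) (nat_lit 51))
 (.p (nat_lit 0xade0ada0ad80ad60ad4220106) (nat_lit 0x8000080829) (nat_lit 51))))
 (.n (.n (.p (nat_lit 0x1446158902) (nat_lit 0x540a00) (nat_lit 5))
 (.p (nat_lit 0x529051d02) (nat_lit 0x20a11c) (nat_lit 16)))
 (.n (.p (nat_lit 0x11ee14fd02) (nat_lit 0x100805) (nat_lit 5))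
 (.p (nat_lit 0x269b037502) (nat_lit 0x180000000000) (nat_lit 39))))))

def c256_172 : Tr :=
 .n (.n (.n (.n (.n (.n (.p (nat_lit 0x2770271026203) (nat_lit 0x8190002a) (nat_lit 19))
 (.p (nat_lit 0x2747081d02) (nat_lit 0x2c0080000300) (nat_lit 38)))
 (.p (nat_lit 0x7be03a502) (nat_lit 0x340207) (nat_lit 5)))
 (.n (.p (nat_lit 0xf7e0f7c0f7a0f7812b712ad06) (nat_lit 0x108000ca801) (nat_lit 51))
 (.p (nat_lit 0x1959036b02) (nat_lit 0x10e023) (nat_lit 16))))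
 (.n (.n (.n (.p (nat_lit 0xe7e0e7c0e7a0e780e6b0e6306) (nat_lit 0x8800042600) (nat_lit 51))
 (.p (nat_lit 0x2a2287b02) (nat_lit 0x5898b0b44000000000000) (nat_lit 49)))
 (.p (nat_lit 0xb6e076702) (nat_lit 0x440415) (nat_lit 5)))
 (.n (.p (nat_lit 0x1030102e102c102a102817d906) (nat_lit 0x100000ceb03) (nat_lit 51))
 (.p (nat_lit 0x1b041acb02) (nat_lit 0x300a2c) (nat_lit 4)))))
 (.n (.n (.n (.n (.p (nat_lit 0x84e084c084a084606ed06e906) (nat_lit 0x2800002300) (nat_lit 51))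
 (.p (nat_lit 0x2693281b02) (nat_lit 0x200000000900) (nat_lit 37)))
 (.p (nat_lit 0x12e412e212e012de12dc0a8506) (nat_lit 0x1000001240e) (nat_lit 51)))
 (.n (.p (nat_lit 0x3f1b2f02) (nat_lit 0xb02) (nat_lit 30))
 (.p (nat_lit 0x119e119c119a119811961bff06) (nat_lit 0x10000096126) (nat_lit 51))))
 (.n (.n (.p (nat_lit 0x144b128f02) (nat_lit 0x144900) (nat_lit 16))
 (.p (nat_lit 0xf3e0f3c0f3a0f380f36036706) (nat_lit 0x1000000e01c) (nat_lit 52)))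
 (.n (.p (nat_lit 0x100615c102) (nat_lit 0x100705) (nat_lit 5))
 (.p (nat_lit 0x250263102) (nat_lit 0x500b23) (nat_lit 27))))))
 (.n (.n (.n (.n (.n (.p (nat_lit 0x5940592058c058a0423042106) (nat_lit 0x60000c6100) (nat_lit 51))
 (.p (nat_lit 0x26ad27fd02) (nat_lit 0x60000000700) (nat_lit 37)))
 (.p (nat_lit 0x1602032d02) (nat_lit 0x440a07) (nat_lit 5)))
 (.n (.p (nat_lit 0x7fb07ef02) (nat_lit 0x552202) (nat_lit 16))
 (.p (nat_lit 0x12a223a702) (nat_lit 0x140823) (nat_lit 29))))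
 (.n (.n (.n (.p (nat_lit 0x1188118611821180117e0fcf06) (nat_lit 0x4000094800) (nat_lit 52))
 (.p (nat_lit 0x37428bb02) (nat_lit 0x352868d84000000040000) (nat_lit 49)))
 (.p (nat_lit 0x152406db02) (nat_lit 0x300a15) (nat_lit 4)))
 (.n (.p (nat_lit 0x10e8133302) (nat_lit 0x240704) (nat_lit 5))
 (.p (nat_lit 0xc400c200bc00ba0007014106) (nat_lit 0x1a10106) (nat_lit 26)))))
 (.n (.n (.n (.n (.p (nat_lit 0xb6d099302) (nat_lit 0x344400) (nat_lit 16))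
 (.p (nat_lit 0x2791172102) (nat_lit 0x1200a0000b00) (nat_lit 39)))
 (.p (nat_lit 0x1d5e1bd902) (nat_lit 0x440411) (nat_lit 5)))
 (.n (.p (nat_lit 0xc72114f02) (nat_lit 0x400503) (nat_lit 4))
 (.p (nat_lit 0x148e148c148814861484071306) (nat_lit 0x400001422a) (nat_lit 52))))
 (.n (.n (.p (nat_lit 0x1707151b02) (nat_lit 0x410b00) (nat_lit 16))
 (.p (nat_lit 0x1dc152d02) (nat_lit 0x100a1c) (nat_lit 1)))
 (.n (.p (nat_lit 0x101810161014101200cc00c500bb101b101109) (nat_lit 0x2800706) (nat_lit 10))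
 (.p (nat_lit 0x26e5057702) (nat_lit 0x2e0040000100) (nat_lit 41))))))

def c128_44 : Tr := .n c256_44 c256_172

def c256_108 : Tr :=
 .n (.n (.n (.n (.n (.n (.p (nat_lit 0x14e014c0148015104) (nat_lit 0x1a000400015) (nat_lit 17))
 (.p (nat_lit 0x27ca0a8902) (nat_lit 0x20002300) (nat_lit 47)))
 (.p (nat_lit 0x147e222b02) (nat_lit 0x340906) (nat_lit 29)))
 (.n (.p (nat_lit 0xc6218cd02) (nat_lit 0x300501) (nat_lit 29))
 (.p (nat_lit 0x20b01fc302) (nat_lit 0x500721) (nat_lit 5))))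
 (.n (.n (.n (.p (nat_lit 0xddf0d6d02) (nat_lit 0x300600) (nat_lit 15))
 (.p (nat_lit 0xc7e286b02) (nat_lit 0x281d30342800500040000) (nat_lit 49)))
 (.p (nat_lit 0x4b204b004ac04aa042f042906) (nat_lit 0x48000c6015) (nat_lit 52)))
 (.n (.p (nat_lit 0x1110110e110c110a110816ff06) (nat_lit 0x800010b03) (nat_lit 52))
 (.p (nat_lit 0x2a016ef02) (nat_lit 0x400b2a) (nat_lit 1)))))
 (.n (.n (.n (.n (.p (nat_lit 0x7cb05ef02) (nat_lit 0x348200) (nat_lit 16))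
 (.p (nat_lit 0x26eb281502) (nat_lit 0x280040000800) (nat_lit 36)))
 (.p (nat_lit 0x9a404a902) (nat_lit 0x4030e) (nat_lit 4)))
 (.n (.p (nat_lit 0x16340faf02) (nat_lit 0x540a02) (nat_lit 5))
 (.p (nat_lit 0x20f240902) (nat_lit 0x200a24) (nat_lit 30))))
 (.n (.n (.p (nat_lit 0x128c13bb02) (nat_lit 0x40900) (nat_lit 5))
 (.p (nat_lit 0x1f081e4502) (nat_lit 0x200619) (nat_lit 5)))
 (.n (.p (nat_lit 0x206420622060205e205c0d4906) (nat_lit 0x4000044505) (nat_lit 51))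
 (.p (nat_lit 0x1e201e001de01da01a900a106) (nat_lit 0x290e021) (nat_lit 26))))))
 (.n (.n (.n (.n (.n (.p (nat_lit 0x4c804c604c404c204c0034f06) (nat_lit 0x10000088100) (nat_lit 51))
 (.p (nat_lit 0x26930e4b02) (nat_lit 0x200000000600) (nat_lit 39)))
 (.p (nat_lit 0xbd80bd60bd40bd20bd00b5906) (nat_lit 0x10000044407) (nat_lit 52)))
 (.n (.p (nat_lit 0x3f197902) (nat_lit 0x40102) (nat_lit 30))
 (.p (nat_lit 0x870086e086c086a07cf07c506) (nat_lit 0x108000ca223) (nat_lit 52))))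
 (.n (.n (.n (.p (nat_lit 0x10b50eeb02) (nat_lit 0x440700) (nat_lit 15))
 (.p (nat_lit 0x149828a902) (nat_lit 0x350521a84000400000600) (nat_lit 50)))
 (.p (nat_lit 0x22e222e022de22dc22da22d8015007) (nat_lit 0x815) (nat_lit 8)))
 (.n (.p (nat_lit 0x2ac02aa02a602a402a20f2506) (nat_lit 0x4000040604) (nat_lit 52))
 (.p (nat_lit 0x70006e006a00680007007d06) (nat_lit 0x1816a03) (nat_lit 26)))))
 (.n (.n (.n (.n (.p (nat_lit 0x1f6098d02) (nat_lit 0x40400) (nat_lit 1))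
 (.p (nat_lit 0x26b1172302) (nat_lit 0x20000000b00) (nat_lit 41)))
 (.p (nat_lit 0x588058405820580057e18ff06) (nat_lit 0x800000690f) (nat_lit 51)))
 (.n (.p (nat_lit 0x80507f902) (nat_lit 0x454203) (nat_lit 16))
 (.p (nat_lit 0x6140bcd02) (nat_lit 0x44012a) (nat_lit 4))))
 (.n (.n (.p (nat_lit 0x1512164f02) (nat_lit 0xb00) (nat_lit 5))
 (.p (nat_lit 0xd1a086d02) (nat_lit 0x24051c) (nat_lit 4)))
 (.n (.p (nat_lit 0x12c0150f02) (nat_lit 0x440805) (nat_lit 5))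
 (.p (nat_lit 0x270502a702) (nat_lit 0xe0040000000) (nat_lit 38))))))

def c256_236 : Tr :=
 .n (.n (.n (.n (.n (.n (.p (nat_lit 0x34502bb02) (nat_lit 0x0) (nat_lit 15))
 (.p (nat_lit 0x270927db02) (nat_lit 0xa0040000400) (nat_lit 36)))
 (.p (nat_lit 0x1032102e102c102a102808df06) (nat_lit 0x800008e307) (nat_lit 51)))
 (.n (.p (nat_lit 0x1555139102) (nat_lit 0x300901) (nat_lit 15))
 (.p (nat_lit 0x1110110e110c110a1108052506) (nat_lit 0x800010123) (nat_lit 52))))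
 (.n (.n (.n (.p (nat_lit 0x460de102) (nat_lit 0x400700) (nat_lit 1))
 (.p (nat_lit 0x570288b02) (nat_lit 0x342221ca4000100040000) (nat_lit 49)))
 (.p (nat_lit 0x1026102410221020101c0c4b06) (nat_lit 0x100008e515) (nat_lit 52)))
 (.n (.p (nat_lit 0x804130102) (nat_lit 0x440204) (nat_lit 5))
 (.p (nat_lit 0x141614141410140e140c1e8906) (nat_lit 0x400004e22e) (nat_lit 52)))))
 (.n (.n (.n (.n (.p (nat_lit 0x7b407b207b007ae0014000b000107b707ad09) (nat_lit 0x2840300) (nat_lit 10))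
 (.p (nat_lit 0x273912d702) (nat_lit 0xa0060000900) (nat_lit 38)))
 (.p (nat_lit 0xb710b6502) (nat_lit 0x54640e) (nat_lit 16)))
 (.n (.p (nat_lit 0x17cc17ca17c817c600500041003f17c517c309) (nat_lit 0x840b02) (nat_lit 10))
 (.p (nat_lit 0x2096242102) (nat_lit 0x200628) (nat_lit 29))))
 (.n (.n (.p (nat_lit 0x1510150e150c15081506135706) (nat_lit 0x2000090a00) (nat_lit 51))
 (.p (nat_lit 0xaba0ab80ab40ab20ab0043b06) (nat_lit 0x40000c801c) (nat_lit 52)))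
 (.n (.p (nat_lit 0x10f814f702) (nat_lit 0x440705) (nat_lit 5))
 (.p (nat_lit 0x25e025c025602540285000506) (nat_lit 0x1a0e22a) (nat_lit 26))))))
 (.n (.n (.n (.n (.n (.p (nat_lit 0x512065b02) (nat_lit 0x300200) (nat_lit 4))
 (.p (nat_lit 0x28041aa902) (nat_lit 0x40004700) (nat_lit 48)))
 (.p (nat_lit 0xfa20fa00f9e0f9c0f981a3106) (nat_lit 0x1000014309) (nat_lit 52)))
 (.n (.p (nat_lit 0x11941190118e118c118a139f06) (nat_lit 0x8000016902) (nat_lit 52))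
 (.p (nat_lit 0x16de0a5302) (nat_lit 0x200b23) (nat_lit 4))))
 (.n (.n (.n (.p (nat_lit 0x10b6120f02) (nat_lit 0x540800) (nat_lit 4))
 (.p (nat_lit 0x111628c702) (nat_lit 0x3508a9d84000200000600) (nat_lit 50)))
 (.p (nat_lit 0x107a10781074107210701aab06) (nat_lit 0x4000092517) (nat_lit 51)))
 (.n (.p (nat_lit 0x17dc143302) (nat_lit 0x140b04) (nat_lit 5))
 (.p (nat_lit 0x255e255c255a255825560069011007) (nat_lit 0x10880e) (nat_lit 25)))))
 (.n (.n (.n (.n (.p (nat_lit 0xbf20bf00bec0bea0be80a6906) (nat_lit 0x4000006500) (nat_lit 51))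
 (.p (nat_lit 0xc80284902) (nat_lit 0x4a1a36344000500040000) (nat_lit 49)))
 (.p (nat_lit 0x59e059c059a059805961def06) (nat_lit 0x10000008b11) (nat_lit 51)))
 (.n (.p (nat_lit 0xf1c1dbf02) (nat_lit 0x540603) (nat_lit 29))
 (.p (nat_lit 0x1588158415821580157e07d906) (nat_lit 0x80000d422a) (nat_lit 51))))
 (.n (.n (.p (nat_lit 0x17821780177e177c177a177806) (nat_lit 0xd2b00) (nat_lit 52))
 (.p (nat_lit 0x17a808c902) (nat_lit 0x540b1c) (nat_lit 4)))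
 (.n (.p (nat_lit 0x81e081c08180816081411ff06) (nat_lit 0x4000006806) (nat_lit 52))
 (.p (nat_lit 0x26b1073102) (nat_lit 0x20000000200) (nat_lit 41))))))

def c128_108 : Tr := .n c256_108 c256_236

def c64_44 : Tr := .n c128_44 c128_108

def c32_12 : Tr := .n c64_12 c64_44

def c256_28 : Tr :=
 .n (.n (.n (.n (.n (.n (.p (nat_lit 0x480044004d03) (nat_lit 0x14000500002) (nat_lit 17))
 (.p (nat_lit 0x26cb065702) (nat_lit 0x180020000200) (nat_lit 38)))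
 (.p (nat_lit 0x48e048a04880486048412cd06) (nat_lit 0x8000042806) (nat_lit 52)))
 (.n (.p (nat_lit 0x4500d7702) (nat_lit 0x340001) (nat_lit 5))
 (.p (nat_lit 0x1b701cc902) (nat_lit 0x1f) (nat_lit 5))))
 (.n (.n (.n (.p (nat_lit 0xb4c0c8102) (nat_lit 0x540500) (nat_lit 4))
 (.p (nat_lit 0xf3a285902) (nat_lit 0x4a8874b44000100000600) (nat_lit 49)))
 (.p (nat_lit 0x21bc213302) (nat_lit 0x240414) (nat_lit 5)))
 (.n (.p (nat_lit 0x163c118502) (nat_lit 0x340a03) (nat_lit 4))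
 (.p (nat_lit 0xa060a040a0209fe09fc09b506) (nat_lit 0x200004232a) (nat_lit 52)))))
 (.n (.n (.n (.n (.p (nat_lit 0x6ef051302) (nat_lit 0x300200) (nat_lit 15))
 (.p (nat_lit 0x26b3280d02) (nat_lit 0x800) (nat_lit 36)))
 (.p (nat_lit 0x1d521b6102) (nat_lit 0x24040a) (nat_lit 5)))
 (.n (.p (nat_lit 0x15641560155e155c155a0047156307) (nat_lit 0x400a02) (nat_lit 7))
 (.p (nat_lit 0x180e18ab02) (nat_lit 0x400124) (nat_lit 5))))
 (.n (.n (.p (nat_lit 0x12bf10b302) (nat_lit 0x354800) (nat_lit 16))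
 (.p (nat_lit 0x1b1e19b702) (nat_lit 0x440a17) (nat_lit 4)))
 (.n (.p (nat_lit 0x80c159702) (nat_lit 0x240205) (nat_lit 4))
 (.p (nat_lit 0x14b259102) (nat_lit 0x300815) (nat_lit 28))))))
 (.n (.n (.n (.n (.n (.p (nat_lit 0x3d803d603d403d203ce038f06) (nat_lit 0x10000c8000) (nat_lit 52))
 (.p (nat_lit 0x27e60ba502) (nat_lit 0x20000500) (nat_lit 45)))
 (.p (nat_lit 0x2b802b602b402b202b0099906) (nat_lit 0x800040307) (nat_lit 51)))
 (.n (.p (nat_lit 0x12da12d812d612d412d0146306) (nat_lit 0x1000052901) (nat_lit 52))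
 (.p (nat_lit 0x82a0828082408220820060706) (nat_lit 0x4000046123) (nat_lit 51))))
 (.n (.n (.n (.p (nat_lit 0xffd0ddd02) (nat_lit 0x212700) (nat_lit 16))
 (.p (nat_lit 0xf40289502) (nat_lit 0x356068ca4000100000600) (nat_lit 49)))
 (.p (nat_lit 0x66a06680666066406600d0d06) (nat_lit 0x1000044515) (nat_lit 51)))
 (.n (.p (nat_lit 0xe3413f702) (nat_lit 0x100604) (nat_lit 5))
 (.p (nat_lit 0x27c248f02) (nat_lit 0x300501) (nat_lit 27)))))
 (.n (.n (.n (.n (.p (nat_lit 0x8ca09d902) (nat_lit 0x400) (nat_lit 5))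
 (.p (nat_lit 0x26a9157302) (nat_lit 0xa0000000a00) (nat_lit 39)))
 (.p (nat_lit 0xd150d0902) (nat_lit 0x54650e) (nat_lit 16)))
 (.n (.p (nat_lit 0x54a1bb902) (nat_lit 0x200103) (nat_lit 29))
 (.p (nat_lit 0x18c418c218be18bc18ba21c906) (nat_lit 0x4000012729) (nat_lit 52))))
 (.n (.n (.p (nat_lit 0x1440157702) (nat_lit 0x240a00) (nat_lit 4))
 (.p (nat_lit 0x520084d02) (nat_lit 0x40011c) (nat_lit 5)))
 (.n (.p (nat_lit 0x12bf10f702) (nat_lit 0x340705) (nat_lit 15))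
 (.p (nat_lit 0x26ab038102) (nat_lit 0x80000000000) (nat_lit 41))))))

def c256_156 : Tr :=
 .n (.n (.n (.n (.n (.n (.p (nat_lit 0x24c02480246025304) (nat_lit 0x5800400029) (nat_lit 17))
 (.p (nat_lit 0x271f27d102) (nat_lit 0x240060000300) (nat_lit 36)))
 (.p (nat_lit 0x5b805b605b405b205b006f506) (nat_lit 0x80000a207) (nat_lit 52)))
 (.n (.p (nat_lit 0x12ae0daf02) (nat_lit 0x140801) (nat_lit 4))
 (.p (nat_lit 0x36e09eb02) (nat_lit 0x300023) (nat_lit 4))))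
 (.n (.n (.n (.p (nat_lit 0xe680e5d02) (nat_lit 0x340600) (nat_lit 5))
 (.p (nat_lit 0x1486287702) (nat_lit 0x568872b44000400000600) (nat_lit 49)))
 (.p (nat_lit 0xb66229d02) (nat_lit 0x40415) (nat_lit 29)))
 (.n (.p (nat_lit 0x81e081c08180816081417d506) (nat_lit 0x4000046b03) (nat_lit 52))
 (.p (nat_lit 0x1a201a1c1a1a1a181a1602871a1f07) (nat_lit 0x44022c) (nat_lit 7)))))
 (.n (.n (.n (.n (.p (nat_lit 0x82b081f02) (nat_lit 0x500300) (nat_lit 34))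
 (.p (nat_lit 0x275d111b02) (nat_lit 0x160080000800) (nat_lit 40)))
 (.p (nat_lit 0x82a08280824082208200a8106) (nat_lit 0x400000640e) (nat_lit 51)))
 (.n (.p (nat_lit 0x148e148c148814861484163106) (nat_lit 0x4000054a02) (nat_lit 52))
 (.p (nat_lit 0xade0ada0ad80ad60ad41b2b06) (nat_lit 0x80000c0a25) (nat_lit 51))))
 (.n (.n (.p (nat_lit 0x1420141e141c14181297128f06) (nat_lit 0x110000ce900) (nat_lit 52))
 (.p (nat_lit 0x366093102) (nat_lit 0x50001c) (nat_lit 5)))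
 (.n (.p (nat_lit 0xf3220a302) (nat_lit 0x440605) (nat_lit 29))
 (.p (nat_lit 0x1f7261d02) (nat_lit 0x823) (nat_lit 28))))))
 (.n (.n (.n (.n (.n (.p (nat_lit 0x420056b02) (nat_lit 0x240100) (nat_lit 4))
 (.p (nat_lit 0x27230e5102) (nat_lit 0x200060000600) (nat_lit 39)))
 (.p (nat_lit 0x11b203f902) (nat_lit 0x300807) (nat_lit 5)))
 (.n (.p (nat_lit 0x7ec19cb02) (nat_lit 0x440202) (nat_lit 29))
 (.p (nat_lit 0x10de0b1d02) (nat_lit 0x240723) (nat_lit 4))))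
 (.n (.n (.n (.p (nat_lit 0xfd2111d02) (nat_lit 0x500800) (nat_lit 5))
 (.p (nat_lit 0x148e28b302) (nat_lit 0x352868d84000400000600) (nat_lit 49)))
 (.p (nat_lit 0x145206d502) (nat_lit 0x540915) (nat_lit 4)))
 (.n (.p (nat_lit 0x1002141702) (nat_lit 0x500704) (nat_lit 4))
 (.p (nat_lit 0xa800a600a4009e000500bd06) (nat_lit 0x110e605) (nat_lit 26)))))
 (.n (.n (.n (.n (.p (nat_lit 0xb380b340b320b300995098d06) (nat_lit 0x8800056400) (nat_lit 51))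
 (.p (nat_lit 0x283a0e4502) (nat_lit 0x60012b00) (nat_lit 47)))
 (.p (nat_lit 0x1146114411421140113e1d1b06) (nat_lit 0x2000088411) (nat_lit 52)))
 (.n (.p (nat_lit 0x2340b8902) (nat_lit 0x540403) (nat_lit 1))
 (.p (nat_lit 0xe600e5c0e5a0e580e56071506) (nat_lit 0x800008c22a) (nat_lit 51))))
 (.n (.n (.p (nat_lit 0x16d3151702) (nat_lit 0x206b00) (nat_lit 16))
 (.p (nat_lit 0x1370136e136a1368136601a5136d07) (nat_lit 0x30091c) (nat_lit 7)))
 (.n (.p (nat_lit 0x21aa21a821a621a421a221a006) (nat_lit 0x4e406) (nat_lit 52))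
 (.p (nat_lit 0x270727b102) (nat_lit 0xc0040000100) (nat_lit 37))))))

def c128_28 : Tr := .n c256_28 c256_156

def c256_92 : Tr :=
 .n (.n (.n (.n (.n (.n (.p (nat_lit 0x10a0106011303) (nat_lit 0x500050000e) (nat_lit 17))
 (.p (nat_lit 0x268d27c902) (nat_lit 0x260000000300) (nat_lit 36)))
 (.p (nat_lit 0x222e222c222a22282226222400c607) (nat_lit 0x40906) (nat_lit 8)))
 (.n (.p (nat_lit 0x2140a9d02) (nat_lit 0x500401) (nat_lit 1))
 (.p (nat_lit 0x15c615c415c215c015be1f4306) (nat_lit 0x1000004e021) (nat_lit 51))))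
 (.n (.n (.n (.p (nat_lit 0xd940d920d900d8e0d710d6906) (nat_lit 0x11000008600) (nat_lit 51))
 (.p (nat_lit 0x13be286702) (nat_lit 0x1a2274b50000300040600) (nat_lit 50)))
 (.p (nat_lit 0x42e067d02) (nat_lit 0x340015) (nat_lit 5)))
 (.n (.p (nat_lit 0x82a0828082408220820170506) (nat_lit 0x4000006b03) (nat_lit 51))
 (.p (nat_lit 0x161c161a16161614026a025b02551619161309) (nat_lit 0x1840a2a) (nat_lit 10)))))
 (.n (.n (.n (.n (.p (nat_lit 0x79807960794079205ef05e906) (nat_lit 0x4800052200) (nat_lit 51))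
 (.p (nat_lit 0x2713120902) (nat_lit 0x40000800) (nat_lit 39)))
 (.p (nat_lit 0x8ec225f02) (nat_lit 0x50030e) (nat_lit 29)))
 (.n (.p (nat_lit 0x162a1b0b02) (nat_lit 0x40a02) (nat_lit 29))
 (.p (nat_lit 0x1914188502) (nat_lit 0x400924) (nat_lit 5))))
 (.n (.n (.p (nat_lit 0x138b11a302) (nat_lit 0xc900) (nat_lit 16))
 (.p (nat_lit 0x1eee1e7102) (nat_lit 0x140519) (nat_lit 4)))
 (.n (.p (nat_lit 0x203a2038203620342032203006) (nat_lit 0x4e405) (nat_lit 52))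
 (.p (nat_lit 0x25d425d225d025ce25cc021901aa07) (nat_lit 0xa71c) (nat_lit 25))))))
 (.n (.n (.n (.n (.n (.p (nat_lit 0x34e048f02) (nat_lit 0x500100) (nat_lit 4))
 (.p (nat_lit 0x26ad0e5702) (nat_lit 0x60000000600) (nat_lit 41)))
 (.p (nat_lit 0xb5003d102) (nat_lit 0x140407) (nat_lit 4)))
 (.n (.p (nat_lit 0x1635162902) (nat_lit 0x550a01) (nat_lit 16))
 (.p (nat_lit 0x7ca237b02) (nat_lit 0x340223) (nat_lit 29))))
 (.n (.n (.n (.p (nat_lit 0x1090108e108a10880eed0ee706) (nat_lit 0x120000d4700) (nat_lit 52))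
 (.p (nat_lit 0x92428a302) (nat_lit 0x350521a84000300040000) (nat_lit 50)))
 (.p (nat_lit 0x19ac19aa19a819a619a40fe506) (nat_lit 0x100008a715) (nat_lit 51)))
 (.n (.p (nat_lit 0xf20140302) (nat_lit 0x140604) (nat_lit 4))
 (.p (nat_lit 0x70006e006800660005029306) (nat_lit 0x1316503) (nat_lit 26)))))
 (.n (.n (.n (.n (.p (nat_lit 0xa7b08cb02) (nat_lit 0x2400) (nat_lit 16))
 (.p (nat_lit 0x282e17df02) (nat_lit 0x40050a00) (nat_lit 48)))
 (.p (nat_lit 0x179205e302) (nat_lit 0x240b0e) (nat_lit 4)))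
 (.n (.p (nat_lit 0x17c07f502) (nat_lit 0x240203) (nat_lit 1))
 (.p (nat_lit 0x717053b02) (nat_lit 0x50012a) (nat_lit 15))))
 (.n (.n (.p (nat_lit 0x160b144102) (nat_lit 0x246a00) (nat_lit 16))
 (.p (nat_lit 0x9fa09f809f609f209f00c5906) (nat_lit 0x200008051c) (nat_lit 52)))
 (.n (.p (nat_lit 0x12ba15e502) (nat_lit 0x140805) (nat_lit 4))
 (.p (nat_lit 0x26c1038302) (nat_lit 0x220020000000) (nat_lit 41))))))

def c256_220 : Tr :=
 .n (.n (.n (.n (.n (.n (.p (nat_lit 0x2e602e402e202e002de02c506) (nat_lit 0x10000006000) (nat_lit 52))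
 (.p (nat_lit 0x26db09cf02) (nat_lit 0x80020000400) (nat_lit 38)))
 (.p (nat_lit 0x8e003b502) (nat_lit 0x500307) (nat_lit 5)))
 (.n (.p (nat_lit 0x92409220920091c091a138f06) (nat_lit 0x2000086901) (nat_lit 51))
 (.p (nat_lit 0x38a0388038603800529052706) (nat_lit 0x3000080123) (nat_lit 51))))
 (.n (.n (.n (.p (nat_lit 0xf270e6b02) (nat_lit 0x452600) (nat_lit 16))
 (.p (nat_lit 0xe4a288502) (nat_lit 0x344580a64000000040600) (nat_lit 49)))
 (.p (nat_lit 0x570056e056c056805660c4d06) (nat_lit 0x2000082515) (nat_lit 52)))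
 (.n (.p (nat_lit 0x1e341e321e301e2e1e2c1e2a06) (nat_lit 0xa204) (nat_lit 52))
 (.p (nat_lit 0x1aa21aa01a9e1a9a1a981daf06) (nat_lit 0x200001462d) (nat_lit 51)))))
 (.n (.n (.n (.n (.p (nat_lit 0x7ae091d02) (nat_lit 0x140300) (nat_lit 5))
 (.p (nat_lit 0x26f3282102) (nat_lit 0x200040000900) (nat_lit 37)))
 (.p (nat_lit 0x9d609d409d209d009cc0b5d06) (nat_lit 0x100004840e) (nat_lit 52)))
 (.n (.p (nat_lit 0x2817c702) (nat_lit 0x240b02) (nat_lit 1))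
 (.p (nat_lit 0x2421f2b02) (nat_lit 0x500b27) (nat_lit 1))))
 (.n (.n (.p (nat_lit 0x14ec14ea14e814e614e414e206) (nat_lit 0xea00) (nat_lit 52))
 (.p (nat_lit 0x43c084102) (nat_lit 0x44001c) (nat_lit 5)))
 (.n (.p (nat_lit 0x20d020ce20cc20ca20c820c600aa07) (nat_lit 0x40705) (nat_lit 8))
 (.p (nat_lit 0x251265902) (nat_lit 0x500929) (nat_lit 28))))))
 (.n (.n (.n (.n (.n (.p (nat_lit 0x144050d02) (nat_lit 0x200) (nat_lit 1))
 (.p (nat_lit 0x26f70f3b02) (nat_lit 0x1c0040000700) (nat_lit 38)))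
 (.p (nat_lit 0x178e178c1788178400ea00db00d7178b178709) (nat_lit 0x1940b07) (nat_lit 10)))
 (.n (.p (nat_lit 0x139a106902) (nat_lit 0x200902) (nat_lit 5))
 (.p (nat_lit 0x15400a4f02) (nat_lit 0x500a23) (nat_lit 4))))
 (.n (.n (.n (.p (nat_lit 0x1213120702) (nat_lit 0x140800) (nat_lit 34))
 (.p (nat_lit 0x56e28c302) (nat_lit 0x3508a9d84000100040000) (nat_lit 49)))
 (.p (nat_lit 0x1a8a19d702) (nat_lit 0x440417) (nat_lit 5)))
 (.n (.p (nat_lit 0x14ea14e814e614e414e2171506) (nat_lit 0x1000000eb04) (nat_lit 52))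
 (.p (nat_lit 0x14e255502) (nat_lit 0x50030e) (nat_lit 27)))))
 (.n (.n (.n (.n (.p (nat_lit 0xbce0bcc0bca0bc80bc60a6306) (nat_lit 0x800082500) (nat_lit 52))
 (.p (nat_lit 0x12d2284702) (nat_lit 0x4a1a36344000300000600) (nat_lit 49)))
 (.p (nat_lit 0x1de61bdf02) (nat_lit 0x100b11) (nat_lit 5)))
 (.n (.p (nat_lit 0x400f1502) (nat_lit 0x140603) (nat_lit 1))
 (.p (nat_lit 0xf3e0f3c0f3a0f380f3607db06) (nat_lit 0x1000004e22a) (nat_lit 52))))
 (.n (.n (.p (nat_lit 0x175e175c175a1756175415f306) (nat_lit 0x2000050b00) (nat_lit 51))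
 (.p (nat_lit 0x1e816cf02) (nat_lit 0xb1c) (nat_lit 1)))
 (.n (.p (nat_lit 0x1200175d02) (nat_lit 0x400806) (nat_lit 5))
 (.p (nat_lit 0x27a3049b02) (nat_lit 0xa0000100) (nat_lit 40))))))

def c128_92 : Tr := .n c256_92 c256_220

def c64_28 : Tr := .n c128_28 c128_92

def c256_60 : Tr :=
 .n (.n (.n (.n (.n (.n (.p (nat_lit 0x9d00990095008c04) (nat_lit 0xad100004) (nat_lit 20))
 (.p (nat_lit 0x2773066902) (nat_lit 0x80000200) (nat_lit 40)))
 (.p (nat_lit 0x1658165616521650164e12cb06) (nat_lit 0x4000056806) (nat_lit 51)))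
 (.n (.p (nat_lit 0x61e0e8502) (nat_lit 0x340101) (nat_lit 5))
 (.p (nat_lit 0x1f2e1fe502) (nat_lit 0x100021) (nat_lit 5))))
 (.n (.n (.n (.p (nat_lit 0xd1b0b4702) (nat_lit 0x246500) (nat_lit 16))
 (.p (nat_lit 0xbb30bab09d909d3082b0817066906550497048902b102a3285e0d) (nat_lit 0x281d30344000000000000) (nat_lit 33)))
 (.p (nat_lit 0x35a03580356035203500149035507) (nat_lit 0x200015) (nat_lit 7)))
 (.n (.p (nat_lit 0x170817061704170216fe0069170107) (nat_lit 0x100b03) (nat_lit 7))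
 (.p (nat_lit 0x13880c1502) (nat_lit 0x50092a) (nat_lit 5)))))
 (.n (.n (.n (.n (.p (nat_lit 0x14c05f102) (nat_lit 0x440200) (nat_lit 1))
 (.p (nat_lit 0x280c1b7102) (nat_lit 0x6800) (nat_lit 48)))
 (.p (nat_lit 0x16881686168416821680217506) (nat_lit 0x1000005030d) (nat_lit 52)))
 (.n (.p (nat_lit 0xe520e4e0e4c0e4a1565156106) (nat_lit 0x1400008ca02) (nat_lit 52))
 (.p (nat_lit 0x185223eb02) (nat_lit 0x540224) (nat_lit 29))))
 (.n (.n (.p (nat_lit 0x1316131413121310130e130c06) (nat_lit 0xc900) (nat_lit 52))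
 (.p (nat_lit 0x1da61c9d02) (nat_lit 0x240518) (nat_lit 4)))
 (.n (.p (nat_lit 0x1fe21fe01fde1fdc1fda1fd800aa07) (nat_lit 0x40305) (nat_lit 8))
 (.p (nat_lit 0x25b425b225b025ae25ac0043018407) (nat_lit 0x20a618) (nat_lit 25))))))
 (.n (.n (.n (.n (.n (.p (nat_lit 0x469038d02) (nat_lit 0x52000) (nat_lit 16))
 (.p (nat_lit 0x272d0ba902) (nat_lit 0x160060000500) (nat_lit 38)))
 (.p (nat_lit 0xa7202fb02) (nat_lit 0x200407) (nat_lit 5)))
 (.n (.p (nat_lit 0x1935155902) (nat_lit 0x502a01) (nat_lit 16))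
 (.p (nat_lit 0x70a070807060704070001f9070307) (nat_lit 0x100223) (nat_lit 7))))
 (.n (.n (.n (.p (nat_lit 0x102f102302) (nat_lit 0x340700) (nat_lit 34))
 (.p (nat_lit 0xc7a289d02) (nat_lit 0x356068ca4000500040000) (nat_lit 49)))
 (.p (nat_lit 0x1adb0d1502) (nat_lit 0x54e515) (nat_lit 16)))
 (.n (.p (nat_lit 0x72e072c0728072607240e3906) (nat_lit 0x4000084604) (nat_lit 52))
 (.p (nat_lit 0x3f24b102) (nat_lit 0xb02) (nat_lit 28)))))
 (.n (.n (.n (.n (.p (nat_lit 0xa060a040a020a0009fe08cb06) (nat_lit 0x800002400) (nat_lit 52))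
 (.p (nat_lit 0x26cb282d02) (nat_lit 0x180020000a00) (nat_lit 37)))
 (.p (nat_lit 0x11be05d502) (nat_lit 0x30080e) (nat_lit 5)))
 (.n (.p (nat_lit 0x634112902) (nat_lit 0x240103) (nat_lit 5))
 (.p (nat_lit 0x5320bbd02) (nat_lit 0x10012a) (nat_lit 4))))
 (.n (.n (.p (nat_lit 0x15c815c415c015be1445144106) (nat_lit 0xa00004ea00) (nat_lit 51))
 (.p (nat_lit 0x5fe095502) (nat_lit 0x54011c) (nat_lit 4)))
 (.n (.p (nat_lit 0x11f6150502) (nat_lit 0x500805) (nat_lit 5))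
 (.p (nat_lit 0x268d02af02) (nat_lit 0x260000000000) (nat_lit 40))))))

def c256_188 : Tr :=
 .n (.n (.n (.n (.n (.n (.p (nat_lit 0x2c402c202c002be02ba000302bd07) (nat_lit 0x100000) (nat_lit 7))
 (.p (nat_lit 0x2775081f02) (nat_lit 0x2e00a0000300) (nat_lit 38)))
 (.p (nat_lit 0x5d605d405d205d007c107b906) (nat_lit 0x8800050207) (nat_lit 51)))
 (.n (.p (nat_lit 0x146b12b702) (nat_lit 0x540801) (nat_lit 15))
 (.p (nat_lit 0x4480add02) (nat_lit 0x440023) (nat_lit 5))))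
 (.n (.n (.n (.p (nat_lit 0xec80ec60ec40ec20ec00ebe06) (nat_lit 0xd2600) (nat_lit 52))
 (.p (nat_lit 0x72e287d02) (nat_lit 0x585a12b21000200040000) (nat_lit 49)))
 (.p (nat_lit 0x1a850b6902) (nat_lit 0x14e415) (nat_lit 16)))
 (.n (.p (nat_lit 0xf1b17d702) (nat_lit 0x440b03) (nat_lit 15))
 (.p (nat_lit 0x1c02247502) (nat_lit 0x20012d) (nat_lit 29)))))
 (.n (.n (.n (.n (.p (nat_lit 0x8a608a408a2089e06f306eb06) (nat_lit 0x11000014300) (nat_lit 52))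
 (.p (nat_lit 0x26cf281d02) (nat_lit 0x140020000900) (nat_lit 37)))
 (.p (nat_lit 0x20150a8302) (nat_lit 0x41440e) (nat_lit 16)))
 (.n (.p (nat_lit 0x471b3702) (nat_lit 0x400b02) (nat_lit 30))
 (.p (nat_lit 0x119411921190118e118a1c5906) (nat_lit 0x1000056126) (nat_lit 52))))
 (.n (.n (.p (nat_lit 0xa0135502) (nat_lit 0x100a00) (nat_lit 1))
 (.p (nat_lit 0x158815861584157e0361035f06) (nat_lit 0x300009401c) (nat_lit 51)))
 (.n (.p (nat_lit 0x4980496049404920490100f06) (nat_lit 0x10000002705) (nat_lit 51))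
 (.p (nat_lit 0x263a2638263626342632022d021607) (nat_lit 0x112824) (nat_lit 25))))))
 (.n (.n (.n (.n (.n (.p (nat_lit 0x5ef042302) (nat_lit 0x340100) (nat_lit 15))
 (.p (nat_lit 0x27fe0e2702) (nat_lit 0x12700) (nat_lit 48)))
 (.p (nat_lit 0x16b6040f02) (nat_lit 0x400b07) (nat_lit 4)))
 (.n (.p (nat_lit 0x1a961a941a921a901a8e1a8c004a07) (nat_lit 0x502) (nat_lit 8))
 (.p (nat_lit 0x13760a4102) (nat_lit 0x200923) (nat_lit 5))))
 (.n (.n (.n (.p (nat_lit 0x11b30fcf02) (nat_lit 0x300800) (nat_lit 16))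
 (.p (nat_lit 0x73228bd02) (nat_lit 0x352868d64000200040000) (nat_lit 50)))
 (.p (nat_lit 0x152f152302) (nat_lit 0x208a15) (nat_lit 16)))
 (.n (.p (nat_lit 0x128a128812861282128010e906) (nat_lit 0x20000d6704) (nat_lit 52))
 (.p (nat_lit 0xde00dc00da00d80003010506) (nat_lit 0x806207) (nat_lit 26)))))
 (.n (.n (.n (.n (.p (nat_lit 0xbaf0ba302) (nat_lit 0x500) (nat_lit 34))
 (.p (nat_lit 0x374283f02) (nat_lit 0x4a1a22344000000040000) (nat_lit 49)))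
 (.p (nat_lit 0x1d8a1c3102) (nat_lit 0x500511) (nat_lit 4)))
 (.n (.p (nat_lit 0xe26115d02) (nat_lit 0x603) (nat_lit 5))
 (.p (nat_lit 0x7d20bdf02) (nat_lit 0x14022a) (nat_lit 5))))
 (.n (.n (.p (nat_lit 0xbe15f302) (nat_lit 0x240b00) (nat_lit 1))
 (.p (nat_lit 0x1a9234302) (nat_lit 0x500a1c) (nat_lit 30)))
 (.n (.p (nat_lit 0xbb21cf02) (nat_lit 0x40706) (nat_lit 30))
 (.p (nat_lit 0x272d27b502) (nat_lit 0x160060000100) (nat_lit 36))))))

def c128_60 : Tr := .n c256_60 c256_188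

def c256_124 : Tr :=
 .n (.n (.n (.n (.n (.n (.p (nat_lit 0x17e017c0178018504) (nat_lit 0x6800400018) (nat_lit 17))
 (.p (nat_lit 0x26f7082502) (nat_lit 0x1c0040000300) (nat_lit 40)))
 (.p (nat_lit 0x15bc15ba15b615b415b2147f06) (nat_lit 0x400004c906) (nat_lit 51)))
 (.n (.p (nat_lit 0x11e00da102) (nat_lit 0x801) (nat_lit 4))
 (.p (nat_lit 0x20d81fcb02) (nat_lit 0x340721) (nat_lit 5))))
 (.n (.n (.n (.p (nat_lit 0xe130d6902) (nat_lit 0x108600) (nat_lit 16))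
 (.p (nat_lit 0x56a286f02) (nat_lit 0x588872b44000100040000) (nat_lit 49)))
 (.p (nat_lit 0x1a20a8b02) (nat_lit 0x200415) (nat_lit 1)))
 (.n (.p (nat_lit 0x1deb170502) (nat_lit 0x302b03) (nat_lit 16))
 (.p (nat_lit 0x17c00c3b02) (nat_lit 0x540b2a) (nat_lit 4)))))
 (.n (.n (.n (.n (.p (nat_lit 0x80905e902) (nat_lit 0x54200) (nat_lit 16))
 (.p (nat_lit 0x2729121702) (nat_lit 0x1a0060000800) (nat_lit 41)))
 (.p (nat_lit 0x9ac226902) (nat_lit 0x44030e) (nat_lit 29)))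
 (.n (.p (nat_lit 0x65e065c065a06580654162d06) (nat_lit 0x1000044a02) (nat_lit 52))
 (.p (nat_lit 0x284195d02) (nat_lit 0x300025) (nat_lit 1))))
 (.n (.n (.p (nat_lit 0x13c113b502) (nat_lit 0x340900) (nat_lit 34))
 (.p (nat_lit 0x20441f7702) (nat_lit 0x54041a) (nat_lit 5)))
 (.n (.p (nat_lit 0xe460e440e420e400e3e00a90e4907) (nat_lit 0x500605) (nat_lit 7))
 (.p (nat_lit 0x19c25fd02) (nat_lit 0x500122) (nat_lit 27))))))
 (.n (.n (.n (.n (.n (.p (nat_lit 0x51b034702) (nat_lit 0x106100) (nat_lit 16))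
 (.p (nat_lit 0x26e10d5d02) (nat_lit 0x20020000600) (nat_lit 40)))
 (.p (nat_lit 0xdec03e102) (nat_lit 0x400607) (nat_lit 5)))
 (.n (.p (nat_lit 0x198a1988198619840627062506) (nat_lit 0x1800048102) (nat_lit 51))
 (.p (nat_lit 0x2120e1702) (nat_lit 0x400623) (nat_lit 1))))
 (.n (.n (.n (.p (nat_lit 0x10ef0eed02) (nat_lit 0x552700) (nat_lit 16))
 (.p (nat_lit 0x2b628ad02) (nat_lit 0x354a621b0000000000000) (nat_lit 50)))
 (.p (nat_lit 0x11d311c902) (nat_lit 0x208815) (nat_lit 16)))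
 (.n (.p (nat_lit 0xaba0ab80ab40ab20ab00f2506) (nat_lit 0x40000c8604) (nat_lit 52))
 (.p (nat_lit 0xa624ed02) (nat_lit 0x400b04) (nat_lit 27)))))
 (.n (.n (.n (.n (.p (nat_lit 0x9940ac502) (nat_lit 0x440400) (nat_lit 5))
 (.p (nat_lit 0x2836216d02) (nat_lit 0x40b00) (nat_lit 47)))
 (.p (nat_lit 0x214e214c214821462144193106) (nat_lit 0x4000010a0f) (nat_lit 51)))
 (.n (.p (nat_lit 0x9c0113b02) (nat_lit 0x440303) (nat_lit 4))
 (.p (nat_lit 0x7d9061502) (nat_lit 0x44012a) (nat_lit 15))))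
 (.n (.n (.p (nat_lit 0x151c164d02) (nat_lit 0x500b00) (nat_lit 4))
 (.p (nat_lit 0xb0e0b0c0b0a0b080b060d1706) (nat_lit 0x8000c451c) (nat_lit 52)))
 (.n (.p (nat_lit 0x142e142c142a1428142412bb06) (nat_lit 0x1000056805) (nat_lit 51))
 (.p (nat_lit 0x276d02b702) (nat_lit 0x60080000000) (nat_lit 40))))))

def c256_252 : Tr :=
 .n (.n (.n (.n (.n (.n (.p (nat_lit 0xd4038d02) (nat_lit 0x40000) (nat_lit 1))
 (.p (nat_lit 0x276727e102) (nat_lit 0xc0080000400) (nat_lit 36)))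
 (.p (nat_lit 0x171e171c171a1718171608e106) (nat_lit 0x10000096307) (nat_lit 52)))
 (.n (.p (nat_lit 0x14680ec702) (nat_lit 0x440901) (nat_lit 4))
 (.p (nat_lit 0x6000aed02) (nat_lit 0x40123) (nat_lit 4))))
 (.n (.n (.n (.p (nat_lit 0xf960f920f900f8e0f8c0de106) (nat_lit 0x8000092700) (nat_lit 52))
 (.p (nat_lit 0x910288d02) (nat_lit 0x356221ca4000300040000) (nat_lit 49)))
 (.p (nat_lit 0x1720171e171a171817160c4f06) (nat_lit 0x4000096515) (nat_lit 52)))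
 (.n (.p (nat_lit 0x813080702) (nat_lit 0x556204) (nat_lit 16))
 (.p (nat_lit 0x1f8c206702) (nat_lit 0x4022f) (nat_lit 4)))))
 (.n (.n (.n (.n (.p (nat_lit 0x95e095c095a0958095607b706) (nat_lit 0x1000004a300) (nat_lit 51))
 (.p (nat_lit 0x2725282302) (nat_lit 0x1e0060000900) (nat_lit 37)))
 (.p (nat_lit 0xc4405b702) (nat_lit 0x40050e) (nat_lit 4)))
 (.n (.p (nat_lit 0xec80ec60ec40ec00ebe17c706) (nat_lit 0x20000d2b02) (nat_lit 52))
 (.p (nat_lit 0x213a217902) (nat_lit 0x100129) (nat_lit 4))))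
 (.n (.n (.p (nat_lit 0x1537135302) (nat_lit 0x8a00) (nat_lit 16))
 (.p (nat_lit 0x13b813b413b013ae043d043906) (nat_lit 0xa0000d201c) (nat_lit 52)))
 (.n (.p (nat_lit 0x66a066606640662066010f906) (nat_lit 0x8000044705) (nat_lit 51))
 (.p (nat_lit 0x2678267626742672267001d3028a07) (nat_lit 0x40432c) (nat_lit 25))))))
 (.n (.n (.n (.n (.n (.p (nat_lit 0x680067e067a06780513050d06) (nat_lit 0x4800080200) (nat_lit 51))
 (.p (nat_lit 0x27350f4902) (nat_lit 0xe0060000700) (nat_lit 40)))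
 (.p (nat_lit 0x1cac1b4f02) (nat_lit 0x44020a) (nat_lit 4)))
 (.n (.p (nat_lit 0x147614741470146e146c0045147307) (nat_lit 0x340902) (nat_lit 7))
 (.p (nat_lit 0x16e716db02) (nat_lit 0xb23) (nat_lit 16))))
 (.n (.n (.p (nat_lit 0x12721270126e126c126810af06) (nat_lit 0x10000d4800) (nat_lit 51))
 (.p (nat_lit 0x1ada1ad81ad41ad00176016d01691ad71ad309) (nat_lit 0x1940517) (nat_lit 10)))
 (.n (.p (nat_lit 0x14f814f414f214f014ee17e306) (nat_lit 0x80000ceb04) (nat_lit 51))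
 (.p (nat_lit 0x127257102) (nat_lit 0x300411) (nat_lit 28)))))
 (.n (.n (.n (.n (.p (nat_lit 0xc3f0a6502) (nat_lit 0x102500) (nat_lit 16))
 (.p (nat_lit 0x496284f02) (nat_lit 0x4a0d84344000100000000) (nat_lit 50)))
 (.p (nat_lit 0x1e121bf302) (nat_lit 0x540b11) (nat_lit 5)))
 (.n (.p (nat_lit 0x1568117502) (nat_lit 0x100a03) (nat_lit 4))
 (.p (nat_lit 0x8f40cc302) (nat_lit 0x30032a) (nat_lit 4))))
 (.n (.n (.p (nat_lit 0x179315f302) (nat_lit 0x242b00) (nat_lit 16))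
 (.p (nat_lit 0x193c186502) (nat_lit 0x400a1d) (nat_lit 5)))
 (.n (.p (nat_lit 0x148e148c14881486148411ff06) (nat_lit 0x4000014806) (nat_lit 52))
 (.p (nat_lit 0x268b27bb02) (nat_lit 0x280000000200) (nat_lit 36))))))

def c128_124 : Tr := .n c256_124 c256_252

def c64_60 : Tr := .n c128_60 c128_124

def c32_28 : Tr := .n c64_28 c64_60

def c16_12 : Tr := .n c32_12 c32_28

def c8_4 : Tr := .n c16_4 c16_12

def c4_0 : Tr := .n c8_0 c8_4

def b0 : Tr := c4_0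

theorem hb2_0 : allp (tst G49 true (getA DT)) b0 = true := by decide +kernel

end Vale.Agent.P032.H437.Ev3
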