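import Vale.Agent.P032.H437.Ev3.T

namespace Vale.Agent.P032.H437.Ev3
open Vale.Agent.P032.H859.Rup Vale.Agent.P032.H437

def c256_1 : Tr :=
 .n (.n (.n (.n (.n (.n (.p (nat_lit 0x201) (nat_lit 0x100000) (nat_lit 0))
 (.p (nat_lit 0x2687065502) (nat_lit 0x2c0000000200) (nat_lit 38)))
 (.p (nat_lit 0x13ab120102) (nat_lit 0x400806) (nat_lit 15)))
 (.n (.p (nat_lit 0x17a515f502) (nat_lit 0x346b00) (nat_lit 16))
 (.p (nat_lit 0x194c1a3902) (nat_lit 0x1e) (nat_lit 5))))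
 (.n (.n (.n (.p (nat_lit 0xc4f0a6902) (nat_lit 0x304500) (nat_lit 16))
 (.p (nat_lit 0x9ce284f02) (nat_lit 0x4a0d84344000400000000) (nat_lit 49)))
 (.p (nat_lit 0x5ac05aa05a805a405a21e0d06) (nat_lit 0x20000c8b11) (nat_lit 52)))
 (.n (.p (nat_lit 0x156c117902) (nat_lit 0x300a03) (nat_lit 4))
 (.p (nat_lit 0x8f80cc502) (nat_lit 0x50032a) (nat_lit 4)))))
 (.n (.n (.n (.n (.p (nat_lit 0x68a0686068406820515050d06) (nat_lit 0x8800008200) (nat_lit 52))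
 (.p (nat_lit 0x272b102302) (nat_lit 0x180060000700) (nat_lit 39)))
 (.p (nat_lit 0x1c1c1c1a1c181c141c121ca906) (nat_lit 0x200004820a) (nat_lit 51)))
 (.n (.p (nat_lit 0x70147702) (nat_lit 0x540902) (nat_lit 1))
 (.p (nat_lit 0x23de23dc23da23d823d623d4020207) (nat_lit 0x40b23) (nat_lit 8))))
 (.n (.n (.p (nat_lit 0x127e127a1278127410b510af06) (nat_lit 0x9000056800) (nat_lit 51))
 (.p (nat_lit 0x1adc19ed02) (nat_lit 0x917) (nat_lit 5)))
 (.n (.p (nat_lit 0x1502150014fe14fa17e517dd06) (nat_lit 0x11000050b04) (nat_lit 51))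
 (.p (nat_lit 0x13c013801360134012900fd06) (nat_lit 0x230e512) (nat_lit 26))))))
 (.n (.n (.n (.n (.n (.p (nat_lit 0x38e038302) (nat_lit 0x140000) (nat_lit 5))
 (.p (nat_lit 0x26ad27e302) (nat_lit 0x60000000500) (nat_lit 36)))
 (.p (nat_lit 0x8e508d902) (nat_lit 0x104307) (nat_lit 16)))
 (.n (.p (nat_lit 0x14681466146414621460002f146b07) (nat_lit 0x540901) (nat_lit 7))
 (.p (nat_lit 0x60a060806060604060001f9060307) (nat_lit 0x140123) (nat_lit 7))))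
 (.n (.n (.n (.p (nat_lit 0xfa20fa00f9c0f980ddf0ddb06) (nat_lit 0x5000014700) (nat_lit 52))
 (.p (nat_lit 0xc88288d02) (nat_lit 0x356221ca4000500040000) (nat_lit 50)))
 (.p (nat_lit 0xc5d0c5102) (nat_lit 0x408515) (nat_lit 16)))
 (.n (.p (nat_lit 0xb8a1ea302) (nat_lit 0x40404) (nat_lit 29))
 (.p (nat_lit 0x14ec14ea14e814e414e21f9106) (nat_lit 0x200004e22f) (nat_lit 52)))))
 (.n (.n (.n (.n (.p (nat_lit 0x98a09880986098407b707af06) (nat_lit 0x11000056300) (nat_lit 51))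
 (.p (nat_lit 0x271b12d702) (nat_lit 0x280060000900) (nat_lit 38)))
 (.p (nat_lit 0x2ce02cc02ca02c802c60c4706) (nat_lit 0x1000000450e) (nat_lit 52)))
 (.n (.p (nat_lit 0xed40ed20ece0eca17c917c506) (nat_lit 0x5000054b02) (nat_lit 52))
 (.p (nat_lit 0x2142218102) (nat_lit 0x500129) (nat_lit 4))))
 (.n (.n (.p (nat_lit 0x154f135302) (nat_lit 0xca00) (nat_lit 16))
 (.p (nat_lit 0x164c164a164816441642043906) (nat_lit 0x200005601c) (nat_lit 52)))
 (.n (.p (nat_lit 0x92409220920091c091a10f506) (nat_lit 0x20000c6705) (nat_lit 51))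
 (.p (nat_lit 0x28602840282027e0257022306) (nat_lit 0xd1432c) (nat_lit 26))))))

def c256_129 : Tr :=
 .n (.n (.n (.n (.n (.n (.p (nat_lit 0x1a801a601a201ab04) (nat_lit 0x1a00040001c) (nat_lit 17))
 (.p (nat_lit 0x26e927cd02) (nat_lit 0x2a0040000300) (nat_lit 36)))
 (.p (nat_lit 0x15d415d015ce15cc15ca148106) (nat_lit 0x80000ce906) (nat_lit 52)))
 (.n (.p (nat_lit 0x11e40e9f02) (nat_lit 0x200801) (nat_lit 5))
 (.p (nat_lit 0x20da20d820d620d420d201e520dd07) (nat_lit 0x540721) (nat_lit 7))))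
 (.n (.n (.n (.p (nat_lit 0xe270d6702) (nat_lit 0x10600) (nat_lit 16))
 (.p (nat_lit 0x91a286f02) (nat_lit 0x588872b44000300040000) (nat_lit 50)))
 (.p (nat_lit 0xa8c068702) (nat_lit 0x300415) (nat_lit 4)))
 (.n (.p (nat_lit 0x1711170502) (nat_lit 0x314b03) (nat_lit 16))
 (.p (nat_lit 0x192418e102) (nat_lit 0x14092b) (nat_lit 4)))))
 (.n (.n (.n (.n (.p (nat_lit 0x6e8081502) (nat_lit 0x300) (nat_lit 4))
 (.p (nat_lit 0x2723110d02) (nat_lit 0x200060000800) (nat_lit 38)))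
 (.p (nat_lit 0x750074e074a0748074609ab06) (nat_lit 0x40000c030e) (nat_lit 52)))
 (.n (.p (nat_lit 0x81c081a081608141635162f06) (nat_lit 0x12000046a02) (nat_lit 52))
 (.p (nat_lit 0x19601a7702) (nat_lit 0x500025) (nat_lit 5))))
 (.n (.n (.p (nat_lit 0x86129702) (nat_lit 0x540900) (nat_lit 1))
 (.p (nat_lit 0x208c1f7b02) (nat_lit 0x14051a) (nat_lit 4)))
 (.n (.p (nat_lit 0x176a17681766176417600e4106) (nat_lit 0x1000090605) (nat_lit 52))
 (.p (nat_lit 0x256260102) (nat_lit 0x100023) (nat_lit 27))))))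
 (.n (.n (.n (.n (.n (.p (nat_lit 0x527034702) (nat_lit 0x108100) (nat_lit 16))
 (.p (nat_lit 0x26d70e5902) (nat_lit 0xc0020000600) (nat_lit 41)))
 (.p (nat_lit 0xe1f0de902) (nat_lit 0x208607) (nat_lit 16)))
 (.n (.p (nat_lit 0x718198d02) (nat_lit 0x202) (nat_lit 29))
 (.p (nat_lit 0x1870186e186c186a18680e1706) (nat_lit 0x8000002623) (nat_lit 52))))
 (.n (.n (.n (.p (nat_lit 0x10fb0eed02) (nat_lit 0x554700) (nat_lit 16))
 (.p (nat_lit 0x81a28ad02) (nat_lit 0x354a621b0000300000000) (nat_lit 49)))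
 (.p (nat_lit 0x135e06c702) (nat_lit 0x100915) (nat_lit 4)))
 (.n (.p (nat_lit 0xc7e0c7c0c7a0c780c760f2906) (nat_lit 0x100000ca604) (nat_lit 52))
 (.p (nat_lit 0x19224f302) (nat_lit 0x100205) (nat_lit 27)))))
 (.n (.n (.n (.n (.p (nat_lit 0xac70abb02) (nat_lit 0x540400) (nat_lit 34))
 (.p (nat_lit 0x26d7171902) (nat_lit 0xc0020000b00) (nat_lit 39)))
 (.p (nat_lit 0x1a6a198b02) (nat_lit 0x500410) (nat_lit 5)))
 (.n (.p (nat_lit 0x1cf21cf01cee1cec1cea1ce8007207) (nat_lit 0x403) (nat_lit 8))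
 (.p (nat_lit 0x7100bd502) (nat_lit 0x20022a) (nat_lit 4))))
 (.n (.n (.p (nat_lit 0x16741672166c166a1519151706) (nat_lit 0x600000eb00) (nat_lit 52))
 (.p (nat_lit 0x43d0d1f02) (nat_lit 0x44051c) (nat_lit 15)))
 (.n (.p (nat_lit 0x12cb12bf02) (nat_lit 0x34c805) (nat_lit 16))
 (.p (nat_lit 0x274d02b702) (nat_lit 0x260080000000) (nat_lit 40))))))

def c128_1 : Tr := .n c256_1 c256_129

def c256_65 : Tr :=
 .n (.n (.n (.n (.n (.n (.p (nat_lit 0xa800a6009e00ab04) (nat_lit 0x18800400005) (nat_lit 17))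
 (.p (nat_lit 0x2769066902) (nat_lit 0xa0080000200) (nat_lit 40)))
 (.p (nat_lit 0x13a2176d02) (nat_lit 0x906) (nat_lit 4)))
 (.n (.p (nat_lit 0x2f181d02) (nat_lit 0x540101) (nat_lit 30))
 (.p (nat_lit 0x1f341fab02) (nat_lit 0x400021) (nat_lit 4))))
 (.n (.n (.n (.p (nat_lit 0xd290b4902) (nat_lit 0x34c500) (nat_lit 16))
 (.p (nat_lit 0x578286302) (nat_lit 0x281d30344000100040000) (nat_lit 50)))
 (.p (nat_lit 0x10c035902) (nat_lit 0x400015) (nat_lit 1)))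
 (.n (.p (nat_lit 0x1704119102) (nat_lit 0x300b03) (nat_lit 4))
 (.p (nat_lit 0x1542245902) (nat_lit 0xa2a) (nat_lit 29)))))
 (.n (.n (.n (.n (.p (nat_lit 0x5f2073902) (nat_lit 0x540200) (nat_lit 5))
 (.p (nat_lit 0x280c120502) (nat_lit 0x40800) (nat_lit 45)))
 (.p (nat_lit 0x21de212102) (nat_lit 0x30080d) (nat_lit 4)))
 (.n (.p (nat_lit 0x111c111a111811161114155b06) (nat_lit 0x800010a02) (nat_lit 51))
 (.p (nat_lit 0x18ea23ed02) (nat_lit 0x824) (nat_lit 29))))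
 (.n (.n (.p (nat_lit 0x132c132a13281326132411a506) (nat_lit 0x100000e900) (nat_lit 51))
 (.p (nat_lit 0x1dac1ca302) (nat_lit 0x540518) (nat_lit 4)))
 (.n (.p (nat_lit 0x9c614bb02) (nat_lit 0x240305) (nat_lit 5))
 (.p (nat_lit 0x1a801a601a201a001fd000106) (nat_lit 0x180a01c) (nat_lit 26))))))
 (.n (.n (.n (.n (.n (.p (nat_lit 0x47b039702) (nat_lit 0x554000) (nat_lit 16))
 (.p (nat_lit 0x27ec044702) (nat_lit 0x60046500) (nat_lit 48)))
 (.p (nat_lit 0xa7603cb02) (nat_lit 0x400407) (nat_lit 4)))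
 (.n (.p (nat_lit 0x155d155102) (nat_lit 0x110a01) (nat_lit 16))
 (.p (nat_lit 0x7060a1b02) (nat_lit 0x300223) (nat_lit 5))))
 (.n (.n (.n (.p (nat_lit 0x480eed02) (nat_lit 0x540700) (nat_lit 1))
 (.p (nat_lit 0x726289f02) (nat_lit 0x354868ca4000200040000) (nat_lit 49)))
 (.p (nat_lit 0xdfe22b702) (nat_lit 0x100615) (nat_lit 29)))
 (.n (.p (nat_lit 0x918091609140912090e0e3506) (nat_lit 0x1000086604) (nat_lit 52))
 (.p (nat_lit 0x2e24bb02) (nat_lit 0x500b02) (nat_lit 27)))))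
 (.n (.n (.n (.n (.p (nat_lit 0xa120a100a0a0a0808d108cf06) (nat_lit 0x6000082400) (nat_lit 51))
 (.p (nat_lit 0x26c7158102) (nat_lit 0x1c0020000a00) (nat_lit 41)))
 (.p (nat_lit 0x1bc61bc41bc21bc011c111bb06) (nat_lit 0x900000680e) (nat_lit 52)))
 (.n (.p (nat_lit 0x6d1c0d02) (nat_lit 0x340103) (nat_lit 30))
 (.p (nat_lit 0x5340bbf02) (nat_lit 0x20012a) (nat_lit 4))))
 (.n (.n (.p (nat_lit 0x15d415d215ce15cc15ca144306) (nat_lit 0x40000cea00) (nat_lit 52))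
 (.p (nat_lit 0x6a206a0069e069c069a05f506) (nat_lit 0x80004a11c) (nat_lit 52)))
 (.n (.p (nat_lit 0x11f611f211f011ec00b600a700a111f511ef09) (nat_lit 0x2100805) (nat_lit 10))
 (.p (nat_lit 0x268927a502) (nat_lit 0x2a0000000000) (nat_lit 37))))))

def c256_193 : Tr :=
 .n (.n (.n (.n (.n (.n (.p (nat_lit 0x2b302a702) (nat_lit 0x200000) (nat_lit 34))
 (.p (nat_lit 0x26ad27d502) (nat_lit 0x60000000400) (nat_lit 36)))
 (.p (nat_lit 0x99d07bd02) (nat_lit 0x240207) (nat_lit 15)))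
 (.n (.p (nat_lit 0x138a0eb302) (nat_lit 0x901) (nat_lit 5))
 (.p (nat_lit 0x44a236702) (nat_lit 0x540023) (nat_lit 29))))
 (.n (.n (.n (.p (nat_lit 0xec60ec40ec20ec00ebe0e6d06) (nat_lit 0x100000d2600) (nat_lit 52))
 (.p (nat_lit 0xc7e287d02) (nat_lit 0x585a12b21000500040000) (nat_lit 49)))
 (.p (nat_lit 0xc48069902) (nat_lit 0x515) (nat_lit 4)))
 (.n (.p (nat_lit 0x17df17d302) (nat_lit 0x254b03) (nat_lit 16))
 (.p (nat_lit 0x1c621d6b02) (nat_lit 0x4012d) (nat_lit 4)))))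
 (.n (.n (.n (.n (.p (nat_lit 0x8cd06eb02) (nat_lit 0x100300) (nat_lit 15))
 (.p (nat_lit 0x26c3281d02) (nat_lit 0x200020000900) (nat_lit 37)))
 (.p (nat_lit 0xb5c04c302) (nat_lit 0x14040e) (nat_lit 5)))
 (.n (.p (nat_lit 0x16fc16fa16f616f400520045003f16f916f309) (nat_lit 0x1800b02) (nat_lit 10))
 (.p (nat_lit 0x1df01d4502) (nat_lit 0xb26) (nat_lit 5))))
 (.n (.n (.p (nat_lit 0x1356149502) (nat_lit 0x200a00) (nat_lit 5))
 (.p (nat_lit 0x172a1726172417220367036306) (nat_lit 0x1400009601c) (nat_lit 51)))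
 (.n (.p (nat_lit 0x65e065c065806560654100b06) (nat_lit 0x4000004705) (nat_lit 52))
 (.p (nat_lit 0x24c264102) (nat_lit 0x300a24) (nat_lit 27))))))
 (.n (.n (.n (.n (.n (.p (nat_lit 0x5fd042502) (nat_lit 0x446100) (nat_lit 16))
 (.p (nat_lit 0x27fc196d02) (nat_lit 0x46700) (nat_lit 47)))
 (.p (nat_lit 0x16bb16af02) (nat_lit 0x4b07) (nat_lit 16)))
 (.n (.p (nat_lit 0xc681a9502) (nat_lit 0x400502) (nat_lit 29))
 (.p (nat_lit 0x1fd23b702) (nat_lit 0x300923) (nat_lit 30))))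
 (.n (.n (.n (.p (nat_lit 0x11cb0fcf02) (nat_lit 0x304800) (nat_lit 16))
 (.p (nat_lit 0xc7a28bd02) (nat_lit 0x352868d64000500040000) (nat_lit 49)))
 (.p (nat_lit 0x16c806e302) (nat_lit 0x300b15) (nat_lit 5)))
 (.n (.p (nat_lit 0x1f201f1e1f1c1f1a1f181f16008807) (nat_lit 0xb04) (nat_lit 8))
 (.p (nat_lit 0x25e252d02) (nat_lit 0x500407) (nat_lit 27)))))
 (.n (.n (.n (.n (.p (nat_lit 0x2580a6702) (nat_lit 0x200500) (nat_lit 1))
 (.p (nat_lit 0x730283f02) (nat_lit 0x4a1a22344000200040000) (nat_lit 50)))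
 (.p (nat_lit 0xec1d9702) (nat_lit 0x40511) (nat_lit 1)))
 (.n (.p (nat_lit 0xe2a116102) (nat_lit 0x200603) (nat_lit 5))
 (.p (nat_lit 0x7d60be302) (nat_lit 0x34022a) (nat_lit 5))))
 (.n (.n (.p (nat_lit 0x1727171b02) (nat_lit 0x240b00) (nat_lit 34))
 (.p (nat_lit 0x1fac1faa1fa81fa41fa2152f06) (nat_lit 0x2000000a1c) (nat_lit 52)))
 (.n (.p (nat_lit 0x10fe174d02) (nat_lit 0x240706) (nat_lit 5))
 (.p (nat_lit 0x272327b502) (nat_lit 0x200060000100) (nat_lit 36))))))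

def c128_65 : Tr := .n c256_65 c256_193

def c64_1 : Tr := .n c128_1 c128_65

def c256_33 : Tr :=
 .n (.n (.n (.n (.n (.n (.p (nat_lit 0x5d005b0059004e04) (nat_lit 0x31a00002) (nat_lit 20))
 (.p (nat_lit 0x27bc05f702) (nat_lit 0x20048200) (nat_lit 47)))
 (.p (nat_lit 0x65e065a06580656065412cd06) (nat_lit 0x8000044806) (nat_lit 52)))
 (.n (.p (nat_lit 0x45d045302) (nat_lit 0x450001) (nat_lit 16))
 (.p (nat_lit 0x1b781cd102) (nat_lit 0x50001f) (nat_lit 5))))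
 (.n (.n (.n (.p (nat_lit 0xca20ca00c9c0c9a0b490b4706) (nat_lit 0x60000c2500) (nat_lit 51))
 (.p (nat_lit 0x12dc285902) (nat_lit 0x4a8874b44000300000600) (nat_lit 50)))
 (.p (nat_lit 0x21e2214502) (nat_lit 0x814) (nat_lit 5)))
 (.n (.p (nat_lit 0x163e127102) (nat_lit 0x440a03) (nat_lit 5))
 (.p (nat_lit 0x255244d02) (nat_lit 0x62a) (nat_lit 30)))))
 (.n (.n (.n (.n (.p (nat_lit 0x6f9051102) (nat_lit 0x200200) (nat_lit 16))
 (.p (nat_lit 0x26af120502) (nat_lit 0x40000000800) (nat_lit 39)))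
 (.p (nat_lit 0x1ddc1b6902) (nat_lit 0x200b0a) (nat_lit 5)))
 (.n (.p (nat_lit 0x1564155e155c155a0062004700451563156109) (nat_lit 0x2300a02) (nat_lit 10))
 (.p (nat_lit 0xdb60db40db20dae0dac180b06) (nat_lit 0x2000090124) (nat_lit 52))))
 (.n (.n (.p (nat_lit 0x12cd10b502) (nat_lit 0x456800) (nat_lit 16))
 (.p (nat_lit 0x67406720670066e066c1b1b06) (nat_lit 0x2000040a17) (nat_lit 51)))
 (.n (.p (nat_lit 0x812159d02) (nat_lit 0x540205) (nat_lit 4))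
 (.p (nat_lit 0x145259702) (nat_lit 0x915) (nat_lit 28))))))
 (.n (.n (.n (.n (.n (.p (nat_lit 0x410040e040c040a038f038d06) (nat_lit 0x1800056000) (nat_lit 52))
 (.p (nat_lit 0x27110ba702) (nat_lit 0x20040000500) (nat_lit 38)))
 (.p (nat_lit 0x72e072c072807260724099f06) (nat_lit 0x40000c4307) (nat_lit 52)))
 (.n (.p (nat_lit 0x1658165616541650164e146506) (nat_lit 0x2000056901) (nat_lit 51))
 (.p (nat_lit 0xbaa0ba80ba60ba40ba2060b06) (nat_lit 0x1000004a123) (nat_lit 52))))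
 (.n (.n (.n (.p (nat_lit 0x100b0ddf02) (nat_lit 0x314700) (nat_lit 16))
 (.p (nat_lit 0x12dc289502) (nat_lit 0x356068ca4000300000600) (nat_lit 50)))
 (.p (nat_lit 0xaba0ab80ab40ab20ab00d1106) (nat_lit 0x40000c8515) (nat_lit 52)))
 (.n (.p (nat_lit 0x811efd02) (nat_lit 0x200604) (nat_lit 30))
 (.p (nat_lit 0x2b249702) (nat_lit 0x300801) (nat_lit 28)))))
 (.n (.n (.n (.n (.p (nat_lit 0x8cc09db02) (nat_lit 0x100400) (nat_lit 5))
 (.p (nat_lit 0x268f282902) (nat_lit 0x240000000a00) (nat_lit 37)))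
 (.p (nat_lit 0xdf005c702) (nat_lit 0x60e) (nat_lit 4)))
 (.n (.p (nat_lit 0x128054f02) (nat_lit 0x400103) (nat_lit 1))
 (.p (nat_lit 0x21fa218f02) (nat_lit 0x100829) (nat_lit 5))))
 (.n (.n (.p (nat_lit 0x1442157902) (nat_lit 0x340a00) (nat_lit 4))
 (.p (nat_lit 0x5220520051e051c01b001a1019f051b051909) (nat_lit 0x80011c) (nat_lit 10)))
 (.n (.p (nat_lit 0x20e110f302) (nat_lit 0x14a705) (nat_lit 16))
 (.p (nat_lit 0x26a502a302) (nat_lit 0xe0000000000) (nat_lit 38))))))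

def c256_161 : Tr :=
 .n (.n (.n (.n (.n (.n (.p (nat_lit 0x25e025c0254026104) (nat_lit 0x1880040002a) (nat_lit 17))
 (.p (nat_lit 0x27d207cb02) (nat_lit 0x6004a300) (nat_lit 47)))
 (.p (nat_lit 0x8df06fd02) (nat_lit 0x400207) (nat_lit 15)))
 (.n (.p (nat_lit 0x12b20db302) (nat_lit 0x340801) (nat_lit 4))
 (.p (nat_lit 0x370235902) (nat_lit 0x400023) (nat_lit 29))))
 (.n (.n (.n (.p (nat_lit 0xe6a0e5f02) (nat_lit 0x440600) (nat_lit 5))
 (.p (nat_lit 0x2b0287902) (nat_lit 0x588bb0344000000000000) (nat_lit 50)))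
 (.p (nat_lit 0x1a20b6b02) (nat_lit 0x240415) (nat_lit 1)))
 (.n (.p (nat_lit 0xaba0ab80ab40ab20ab017d506) (nat_lit 0x40000c8b03) (nat_lit 52))
 (.p (nat_lit 0xfae0fac0faa0fa60fa41a1b06) (nat_lit 0x20000d422c) (nat_lit 51)))))
 (.n (.n (.n (.n (.p (nat_lit 0x83608320830082e082c06f106) (nat_lit 0x8000000300) (nat_lit 52))
 (.p (nat_lit 0x2757121902) (nat_lit 0x1c0080000800) (nat_lit 41)))
 (.p (nat_lit 0xbac0baa0ba80ba60ba20a7d06) (nat_lit 0x100000a40e) (nat_lit 52)))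
 (.n (.p (nat_lit 0x172a1728172617241722163506) (nat_lit 0x100000d6a02) (nat_lit 51))
 (.p (nat_lit 0x1bf61d3102) (nat_lit 0x100126) (nat_lit 5))))
 (.n (.n (.p (nat_lit 0x142e142c142a14241291128f06) (nat_lit 0x3000056900) (nat_lit 51))
 (.p (nat_lit 0x65e065c065806560654036306) (nat_lit 0x400000401c) (nat_lit 52)))
 (.n (.p (nat_lit 0x17521750174e174a0f2f0f2b06) (nat_lit 0x28000ce605) (nat_lit 51))
 (.p (nat_lit 0x230262302) (nat_lit 0x300823) (nat_lit 27))))))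
 (.n (.n (.n (.n (.n (.p (nat_lit 0x579056d02) (nat_lit 0x340100) (nat_lit 34))
 (.p (nat_lit 0x27730e5f02) (nat_lit 0x80000600) (nat_lit 41)))
 (.p (nat_lit 0x11c311b702) (nat_lit 0x504807) (nat_lit 16)))
 (.n (.p (nat_lit 0x7ee19cd02) (nat_lit 0x540202) (nat_lit 29))
 (.p (nat_lit 0x11d8239902) (nat_lit 0x823) (nat_lit 29))))
 (.n (.n (.n (.p (nat_lit 0x113c113a113811360fcf0fc906) (nat_lit 0x4800086800) (nat_lit 52))
 (.p (nat_lit 0xe5828b502) (nat_lit 0x3503a8d64000000040600) (nat_lit 50)))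
 (.p (nat_lit 0x1e801e7e1e7c1e7a144b144906) (nat_lit 0x18000cc915) (nat_lit 52)))
 (.n (.p (nat_lit 0x127e127c127a127812740ffb06) (nat_lit 0x1000016704) (nat_lit 51))
 (.p (nat_lit 0xa800a400a2009e0085000306) (nat_lit 0x2110705) (nat_lit 26)))))
 (.n (.n (.n (.n (.p (nat_lit 0xb4d099702) (nat_lit 0x540400) (nat_lit 15))
 (.p (nat_lit 0x274f172b02) (nat_lit 0x240080000b00) (nat_lit 41)))
 (.p (nat_lit 0x1d561bd302) (nat_lit 0x40411) (nat_lit 5)))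
 (.n (.p (nat_lit 0x1d361d341d321d2e0b850b8106) (nat_lit 0x5000042403) (nat_lit 51))
 (.p (nat_lit 0x10321030102e102a1028071106) (nat_lit 0x200008e22a) (nat_lit 51))))
 (.n (.n (.p (nat_lit 0x16e1151902) (nat_lit 0x308b00) (nat_lit 16))
 (.p (nat_lit 0x1454089702) (nat_lit 0x4091c) (nat_lit 4)))
 (.n (.p (nat_lit 0x1012166d02) (nat_lit 0x100706) (nat_lit 4))
 (.p (nat_lit 0x26fb048902) (nat_lit 0x180040000100) (nat_lit 38))))))

def c128_33 : Tr := .n c256_33 c256_161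

def c256_97 : Tr :=
 .n (.n (.n (.n (.n (.n (.p (nat_lit 0x12a01260120012d04) (nat_lit 0x14800400011) (nat_lit 17))
 (.p (nat_lit 0x27c8081502) (nat_lit 0x300) (nat_lit 45)))
 (.p (nat_lit 0x147a16a502) (nat_lit 0x140906) (nat_lit 5)))
 (.n (.p (nat_lit 0x18921890188e188a18880a9706) (nat_lit 0x2000014401) (nat_lit 52))
 (.p (nat_lit 0x20a81fbb02) (nat_lit 0x100721) (nat_lit 5))))
 (.n (.n (.n (.p (nat_lit 0xdb60db40db20dae0d6b0d6706) (nat_lit 0x2800090600) (nat_lit 52))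
 (.p (nat_lit 0xbb30bab09d909d3082b0817066906550497048902af02ad28680d) (nat_lit 0x281d30342800000000000) (nat_lit 33)))
 (.p (nat_lit 0x432042e042c042a0428014d043107) (nat_lit 0x440015) (nat_lit 7)))
 (.n (.p (nat_lit 0x9220920091e091c091a170906) (nat_lit 0x10000086b03) (nat_lit 51))
 (.p (nat_lit 0x207e207c207a20781619161306) (nat_lit 0x480004ea2a) (nat_lit 51)))))
 (.n (.n (.n (.n (.p (nat_lit 0x7b105ed02) (nat_lit 0x240200) (nat_lit 15))
 (.p (nat_lit 0x26fd111702) (nat_lit 0x160040000800) (nat_lit 40)))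
 (.p (nat_lit 0x6a206a0069e069c069808e506) (nat_lit 0x100000a30e) (nat_lit 52)))
 (.n (.p (nat_lit 0x162e0fa902) (nat_lit 0x240a02) (nat_lit 5))
 (.p (nat_lit 0xa120a100a0e0a0c0a08190f06) (nat_lit 0x1000082924) (nat_lit 51))))
 (.n (.n (.p (nat_lit 0x139711a302) (nat_lit 0xe900) (nat_lit 16))
 (.p (nat_lit 0x1ef21e3d02) (nat_lit 0x340519) (nat_lit 5)))
 (.n (.p (nat_lit 0x9f205102) (nat_lit 0x40505) (nat_lit 30))
 (.p (nat_lit 0x1e225dd02) (nat_lit 0x400a1c) (nat_lit 27))))))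
 (.n (.n (.n (.n (.n (.p (nat_lit 0x4a204a0049e049c034f034d06) (nat_lit 0x18000006100) (nat_lit 52))
 (.p (nat_lit 0x26a50d4f02) (nat_lit 0xe0000000600) (nat_lit 38)))
 (.p (nat_lit 0xb580b560b520b500b4e00db0b5507) (nat_lit 0x340407) (nat_lit 7)))
 (.n (.p (nat_lit 0x45a103902) (nat_lit 0x340002) (nat_lit 4))
 (.p (nat_lit 0x7ce0a2902) (nat_lit 0x540223) (nat_lit 5))))
 (.n (.n (.n (.p (nat_lit 0x109e109a109810960eeb0ee306) (nat_lit 0x8800056700) (nat_lit 52))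
 (.p (nat_lit 0x1729171b1587157313c513b11211120b102d10250e590e4b28a40d) (nat_lit 0x350521a84000000040600) (nat_lit 33)))
 (.p (nat_lit 0x10ca078b02) (nat_lit 0x140715) (nat_lit 4)))
 (.n (.p (nat_lit 0xf24131f02) (nat_lit 0x340604) (nat_lit 5))
 (.p (nat_lit 0x4824db02) (nat_lit 0x500603) (nat_lit 27)))))
 (.n (.n (.n (.n (.p (nat_lit 0xa8508d502) (nat_lit 0x502400) (nat_lit 16))
 (.p (nat_lit 0x2832147f02) (nat_lit 0x6004ca00) (nat_lit 47)))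
 (.p (nat_lit 0x1896182102) (nat_lit 0x10040f) (nat_lit 5)))
 (.n (.p (nat_lit 0x7f61c8902) (nat_lit 0x340203) (nat_lit 29))
 (.p (nat_lit 0x255244102) (nat_lit 0x4012a) (nat_lit 30))))
 (.n (.n (.p (nat_lit 0x1625144302) (nat_lit 0x34ca00) (nat_lit 16))
 (.p (nat_lit 0xa280a260a240a200c590c5506) (nat_lit 0x280008451c) (nat_lit 51)))
 (.n (.p (nat_lit 0x12bc15e702) (nat_lit 0x240805) (nat_lit 4))
 (.p (nat_lit 0x26bb02b102) (nat_lit 0x280020000000) (nat_lit 40))))))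

def c256_225 : Tr :=
 .n (.n (.n (.n (.n (.n (.p (nat_lit 0x30002fe02fc02f802f602bf06) (nat_lit 0x2000008000) (nat_lit 51))
 (.p (nat_lit 0x26d30ab302) (nat_lit 0x100020000400) (nat_lit 39)))
 (.p (nat_lit 0x57c057a05760574057208dd06) (nat_lit 0x4000082307) (nat_lit 51)))
 (.n (.p (nat_lit 0xbac0baa0ba80ba60ba2138d06) (nat_lit 0x100000a901) (nat_lit 52))
 (.p (nat_lit 0x81e081c081a08180816052506) (nat_lit 0x800006123) (nat_lit 52))))
 (.n (.n (.n (.p (nat_lit 0xdd80f3702) (nat_lit 0x700) (nat_lit 4))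
 (.p (nat_lit 0x1210288502) (nat_lit 0x344580a64000200040600) (nat_lit 50)))
 (.p (nat_lit 0x82a08280826082408220c4906) (nat_lit 0x800006515) (nat_lit 51)))
 (.n (.p (nat_lit 0x7fc1e5702) (nat_lit 0x40204) (nat_lit 29))
 (.p (nat_lit 0x1e521ecb02) (nat_lit 0x40022e) (nat_lit 4)))))
 (.n (.n (.n (.n (.p (nat_lit 0x1a407b302) (nat_lit 0x340300) (nat_lit 1))
 (.p (nat_lit 0x26e5281f02) (nat_lit 0x2e0040000900) (nat_lit 36)))
 (.p (nat_lit 0xf3e0f3c0f3a0f380f360b6506) (nat_lit 0x1000004e40e) (nat_lit 52)))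
 (.n (.p (nat_lit 0x2a17c902) (nat_lit 0x340b02) (nat_lit 1))
 (.p (nat_lit 0x1f58202702) (nat_lit 0x140128) (nat_lit 4))))
 (.n (.n (.p (nat_lit 0x14f814f614f214f014ee135906) (nat_lit 0x400008ea00) (nat_lit 51))
 (.p (nat_lit 0x43e084302) (nat_lit 0x54001c) (nat_lit 5)))
 (.n (.p (nat_lit 0x10f214f102) (nat_lit 0x140705) (nat_lit 5))
 (.p (nat_lit 0x259265f02) (nat_lit 0x20012a) (nat_lit 28))))))
 (.n (.n (.n (.n (.n (.p (nat_lit 0x146050f02) (nat_lit 0x100200) (nat_lit 1))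
 (.p (nat_lit 0x26f10f3b02) (nat_lit 0x220040000700) (nat_lit 38)))
 (.p (nat_lit 0x1795178b02) (nat_lit 0x344b07) (nat_lit 16)))
 (.n (.p (nat_lit 0x139e106d02) (nat_lit 0x400902) (nat_lit 5))
 (.p (nat_lit 0x154d154102) (nat_lit 0x500a23) (nat_lit 16))))
 (.n (.n (.n (.p (nat_lit 0x6c10b302) (nat_lit 0x340800) (nat_lit 1))
 (.p (nat_lit 0x91a28c302) (nat_lit 0x3508a9d84000300040000) (nat_lit 50)))
 (.p (nat_lit 0x1aa419d902) (nat_lit 0x517) (nat_lit 5)))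
 (.n (.p (nat_lit 0x1510150e150c1506170f170d06) (nat_lit 0x3000090b04) (nat_lit 51))
 (.p (nat_lit 0x10e010c01060104011f000506) (nat_lit 0x1a0c40e) (nat_lit 26)))))
 (.n (.n (.n (.n (.p (nat_lit 0xbda0bd60bd40bd20bd00a6b06) (nat_lit 0x8000004500) (nat_lit 52))
 (.p (nat_lit 0x1656284702) (nat_lit 0x4a1a36344000500000600) (nat_lit 50)))
 (.p (nat_lit 0x1dec1c4702) (nat_lit 0x400b11) (nat_lit 4)))
 (.n (.p (nat_lit 0xf16125702) (nat_lit 0x240603) (nat_lit 4))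
 (.p (nat_lit 0x111c111a11181114111207d506) (nat_lit 0x200005022a) (nat_lit 51))))
 (.n (.n (.p (nat_lit 0x176a176817661764176015f106) (nat_lit 0x10000d0b00) (nat_lit 52))
 (.p (nat_lit 0x16d408bb02) (nat_lit 0x300b1c) (nat_lit 4)))
 (.n (.p (nat_lit 0x2b802b602b402b202b011f906) (nat_lit 0x800000806) (nat_lit 51))
 (.p (nat_lit 0x2799049b02) (nat_lit 0xa00a0000100) (nat_lit 40))))))

def c128_97 : Tr := .n c256_97 c256_225

def c64_33 : Tr := .n c128_33 c128_97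

def c32_1 : Tr := .n c64_1 c64_33

def c256_17 : Tr :=
 .n (.n (.n (.n (.n (.n (.p (nat_lit 0x3b00390037003404) (nat_lit 0x8c800001) (nat_lit 20))
 (.p (nat_lit 0x26dd066302) (nat_lit 0x60020000200) (nat_lit 40)))
 (.p (nat_lit 0x12ca169302) (nat_lit 0x340806) (nat_lit 5)))
 (.n (.p (nat_lit 0x17d515f502) (nat_lit 0x350b00) (nat_lit 16))
 (.p (nat_lit 0x10aa10a610a410a210a0197506) (nat_lit 0x80000d601e) (nat_lit 52))))
 (.n (.n (.n (.p (nat_lit 0xb440c8502) (nat_lit 0x140500) (nat_lit 5))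
 (.p (nat_lit 0x172b17211583157513bb13b5121b120d102f10210e590e4b28520d) (nat_lit 0x4a8876344000000040600) (nat_lit 33)))
 (.p (nat_lit 0x13420f502) (nat_lit 0x813) (nat_lit 1)))
 (.n (.p (nat_lit 0x16361dc102) (nat_lit 0x40a03) (nat_lit 29))
 (.p (nat_lit 0x9b20bf702) (nat_lit 0x14032a) (nat_lit 5)))))
 (.n (.n (.n (.n (.p (nat_lit 0x6ae06aa06a806a606a4051506) (nat_lit 0x800008a200) (nat_lit 51))
 (.p (nat_lit 0x28081ad902) (nat_lit 0x80044700) (nat_lit 47)))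
 (.p (nat_lit 0x701ce702) (nat_lit 0x54030a) (nat_lit 1)))
 (.n (.p (nat_lit 0x155a107d02) (nat_lit 0xa02) (nat_lit 5))
 (.p (nat_lit 0x17b423df02) (nat_lit 0x540b23) (nat_lit 29))))
 (.n (.n (.p (nat_lit 0x12a510b102) (nat_lit 0x248800) (nat_lit 16))
 (.p (nat_lit 0x750074e074a074807461aed06) (nat_lit 0x4000080a17) (nat_lit 52)))
 (.n (.p (nat_lit 0x644158b02) (nat_lit 0x240105) (nat_lit 5))
 (.p (nat_lit 0x14e014c01480146018d000106) (nat_lit 0x1812515) (nat_lit 26))))))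
 (.n (.n (.n (.n (.n (.p (nat_lit 0x3a0039e039c039a038f038d06) (nat_lit 0x1800044000) (nat_lit 51))
 (.p (nat_lit 0x27e4036902) (nat_lit 0x6500) (nat_lit 47)))
 (.p (nat_lit 0x99e03bd02) (nat_lit 0x340307) (nat_lit 4)))
 (.n (.p (nat_lit 0x81c081a081808160814146b06) (nat_lit 0x10000046901) (nat_lit 52))
 (.p (nat_lit 0x60a237302) (nat_lit 0x540123) (nat_lit 29))))
 (.n (.n (.n (.p (nat_lit 0xfd30de302) (nat_lit 0x500700) (nat_lit 15))
 (.p (nat_lit 0x570289302) (nat_lit 0x354221ca4000100040000) (nat_lit 49)))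
 (.p (nat_lit 0xd14078102) (nat_lit 0x540515) (nat_lit 4)))
 (.n (.p (nat_lit 0xb920b900b8c0b8a0098008700810b950b8f09) (nat_lit 0x2a40404) (nat_lit 10))
 (.p (nat_lit 0x20e0208302) (nat_lit 0x14072f) (nat_lit 5)))))
 (.n (.n (.n (.n (.p (nat_lit 0x9b707b302) (nat_lit 0x34a300) (nat_lit 16))
 (.p (nat_lit 0x2824157102) (nat_lit 0xa000e900) (nat_lit 47)))
 (.p (nat_lit 0xd0405c102) (nat_lit 0x34050e) (nat_lit 4)))
 (.n (.p (nat_lit 0x1ba81ba41ba21ba01b9e046506) (nat_lit 0x80000d6003) (nat_lit 52))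
 (.p (nat_lit 0x21021c902) (nat_lit 0x300729) (nat_lit 1))))
 (.n (.n (.p (nat_lit 0x143c157302) (nat_lit 0x40a00) (nat_lit 4))
 (.p (nat_lit 0x51a094102) (nat_lit 0x10011c) (nat_lit 4)))
 (.n (.p (nat_lit 0x1030102c102a102810fb10f706) (nat_lit 0x140000ce705) (nat_lit 51))
 (.p (nat_lit 0x27a227a0279e279c279a27982796279427922790278e278c278a27882786278427822780277e277c277a27782776277418) (nat_lit 0xa0000000) (nat_lit 35))))))

def c256_145 : Tr :=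
 .n (.n (.n (.n (.n (.n (.p (nat_lit 0x20001fa01f8020304) (nat_lit 0x13000400023) (nat_lit 17))
 (.p (nat_lit 0x272d27d302) (nat_lit 0x160060000300) (nat_lit 37)))
 (.p (nat_lit 0x6fe03a102) (nat_lit 0x500207) (nat_lit 5)))
 (.n (.p (nat_lit 0x138f11e502) (nat_lit 0x200801) (nat_lit 15))
 (.p (nat_lit 0x8720870086c086a086821f306) (nat_lit 0x400008a822) (nat_lit 52))))
 (.n (.n (.n (.p (nat_lit 0xe640e5902) (nat_lit 0x140600) (nat_lit 5))
 (.p (nat_lit 0x1494287502) (nat_lit 0x588872b44000400000600) (nat_lit 50)))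
 (.p (nat_lit 0x85a0858085608520a8b0a8706) (nat_lit 0x2800082415) (nat_lit 51)))
 (.n (.p (nat_lit 0x2b802b602b402b202b017cf06) (nat_lit 0x800040b03) (nat_lit 51))
 (.p (nat_lit 0x19bc1ab302) (nat_lit 0x20022c) (nat_lit 5)))))
 (.n (.n (.n (.n (.p (nat_lit 0x6ee081b02) (nat_lit 0x300300) (nat_lit 4))
 (.p (nat_lit 0x2769121902) (nat_lit 0xa0080000800) (nat_lit 41)))
 (.p (nat_lit 0xa82059f02) (nat_lit 0x40040e) (nat_lit 5)))
 (.n (.p (nat_lit 0x10261022101e101c1633162f06) (nat_lit 0xa0000cea02) (nat_lit 52))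
 (.p (nat_lit 0x1b221a7902) (nat_lit 0x40a25) (nat_lit 5))))
 (.n (.n (.p (nat_lit 0x13fa13f813f613f41297129506) (nat_lit 0x1800004c900) (nat_lit 51))
 (.p (nat_lit 0x366036403620360035c01a1035f07) (nat_lit 0x10001c) (nat_lit 7)))
 (.n (.p (nat_lit 0xf2c14d902) (nat_lit 0x140605) (nat_lit 4))
 (.p (nat_lit 0x1a2260b02) (nat_lit 0x200223) (nat_lit 27))))))
 (.n (.n (.n (.n (.n (.p (nat_lit 0x555034b02) (nat_lit 0x312100) (nat_lit 16))
 (.p (nat_lit 0x27f610fd02) (nat_lit 0x20054600) (nat_lit 48)))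
 (.p (nat_lit 0xfe10fd702) (nat_lit 0x304707) (nat_lit 16)))
 (.n (.p (nat_lit 0x7e6104d02) (nat_lit 0x140202) (nat_lit 5))
 (.p (nat_lit 0x10df0eff02) (nat_lit 0x240623) (nat_lit 15))))
 (.n (.n (.n (.p (nat_lit 0x1117110b02) (nat_lit 0x200800) (nat_lit 34))
 (.p (nat_lit 0x149828b102) (nat_lit 0x350521a82800400000600) (nat_lit 50)))
 (.p (nat_lit 0x22fa22f822f622f422f222f0015007) (nat_lit 0x40915) (nat_lit 8)))
 (.n (.p (nat_lit 0xff8140d02) (nat_lit 0x704) (nat_lit 4))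
 (.p (nat_lit 0xa800a600a200a0000701db06) (nat_lit 0x180e305) (nat_lit 26)))))
 (.n (.n (.n (.n (.p (nat_lit 0xaf60af20af00aee0aec099506) (nat_lit 0x80000c2400) (nat_lit 52))
 (.p (nat_lit 0x2838172702) (nat_lit 0x40040b00) (nat_lit 46)))
 (.p (nat_lit 0x1d1a1c1702) (nat_lit 0x200411) (nat_lit 5)))
 (.n (.p (nat_lit 0xb801d2502) (nat_lit 0x140403) (nat_lit 29))
 (.p (nat_lit 0x72e072c072807260724071306) (nat_lit 0x400008422a) (nat_lit 52))))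
 (.n (.n (.p (nat_lit 0xd6b151702) (nat_lit 0x200b00) (nat_lit 15))
 (.p (nat_lit 0x1a3233102) (nat_lit 0x20081c) (nat_lit 30)))
 (.n (.p (nat_lit 0xaa8173902) (nat_lit 0x200406) (nat_lit 4))
 (.p (nat_lit 0x27ae1de502) (nat_lit 0x10100) (nat_lit 48))))))

def c128_17 : Tr := .n c256_17 c256_145

def c256_81 : Tr :=
 .n (.n (.n (.n (.n (.n (.p (nat_lit 0xde00dc00da00e104) (nat_lit 0x1c000400007) (nat_lit 17))
 (.p (nat_lit 0x2755072d02) (nat_lit 0x1e0080000200) (nat_lit 39)))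
 (.p (nat_lit 0x13aa222102) (nat_lit 0x400906) (nat_lit 29)))
 (.n (.p (nat_lit 0x7ef07e302) (nat_lit 0x550201) (nat_lit 16))
 (.p (nat_lit 0x1f3c1fb302) (nat_lit 0x240021) (nat_lit 5))))
 (.n (.n (.n (.p (nat_lit 0xd6c0d5502) (nat_lit 0x300600) (nat_lit 4))
 (.p (nat_lit 0xab6286502) (nat_lit 0x281d30346800400040000) (nat_lit 49)))
 (.p (nat_lit 0x4c804c604c204c0035b035506) (nat_lit 0x12000088015) (nat_lit 51)))
 (.n (.p (nat_lit 0x2ac02a802a602a402a2170706) (nat_lit 0x8000000b03) (nat_lit 52))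
 (.p (nat_lit 0x161c161a1618161616140255161307) (nat_lit 0x40a2a) (nat_lit 7)))))
 (.n (.n (.n (.n (.p (nat_lit 0x76807660762076005ef05e906) (nat_lit 0x48000c8200) (nat_lit 51))
 (.p (nat_lit 0x26c5110902) (nat_lit 0x1e0020000800) (nat_lit 38)))
 (.p (nat_lit 0x8e6225902) (nat_lit 0x20030e) (nat_lit 29)))
 (.n (.p (nat_lit 0x1af1156502) (nat_lit 0x504a02) (nat_lit 16))
 (.p (nat_lit 0x215240302) (nat_lit 0x540824) (nat_lit 30))))
 (.n (.n (.p (nat_lit 0x135f11a502) (nat_lit 0x104900) (nat_lit 16))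
 (.p (nat_lit 0x1ee21e6d02) (nat_lit 0x500519) (nat_lit 5)))
 (.n (.p (nat_lit 0xb9815ab02) (nat_lit 0x140405) (nat_lit 4))
 (.p (nat_lit 0x1f825c302) (nat_lit 0x10051c) (nat_lit 27))))))
 (.n (.n (.n (.n (.n (.p (nat_lit 0x10a034b02) (nat_lit 0x300100) (nat_lit 1))
 (.p (nat_lit 0x278527f102) (nat_lit 0x1e00a0000500) (nat_lit 37)))
 (.p (nat_lit 0xc140c120c100c0c0a730a7106) (nat_lit 0x3000012407) (nat_lit 51)))
 (.n (.p (nat_lit 0x1628162416221620161e002d162707) (nat_lit 0x440a01) (nat_lit 7))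
 (.p (nat_lit 0x7ce07cc07ca07c807c601f707c507) (nat_lit 0x40223) (nat_lit 7))))
 (.n (.n (.n (.p (nat_lit 0x1086108410821080107c0ee506) (nat_lit 0x1000054700) (nat_lit 51))
 (.p (nat_lit 0x9ce28a102) (nat_lit 0x340a621b0000400000000) (nat_lit 49)))
 (.p (nat_lit 0xfe6078502) (nat_lit 0x200715) (nat_lit 4)))
 (.n (.p (nat_lit 0x1658165616541650164e0e3706) (nat_lit 0x2000016604) (nat_lit 51))
 (.p (nat_lit 0x12824cf02) (nat_lit 0x400103) (nat_lit 27)))))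
 (.n (.n (.n (.n (.p (nat_lit 0xa6508cd02) (nat_lit 0x100400) (nat_lit 15))
 (.p (nat_lit 0x26ed283102) (nat_lit 0x260040000a00) (nat_lit 37)))
 (.p (nat_lit 0x1c521c501c4e1c4c1c4a129f06) (nat_lit 0x100000d680e) (nat_lit 52)))
 (.n (.p (nat_lit 0x7f5063502) (nat_lit 0x240103) (nat_lit 15))
 (.p (nat_lit 0x53a053805340530026e025b02570537053309) (nat_lit 0x190012a) (nat_lit 10))))
 (.n (.n (.p (nat_lit 0x15ec15ea15e415e21443144106) (nat_lit 0x60000d0a00) (nat_lit 52))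
 (.p (nat_lit 0xc58095b02) (nat_lit 0x20051c) (nat_lit 5)))
 (.n (.p (nat_lit 0x210111ef02) (nat_lit 0x104805) (nat_lit 16))
 (.p (nat_lit 0x26dd02b102) (nat_lit 0x60020000000) (nat_lit 40))))))

def c256_209 : Tr :=
 .n (.n (.n (.n (.n (.n (.p (nat_lit 0x2d002ce02ca02c802c602c106) (nat_lit 0x4000004000) (nat_lit 52))
 (.p (nat_lit 0x26870ab102) (nat_lit 0x2c0000000400) (nat_lit 39)))
 (.p (nat_lit 0x8da02e302) (nat_lit 0x200307) (nat_lit 4)))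
 (.n (.p (nat_lit 0x2ac02aa02a802a402a2138f06) (nat_lit 0x2000000901) (nat_lit 52))
 (.p (nat_lit 0x52e052c052a0526052401fb052907) (nat_lit 0x200123) (nat_lit 7))))
 (.n (.n (.n (.p (nat_lit 0xefb0e6302) (nat_lit 0x48600) (nat_lit 16))
 (.p (nat_lit 0xd5c288302) (nat_lit 0x342221ca4000000000600) (nat_lit 50)))
 (.p (nat_lit 0x14d22b102) (nat_lit 0x400515) (nat_lit 30)))
 (.n (.p (nat_lit 0x63c12e902) (nat_lit 0x40104) (nat_lit 5))
 (.p (nat_lit 0x1c801d7f02) (nat_lit 0x50022d) (nat_lit 4)))))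
 (.n (.n (.n (.n (.p (nat_lit 0x8f306ed02) (nat_lit 0x20a300) (nat_lit 16))
 (.p (nat_lit 0x270312e102) (nat_lit 0x100040000900) (nat_lit 40)))
 (.p (nat_lit 0x570056e056c056805660b5f06) (nat_lit 0x20000c240e) (nat_lit 52)))
 (.n (.p (nat_lit 0x1b441b421b401b3e1b3c1b3a004a07) (nat_lit 0x40b02) (nat_lit 8))
 (.p (nat_lit 0x1e241eb302) (nat_lit 0x300127) (nat_lit 5))))
 (.n (.n (.p (nat_lit 0x14b614b414b214b0135b135306) (nat_lit 0x8800084a00) (nat_lit 51))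
 (.p (nat_lit 0x436083b02) (nat_lit 0x14001c) (nat_lit 5)))
 (.n (.p (nat_lit 0x102610241022101e101c100906) (nat_lit 0x200008e705) (nat_lit 52))
 (.p (nat_lit 0x250024c024a0246023b00c306) (nat_lit 0xc12129) (nat_lit 26))))))
 (.n (.n (.n (.n (.n (.p (nat_lit 0x635042102) (nat_lit 0x250100) (nat_lit 16))
 (.p (nat_lit 0x2713280302) (nat_lit 0x40000700) (nat_lit 37)))
 (.p (nat_lit 0x178e178c17881786178400db178b07) (nat_lit 0x340b07) (nat_lit 7)))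
 (.n (.p (nat_lit 0xd380d340d320d2e005c004700410d370d3109) (nat_lit 0x2140502) (nat_lit 10))
 (.p (nat_lit 0x153823bf02) (nat_lit 0x100a23) (nat_lit 29))))
 (.n (.n (.n (.p (nat_lit 0x11fd0fcd02) (nat_lit 0x216800) (nat_lit 16))
 (.p (nat_lit 0x49a28c102) (nat_lit 0x332a05d81000100000000) (nat_lit 50)))
 (.p (nat_lit 0x1906184702) (nat_lit 0x200916) (nat_lit 4)))
 (.n (.p (nat_lit 0x17101f1d02) (nat_lit 0x300b04) (nat_lit 29))
 (.p (nat_lit 0x2540253e253c253a253800d500f807) (nat_lit 0xca0a) (nat_lit 25)))))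
 (.n (.n (.n (.n (.p (nat_lit 0x25e0a6d02) (nat_lit 0x500500) (nat_lit 1))
 (.p (nat_lit 0x12e0284502) (nat_lit 0x4a1a22344000300000600) (nat_lit 50)))
 (.p (nat_lit 0x1b501b4e1b4c1b481b461d9b06) (nat_lit 0x20000c4511) (nat_lit 52)))
 (.n (.p (nat_lit 0xfc60fc20fbe0fbc0e2f0e2b06) (nat_lit 0xa000096603) (nat_lit 51))
 (.p (nat_lit 0x65e065a06580656065407d906) (nat_lit 0x800004422a) (nat_lit 52))))
 (.n (.n (.p (nat_lit 0x15f815f415f015ee001e0009000515f715f309) (nat_lit 0x2240b00) (nat_lit 10))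
 (.p (nat_lit 0x160a097d02) (nat_lit 0x240a1c) (nat_lit 5)))
 (.n (.p (nat_lit 0x12c710fd02) (nat_lit 0x140706) (nat_lit 15))
 (.p (nat_lit 0x275d056f02) (nat_lit 0x160080000100) (nat_lit 39))))))

def c128_81 : Tr := .n c256_81 c256_209

def c64_17 : Tr := .n c128_17 c128_81

def c256_49 : Tr :=
 .n (.n (.n (.n (.n (.n (.p (nat_lit 0x820080007e008904) (nat_lit 0x7000400004) (nat_lit 17))
 (.p (nat_lit 0x27be08e702) (nat_lit 0x40000200) (nat_lit 47)))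
 (.p (nat_lit 0x1110110e110c110a110812c506) (nat_lit 0x800050806) (nat_lit 52)))
 (.n (.p (nat_lit 0x180f054302) (nat_lit 0x408101) (nat_lit 16))
 (.p (nat_lit 0x1e1a1e9d02) (nat_lit 0x300020) (nat_lit 5))))
 (.n (.n (.n (.p (nat_lit 0x38f0b4502) (nat_lit 0x140500) (nat_lit 15))
 (.p (nat_lit 0xe4a285d02) (nat_lit 0x1a2260b50000000040600) (nat_lit 49)))
 (.p (nat_lit 0x59405920590058e058c220506) (nat_lit 0x8000c6814) (nat_lit 51)))
 (.n (.p (nat_lit 0x143a1438143414321430163d06) (nat_lit 0x40000d6a03) (nat_lit 51))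
 (.p (nat_lit 0xf0e0f0c0f0a0f080f06025f0f1107) (nat_lit 0x54062a) (nat_lit 7)))))
 (.n (.n (.n (.n (.p (nat_lit 0x5e8072502) (nat_lit 0x40200) (nat_lit 4))
 (.p (nat_lit 0x268d280d02) (nat_lit 0x260000000800) (nat_lit 36)))
 (.p (nat_lit 0x140215b02) (nat_lit 0x24020d) (nat_lit 1)))
 (.n (.p (nat_lit 0x9220920091e091c091a156506) (nat_lit 0x10000086a02) (nat_lit 51))
 (.p (nat_lit 0xea40ea20e9e0e9c0e9a183506) (nat_lit 0x4000050124) (nat_lit 51))))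
 (.n (.n (.p (nat_lit 0x11aa12d902) (nat_lit 0x400900) (nat_lit 4))
 (.p (nat_lit 0x1bb21c9702) (nat_lit 0x540018) (nat_lit 4)))
 (.n (.p (nat_lit 0xa51f9d02) (nat_lit 0x300305) (nat_lit 30))
 (.p (nat_lit 0x182017e017a017801d9012506) (nat_lit 0x2208018) (nat_lit 26))))))
 (.n (.n (.n (.n (.n (.p (nat_lit 0x441038d02) (nat_lit 0x48000) (nat_lit 16))
 (.p (nat_lit 0x273b27ed02) (nat_lit 0x80060000500) (nat_lit 36)))
 (.p (nat_lit 0xb5709a102) (nat_lit 0x440307) (nat_lit 15)))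
 (.n (.p (nat_lit 0x15560ed302) (nat_lit 0x400a01) (nat_lit 4))
 (.p (nat_lit 0x60f060302) (nat_lit 0x140123) (nat_lit 16))))
 (.n (.n (.n (.p (nat_lit 0xeec0eea0ee80ee60ee200030ee507) (nat_lit 0x140700) (nat_lit 7))
 (.p (nat_lit 0x1728289702) (nat_lit 0x344580ca4000500040600) (nat_lit 50)))
 (.p (nat_lit 0x13b813b413b213b013ae0d1306) (nat_lit 0x80000d2515) (nat_lit 52)))
 (.n (.p (nat_lit 0x2b802b402b002ae0e3b0e3706) (nat_lit 0xa000000604) (nat_lit 51))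
 (.p (nat_lit 0x3f24a702) (nat_lit 0x902) (nat_lit 28)))))
 (.n (.n (.n (.n (.p (nat_lit 0x8d409d702) (nat_lit 0x500400) (nat_lit 4))
 (.p (nat_lit 0x28261f3902) (nat_lit 0x46a00) (nat_lit 48)))
 (.p (nat_lit 0x10c804f302) (nat_lit 0x54070e) (nat_lit 4)))
 (.n (.p (nat_lit 0x120063102) (nat_lit 0x40103) (nat_lit 1))
 (.p (nat_lit 0x2212219b02) (nat_lit 0x340829) (nat_lit 5))))
 (.n (.n (.p (nat_lit 0x15a615a415a215a01443143d06) (nat_lit 0x4800046a00) (nat_lit 52))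
 (.p (nat_lit 0x14605f702) (nat_lit 0x14011c) (nat_lit 1)))
 (.n (.p (nat_lit 0x11f014ff02) (nat_lit 0x200805) (nat_lit 5))
 (.p (nat_lit 0x269502a302) (nat_lit 0x1e0000000000) (nat_lit 38))))))

def c256_177 : Tr :=
 .n (.n (.n (.n (.n (.n (.p (nat_lit 0x29402920290029904) (nat_lit 0xe00040002d) (nat_lit 17))
 (.p (nat_lit 0x279d081f02) (nat_lit 0x600a0000300) (nat_lit 38)))
 (.p (nat_lit 0x7c202dd02) (nat_lit 0x540207) (nat_lit 4)))
 (.n (.p (nat_lit 0x108610821080107e107c12b506) (nat_lit 0x8000054801) (nat_lit 51))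
 (.p (nat_lit 0x44209f302) (nat_lit 0x140023) (nat_lit 4))))
 (.n (.n (.n (.p (nat_lit 0xeb00eae0eac0eaa0ea80e6306) (nat_lit 0x8000d0600) (nat_lit 51))
 (.p (nat_lit 0x668287b02) (nat_lit 0x5898b0b44000200000000) (nat_lit 50)))
 (.p (nat_lit 0xb700b6e0b6c0b660158014901470b6b0b6909) (nat_lit 0x1140415) (nat_lit 10)))
 (.n (.p (nat_lit 0x120e12081206120417d717d506) (nat_lit 0xc0000d0b03) (nat_lit 52))
 (.p (nat_lit 0x1b081acf02) (nat_lit 0x500a2c) (nat_lit 4)))))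
 (.n (.n (.n (.n (.p (nat_lit 0x8620860085e085c06f306f106) (nat_lit 0x1800000a300) (nat_lit 52))
 (.p (nat_lit 0x2687281902) (nat_lit 0x2c0000000900) (nat_lit 36)))
 (.p (nat_lit 0x148e148c1488148614840a8106) (nat_lit 0x400001440e) (nat_lit 52)))
 (.n (.p (nat_lit 0x16f60fb502) (nat_lit 0x200b02) (nat_lit 5))
 (.p (nat_lit 0x1c5a1d3d02) (nat_lit 0x240126) (nat_lit 4))))
 (.n (.n (.p (nat_lit 0x1461128d02) (nat_lit 0x4c900) (nat_lit 16))
 (.p (nat_lit 0x1110110e110a11081106036306) (nat_lit 0x400001001c) (nat_lit 52)))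
 (.n (.p (nat_lit 0x100a15c502) (nat_lit 0x300705) (nat_lit 5))
 (.p (nat_lit 0x2140210020e020a0249002d06) (nat_lit 0xc14124) (nat_lit 26))))))
 (.n (.n (.n (.n (.n (.p (nat_lit 0x59e059c059a05960427041f06) (nat_lit 0x11000048100) (nat_lit 51))
 (.p (nat_lit 0x269127ff02) (nat_lit 0x220000000700) (nat_lit 36)))
 (.p (nat_lit 0x161715ff02) (nat_lit 0x248a07) (nat_lit 16)))
 (.n (.p (nat_lit 0xb72105502) (nat_lit 0x40402) (nat_lit 5))
 (.p (nat_lit 0x1fd23ab02) (nat_lit 0x340823) (nat_lit 30))))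
 (.n (.n (.n (.p (nat_lit 0x11941190118e118c118a0fd106) (nat_lit 0x8000016800) (nat_lit 52))
 (.p (nat_lit 0x73228bb02) (nat_lit 0x352868d84000200040000) (nat_lit 50)))
 (.p (nat_lit 0x152806df02) (nat_lit 0x500a15) (nat_lit 4)))
 (.n (.p (nat_lit 0x10ec133702) (nat_lit 0x440704) (nat_lit 5))
 (.p (nat_lit 0xc000be00bc00ba0009025106) (nat_lit 0x2510406) (nat_lit 26)))))
 (.n (.n (.n (.n (.p (nat_lit 0xb7f098d02) (nat_lit 0x50400) (nat_lit 16))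
 (.p (nat_lit 0x2b0283d02) (nat_lit 0x260d84344000000000000) (nat_lit 50)))
 (.p (nat_lit 0x116611621160115e115c1d5f06) (nat_lit 0x800004c411) (nat_lit 51)))
 (.n (.p (nat_lit 0x1d8b0c7502) (nat_lit 0x502503) (nat_lit 16))
 (.p (nat_lit 0x172a1728172417220717071106) (nat_lit 0x1200009622a) (nat_lit 51))))
 (.n (.n (.p (nat_lit 0x1715151d02) (nat_lit 0x512b00) (nat_lit 16))
 (.p (nat_lit 0x152e097302) (nat_lit 0x200a1c) (nat_lit 5)))
 (.n (.p (nat_lit 0xdc00dbe0dbc0dba0db8101b06) (nat_lit 0x10000012706) (nat_lit 52))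
 (.p (nat_lit 0x27b0042d02) (nat_lit 0x40046100) (nat_lit 47))))))

def c128_49 : Tr := .n c256_49 c256_177

def c256_113 : Tr :=
 .n (.n (.n (.n (.n (.n (.p (nat_lit 0x14e014a015303) (nat_lit 0x14000500015) (nat_lit 17))
 (.p (nat_lit 0x270727cf02) (nat_lit 0xc0040000300) (nat_lit 37)))
 (.p (nat_lit 0xc3222d02) (nat_lit 0x440906) (nat_lit 30)))
 (.n (.p (nat_lit 0xd260d9902) (nat_lit 0x240501) (nat_lit 5))
 (.p (nat_lit 0x8a808a608a408a2089e20a906) (nat_lit 0x1000014721) (nat_lit 52))))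
 (.n (.n (.n (.p (nat_lit 0xdef0d7102) (nat_lit 0x500600) (nat_lit 16))
 (.p (nat_lit 0x496286d02) (nat_lit 0x568bb0344000100000000) (nat_lit 50)))
 (.p (nat_lit 0x439042d02) (nat_lit 0x248015) (nat_lit 16)))
 (.n (.p (nat_lit 0x13c213c013be13bc13ba170906) (nat_lit 0x10000092b03) (nat_lit 51))
 (.p (nat_lit 0xe2316ef02) (nat_lit 0x400b2a) (nat_lit 15)))))
 (.n (.n (.n (.n (.p (nat_lit 0x7db05f302) (nat_lit 0x54a200) (nat_lit 16))
 (.p (nat_lit 0x28141b7502) (nat_lit 0x40006800) (nat_lit 48)))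
 (.p (nat_lit 0x9a6058d02) (nat_lit 0x14030e) (nat_lit 5)))
 (.n (.p (nat_lit 0x2b802b602b402b202ae162d06) (nat_lit 0x1000040a02) (nat_lit 51))
 (.p (nat_lit 0x1948240d02) (nat_lit 0x400a24) (nat_lit 29))))
 (.n (.n (.p (nat_lit 0x128e13bd02) (nat_lit 0x140900) (nat_lit 5))
 (.p (nat_lit 0x1f0e1e7b02) (nat_lit 0x240619) (nat_lit 4)))
 (.n (.p (nat_lit 0xe4214cf02) (nat_lit 0x200605) (nat_lit 4))
 (.p (nat_lit 0x19e25eb02) (nat_lit 0x721) (nat_lit 27))))))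
 (.n (.n (.n (.n (.n (.p (nat_lit 0x4de04dc04da04d8034f034706) (nat_lit 0x1100008a100) (nat_lit 51))
 (.p (nat_lit 0x268d0d5b02) (nat_lit 0x260000000600) (nat_lit 40)))
 (.p (nat_lit 0xb5f0b5302) (nat_lit 0x244407) (nat_lit 16)))
 (.n (.p (nat_lit 0x6280f5902) (nat_lit 0x240102) (nat_lit 5))
 (.p (nat_lit 0x7db07cf02) (nat_lit 0x540223) (nat_lit 16))))
 (.n (.n (.n (.p (nat_lit 0x10c90eed02) (nat_lit 0x542700) (nat_lit 16))
 (.p (nat_lit 0xf3e28ab02) (nat_lit 0x350521a86800100000600) (nat_lit 49)))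
 (.p (nat_lit 0x17c11c902) (nat_lit 0x200815) (nat_lit 1)))
 (.n (.p (nat_lit 0x57c057a0576057405720f2506) (nat_lit 0x40000c2604) (nat_lit 51))
 (.p (nat_lit 0x8400820080007c000b013706) (nat_lit 0x290c104) (nat_lit 26)))))
 (.n (.n (.n (.n (.p (nat_lit 0x98e0ab302) (nat_lit 0x140400) (nat_lit 4))
 (.p (nat_lit 0x2693172302) (nat_lit 0x200000000b00) (nat_lit 41)))
 (.p (nat_lit 0x191c17f502) (nat_lit 0x34090f) (nat_lit 4)))
 (.n (.p (nat_lit 0x900113502) (nat_lit 0x500303) (nat_lit 4))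
 (.p (nat_lit 0x616244b02) (nat_lit 0x54012a) (nat_lit 29))))
 (.n (.n (.p (nat_lit 0x1516165302) (nat_lit 0x200b00) (nat_lit 5))
 (.p (nat_lit 0xd1e087102) (nat_lit 0x44051c) (nat_lit 4)))
 (.n (.p (nat_lit 0x12c2211302) (nat_lit 0x540805) (nat_lit 29))
 (.p (nat_lit 0x26fb02a702) (nat_lit 0x180040000000) (nat_lit 38))))))

def c256_241 : Tr :=
 .n (.n (.n (.n (.n (.n (.p (nat_lit 0x34f02c502) (nat_lit 0x500000) (nat_lit 15))
 (.p (nat_lit 0x27da0d1b02) (nat_lit 0x40044400) (nat_lit 48)))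
 (.p (nat_lit 0x121a121812161212121008db06) (nat_lit 0x2000090307) (nat_lit 51)))
 (.n (.p (nat_lit 0x139b138f02) (nat_lit 0x210901) (nat_lit 16))
 (.p (nat_lit 0x13b813b413b213b013ae052d06) (nat_lit 0x8000092123) (nat_lit 52))))
 (.n (.n (.n (.p (nat_lit 0xde20f4102) (nat_lit 0x500700) (nat_lit 4))
 (.p (nat_lit 0x91e288b02) (nat_lit 0x342221ca4000300040000) (nat_lit 50)))
 (.p (nat_lit 0x111c11181116111411120c5106) (nat_lit 0x8000010515) (nat_lit 51)))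
 (.n (.p (nat_lit 0x8040802080007fe07fc0087080707) (nat_lit 0x540204) (nat_lit 7))
 (.p (nat_lit 0x1f66204902) (nat_lit 0x20022f) (nat_lit 4)))))
 (.n (.n (.n (.n (.p (nat_lit 0x93c093a093809360934093206) (nat_lit 0xc0300) (nat_lit 52))
 (.p (nat_lit 0x2731282302) (nat_lit 0x120060000900) (nat_lit 37)))
 (.p (nat_lit 0xc3c05af02) (nat_lit 0x50e) (nat_lit 4)))
 (.n (.p (nat_lit 0xe8e0e8c0e8a0e8817cb17c506) (nat_lit 0x90000c4b02) (nat_lit 51))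
 (.p (nat_lit 0x21b621b421b021ae21ac209906) (nat_lit 0x4000010628) (nat_lit 52))))
 (.n (.n (.p (nat_lit 0x150c150a15081506135d135b06) (nat_lit 0x18000090a00) (nat_lit 51))
 (.p (nat_lit 0xf4c0f480f460f440f42043d06) (nat_lit 0x800004e01c) (nat_lit 51)))
 (.n (.p (nat_lit 0x10f810f610f410f210f000a910fb07) (nat_lit 0x540705) (nat_lit 7))
 (.p (nat_lit 0x259266b02) (nat_lit 0x20032a) (nat_lit 28))))))
 (.n (.n (.n (.n (.n (.p (nat_lit 0x514065d02) (nat_lit 0x400200) (nat_lit 4))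
 (.p (nat_lit 0x28041a1b02) (nat_lit 0x4004a700) (nat_lit 48)))
 (.p (nat_lit 0x1ca41b8702) (nat_lit 0x4020a) (nat_lit 5)))
 (.n (.p (nat_lit 0x156513a102) (nat_lit 0x500902) (nat_lit 15))
 (.p (nat_lit 0x16e023cf02) (nat_lit 0x300b23) (nat_lit 29))))
 (.n (.n (.n (.p (nat_lit 0x122c122a1228122410b710af06) (nat_lit 0x110000c2800) (nat_lit 52))
 (.p (nat_lit 0x164628c702) (nat_lit 0x3508a9d84000500000600) (nat_lit 49)))
 (.p (nat_lit 0x1ad019e302) (nat_lit 0x40517) (nat_lit 4)))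
 (.n (.p (nat_lit 0x17e0134d02) (nat_lit 0x340b04) (nat_lit 4))
 (.p (nat_lit 0x129256902) (nat_lit 0x400311) (nat_lit 28)))))
 (.n (.n (.n (.n (.p (nat_lit 0xc0a0c080c020c000a690a6706) (nat_lit 0x600000c500) (nat_lit 52))
 (.p (nat_lit 0xf3a284d02) (nat_lit 0x4a1a34344000100000600) (nat_lit 49)))
 (.p (nat_lit 0x1e081be902) (nat_lit 0x40b11) (nat_lit 5)))
 (.n (.p (nat_lit 0xf960f940f900f8c0f190f1506) (nat_lit 0x50000d2603) (nat_lit 52))
 (.p (nat_lit 0x1a1907d302) (nat_lit 0x14e22a) (nat_lit 16))))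
 (.n (.n (.p (nat_lit 0x1782177e177c177815f715f106) (nat_lit 0x90000d2b00) (nat_lit 52))
 (.p (nat_lit 0x18041802180017fc17fa01c517ff07) (nat_lit 0x20011d) (nat_lit 7)))
 (.n (.p (nat_lit 0xaba0ab80ab40ab20ab011ff06) (nat_lit 0x4000088806) (nat_lit 52))
 (.p (nat_lit 0x26ad066102) (nat_lit 0x60000000200) (nat_lit 40))))))

def c128_113 : Tr := .n c256_113 c256_241

def c64_49 : Tr := .n c128_49 c128_113

def c32_17 : Tr := .n c64_17 c64_49

def c16_1 : Tr := .n c32_1 c32_17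

def c256_9 : Tr :=
 .n (.n (.n (.n (.n (.n (.p (nat_lit 0x1f001d001700130011000d06) (nat_lit 0x211900000) (nat_lit 22))
 (.p (nat_lit 0x27ba1f0502) (nat_lit 0x12200) (nat_lit 48)))
 (.p (nat_lit 0x12c4176102) (nat_lit 0x40806) (nat_lit 4)))
 (.n (.p (nat_lit 0x17bd15f502) (nat_lit 0x34ab00) (nat_lit 16))
 (.p (nat_lit 0x196e1a4502) (nat_lit 0x14001e) (nat_lit 4))))
 (.n (.n (.n (.p (nat_lit 0xc610a6702) (nat_lit 0x20c500) (nat_lit 16))
 (.p (nat_lit 0x72c285102) (nat_lit 0x4a8876344000200040000) (nat_lit 49)))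
 (.p (nat_lit 0xfe1eeb02) (nat_lit 0x540512) (nat_lit 1)))
 (.n (.p (nat_lit 0x131413121310130e130c157106) (nat_lit 0x1000000ca03) (nat_lit 52))
 (.p (nat_lit 0xa120a100a0e0a0c0a0808f106) (nat_lit 0x100008232a) (nat_lit 51)))))
 (.n (.n (.n (.n (.p (nat_lit 0x6a206a0069e069c050f050d06) (nat_lit 0x180000a200) (nat_lit 52))
 (.p (nat_lit 0x280612b302) (nat_lit 0x60056700) (nat_lit 48)))
 (.p (nat_lit 0x1cde1b5502) (nat_lit 0x14030a) (nat_lit 5)))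
 (.n (.p (nat_lit 0x125c125a125812561252146f06) (nat_lit 0x10000cc902) (nat_lit 52))
 (.p (nat_lit 0x17b00a5d02) (nat_lit 0x340b23) (nat_lit 4))))
 (.n (.n (.p (nat_lit 0x129110b102) (nat_lit 0x240800) (nat_lit 15))
 (.p (nat_lit 0x1461ae902) (nat_lit 0x100a17) (nat_lit 1)))
 (.n (.p (nat_lit 0x47a14a502) (nat_lit 0x540005) (nat_lit 4))
 (.p (nat_lit 0x1a8257f02) (nat_lit 0x500415) (nat_lit 27))))))
 (.n (.n (.n (.n (.n (.p (nat_lit 0x394037d02) (nat_lit 0x440000) (nat_lit 4))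
 (.p (nat_lit 0x268f27e502) (nat_lit 0x240000000500) (nat_lit 37)))
 (.p (nat_lit 0x99802eb02) (nat_lit 0x40307) (nat_lit 5)))
 (.n (.p (nat_lit 0x48e048a048804860484146906) (nat_lit 0x8000042901) (nat_lit 52))
 (.p (nat_lit 0x60a060806040602060001fd060707) (nat_lit 0x340123) (nat_lit 7))))
 (.n (.n (.n (.p (nat_lit 0xfb60fb40fb20fb00de30de106) (nat_lit 0x18000016700) (nat_lit 51))
 (.p (nat_lit 0x12e0288f02) (nat_lit 0x356221ca4000300000600) (nat_lit 50)))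
 (.p (nat_lit 0xd0c06a702) (nat_lit 0x140515) (nat_lit 5)))
 (.n (.p (nat_lit 0x2360b9302) (nat_lit 0x440404) (nat_lit 1))
 (.p (nat_lit 0x20be207902) (nat_lit 0x10072f) (nat_lit 5)))))
 (.n (.n (.n (.n (.p (nat_lit 0x99d07b102) (nat_lit 0x240300) (nat_lit 16))
 (.p (nat_lit 0x282212bf02) (nat_lit 0x60056900) (nat_lit 47)))
 (.p (nat_lit 0xc530c4702) (nat_lit 0x50650e) (nat_lit 16)))
 (.n (.p (nat_lit 0x4601b7b02) (nat_lit 0x40003) (nat_lit 29))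
 (.p (nat_lit 0x21c2242902) (nat_lit 0x729) (nat_lit 29))))
 (.n (.n (.p (nat_lit 0x1563135b02) (nat_lit 0x40ea00) (nat_lit 16))
 (.p (nat_lit 0x44b043f02) (nat_lit 0x54a01c) (nat_lit 16)))
 (.n (.p (nat_lit 0xbac0baa0ba80ba40ba210f506) (nat_lit 0x200004a705) (nat_lit 52))
 (.p (nat_lit 0x29402920290028c0257028906) (nat_lit 0xd1662d) (nat_lit 26))))))

def c256_137 : Tr :=
 .n (.n (.n (.n (.n (.n (.p (nat_lit 0x1c101bd01b901ae04) (nat_lit 0xad10001c) (nat_lit 20))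
 (.p (nat_lit 0x2737082702) (nat_lit 0xc0060000300) (nat_lit 40)))
 (.p (nat_lit 0x6f8039b02) (nat_lit 0x200207) (nat_lit 5)))
 (.n (.p (nat_lit 0x11ea0ea502) (nat_lit 0x500801) (nat_lit 5))
 (.p (nat_lit 0x8be08bc08ba08b808b620d706) (nat_lit 0x2000056721) (nat_lit 52))))
 (.n (.n (.n (.p (nat_lit 0xe410d6902) (nat_lit 0x114600) (nat_lit 16))
 (.p (nat_lit 0xd5c287502) (nat_lit 0x588872b44000000000600) (nat_lit 50)))
 (.p (nat_lit 0xa90075d02) (nat_lit 0x500415) (nat_lit 5)))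
 (.n (.p (nat_lit 0x17d4128702) (nat_lit 0x340b03) (nat_lit 4))
 (.p (nat_lit 0x192a18db02) (nat_lit 0x44092b) (nat_lit 5)))))
 (.n (.n (.n (.n (.p (nat_lit 0x6f206f006ee06ec06e8000306eb07) (nat_lit 0x100300) (nat_lit 7))
 (.p (nat_lit 0x2715110d02) (nat_lit 0x2e0060000800) (nat_lit 38)))
 (.p (nat_lit 0xa7c059902) (nat_lit 0x10040e) (nat_lit 5)))
 (.n (.p (nat_lit 0xbb80bb60bb40bb00bae162f06) (nat_lit 0x200004aa02) (nat_lit 51))
 (.p (nat_lit 0x1a0e1a5102) (nat_lit 0x240225) (nat_lit 5))))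
 (.n (.n (.p (nat_lit 0x13d413d213d013ce128f128d06) (nat_lit 0x1800042900) (nat_lit 52))
 (.p (nat_lit 0x21021f8702) (nat_lit 0x30081a) (nat_lit 5)))
 (.n (.p (nat_lit 0x16aa16a816a416a20e490e4306) (nat_lit 0x12000092605) (nat_lit 51))
 (.p (nat_lit 0x20001fe01fa01f8020b000706) (nat_lit 0x30c123) (nat_lit 26))))))
 (.n (.n (.n (.n (.n (.p (nat_lit 0x53b034f02) (nat_lit 0x50a100) (nat_lit 16))
 (.p (nat_lit 0x26bf0d5d02) (nat_lit 0x240020000600) (nat_lit 40)))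
 (.p (nat_lit 0x10b90ef302) (nat_lit 0x240607) (nat_lit 15)))
 (.n (.p (nat_lit 0x19b819b619b419b219b019ae06) (nat_lit 0x94202) (nat_lit 52))
 (.p (nat_lit 0xefe0a3902) (nat_lit 0x240623) (nat_lit 4))))
 (.n (.n (.n (.p (nat_lit 0x1113110702) (nat_lit 0x800) (nat_lit 34))
 (.p (nat_lit 0xd5a28b102) (nat_lit 0x350521a82800000000600) (nat_lit 50)))
 (.p (nat_lit 0x1362079702) (nat_lit 0x400915) (nat_lit 5)))
 (.n (.p (nat_lit 0x148e148c1488148614840f2506) (nat_lit 0x4000054604) (nat_lit 52))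
 (.p (nat_lit 0x1de24ff02) (nat_lit 0x200305) (nat_lit 27)))))
 (.n (.n (.n (.n (.p (nat_lit 0xadc0ada0ad80ad60ad4099706) (nat_lit 0x100000c0400) (nat_lit 51))
 (.p (nat_lit 0x26f3283902) (nat_lit 0x200040000b00) (nat_lit 37)))
 (.p (nat_lit 0x1c741c721c701c6e1cbb1cb906) (nat_lit 0x18000088311) (nat_lit 52)))
 (.n (.p (nat_lit 0x1cfe1cfc1cfa1cf81cf61cf406) (nat_lit 0x2403) (nat_lit 52))
 (.p (nat_lit 0x7160bdb02) (nat_lit 0x50022a) (nat_lit 4))))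
 (.n (.n (.p (nat_lit 0x1688168616821680151d151706) (nat_lit 0x12000010b00) (nat_lit 52))
 (.p (nat_lit 0x10d8088102) (nat_lit 0x44071c) (nat_lit 5)))
 (.n (.p (nat_lit 0x650173302) (nat_lit 0x340106) (nat_lit 5))
 (.p (nat_lit 0x26ab27ad02) (nat_lit 0x80000000100) (nat_lit 37))))))

def c128_9 : Tr := .n c256_9 c256_137

def c256_73 : Tr :=
 .n (.n (.n (.n (.n (.n (.p (nat_lit 0xb300b100ac03) (nat_lit 0x40800005) (nat_lit 19))
 (.p (nat_lit 0x275b073702) (nat_lit 0x180080000200) (nat_lit 41)))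
 (.p (nat_lit 0x13a6177102) (nat_lit 0x200906) (nat_lit 4)))
 (.n (.p (nat_lit 0x62f062302) (nat_lit 0x550101) (nat_lit 16))
 (.p (nat_lit 0x1f381fef02) (nat_lit 0x40021) (nat_lit 4))))
 (.n (.n (.n (.p (nat_lit 0xd660d4f02) (nat_lit 0x600) (nat_lit 4))
 (.p (nat_lit 0xc86286302) (nat_lit 0x281d30344000500040000) (nat_lit 50)))
 (.p (nat_lit 0x4a604a2049e049c0359035506) (nat_lit 0xa000006015) (nat_lit 52)))
 (.n (.p (nat_lit 0x6f1dd502) (nat_lit 0x400b03) (nat_lit 30))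
 (.p (nat_lit 0x25d246102) (nat_lit 0x400a2a) (nat_lit 30)))))
 (.n (.n (.n (.n (.p (nat_lit 0x750074e074a0748074605ef06) (nat_lit 0x40000c0200) (nat_lit 52))
 (.p (nat_lit 0x26d3281302) (nat_lit 0x100020000800) (nat_lit 37)))
 (.p (nat_lit 0x8e2225502) (nat_lit 0x30e) (nat_lit 29)))
 (.n (.p (nat_lit 0x13c413c213be13bc13ba156106) (nat_lit 0x4000092a02) (nat_lit 51))
 (.p (nat_lit 0x1a561a541a521a501a4e18eb06) (nat_lit 0x800084824) (nat_lit 51))))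
 (.n (.n (.p (nat_lit 0x1350134e134c134a134611a506) (nat_lit 0x1000096900) (nat_lit 52))
 (.p (nat_lit 0x1edc1e2f02) (nat_lit 0x200519) (nat_lit 4)))
 (.n (.p (nat_lit 0x2004200220001ffe1ffc1ffa06) (nat_lit 0x4e305) (nat_lit 52))
 (.p (nat_lit 0x1a601a401a2019e01eb000b06) (nat_lit 0xd1601c) (nat_lit 26))))))
 (.n (.n (.n (.n (.n (.p (nat_lit 0x346048702) (nat_lit 0x100100) (nat_lit 4))
 (.p (nat_lit 0x274f27ef02) (nat_lit 0x240080000500) (nat_lit 37)))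
 (.p (nat_lit 0xbc40bc00bbe0bbc0bba0a7706) (nat_lit 0x8000002407) (nat_lit 52)))
 (.n (.p (nat_lit 0xbe162302) (nat_lit 0x240a01) (nat_lit 1))
 (.p (nat_lit 0x930092c092a09280926070906) (nat_lit 0x8000000223) (nat_lit 51))))
 (.n (.n (.n (.p (nat_lit 0x10621060105e105c0ee50ee306) (nat_lit 0x18000ca700) (nat_lit 52))
 (.p (nat_lit 0x2a228a102) (nat_lit 0x340a621b0000000000000) (nat_lit 49)))
 (.p (nat_lit 0xe0606b902) (nat_lit 0x500615) (nat_lit 5)))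
 (.n (.p (nat_lit 0xf3e0f3c0f3a0f380f360e3d06) (nat_lit 0x1000000e604) (nat_lit 52))
 (.p (nat_lit 0x24c424c224c024be24bc00dd007207) (nat_lit 0x416003) (nat_lit 25)))))
 (.n (.n (.n (.n (.p (nat_lit 0xa3a0a380a360a3408d508d306) (nat_lit 0x1800008c400) (nat_lit 52))
 (.p (nat_lit 0x2713282f02) (nat_lit 0x40000a00) (nat_lit 36)))
 (.p (nat_lit 0x11c911bd02) (nat_lit 0x20680e) (nat_lit 16)))
 (.n (.p (nat_lit 0x1c261c241c221c201c1e063b06) (nat_lit 0x100000c8103) (nat_lit 52))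
 (.p (nat_lit 0x5380c9702) (nat_lit 0x40012a) (nat_lit 5))))
 (.n (.n (.p (nat_lit 0x15e015de15da15d815d6144306) (nat_lit 0x4000050a00) (nat_lit 52))
 (.p (nat_lit 0xc54085d02) (nat_lit 0x51c) (nat_lit 4)))
 (.n (.p (nat_lit 0x134413421340133e133a11ef06) (nat_lit 0x1000016805) (nat_lit 52))
 (.p (nat_lit 0x27a402af02) (nat_lit 0x0) (nat_lit 46))))))

def c256_201 : Tr :=
 .n (.n (.n (.n (.n (.n (.p (nat_lit 0x2c402ad02) (nat_lit 0x500000) (nat_lit 4))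
 (.p (nat_lit 0x268f09d902) (nat_lit 0x240000000400) (nat_lit 40)))
 (.p (nat_lit 0x216107c302) (nat_lit 0x556207) (nat_lit 16)))
 (.n (.p (nat_lit 0x13941392138e138c138a002b139107) (nat_lit 0x300901) (nat_lit 7))
 (.p (nat_lit 0x603044302) (nat_lit 0x140023) (nat_lit 15))))
 (.n (.n (.n (.p (nat_lit 0xee30e6302) (nat_lit 0x40600) (nat_lit 15))
 (.p (nat_lit 0x111a288102) (nat_lit 0x585a12b21000200000600) (nat_lit 50)))
 (.p (nat_lit 0xc4c076f02) (nat_lit 0x200515) (nat_lit 5)))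
 (.n (.p (nat_lit 0x643046d02) (nat_lit 0x440004) (nat_lit 15))
 (.p (nat_lit 0x1ba81ba61ba41ba21b9e1c6506) (nat_lit 0x10000d612d) (nat_lit 52)))))
 (.n (.n (.n (.n (.p (nat_lit 0x8df06f102) (nat_lit 0x400300) (nat_lit 16))
 (.p (nat_lit 0x2713281f02) (nat_lit 0x40000900) (nat_lit 36)))
 (.p (nat_lit 0xb6405ad02) (nat_lit 0x54040e) (nat_lit 4)))
 (.n (.p (nat_lit 0xebc0eb80eb60eb40eb216fb06) (nat_lit 0x8000012b02) (nat_lit 51))
 (.p (nat_lit 0x1df81d4d02) (nat_lit 0x400b26) (nat_lit 5))))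
 (.n (.n (.p (nat_lit 0xa8135d02) (nat_lit 0x500a00) (nat_lit 1))
 (.p (nat_lit 0x1e1f036702) (nat_lit 0x51201c) (nat_lit 16)))
 (.n (.p (nat_lit 0xaba0ab80ab60ab40ab2100506) (nat_lit 0x800088705) (nat_lit 52))
 (.p (nat_lit 0x240023e023a023801df029f06) (nat_lit 0x1504028) (nat_lit 26))))))
 (.n (.n (.n (.n (.n (.p (nat_lit 0x617042702) (nat_lit 0x54a100) (nat_lit 16))
 (.p (nat_lit 0x26c7280102) (nat_lit 0x1c0020000700) (nat_lit 36)))
 (.p (nat_lit 0x1786041302) (nat_lit 0x140b07) (nat_lit 4)))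
 (.n (.p (nat_lit 0xd320f7b02) (nat_lit 0x240502) (nat_lit 5))
 (.p (nat_lit 0x1383137702) (nat_lit 0x200923) (nat_lit 16))))
 (.n (.n (.n (.p (nat_lit 0x11e90fd102) (nat_lit 0x40c800) (nat_lit 16))
 (.p (nat_lit 0x13b828bf02) (nat_lit 0x3503a8d84000300040600) (nat_lit 49)))
 (.p (nat_lit 0x17a3179b02) (nat_lit 0x248b15) (nat_lit 16)))
 (.n (.p (nat_lit 0x171417121710170e170a007f170d07) (nat_lit 0x100b04) (nat_lit 7))
 (.p (nat_lit 0xf600f200ee00ec00dd012506) (nat_lit 0x221620a) (nat_lit 26)))))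
 (.n (.n (.n (.n (.p (nat_lit 0xa680bb502) (nat_lit 0x300500) (nat_lit 5))
 (.p (nat_lit 0x172b1721157f157913bf13b1121b120d102f10210e590e4b28420d) (nat_lit 0x4a1a36344000000040600) (nat_lit 33)))
 (.p (nat_lit 0x1d9c1c3902) (nat_lit 0x340511) (nat_lit 4)))
 (.n (.p (nat_lit 0xe30125102) (nat_lit 0x500603) (nat_lit 4))
 (.p (nat_lit 0x7da07d407d207d00276025d025b07d907d709) (nat_lit 0x234022a) (nat_lit 10))))
 (.n (.n (.p (nat_lit 0x172b171f02) (nat_lit 0x440b00) (nat_lit 34))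
 (.p (nat_lit 0x153f153302) (nat_lit 0x40aa1c) (nat_lit 16)))
 (.n (.p (nat_lit 0x1104167f02) (nat_lit 0x540706) (nat_lit 4))
 (.p (nat_lit 0x27b4035702) (nat_lit 0x60006100) (nat_lit 48))))))

def c128_73 : Tr := .n c256_73 c256_201

def c64_9 : Tr := .n c128_9 c128_73

def c256_41 : Tr :=
 .n (.n (.n (.n (.n (.n (.p (nat_lit 0x6c006a0068007304) (nat_lit 0x7000400003) (nat_lit 17))
 (.p (nat_lit 0x26ef27c102) (nat_lit 0x240040000200) (nat_lit 36)))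
 (.p (nat_lit 0x9220920091e091c091a12cf06) (nat_lit 0x100000c6806) (nat_lit 51)))
 (.n (.p (nat_lit 0x5400d8102) (nat_lit 0x300101) (nat_lit 4))
 (.p (nat_lit 0x1d421d401d3e1d3c1d3a1d8d06) (nat_lit 0x80008251f) (nat_lit 52))))
 (.n (.n (.n (.p (nat_lit 0xcc40cc20cbe0cbc0b4b0b4706) (nat_lit 0xa000046500) (nat_lit 52))
 (.p (nat_lit 0x1106285b02) (nat_lit 0x281d30344000200000600) (nat_lit 49)))
 (.p (nat_lit 0x4be04bc04ba04b804b421e506) (nat_lit 0x1000008814) (nat_lit 52)))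
 (.n (.p (nat_lit 0x163e163a16381636007a0071006d1641163d09) (nat_lit 0x2b40a03) (nat_lit 10))
 (.p (nat_lit 0xe22245502) (nat_lit 0x40062a) (nat_lit 29)))))
 (.n (.n (.n (.n (.p (nat_lit 0x713051302) (nat_lit 0x30a200) (nat_lit 16))
 (.p (nat_lit 0x26a9280f02) (nat_lit 0xa0000000800) (nat_lit 37)))
 (.p (nat_lit 0x1e061e041e021e001dfc00ef1dff07) (nat_lit 0x140b0a) (nat_lit 7)))
 (.n (.p (nat_lit 0x570056e056c05680566155f06) (nat_lit 0x2000082a02) (nat_lit 52))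
 (.p (nat_lit 0x183418b502) (nat_lit 0x340124) (nat_lit 4))))
 (.n (.n (.p (nat_lit 0x12df12d302) (nat_lit 0x100900) (nat_lit 34))
 (.p (nat_lit 0x17b230b02) (nat_lit 0x140018) (nat_lit 30)))
 (.n (.p (nat_lit 0x1da090302) (nat_lit 0x305) (nat_lit 1))
 (.p (nat_lit 0x25a0259e259c259825960139015007) (nat_lit 0x200915) (nat_lit 25))))))
 (.n (.n (.n (.n (.n (.p (nat_lit 0x423039302) (nat_lit 0x340000) (nat_lit 15))
 (.p (nat_lit 0x26e70bb302) (nat_lit 0x2c0040000500) (nat_lit 40)))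
 (.p (nat_lit 0x120e120c120a12081204099b06) (nat_lit 0x10000d0307) (nat_lit 52)))
 (.n (.p (nat_lit 0x1477146b02) (nat_lit 0x550901) (nat_lit 16))
 (.p (nat_lit 0x111c1118111611141112060906) (nat_lit 0x8000050123) (nat_lit 51))))
 (.n (.n (.n (.p (nat_lit 0x1026102410221020101e101c06) (nat_lit 0x40700) (nat_lit 2))
 (.p (nat_lit 0x1030289702) (nat_lit 0x344580ca4000100040600) (nat_lit 50)))
 (.p (nat_lit 0x10321030102e102a10280d0f06) (nat_lit 0x20000ce515) (nat_lit 51)))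
 (.n (.p (nat_lit 0xe3a1f0102) (nat_lit 0x400604) (nat_lit 29))
 (.p (nat_lit 0x41249f02) (nat_lit 0x100402) (nat_lit 28)))))
 (.n (.n (.n (.n (.p (nat_lit 0x8d408d208ce08cc08ca000708d107) (nat_lit 0x300400) (nat_lit 7))
 (.p (nat_lit 0x268b157f02) (nat_lit 0x280000000a00) (nat_lit 41)))
 (.p (nat_lit 0xfdc04e302) (nat_lit 0x70e) (nat_lit 4)))
 (.n (.p (nat_lit 0x5501bbf02) (nat_lit 0x500103) (nat_lit 29))
 (.p (nat_lit 0x2202219502) (nat_lit 0x500829) (nat_lit 5))))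
 (.n (.n (.p (nat_lit 0x1587157b02) (nat_lit 0x440a00) (nat_lit 34))
 (.p (nat_lit 0x6ac06aa06a806a606a4052306) (nat_lit 0x1000008a11c) (nat_lit 51)))
 (.n (.p (nat_lit 0x11ec20e902) (nat_lit 0x805) (nat_lit 29))
 (.p (nat_lit 0x269d02a302) (nat_lit 0x160000000000) (nat_lit 38))))))

def c256_169 : Tr :=
 .n (.n (.n (.n (.n (.n (.p (nat_lit 0x26b02690267026404) (nat_lit 0xd10002a) (nat_lit 20))
 (.p (nat_lit 0x274d081d02) (nat_lit 0x260080000300) (nat_lit 38)))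
 (.p (nat_lit 0x7bc02d702) (nat_lit 0x240207) (nat_lit 4)))
 (.n (.p (nat_lit 0x12b612b212b012ae0036002d002512b512ad09) (nat_lit 0x2040801) (nat_lit 10))
 (.p (nat_lit 0xcba0cb60cb40cb20cb0037106) (nat_lit 0x8000084023) (nat_lit 52))))
 (.n (.n (.n (.p (nat_lit 0xe6c0e6a0e660e640010000700010e690e6309) (nat_lit 0x1840600) (nat_lit 10))
 (.p (nat_lit 0x9dc287902) (nat_lit 0x588bb0344000400000000) (nat_lit 50)))
 (.p (nat_lit 0x14b22a302) (nat_lit 0x340415) (nat_lit 30)))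
 (.n (.p (nat_lit 0xf4a0f480f460f440f4217d906) (nat_lit 0x1000004eb03) (nat_lit 51))
 (.p (nat_lit 0x1b021ac902) (nat_lit 0x200a2c) (nat_lit 4)))))
 (.n (.n (.n (.n (.p (nat_lit 0x840083e083a083806f306ed06) (nat_lit 0x12000080300) (nat_lit 51))
 (.p (nat_lit 0x26ad13af02) (nat_lit 0x60000000900) (nat_lit 39)))
 (.p (nat_lit 0x111c111a1118111411120a7f06) (nat_lit 0x200001040e) (nat_lit 51)))
 (.n (.p (nat_lit 0x16f2109502) (nat_lit 0xb02) (nat_lit 4))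
 (.p (nat_lit 0x1bfe1d3702) (nat_lit 0x500126) (nat_lit 5))))
 (.n (.n (.p (nat_lit 0x1443129302) (nat_lit 0x340900) (nat_lit 15))
 (.p (nat_lit 0xd580d560d540d520d50035d06) (nat_lit 0x80000c01c) (nat_lit 52)))
 (.n (.p (nat_lit 0x100414e302) (nat_lit 0x705) (nat_lit 4))
 (.p (nat_lit 0x1f9262b02) (nat_lit 0x100b23) (nat_lit 28))))))
 (.n (.n (.n (.n (.n (.p (nat_lit 0x4260424041e041c001c000700050423042109) (nat_lit 0x1a40100) (nat_lit 10))
 (.p (nat_lit 0x26b3102902) (nat_lit 0x700) (nat_lit 41)))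
 (.p (nat_lit 0xe200e900e5032b040105) (nat_lit 0x44340a07) (nat_lit 9)))
 (.n (.p (nat_lit 0x7f307e702) (nat_lit 0x152202) (nat_lit 16))
 (.p (nat_lit 0x23ae23ac23aa23a823a623a4020207) (nat_lit 0x40823) (nat_lit 8))))
 (.n (.n (.n (.p (nat_lit 0x117c117a1176117411720fcf06) (nat_lit 0x4000014800) (nat_lit 52))
 (.p (nat_lit 0x158628b502) (nat_lit 0x3503a8d64000400040600) (nat_lit 50)))
 (.p (nat_lit 0x194152302) (nat_lit 0x200a15) (nat_lit 1)))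
 (.n (.p (nat_lit 0x10e6133102) (nat_lit 0x140704) (nat_lit 5))
 (.p (nat_lit 0x86251902) (nat_lit 0x500805) (nat_lit 27)))))
 (.n (.n (.n (.n (.p (nat_lit 0xb61099302) (nat_lit 0x342400) (nat_lit 16))
 (.p (nat_lit 0x2797172102) (nat_lit 0xc00a0000b00) (nat_lit 39)))
 (.p (nat_lit 0x1d601d5e1d5a1d581d5601271d5d07) (nat_lit 0x340411) (nat_lit 7)))
 (.n (.p (nat_lit 0xc6c114902) (nat_lit 0x100503) (nat_lit 4))
 (.p (nat_lit 0x12da12d812d412d212d0071306) (nat_lit 0x400001222a) (nat_lit 52))))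
 (.n (.n (.p (nat_lit 0x16fd151d02) (nat_lit 0x50eb00) (nat_lit 16))
 (.p (nat_lit 0x152a089f02) (nat_lit 0xa1c) (nat_lit 4)))
 (.n (.p (nat_lit 0x1018174702) (nat_lit 0x400706) (nat_lit 5))
 (.p (nat_lit 0x26eb056b02) (nat_lit 0x280040000100) (nat_lit 39))))))

def c128_41 : Tr := .n c256_41 c256_169

def c256_105 : Tr :=
 .n (.n (.n (.n (.n (.n (.p (nat_lit 0x14e014a0148015104) (nat_lit 0x16000400015) (nat_lit 17))
 (.p (nat_lit 0x26cd27cb02) (nat_lit 0x160020000300) (nat_lit 37)))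
 (.p (nat_lit 0x147c222902) (nat_lit 0x240906) (nat_lit 29)))
 (.n (.p (nat_lit 0x2518c702) (nat_lit 0x501) (nat_lit 30))
 (.p (nat_lit 0x20ae1fc102) (nat_lit 0x400721) (nat_lit 5))))
 (.n (.n (.n (.p (nat_lit 0xdd90d6702) (nat_lit 0x600) (nat_lit 15))
 (.p (nat_lit 0x924286b02) (nat_lit 0x281d30342800300040000) (nat_lit 50)))
 (.p (nat_lit 0x58805820580057e0431042f06) (nat_lit 0xc000046015) (nat_lit 51)))
 (.n (.p (nat_lit 0xd580d560d540d520d5016ff06) (nat_lit 0x80000cb03) (nat_lit 52))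
 (.p (nat_lit 0x259246902) (nat_lit 0x200b2a) (nat_lit 30)))))
 (.n (.n (.n (.n (.p (nat_lit 0x7c505e902) (nat_lit 0x48200) (nat_lit 16))
 (.p (nat_lit 0x26ef120902) (nat_lit 0x240040000800) (nat_lit 39)))
 (.p (nat_lit 0xa8108e902) (nat_lit 0x30030e) (nat_lit 15)))
 (.n (.p (nat_lit 0x16341630162e162c162a0047163307) (nat_lit 0x440a02) (nat_lit 7))
 (.p (nat_lit 0x1942240702) (nat_lit 0x100a24) (nat_lit 29))))
 (.n (.n (.p (nat_lit 0x13b813b613b413b213b013ae06) (nat_lit 0x40900) (nat_lit 2))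
 (.p (nat_lit 0x133813361334133213301eed06) (nat_lit 0x8000ce519) (nat_lit 51)))
 (.n (.p (nat_lit 0xd4a205902) (nat_lit 0x440505) (nat_lit 29))
 (.p (nat_lit 0x1d325e902) (nat_lit 0x40051e) (nat_lit 28))))))
 (.n (.n (.n (.n (.n (.p (nat_lit 0x4ba04b804b604b4034f034d06) (nat_lit 0x18000008100) (nat_lit 52))
 (.p (nat_lit 0x26950d4f02) (nat_lit 0x1e0000000600) (nat_lit 38)))
 (.p (nat_lit 0xb580b560b520b5000e400db00d50b550b4f09) (nat_lit 0x1840407) (nat_lit 10)))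
 (.n (.p (nat_lit 0x19821980197e197c197a1978004a07) (nat_lit 0x40102) (nat_lit 8))
 (.p (nat_lit 0x960095e095c095a095807c506) (nat_lit 0x80004a223) (nat_lit 51))))
 (.n (.n (.n (.p (nat_lit 0x10af0ee502) (nat_lit 0x140700) (nat_lit 15))
 (.p (nat_lit 0x12d228a902) (nat_lit 0x350521a84000300000600) (nat_lit 49)))
 (.p (nat_lit 0x14f22d702) (nat_lit 0x540715) (nat_lit 30)))
 (.n (.p (nat_lit 0xf260f220f200f1e009c008700830f290f2509) (nat_lit 0x2b40604) (nat_lit 10))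
 (.p (nat_lit 0x6f24e302) (nat_lit 0x400a03) (nat_lit 28)))))
 (.n (.n (.n (.n (.p (nat_lit 0xaa308d502) (nat_lit 0x510400) (nat_lit 16))
 (.p (nat_lit 0x283417e302) (nat_lit 0x80050a00) (nat_lit 48)))
 (.p (nat_lit 0x18fc17eb02) (nat_lit 0x20090f) (nat_lit 4)))
 (.n (.p (nat_lit 0x9c107f902) (nat_lit 0x440203) (nat_lit 15))
 (.p (nat_lit 0x6120c9f02) (nat_lit 0x34012a) (nat_lit 5))))
 (.n (.n (.p (nat_lit 0x163d144302) (nat_lit 0x350a00) (nat_lit 16))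
 (.p (nat_lit 0x1f80d1902) (nat_lit 0x14051c) (nat_lit 1)))
 (.n (.p (nat_lit 0xa5210f02) (nat_lit 0x340805) (nat_lit 30))
 (.p (nat_lit 0x27a602a502) (nat_lit 0x20000000) (nat_lit 45))))))

def c256_233 : Tr :=
 .n (.n (.n (.n (.n (.n (.p (nat_lit 0x32e032c032a032802bf02bb06) (nat_lit 0x2800094000) (nat_lit 51))
 (.p (nat_lit 0x270f27db02) (nat_lit 0x40040000400) (nat_lit 36)))
 (.p (nat_lit 0xf4a0f480f460f440f4208e106) (nat_lit 0x1000000e307) (nat_lit 51)))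
 (.n (.p (nat_lit 0x148e148c148814861484139106) (nat_lit 0x4000014901) (nat_lit 52))
 (.p (nat_lit 0xe600e5c0e5a0e580e56052d06) (nat_lit 0x800008c123) (nat_lit 51))))
 (.n (.n (.n (.p (nat_lit 0x440ddf02) (nat_lit 0x300700) (nat_lit 1))
 (.p (nat_lit 0xbb50ba709e309d5082508170661065b0499048f02b102a328880d) (nat_lit 0x356221ca4000000000000) (nat_lit 33)))
 (.p (nat_lit 0xe540e520e500e4e0e4a0c4b06) (nat_lit 0x100008c515) (nat_lit 52)))
 (.n (.p (nat_lit 0x80212ff02) (nat_lit 0x340204) (nat_lit 5))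
 (.p (nat_lit 0x1e881ed502) (nat_lit 0x34022e) (nat_lit 5)))))
 (.n (.n (.n (.n (.p (nat_lit 0x7b6092502) (nat_lit 0x540300) (nat_lit 5))
 (.p (nat_lit 0x273f12d702) (nat_lit 0x40060000900) (nat_lit 38)))
 (.p (nat_lit 0x1658165616541650164e0b5f06) (nat_lit 0x200005640e) (nat_lit 51)))
 (.n (.p (nat_lit 0x17cc10ab02) (nat_lit 0x540b02) (nat_lit 4))
 (.p (nat_lit 0x246209502) (nat_lit 0x628) (nat_lit 1))))
 (.n (.n (.p (nat_lit 0x1504150014fe14fc135b135306) (nat_lit 0x8800010a00) (nat_lit 51))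
 (.p (nat_lit 0x82a0828082408220820043b06) (nat_lit 0x400004601c) (nat_lit 51)))
 (.n (.p (nat_lit 0x10fa10f810f410f210f000a510f707) (nat_lit 0x340705) (nat_lit 7))
 (.p (nat_lit 0x25e025c0256025401fd000506) (nat_lit 0x1a0622a) (nat_lit 26))))))
 (.n (.n (.n (.n (.n (.p (nat_lit 0x51605140512050e050c0005051107) (nat_lit 0x200200) (nat_lit 7))
 (.p (nat_lit 0x26e7102102) (nat_lit 0x2c0040000700) (nat_lit 39)))
 (.p (nat_lit 0x1a32196702) (nat_lit 0x200309) (nat_lit 5)))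
 (.n (.p (nat_lit 0x1170116e116c116a1168139d06) (nat_lit 0x400008c902) (nat_lit 51))
 (.p (nat_lit 0x16e416e216e016de16da01f916dd07) (nat_lit 0x100b23) (nat_lit 7))))
 (.n (.n (.n (.p (nat_lit 0x10b610b210b010ae10ac000910b507) (nat_lit 0x440800) (nat_lit 7))
 (.p (nat_lit 0xf3e28c702) (nat_lit 0x3508a9d84000100000600) (nat_lit 49)))
 (.p (nat_lit 0x1aac19a102) (nat_lit 0x400517) (nat_lit 4)))
 (.n (.p (nat_lit 0x17da143102) (nat_lit 0x40b04) (nat_lit 5))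
 (.p (nat_lit 0x126255b02) (nat_lit 0x30080e) (nat_lit 27)))))
 (.n (.n (.n (.n (.p (nat_lit 0xbe60be00bde0bdc0a6b0a6906) (nat_lit 0xc000084500) (nat_lit 51))
 (.p (nat_lit 0x91e284902) (nat_lit 0x4a1a36344000300040000) (nat_lit 50)))
 (.p (nat_lit 0x588058405820580057e1ded06) (nat_lit 0x8000006b11) (nat_lit 51)))
 (.n (.p (nat_lit 0xf1c125d02) (nat_lit 0x540603) (nat_lit 4))
 (.p (nat_lit 0x149a149814961494149207d106) (nat_lit 0x80005422a) (nat_lit 51))))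
 (.n (.n (.p (nat_lit 0x1776177417721770176e176c06) (nat_lit 0x52b00) (nat_lit 52))
 (.p (nat_lit 0x17a208c302) (nat_lit 0x240b1c) (nat_lit 4)))
 (.n (.p (nat_lit 0x66a066806660664066211f906) (nat_lit 0x800004806) (nat_lit 51))
 (.p (nat_lit 0x26b3066102) (nat_lit 0x200) (nat_lit 40))))))

def c128_105 : Tr := .n c256_105 c256_233

def c64_41 : Tr := .n c128_41 c128_105

def c32_9 : Tr := .n c64_9 c64_41

def c256_25 : Tr :=
 .n (.n (.n (.n (.n (.n (.p (nat_lit 0x40003e004d03) (nat_lit 0x1800500002) (nat_lit 17))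
 (.p (nat_lit 0x26cf27bd02) (nat_lit 0x140020000200) (nat_lit 37)))
 (.p (nat_lit 0x2ac02aa02a802a402a212c906) (nat_lit 0x2000040806) (nat_lit 52)))
 (.n (.p (nat_lit 0x44e0e7102) (nat_lit 0x140001) (nat_lit 4))
 (.p (nat_lit 0x1afa1af81af61af41af201d51afd07) (nat_lit 0x500a1e) (nat_lit 7))))
 (.n (.n (.n (.p (nat_lit 0xb4a0c7f02) (nat_lit 0x440500) (nat_lit 4))
 (.p (nat_lit 0x1656285702) (nat_lit 0x4a8876344000500000600) (nat_lit 50)))
 (.p (nat_lit 0x20ff20f502) (nat_lit 0x6813) (nat_lit 16)))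
 (.n (.p (nat_lit 0x163a126d02) (nat_lit 0x240a03) (nat_lit 5))
 (.p (nat_lit 0x9ba0cd102) (nat_lit 0x54032a) (nat_lit 4)))))
 (.n (.n (.n (.n (.p (nat_lit 0x6e9050d02) (nat_lit 0x200) (nat_lit 15))
 (.p (nat_lit 0x2785280b02) (nat_lit 0x1e00a0000700) (nat_lit 36)))
 (.p (nat_lit 0x1d4e1b5d02) (nat_lit 0x4040a) (nat_lit 5)))
 (.n (.p (nat_lit 0x15641562155e155c155a0045156107) (nat_lit 0x300a02) (nat_lit 7))
 (.p (nat_lit 0x180a18a702) (nat_lit 0x200124) (nat_lit 5))))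
 (.n (.n (.p (nat_lit 0x12b910ad02) (nat_lit 0x54800) (nat_lit 16))
 (.p (nat_lit 0x1b1c19b502) (nat_lit 0x340a17) (nat_lit 4)))
 (.n (.p (nat_lit 0x192080b02) (nat_lit 0x140205) (nat_lit 1))
 (.p (nat_lit 0x145258b02) (nat_lit 0x815) (nat_lit 28))))))
 (.n (.n (.n (.n (.n (.p (nat_lit 0x3cc03ca03c803c6038f038d06) (nat_lit 0x1800048000) (nat_lit 52))
 (.p (nat_lit 0x26d127e702) (nat_lit 0x120020000500) (nat_lit 36)))
 (.p (nat_lit 0x9a202f502) (nat_lit 0x540307) (nat_lit 5)))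
 (.n (.p (nat_lit 0x1110110e110c110a1108146106) (nat_lit 0x800050901) (nat_lit 52))
 (.p (nat_lit 0x82a0828082608240822060106) (nat_lit 0x800046123) (nat_lit 51))))
 (.n (.n (.n (.p (nat_lit 0xfed0de302) (nat_lit 0x504700) (nat_lit 16))
 (.p (nat_lit 0xc88289302) (nat_lit 0x354221ca4000500040000) (nat_lit 50)))
 (.p (nat_lit 0x49804960494049204900d1506) (nat_lit 0x10000042515) (nat_lit 51)))
 (.n (.p (nat_lit 0xe3213f502) (nat_lit 0x604) (nat_lit 5))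
 (.p (nat_lit 0x25248902) (nat_lit 0x501) (nat_lit 28)))))
 (.n (.n (.n (.n (.p (nat_lit 0x9e209e009de09dc09da09d806) (nat_lit 0x400) (nat_lit 3))
 (.p (nat_lit 0x26ad282702) (nat_lit 0x60000000a00) (nat_lit 36)))
 (.p (nat_lit 0x3c003bc03ba03b803b60d0706) (nat_lit 0x80000c650e) (nat_lit 52)))
 (.n (.p (nat_lit 0x124054b02) (nat_lit 0x200103) (nat_lit 1))
 (.p (nat_lit 0x21ca21c821c621c421c2025121cd07) (nat_lit 0x500729) (nat_lit 7))))
 (.n (.n (.p (nat_lit 0x1446144414421440143c0003143f07) (nat_lit 0x140a00) (nat_lit 7))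
 (.p (nat_lit 0x5220520051c051a051801a5051f07) (nat_lit 0x30011c) (nat_lit 7)))
 (.n (.p (nat_lit 0x157c157a15781576157210f306) (nat_lit 0x10000d4705) (nat_lit 52))
 (.p (nat_lit 0x26ad02af02) (nat_lit 0x60000000000) (nat_lit 40))))))

def c256_153 : Tr :=
 .n (.n (.n (.n (.n (.n (.p (nat_lit 0x21e021c022703) (nat_lit 0x6000500025) (nat_lit 17))
 (.p (nat_lit 0x272527d302) (nat_lit 0x1e0060000300) (nat_lit 37)))
 (.p (nat_lit 0x4bc04ba04b804b604b406ff06) (nat_lit 0x10000008207) (nat_lit 52)))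
 (.n (.p (nat_lit 0x12ac0ea702) (nat_lit 0x40801) (nat_lit 5))
 (.p (nat_lit 0x36c09e902) (nat_lit 0x200023) (nat_lit 4))))
 (.n (.n (.n (.p (nat_lit 0xe5b0e4f02) (nat_lit 0x240600) (nat_lit 34))
 (.p (nat_lit 0x111a287702) (nat_lit 0x568872b44000200000600) (nat_lit 50)))
 (.p (nat_lit 0x22a622a422a222a0229e229c015007) (nat_lit 0x40415) (nat_lit 8)))
 (.n (.p (nat_lit 0x66a066806660664066217cf06) (nat_lit 0x800044b03) (nat_lit 51))
 (.p (nat_lit 0x441a1d02) (nat_lit 0x34022c) (nat_lit 1)))))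
 (.n (.n (.n (.n (.p (nat_lit 0x6f2081f02) (nat_lit 0x500300) (nat_lit 4))
 (.p (nat_lit 0x2761121902) (nat_lit 0x120080000800) (nat_lit 41)))
 (.p (nat_lit 0x66a06660664066206600a8306) (nat_lit 0x800000440e) (nat_lit 51)))
 (.n (.p (nat_lit 0x12da12d812d612d412d0162d06) (nat_lit 0x1000052a02) (nat_lit 52))
 (.p (nat_lit 0x1b2a1a7f02) (nat_lit 0x440a25) (nat_lit 5))))
 (.n (.n (.p (nat_lit 0x141614141410140e140c129306) (nat_lit 0x400004e900) (nat_lit 52))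
 (.p (nat_lit 0x364092f02) (nat_lit 0x40001c) (nat_lit 5)))
 (.n (.p (nat_lit 0xf3020a102) (nat_lit 0x340605) (nat_lit 29))
 (.p (nat_lit 0x1fd261902) (nat_lit 0x300623) (nat_lit 28))))))
 (.n (.n (.n (.n (.n (.p (nat_lit 0x41e057502) (nat_lit 0x140100) (nat_lit 5))
 (.p (nat_lit 0x27370e5d02) (nat_lit 0xc0060000600) (nat_lit 41)))
 (.p (nat_lit 0x11b0032302) (nat_lit 0x200807) (nat_lit 4)))
 (.n (.p (nat_lit 0x4519c902) (nat_lit 0x340202) (nat_lit 30))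
 (.p (nat_lit 0x1a741a721a701a6e1a6c0ff706) (nat_lit 0x10000000723) (nat_lit 51))))
 (.n (.n (.n (.p (nat_lit 0x111b110f02) (nat_lit 0x400800) (nat_lit 34))
 (.p (nat_lit 0x111628b302) (nat_lit 0x352868d84000200000600) (nat_lit 50)))
 (.p (nat_lit 0x14b22f702) (nat_lit 0x340915) (nat_lit 30)))
 (.n (.p (nat_lit 0x1000141502) (nat_lit 0x400704) (nat_lit 4))
 (.p (nat_lit 0xa7250d02) (nat_lit 0x400605) (nat_lit 28)))))
 (.n (.n (.n (.n (.p (nat_lit 0xb180b160b140b120b10098d06) (nat_lit 0x80004e400) (nat_lit 52))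
 (.p (nat_lit 0x2723165502) (nat_lit 0x200060000b00) (nat_lit 40)))
 (.p (nat_lit 0x1d201bd102) (nat_lit 0x500411) (nat_lit 4)))
 (.n (.p (nat_lit 0xb86114502) (nat_lit 0x440403) (nat_lit 4))
 (.p (nat_lit 0xbaa0ba80ba40ba20717071106) (nat_lit 0x1200000a22a) (nat_lit 52))))
 (.n (.n (.p (nat_lit 0x16c5151d02) (nat_lit 0x502b00) (nat_lit 16))
 (.p (nat_lit 0x1368088f02) (nat_lit 0x10091c) (nat_lit 4)))
 (.n (.p (nat_lit 0x2180217e217c217a2178217606) (nat_lit 0x2406) (nat_lit 52))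
 (.p (nat_lit 0x270d27b102) (nat_lit 0x60040000100) (nat_lit 37))))))

def c128_25 : Tr := .n c256_25 c256_153

def c256_89 : Tr :=
 .n (.n (.n (.n (.n (.n (.p (nat_lit 0x10e01060104011104) (nat_lit 0x1180040000e) (nat_lit 17))
 (.p (nat_lit 0x26af27c902) (nat_lit 0x40000000300) (nat_lit 36)))
 (.p (nat_lit 0x15c815c615c415c015be13a706) (nat_lit 0x200000e906) (nat_lit 51)))
 (.n (.p (nat_lit 0xa980e9702) (nat_lit 0x300401) (nat_lit 4))
 (.p (nat_lit 0x1f421ff902) (nat_lit 0x540021) (nat_lit 4))))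
 (.n (.n (.n (.p (nat_lit 0xd820d800d7e0d7c0d710d6706) (nat_lit 0x10800002600) (nat_lit 52))
 (.p (nat_lit 0x1206286702) (nat_lit 0x1a2274b50000200040600) (nat_lit 49)))
 (.p (nat_lit 0x42c067b02) (nat_lit 0x240015) (nat_lit 5)))
 (.n (.p (nat_lit 0x72e072c072807260724170506) (nat_lit 0x4000084b03) (nat_lit 52))
 (.p (nat_lit 0x161c0c2502) (nat_lit 0x540a2a) (nat_lit 5)))))
 (.n (.n (.n (.n (.p (nat_lit 0x780077e077c0778077605ed06) (nat_lit 0x20000ca200) (nat_lit 52))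
 (.p (nat_lit 0x28101d5902) (nat_lit 0x20042800) (nat_lit 48)))
 (.p (nat_lit 0x14e08ed02) (nat_lit 0x50030e) (nat_lit 1)))
 (.n (.p (nat_lit 0x1b141b121b101b0e1b0c1b0a004a07) (nat_lit 0x40a02) (nat_lit 8))
 (.p (nat_lit 0x191218c102) (nat_lit 0x300924) (nat_lit 4))))
 (.n (.n (.p (nat_lit 0x137d11ad02) (nat_lit 0x508900) (nat_lit 16))
 (.p (nat_lit 0x13441340133e133c133a1ee106) (nat_lit 0x8000016519) (nat_lit 52)))
 (.n (.p (nat_lit 0xba015b102) (nat_lit 0x540405) (nat_lit 4))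
 (.p (nat_lit 0x1d025d102) (nat_lit 0x30071c) (nat_lit 27))))))
 (.n (.n (.n (.n (.n (.p (nat_lit 0x34c049902) (nat_lit 0x400100) (nat_lit 5))
 (.p (nat_lit 0x26af27f302) (nat_lit 0x40000000600) (nat_lit 37)))
 (.p (nat_lit 0xb4e03cf02) (nat_lit 0x40407) (nat_lit 4)))
 (.n (.p (nat_lit 0x176a1768176617641760162106) (nat_lit 0x10000d0a01) (nat_lit 52))
 (.p (nat_lit 0x1fb237902) (nat_lit 0x240223) (nat_lit 30))))
 (.n (.n (.n (.p (nat_lit 0x1092108e108c108a10880eeb06) (nat_lit 0x80000d4700) (nat_lit 52))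
 (.p (nat_lit 0x72a28a302) (nat_lit 0x350521a84000200040000) (nat_lit 49)))
 (.p (nat_lit 0xfec078902) (nat_lit 0x500715) (nat_lit 4)))
 (.n (.p (nat_lit 0xe490e3d02) (nat_lit 0x516604) (nat_lit 16))
 (.p (nat_lit 0x70006e006800660007022f06) (nat_lit 0x1a16403) (nat_lit 26)))))
 (.n (.n (.n (.n (.p (nat_lit 0xa7508d102) (nat_lit 0x300400) (nat_lit 16))
 (.p (nat_lit 0x282e1f3d02) (nat_lit 0x40046a00) (nat_lit 48)))
 (.p (nat_lit 0x1de716bd02) (nat_lit 0x110b0e) (nat_lit 16)))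
 (.n (.p (nat_lit 0x17a07f302) (nat_lit 0x140203) (nat_lit 1))
 (.p (nat_lit 0x30c030a030603040537053106) (nat_lit 0x480008812a) (nat_lit 51))))
 (.n (.n (.p (nat_lit 0x15fd143f02) (nat_lit 0x140a00) (nat_lit 16))
 (.p (nat_lit 0xc5e096102) (nat_lit 0x50051c) (nat_lit 5)))
 (.n (.p (nat_lit 0x12c212c012be12bc12ba009f12b907) (nat_lit 0x40805) (nat_lit 7))
 (.p (nat_lit 0x26c527a702) (nat_lit 0x1e0020000000) (nat_lit 36))))))

def c256_217 : Tr :=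
 .n (.n (.n (.n (.n (.n (.p (nat_lit 0x2e802e602e402e202e002bb06) (nat_lit 0x800006000) (nat_lit 52))
 (.p (nat_lit 0x27d421f902) (nat_lit 0x16400) (nat_lit 48)))
 (.p (nat_lit 0x8e008dc08da08d808d600dd08df07) (nat_lit 0x400307) (nat_lit 7)))
 (.n (.p (nat_lit 0x66a0666066406620660139306) (nat_lit 0x8000004901) (nat_lit 51))
 (.p (nat_lit 0x2b802b602b402b202ae052706) (nat_lit 0x1000000123) (nat_lit 51))))
 (.n (.n (.n (.p (nat_lit 0xf1d0e6d02) (nat_lit 0x550600) (nat_lit 16))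
 (.p (nat_lit 0x1490288302) (nat_lit 0x342221ca4000400000600) (nat_lit 50)))
 (.p (nat_lit 0x2ac02aa02a802a402a20c4d06) (nat_lit 0x2000000515) (nat_lit 52)))
 (.n (.p (nat_lit 0x72213db02) (nat_lit 0x400204) (nat_lit 4))
 (.p (nat_lit 0x1db0248302) (nat_lit 0x30062d) (nat_lit 29)))))
 (.n (.n (.n (.n (.p (nat_lit 0x91b090f02) (nat_lit 0x40300) (nat_lit 34))
 (.p (nat_lit 0x26f712e102) (nat_lit 0x1c0040000900) (nat_lit 40)))
 (.p (nat_lit 0x81c081a0818081608140b6506) (nat_lit 0x1000004640e) (nat_lit 52)))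
 (.n (.p (nat_lit 0x17cc17ca17c817c617c2004117c507) (nat_lit 0x140b02) (nat_lit 7))
 (.p (nat_lit 0x1f241ebb02) (nat_lit 0x100b27) (nat_lit 5))))
 (.n (.n (.p (nat_lit 0x14e014de14dc14da14d8135306) (nat_lit 0x80008ca00) (nat_lit 52))
 (.p (nat_lit 0x43e043c04380436043401a5043b07) (nat_lit 0x34001c) (nat_lit 7)))
 (.n (.p (nat_lit 0x20bd100f02) (nat_lit 0x508705) (nat_lit 16))
 (.p (nat_lit 0x249265302) (nat_lit 0x100929) (nat_lit 28))))))
 (.n (.n (.n (.n (.n (.p (nat_lit 0x64f042102) (nat_lit 0x256100) (nat_lit 16))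
 (.p (nat_lit 0x26fd0f3b02) (nat_lit 0x160040000700) (nat_lit 38)))
 (.p (nat_lit 0x178e034302) (nat_lit 0x540b07) (nat_lit 5)))
 (.n (.p (nat_lit 0x13980f8302) (nat_lit 0x100902) (nat_lit 4))
 (.p (nat_lit 0x153e0a4d02) (nat_lit 0x400a23) (nat_lit 4))))
 (.n (.n (.n (.p (nat_lit 0x6810af02) (nat_lit 0x140800) (nat_lit 1))
 (.p (nat_lit 0xbb428c102) (nat_lit 0x332a05d81000500000000) (nat_lit 50)))
 (.p (nat_lit 0x1a8619d302) (nat_lit 0x240417) (nat_lit 5)))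
 (.n (.p (nat_lit 0x871f2102) (nat_lit 0x500b04) (nat_lit 30))
 (.p (nat_lit 0x146254f02) (nat_lit 0x10030e) (nat_lit 27)))))
 (.n (.n (.n (.n (.p (nat_lit 0xbc40bc20bbc0bba0a690a6706) (nat_lit 0x6000002500) (nat_lit 52))
 (.p (nat_lit 0xf48284702) (nat_lit 0x4a1a36344000100000600) (nat_lit 50)))
 (.p (nat_lit 0x1de41c3f02) (nat_lit 0xb11) (nat_lit 4)))
 (.n (.p (nat_lit 0xf12116902) (nat_lit 0x40603) (nat_lit 5))
 (.p (nat_lit 0xbb80bb20bb00bae07d907d706) (nat_lit 0xc00004a22a) (nat_lit 51))))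
 (.n (.n (.p (nat_lit 0x17521750174e174c174a15ef06) (nat_lit 0x8000ceb00) (nat_lit 51))
 (.p (nat_lit 0x1fec1fea1fe81fe61fe4160706) (nat_lit 0x800040a1c) (nat_lit 51)))
 (.n (.p (nat_lit 0x11fe168702) (nat_lit 0x300806) (nat_lit 4))
 (.p (nat_lit 0x27b607c102) (nat_lit 0x8004a100) (nat_lit 48))))))

def c128_89 : Tr := .n c256_89 c256_217

def c64_25 : Tr := .n c128_25 c128_89

def c256_57 : Tr :=
 .n (.n (.n (.n (.n (.n (.p (nat_lit 0x990097008a03) (nat_lit 0x42c00004) (nat_lit 19))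
 (.p (nat_lit 0x27c208e902) (nat_lit 0x60000200) (nat_lit 47)))
 (.p (nat_lit 0x13c213c013be13bc13ba12cf06) (nat_lit 0x100000d2806) (nat_lit 51)))
 (.n (.p (nat_lit 0x61c0e8302) (nat_lit 0x240101) (nat_lit 5))
 (.p (nat_lit 0x1f2c1fa302) (nat_lit 0x21) (nat_lit 4))))
 (.n (.n (.n (.p (nat_lit 0xd110b4902) (nat_lit 0x344500) (nat_lit 16))
 (.p (nat_lit 0x157e285d02) (nat_lit 0x1a2260b50000400040600) (nat_lit 50)))
 (.p (nat_lit 0x352066f02) (nat_lit 0x100015) (nat_lit 5)))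
 (.n (.p (nat_lit 0x16fe1dcd02) (nat_lit 0xb03) (nat_lit 29))
 (.p (nat_lit 0x13860cdf02) (nat_lit 0x40092a) (nat_lit 4)))))
 (.n (.n (.n (.n (.p (nat_lit 0x14a05ef02) (nat_lit 0x340200) (nat_lit 1))
 (.p (nat_lit 0x2687110702) (nat_lit 0x2c0000000800) (nat_lit 38)))
 (.p (nat_lit 0x2170212902) (nat_lit 0x24030d) (nat_lit 4)))
 (.n (.p (nat_lit 0xc7e0c7c0c7a0c780c76156506) (nat_lit 0x1000008aa02) (nat_lit 52))
 (.p (nat_lit 0x20f23e502) (nat_lit 0x240224) (nat_lit 30))))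
 (.n (.n (.p (nat_lit 0x12f612f412f212f011a711a506) (nat_lit 0x3000004900) (nat_lit 51))
 (.p (nat_lit 0x1cda1cd81cd61cd41cd21d6706) (nat_lit 0x200004a418) (nat_lit 51)))
 (.n (.p (nat_lit 0x1fb61fb41fb21fae0909090506) (nat_lit 0x5000080305) (nat_lit 51))
 (.p (nat_lit 0x16c25b102) (nat_lit 0x300618) (nat_lit 27))))))
 (.n (.n (.n (.n (.n (.p (nat_lit 0x461038d02) (nat_lit 0x50000) (nat_lit 16))
 (.p (nat_lit 0x27310ba902) (nat_lit 0x120060000500) (nat_lit 38)))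
 (.p (nat_lit 0xa7003c502) (nat_lit 0x100407) (nat_lit 4)))
 (.n (.p (nat_lit 0x1696169416921690168c155106) (nat_lit 0x1000090a01) (nat_lit 51))
 (.p (nat_lit 0x1a0070302) (nat_lit 0x100223) (nat_lit 1))))
 (.n (.n (.n (.p (nat_lit 0xee8102302) (nat_lit 0x340700) (nat_lit 4))
 (.p (nat_lit 0x914289d02) (nat_lit 0x356068ca4000300040000) (nat_lit 49)))
 (.p (nat_lit 0x4330d1502) (nat_lit 0x540515) (nat_lit 15)))
 (.n (.p (nat_lit 0x65e065c065a065606540e3706) (nat_lit 0x2000004604) (nat_lit 52))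
 (.p (nat_lit 0x4800460042003e002b000306) (nat_lit 0x1916a02) (nat_lit 26)))))
 (.n (.n (.n (.n (.p (nat_lit 0x9fa09f609f409f209f008d306) (nat_lit 0x8000080400) (nat_lit 52))
 (.p (nat_lit 0x26d3282b02) (nat_lit 0x100020000a00) (nat_lit 36)))
 (.p (nat_lit 0x11bc04f902) (nat_lit 0x20080e) (nat_lit 4)))
 (.n (.p (nat_lit 0x691c0902) (nat_lit 0x140103) (nat_lit 30))
 (.p (nat_lit 0x5300c8f02) (nat_lit 0x12a) (nat_lit 5))))
 (.n (.n (.p (nat_lit 0x15c815c615c415c015be144106) (nat_lit 0x200004ea00) (nat_lit 51))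
 (.p (nat_lit 0x5fc095302) (nat_lit 0x44011c) (nat_lit 4)))
 (.n (.p (nat_lit 0x11f4150302) (nat_lit 0x400805) (nat_lit 5))
 (.p (nat_lit 0x268f02af02) (nat_lit 0x240000000000) (nat_lit 40))))))

def c256_185 : Tr :=
 .n (.n (.n (.n (.n (.n (.p (nat_lit 0xd602bd02) (nat_lit 0x100000) (nat_lit 1))
 (.p (nat_lit 0x277b081f02) (nat_lit 0x2800a0000300) (nat_lit 38)))
 (.p (nat_lit 0x4d204d004ce04cc07c307c106) (nat_lit 0x1800004a207) (nat_lit 51)))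
 (.n (.p (nat_lit 0x10aa10a610a410a210a012b506) (nat_lit 0x80000d6801) (nat_lit 52))
 (.p (nat_lit 0x4460adb02) (nat_lit 0x340023) (nat_lit 5))))
 (.n (.n (.n (.p (nat_lit 0xebc0eb80eb60eb40eb20e6b06) (nat_lit 0x8000052600) (nat_lit 51))
 (.p (nat_lit 0x380287d02) (nat_lit 0x585a12b21000000040000) (nat_lit 50)))
 (.p (nat_lit 0x982097e097c097a0b6f0b6906) (nat_lit 0x90000d4415) (nat_lit 51)))
 (.n (.p (nat_lit 0x164c164a16481644164217d306) (nat_lit 0x2000056b03) (nat_lit 52))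
 (.p (nat_lit 0x1c00247102) (nat_lit 0x12d) (nat_lit 29)))))
 (.n (.n (.n (.n (.p (nat_lit 0x88a08880886088406f306eb06) (nat_lit 0x11000010300) (nat_lit 51))
 (.p (nat_lit 0x26d5281d02) (nat_lit 0xe0020000900) (nat_lit 37)))
 (.p (nat_lit 0x1a670a8102) (nat_lit 0x30e40e) (nat_lit 16)))
 (.n (.p (nat_lit 0x16fa109d02) (nat_lit 0x400b02) (nat_lit 4))
 (.p (nat_lit 0x1c5e1c5c1c5a1c581c5602351c6107) (nat_lit 0x540126) (nat_lit 7))))
 (.n (.n (.p (nat_lit 0x1352148502) (nat_lit 0xa00) (nat_lit 4))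
 (.p (nat_lit 0x13c413c213c013ba0361035f06) (nat_lit 0x300009201c) (nat_lit 51)))
 (.n (.p (nat_lit 0x2b802b402b202b002ae100d06) (nat_lit 0x8000000705) (nat_lit 51))
 (.p (nat_lit 0x213263902) (nat_lit 0x400824) (nat_lit 28))))))
 (.n (.n (.n (.n (.n (.p (nat_lit 0x5cc05ca05c805c60425042106) (nat_lit 0xa00004c100) (nat_lit 52))
 (.p (nat_lit 0x27fe1aa502) (nat_lit 0x4700) (nat_lit 48)))
 (.p (nat_lit 0x16b2033502) (nat_lit 0x200b07) (nat_lit 5)))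
 (.n (.p (nat_lit 0xb7a0b760b740b720064004900450b7d0b7909) (nat_lit 0x2b40402) (nat_lit 10))
 (.p (nat_lit 0x1f723b102) (nat_lit 0x923) (nat_lit 30))))
 (.n (.n (.n (.p (nat_lit 0x11ab0fd102) (nat_lit 0x400800) (nat_lit 15))
 (.p (nat_lit 0x38228bd02) (nat_lit 0x352868d64000000040000) (nat_lit 50)))
 (.p (nat_lit 0x1f761f741f721f701f6e152306) (nat_lit 0x2000088a15) (nat_lit 51)))
 (.n (.p (nat_lit 0x126612641262125e10e910e506) (nat_lit 0x2800054704) (nat_lit 51))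
 (.p (nat_lit 0xc1252102) (nat_lit 0x300906) (nat_lit 28)))))
 (.n (.n (.n (.n (.p (nat_lit 0x2540a6302) (nat_lit 0x500) (nat_lit 1))
 (.p (nat_lit 0x9d8283d02) (nat_lit 0x260d84344000400000000) (nat_lit 50)))
 (.p (nat_lit 0x1d801c2b02) (nat_lit 0x511) (nat_lit 4)))
 (.n (.p (nat_lit 0x4650d4102) (nat_lit 0x440503) (nat_lit 15))
 (.p (nat_lit 0x7d00cb102) (nat_lit 0x4022a) (nat_lit 4))))
 (.n (.n (.p (nat_lit 0x15f0172502) (nat_lit 0x140b00) (nat_lit 5))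
 (.p (nat_lit 0x1a7234102) (nat_lit 0x400a1c) (nat_lit 30)))
 (.n (.p (nat_lit 0x21c5101302) (nat_lit 0x108706) (nat_lit 16))
 (.p (nat_lit 0x2737049702) (nat_lit 0xc0060000100) (nat_lit 40))))))

def c128_57 : Tr := .n c256_57 c256_185

def c256_121 : Tr :=
 .n (.n (.n (.n (.n (.n (.p (nat_lit 0x163015d015203) (nat_lit 0xa1100015) (nat_lit 19))
 (.p (nat_lit 0x26fd082502) (nat_lit 0x160040000300) (nat_lit 40)))
 (.p (nat_lit 0x1480147e147c147800d000c500bd1483147b09) (nat_lit 0x2940906) (nat_lit 10)))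
 (.n (.p (nat_lit 0xd310d2502) (nat_lit 0x150501) (nat_lit 16))
 (.p (nat_lit 0x20dc20da20d820d420d201df20d707) (nat_lit 0x240721) (nat_lit 7))))
 (.n (.n (.n (.p (nat_lit 0xe0b0d6902) (nat_lit 0x106600) (nat_lit 16))
 (.p (nat_lit 0xbb8286d02) (nat_lit 0x568bb0344000500000000) (nat_lit 50)))
 (.p (nat_lit 0xa88068302) (nat_lit 0x100415) (nat_lit 4)))
 (.n (.p (nat_lit 0xe2d170502) (nat_lit 0x300b03) (nat_lit 15))
 (.p (nat_lit 0x17bc0cf902) (nat_lit 0x340b2a) (nat_lit 5)))))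
 (.n (.n (.n (.n (.p (nat_lit 0x7f705ef02) (nat_lit 0x350200) (nat_lit 16))
 (.p (nat_lit 0x2743110d02) (nat_lit 0x60000800) (nat_lit 38)))
 (.p (nat_lit 0x10b226702) (nat_lit 0x34030e) (nat_lit 30)))
 (.n (.p (nat_lit 0x57c057a057805740572162f06) (nat_lit 0x20000c2a02) (nat_lit 51))
 (.p (nat_lit 0x1958241302) (nat_lit 0x100025) (nat_lit 29))))
 (.n (.n (.p (nat_lit 0x129213b502) (nat_lit 0x340900) (nat_lit 4))
 (.p (nat_lit 0x203e1f7102) (nat_lit 0x14041a) (nat_lit 5)))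
 (.n (.p (nat_lit 0xc40e4902) (nat_lit 0x500605) (nat_lit 1))
 (.p (nat_lit 0x1eb25f702) (nat_lit 0x100122) (nat_lit 28))))))
 (.n (.n (.n (.n (.n (.p (nat_lit 0x513034b02) (nat_lit 0x300100) (nat_lit 15))
 (.p (nat_lit 0x27f2101102) (nat_lit 0x14600) (nat_lit 47)))
 (.p (nat_lit 0xdee0dec0dea0de60de400d90de907) (nat_lit 0x200607) (nat_lit 7)))
 (.n (.p (nat_lit 0x62e104902) (nat_lit 0x540102) (nat_lit 4))
 (.p (nat_lit 0x1fb238502) (nat_lit 0x200623) (nat_lit 30))))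
 (.n (.n (.n (.p (nat_lit 0x10e90ee702) (nat_lit 0x252700) (nat_lit 16))
 (.p (nat_lit 0x164628ab02) (nat_lit 0x350521a86800500000600) (nat_lit 49)))
 (.p (nat_lit 0x11ce22e302) (nat_lit 0x500815) (nat_lit 29)))
 (.n (.p (nat_lit 0x92409220920091e091c0f1f06) (nat_lit 0x8000c6604) (nat_lit 51))
 (.p (nat_lit 0x7d24e702) (nat_lit 0xb04) (nat_lit 28)))))
 (.n (.n (.n (.n (.p (nat_lit 0x9920ac302) (nat_lit 0x340400) (nat_lit 5))
 (.p (nat_lit 0x268b172302) (nat_lit 0x280000000b00) (nat_lit 41)))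
 (.p (nat_lit 0x1930182902) (nat_lit 0x300a0f) (nat_lit 4)))
 (.n (.p (nat_lit 0x9be113902) (nat_lit 0x240303) (nat_lit 4))
 (.p (nat_lit 0x4040402040003fe03fc060d06) (nat_lit 0x8000d412a) (nat_lit 52))))
 (.n (.n (.p (nat_lit 0x151a165702) (nat_lit 0x400b00) (nat_lit 5))
 (.p (nat_lit 0xae80ae60ae40ae20ae00d2106) (nat_lit 0x1000004251c) (nat_lit 51)))
 (.n (.p (nat_lit 0x140a140614041402140012c106) (nat_lit 0x80000cc805) (nat_lit 52))
 (.p (nat_lit 0x277302b702) (nat_lit 0x80000000) (nat_lit 40))))))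

def c256_249 : Tr :=
 .n (.n (.n (.n (.n (.n (.p (nat_lit 0x36b02bd02) (nat_lit 0x108000) (nat_lit 16))
 (.p (nat_lit 0x27de221302) (nat_lit 0x60056400) (nat_lit 47)))
 (.p (nat_lit 0x157c157a1578157208db08d906) (nat_lit 0x3000094307) (nat_lit 52)))
 (.n (.p (nat_lit 0x146a14681466146214600029146507) (nat_lit 0x240901) (nat_lit 7))
 (.p (nat_lit 0x1e29052f02) (nat_lit 0x512123) (nat_lit 16))))
 (.n (.n (.n (.p (nat_lit 0xf8a0f880f860f820f800ddd06) (nat_lit 0x2000012700) (nat_lit 52))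
 (.p (nat_lit 0x57a288d02) (nat_lit 0x356221ca4000100040000) (nat_lit 50)))
 (.p (nat_lit 0x1588158615841582157e0c4b06) (nat_lit 0x1000094515) (nat_lit 51)))
 (.n (.p (nat_lit 0x80b07ff02) (nat_lit 0x156204) (nat_lit 16))
 (.p (nat_lit 0x14f814f614f214f014ee1f6906) (nat_lit 0x400008e22f) (nat_lit 51)))))
 (.n (.n (.n (.n (.p (nat_lit 0x9520950094e094a07b707af06) (nat_lit 0x110000c2300) (nat_lit 52))
 (.p (nat_lit 0x2729282302) (nat_lit 0x1a0060000900) (nat_lit 37)))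
 (.p (nat_lit 0xda0c4302) (nat_lit 0x30050e) (nat_lit 1)))
 (.n (.p (nat_lit 0xdb60db20db00dae17cb17c306) (nat_lit 0x88000d0b02) (nat_lit 52))
 (.p (nat_lit 0xade0ada0ad80ad60ad420bb06) (nat_lit 0x8000080728) (nat_lit 51))))
 (.n (.n (.p (nat_lit 0x152b135302) (nat_lit 0x6a00) (nat_lit 16))
 (.p (nat_lit 0x12da12d812d612d412d0043706) (nat_lit 0x100005201c) (nat_lit 52)))
 (.n (.p (nat_lit 0x570056e056c056a056610f306) (nat_lit 0x10000c2705) (nat_lit 52))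
 (.p (nat_lit 0x21c267502) (nat_lit 0x20032c) (nat_lit 27))))))
 (.n (.n (.n (.n (.n (.p (nat_lit 0x51605120510050c001a000900030515050f09) (nat_lit 0x2100200) (nat_lit 10))
 (.p (nat_lit 0x27390f4902) (nat_lit 0xa0060000700) (nat_lit 40)))
 (.p (nat_lit 0x1cae1cac1caa1ca61ca400f11ca907) (nat_lit 0x24020a) (nat_lit 7)))
 (.n (.p (nat_lit 0x1470107502) (nat_lit 0x240902) (nat_lit 5))
 (.p (nat_lit 0x20123d302) (nat_lit 0x500b23) (nat_lit 30))))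
 (.n (.n (.p (nat_lit 0x125c125a12561254125210b306) (nat_lit 0x40000cc800) (nat_lit 52))
 (.p (nat_lit 0x1ad819ab02) (nat_lit 0x440517) (nat_lit 5)))
 (.n (.p (nat_lit 0x15c815c615c415c015be17df06) (nat_lit 0x200004eb04) (nat_lit 51))
 (.p (nat_lit 0x12a0128012601200107017d06) (nat_lit 0xa16311) (nat_lit 26)))))
 (.n (.n (.n (.n (.p (nat_lit 0x2c10a6902) (nat_lit 0x300500) (nat_lit 15))
 (.p (nat_lit 0x2a2284f02) (nat_lit 0x4a0d84344000000000000) (nat_lit 49)))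
 (.p (nat_lit 0x1e101bf102) (nat_lit 0x440b11) (nat_lit 5)))
 (.n (.p (nat_lit 0xf270f1b02) (nat_lit 0x454603) (nat_lit 16))
 (.p (nat_lit 0x8f00beb02) (nat_lit 0x10032a) (nat_lit 5))))
 (.n (.n (.p (nat_lit 0x178915f302) (nat_lit 0x240b00) (nat_lit 16))
 (.p (nat_lit 0x1938186102) (nat_lit 0x100a1d) (nat_lit 5)))
 (.n (.p (nat_lit 0x1032102e102c102a1028120106) (nat_lit 0x800008e806) (nat_lit 51))
 (.p (nat_lit 0x268f065502) (nat_lit 0x240000000200) (nat_lit 38))))))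

def c128_121 : Tr := .n c256_121 c256_249

def c64_57 : Tr := .n c128_57 c128_121

def c32_25 : Tr := .n c64_25 c64_57

def c16_9 : Tr := .n c32_9 c32_25

def c8_1 : Tr := .n c16_1 c16_9

def c256_5 : Tr :=
 .n (.n (.n (.n (.n (.n (.p (nat_lit 0xa01) (nat_lit 0x500000) (nat_lit 0))
 (.p (nat_lit 0x27b808e302) (nat_lit 0x200) (nat_lit 47)))
 (.p (nat_lit 0x21ed120302) (nat_lit 0x502806) (nat_lit 16)))
 (.n (.p (nat_lit 0x17b115f502) (nat_lit 0x348b00) (nat_lit 16))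
 (.p (nat_lit 0x19541a4102) (nat_lit 0x50001e) (nat_lit 5))))
 (.n (.n (.n (.p (nat_lit 0xc590a6702) (nat_lit 0x206500) (nat_lit 16))
 (.p (nat_lit 0x374285102) (nat_lit 0x4a8876344000000040000) (nat_lit 49)))
 (.p (nat_lit 0x1ee4227b02) (nat_lit 0x140512) (nat_lit 29)))
 (.n (.p (nat_lit 0x1570117d02) (nat_lit 0x500a03) (nat_lit 4))
 (.p (nat_lit 0x9ee09ea09e809e408f708f106) (nat_lit 0x900000032a) (nat_lit 52)))))
 (.n (.n (.n (.n (.p (nat_lit 0x6960694068e068c0513051106) (nat_lit 0x6000088200) (nat_lit 52))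
 (.p (nat_lit 0x27170f4902) (nat_lit 0x2c0060000700) (nat_lit 40)))
 (.p (nat_lit 0x1c3c1c3a1c381c341c321ca906) (nat_lit 0x20000ca20a) (nat_lit 52)))
 (.n (.p (nat_lit 0x123a1238123612341230146f06) (nat_lit 0x10000c4902) (nat_lit 52))
 (.p (nat_lit 0x17ac0a5b02) (nat_lit 0x140b23) (nat_lit 4))))
 (.n (.n (.p (nat_lit 0x128a128812861282128010b106) (nat_lit 0x20000d6800) (nat_lit 52))
 (.p (nat_lit 0x1ae219f302) (nat_lit 0x300917) (nat_lit 5)))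
 (.n (.p (nat_lit 0x472149f02) (nat_lit 0x140005) (nat_lit 4))
 (.p (nat_lit 0x145257702) (nat_lit 0x415) (nat_lit 28))))))
 (.n (.n (.n (.n (.n (.p (nat_lit 0x390038502) (nat_lit 0x240000) (nat_lit 5))
 (.p (nat_lit 0x26a927e302) (nat_lit 0xa0000000500) (nat_lit 36)))
 (.p (nat_lit 0x8f908e102) (nat_lit 0x508307) (nat_lit 16)))
 (.n (.p (nat_lit 0x2b802b402b202b002ae146906) (nat_lit 0x8000040901) (nat_lit 51))
 (.p (nat_lit 0x6040a0d02) (nat_lit 0x240123) (nat_lit 5))))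
 (.n (.n (.n (.p (nat_lit 0xfaa0fa80fa60fa40de30de106) (nat_lit 0x18000094700) (nat_lit 51))
 (.p (nat_lit 0xf4a288f02) (nat_lit 0x356221ca4000100000600) (nat_lit 50)))
 (.p (nat_lit 0x1ee10c5102) (nat_lit 0x412515) (nat_lit 16)))
 (.n (.p (nat_lit 0x811ea702) (nat_lit 0x240404) (nat_lit 30))
 (.p (nat_lit 0x1fd2207302) (nat_lit 0x30032f) (nat_lit 4)))))
 (.n (.n (.n (.n (.p (nat_lit 0x99307b302) (nat_lit 0x340300) (nat_lit 15))
 (.p (nat_lit 0x271712d702) (nat_lit 0x2c0060000900) (nat_lit 38)))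
 (.p (nat_lit 0x30002fe02fc02f802f60c4106) (nat_lit 0x200000850e) (nat_lit 51)))
 (.n (.p (nat_lit 0x17d717cb02) (nat_lit 0x452b02) (nat_lit 16))
 (.p (nat_lit 0x24322430242e242c242a2428025207) (nat_lit 0x729) (nat_lit 8))))
 (.n (.n (.p (nat_lit 0x1557135b02) (nat_lit 0x40ca00) (nat_lit 16))
 (.p (nat_lit 0x5ff043f02) (nat_lit 0x54001c) (nat_lit 15)))
 (.n (.p (nat_lit 0x9e209e009dc09da09d810f706) (nat_lit 0x4000048705) (nat_lit 51))
 (.p (nat_lit 0x292268102) (nat_lit 0x30092c) (nat_lit 27))))))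

def c256_133 : Tr :=
 .n (.n (.n (.n (.n (.n (.p (nat_lit 0x1b301b101ac03) (nat_lit 0x110001c) (nat_lit 19))
 (.p (nat_lit 0x27ce0a8b02) (nat_lit 0x40002300) (nat_lit 47)))
 (.p (nat_lit 0x6f602c902) (nat_lit 0x100207) (nat_lit 4)))
 (.n (.p (nat_lit 0x4611e902) (nat_lit 0x400801) (nat_lit 1))
 (.p (nat_lit 0x866086408620860085e20d306) (nat_lit 0x80004a721) (nat_lit 52))))
 (.n (.n (.n (.p (nat_lit 0xe350d6902) (nat_lit 0x112600) (nat_lit 16))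
 (.p (nat_lit 0xc8c286f02) (nat_lit 0x588872b44000500040000) (nat_lit 50)))
 (.p (nat_lit 0xa8e068902) (nat_lit 0x400415) (nat_lit 4)))
 (.n (.p (nat_lit 0x17d0119902) (nat_lit 0x140b03) (nat_lit 5))
 (.p (nat_lit 0x192818e502) (nat_lit 0x34092b) (nat_lit 4)))))
 (.n (.n (.n (.n (.p (nat_lit 0x1a006eb02) (nat_lit 0x100300) (nat_lit 1))
 (.p (nat_lit 0x271d110d02) (nat_lit 0x260060000800) (nat_lit 38)))
 (.p (nat_lit 0x6ac06aa06a806a606a409af06) (nat_lit 0x100000ca30e) (nat_lit 51)))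
 (.n (.p (nat_lit 0x9d409d209ce09cc1635162f06) (nat_lit 0x12000048a02) (nat_lit 52))
 (.p (nat_lit 0x1aa21a9e1a9c1a9a1a98195f06) (nat_lit 0x8000014025) (nat_lit 51))))
 (.n (.n (.p (nat_lit 0x13c513b902) (nat_lit 0x540900) (nat_lit 34))
 (.p (nat_lit 0x15c615c415c215c015be209306) (nat_lit 0x1000004e51a) (nat_lit 51)))
 (.n (.p (nat_lit 0x16ac16a816a416a20e470e4306) (nat_lit 0xa000092605) (nat_lit 51))
 (.p (nat_lit 0x20001fe01fa01f80007025506) (nat_lit 0x1802023) (nat_lit 26))))))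
 (.n (.n (.n (.n (.n (.p (nat_lit 0x52f034f02) (nat_lit 0x508100) (nat_lit 16))
 (.p (nat_lit 0x26c927f702) (nat_lit 0x1a0020000600) (nat_lit 36)))
 (.p (nat_lit 0xef4031b02) (nat_lit 0x340607) (nat_lit 4)))
 (.n (.p (nat_lit 0x71a199502) (nat_lit 0x400202) (nat_lit 29))
 (.p (nat_lit 0xefa0a3502) (nat_lit 0x40623) (nat_lit 4))))
 (.n (.n (.n (.p (nat_lit 0x11050eed02) (nat_lit 0x556700) (nat_lit 16))
 (.p (nat_lit 0xba628ad02) (nat_lit 0x354a621b0000500000000) (nat_lit 49)))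
 (.p (nat_lit 0x1360079502) (nat_lit 0x200915) (nat_lit 5)))
 (.n (.p (nat_lit 0x111c111a1118111411120f2306) (nat_lit 0x2000050604) (nat_lit 51))
 (.p (nat_lit 0x24f824f624f424f224f0014d00aa07) (nat_lit 0x40e205) (nat_lit 25)))))
 (.n (.n (.n (.n (.p (nat_lit 0xade0adc0ad80ad60ad4099306) (nat_lit 0x40000c0400) (nat_lit 51))
 (.p (nat_lit 0x2713165302) (nat_lit 0x40000b00) (nat_lit 40)))
 (.p (nat_lit 0x1cb41bc302) (nat_lit 0x200311) (nat_lit 4)))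
 (.n (.p (nat_lit 0x6d1cef02) (nat_lit 0x300403) (nat_lit 30))
 (.p (nat_lit 0x7120cab02) (nat_lit 0x30022a) (nat_lit 5))))
 (.n (.n (.p (nat_lit 0x1670166e166c166a151d151b06) (nat_lit 0x1800000eb00) (nat_lit 52))
 (.p (nat_lit 0xe0c087902) (nat_lit 0x40061c) (nat_lit 5)))
 (.n (.p (nat_lit 0x480165f02) (nat_lit 0x340006) (nat_lit 4))
 (.p (nat_lit 0x274502b702) (nat_lit 0x2e0080000000) (nat_lit 40))))))

def c128_5 : Tr := .n c256_5 c256_133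

def c256_69 : Tr :=
 .n (.n (.n (.n (.n (.n (.p (nat_lit 0xa400a200ad03) (nat_lit 0x6000500005) (nat_lit 17))
 (.p (nat_lit 0x2761066902) (nat_lit 0x120080000200) (nat_lit 40)))
 (.p (nat_lit 0x13a4176f02) (nat_lit 0x100906) (nat_lit 4)))
 (.n (.p (nat_lit 0x1837062102) (nat_lit 0x448101) (nat_lit 16))
 (.p (nat_lit 0x14ea14e814e614e414e21f3706) (nat_lit 0x1000000e021) (nat_lit 52))))
 (.n (.n (.n (.p (nat_lit 0xd3f0b4902) (nat_lit 0x350500) (nat_lit 16))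
 (.p (nat_lit 0x924286302) (nat_lit 0x281d30344000300040000) (nat_lit 50)))
 (.p (nat_lit 0x35a074502) (nat_lit 0x500015) (nat_lit 4)))
 (.n (.p (nat_lit 0x1706119302) (nat_lit 0x400b03) (nat_lit 4))
 (.p (nat_lit 0x259245d02) (nat_lit 0x200a2a) (nat_lit 30)))))
 (.n (.n (.n (.n (.p (nat_lit 0x74407420740073e073c05e906) (nat_lit 0x800040200) (nat_lit 52))
 (.p (nat_lit 0x280e1c5702) (nat_lit 0x48800) (nat_lit 47)))
 (.p (nat_lit 0x14408e302) (nat_lit 0x30e) (nat_lit 1)))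
 (.n (.p (nat_lit 0x12e612e412e212e012de155b06) (nat_lit 0x800012a02) (nat_lit 51))
 (.p (nat_lit 0x18f023f302) (nat_lit 0x300824) (nat_lit 29))))
 (.n (.n (.p (nat_lit 0x134413421340133c133a11a706) (nat_lit 0x2000016900) (nat_lit 52))
 (.p (nat_lit 0x1ed81e2b02) (nat_lit 0x519) (nat_lit 4)))
 (.n (.p (nat_lit 0xa71fe102) (nat_lit 0x440305) (nat_lit 30))
 (.p (nat_lit 0x1a601a401a2019e01cd000b06) (nat_lit 0xd0e01c) (nat_lit 26))))))
 (.n (.n (.n (.n (.n (.p (nat_lit 0x104034502) (nat_lit 0x100) (nat_lit 1))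
 (.p (nat_lit 0x275527ef02) (nat_lit 0x1e0080000500) (nat_lit 37)))
 (.p (nat_lit 0xa7803cd02) (nat_lit 0x500407) (nat_lit 4)))
 (.n (.p (nat_lit 0xba161f02) (nat_lit 0x40a01) (nat_lit 1))
 (.p (nat_lit 0x7080a1d02) (nat_lit 0x400223) (nat_lit 5))))
 (.n (.n (.n (.p (nat_lit 0x1033102702) (nat_lit 0x540700) (nat_lit 34))
 (.p (nat_lit 0xab2289f02) (nat_lit 0x354868ca4000400040000) (nat_lit 49)))
 (.p (nat_lit 0xe0206b502) (nat_lit 0x300615) (nat_lit 5)))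
 (.n (.p (nat_lit 0x9e209de09da09d80e3b0e3706) (nat_lit 0xa000008604) (nat_lit 51))
 (.p (nat_lit 0xee24bf02) (nat_lit 0x100003) (nat_lit 27)))))
 (.n (.n (.n (.n (.p (nat_lit 0xa1c0a1a0a180a160a1408d506) (nat_lit 0x10000004400) (nat_lit 51))
 (.p (nat_lit 0x282c158102) (nat_lit 0x20040a00) (nat_lit 46)))
 (.p (nat_lit 0x1c3c1c3a1c381c341c3211bd06) (nat_lit 0x200008a80e) (nat_lit 52)))
 (.n (.p (nat_lit 0x63a122f02) (nat_lit 0x540103) (nat_lit 4))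
 (.p (nat_lit 0x5360bc102) (nat_lit 0x30012a) (nat_lit 4))))
 (.n (.n (.p (nat_lit 0x15d415ce15cc15ca1445144306) (nat_lit 0xc0000cea00) (nat_lit 52))
 (.p (nat_lit 0x77e077c077a0778077605ff06) (nat_lit 0x100000ca11c) (nat_lit 52)))
 (.n (.p (nat_lit 0x13fe13fa13f813f613f411f506) (nat_lit 0x800000c805) (nat_lit 51))
 (.p (nat_lit 0x268702af02) (nat_lit 0x2c0000000000) (nat_lit 40))))))

def c256_197 : Tr :=
 .n (.n (.n (.n (.n (.n (.p (nat_lit 0xdc02c302) (nat_lit 0x400000) (nat_lit 1))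
 (.p (nat_lit 0x269309d902) (nat_lit 0x200000000400) (nat_lit 40)))
 (.p (nat_lit 0x7db07c302) (nat_lit 0x548207) (nat_lit 16)))
 (.n (.p (nat_lit 0x138e0eb702) (nat_lit 0x200901) (nat_lit 5))
 (.p (nat_lit 0xbe40be20be00bde0bdc044b06) (nat_lit 0x100000c4023) (nat_lit 51))))
 (.n (.n (.n (.p (nat_lit 0xee00ede0edc0eda0ed80ed606) (nat_lit 0xd4600) (nat_lit 52))
 (.p (nat_lit 0xd5a288102) (nat_lit 0x585a12b21000000000600) (nat_lit 50)))
 (.p (nat_lit 0xc4a076d02) (nat_lit 0x100515) (nat_lit 5)))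
 (.n (.p (nat_lit 0x46813c702) (nat_lit 0x40004) (nat_lit 5))
 (.p (nat_lit 0x1c6c1c681c661c641c6202951c6b07) (nat_lit 0x44012d) (nat_lit 7)))))
 (.n (.n (.n (.n (.p (nat_lit 0x8d506f302) (nat_lit 0x500300) (nat_lit 15))
 (.p (nat_lit 0x281c156902) (nat_lit 0x2000e900) (nat_lit 47)))
 (.p (nat_lit 0xb6005a902) (nat_lit 0x34040e) (nat_lit 4)))
 (.n (.p (nat_lit 0xd9c0d9a0d980d9616fd16f306) (nat_lit 0x1080008ab02) (nat_lit 51))
 (.p (nat_lit 0x1df41d4902) (nat_lit 0x200b26) (nat_lit 5))))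
 (.n (.n (.p (nat_lit 0x1497148b02) (nat_lit 0x300a00) (nat_lit 34))
 (.p (nat_lit 0x36d036102) (nat_lit 0x20a01c) (nat_lit 16)))
 (.n (.p (nat_lit 0x81c081a081808160814100f06) (nat_lit 0x10000006705) (nat_lit 52))
 (.p (nat_lit 0x264426422640263e263c00bd021607) (nat_lit 0x102a24) (nat_lit 25))))))
 (.n (.n (.n (.n (.n (.p (nat_lit 0x607042302) (nat_lit 0x348100) (nat_lit 16))
 (.p (nat_lit 0x26cf102b02) (nat_lit 0x140020000700) (nat_lit 41)))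
 (.p (nat_lit 0x1dd916af02) (nat_lit 0x10b07) (nat_lit 16)))
 (.n (.p (nat_lit 0xd2e0f7702) (nat_lit 0x40502) (nat_lit 5))
 (.p (nat_lit 0x20123bb02) (nat_lit 0x500923) (nat_lit 30))))
 (.n (.n (.n (.p (nat_lit 0x11dd0fd102) (nat_lit 0x408800) (nat_lit 16))
 (.p (nat_lit 0x102428bf02) (nat_lit 0x3503a8d84000100040600) (nat_lit 49)))
 (.p (nat_lit 0x179807a502) (nat_lit 0x140b15) (nat_lit 4)))
 (.n (.p (nat_lit 0x7d1f1702) (nat_lit 0xb04) (nat_lit 30))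
 (.p (nat_lit 0x126253302) (nat_lit 0x30020a) (nat_lit 27)))))
 (.n (.n (.n (.n (.p (nat_lit 0xa6c0a6a0a680a640a6200050a6707) (nat_lit 0x200500) (nat_lit 7))
 (.p (nat_lit 0xabc283f02) (nat_lit 0x4a1a22344000400040000) (nat_lit 50)))
 (.p (nat_lit 0x1d981c3502) (nat_lit 0x140511) (nat_lit 4)))
 (.n (.p (nat_lit 0xe2c116302) (nat_lit 0x300603) (nat_lit 5))
 (.p (nat_lit 0x7da0cbb02) (nat_lit 0x54022a) (nat_lit 4))))
 (.n (.n (.p (nat_lit 0x15f815f615f215f015ee000715f507) (nat_lit 0x340b00) (nat_lit 7))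
 (.p (nat_lit 0x1fcc1fca1fc61fc41535152f06) (nat_lit 0x1200008ea1c) (nat_lit 51)))
 (.n (.p (nat_lit 0xc121d502) (nat_lit 0x340706) (nat_lit 30))
 (.p (nat_lit 0x2719049702) (nat_lit 0x2a0060000100) (nat_lit 40))))))

def c128_69 : Tr := .n c256_69 c256_197

def c64_5 : Tr := .n c128_5 c128_69

def c256_37 : Tr :=
 .n (.n (.n (.n (.n (.n (.p (nat_lit 0x63005d004c03) (nat_lit 0x81900002) (nat_lit 19))
 (.p (nat_lit 0x270d27bf02) (nat_lit 0x60040000200) (nat_lit 37)))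
 (.p (nat_lit 0x82a082808240822082012cb06) (nat_lit 0x4000046806) (nat_lit 51)))
 (.n (.p (nat_lit 0x11c053f02) (nat_lit 0x200101) (nat_lit 1))
 (.p (nat_lit 0x1d901cd702) (nat_lit 0x30051f) (nat_lit 5))))
 (.n (.n (.n (.p (nat_lit 0xcba0cb80cb60cb20cb00b4706) (nat_lit 0x20000c4500) (nat_lit 52))
 (.p (nat_lit 0xd4e285b02) (nat_lit 0x281d30344000000000600) (nat_lit 49)))
 (.p (nat_lit 0x21ea214d02) (nat_lit 0x400814) (nat_lit 5)))
 (.n (.p (nat_lit 0x1640127302) (nat_lit 0x540a03) (nat_lit 5))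
 (.p (nat_lit 0x259245102) (nat_lit 0x20062a) (nat_lit 30)))))
 (.n (.n (.n (.n (.p (nat_lit 0x707051302) (nat_lit 0x308200) (nat_lit 16))
 (.p (nat_lit 0x26ad121102) (nat_lit 0x60000000800) (nat_lit 41)))
 (.p (nat_lit 0x30002fe02fc02f802f61ddd06) (nat_lit 0x2000008b0a) (nat_lit 51)))
 (.n (.p (nat_lit 0x37e037c037a03780376155b06) (nat_lit 0x800080a02) (nat_lit 52))
 (.p (nat_lit 0x183018b102) (nat_lit 0x140124) (nat_lit 4))))
 (.n (.n (.p (nat_lit 0x12dd12d102) (nat_lit 0x900) (nat_lit 34))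
 (.p (nat_lit 0x23122310230e230c230a2308018407) (nat_lit 0x40018) (nat_lit 8)))
 (.n (.p (nat_lit 0x1f801f7e1f7c1f7a1f78080f06) (nat_lit 0x40000ca205) (nat_lit 52))
 (.p (nat_lit 0x14b259d02) (nat_lit 0x300915) (nat_lit 28))))))
 (.n (.n (.n (.n (.n (.p (nat_lit 0x4180416041404120397038d06) (nat_lit 0x108000d6000) (nat_lit 52))
 (.p (nat_lit 0x270927eb02) (nat_lit 0xa0040000500) (nat_lit 36)))
 (.p (nat_lit 0xe540e520e500e4c0e4a099d06) (nat_lit 0x20000cc307) (nat_lit 52)))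
 (.n (.p (nat_lit 0x1629146b02) (nat_lit 0x540901) (nat_lit 15))
 (.p (nat_lit 0xe520e500e4e0e4c0e4a060b06) (nat_lit 0x100000cc123) (nat_lit 52))))
 (.n (.n (.n (.p (nat_lit 0x10150ddd02) (nat_lit 0x216700) (nat_lit 16))
 (.p (nat_lit 0x1654289502) (nat_lit 0x356068ca4000500000600) (nat_lit 50)))
 (.p (nat_lit 0xe600e5e0e5c0e580e560d0f06) (nat_lit 0x20000cc515) (nat_lit 51)))
 (.n (.p (nat_lit 0xe381eff02) (nat_lit 0x300604) (nat_lit 29))
 (.p (nat_lit 0x2e002c002a002800bb000306) (nat_lit 0x114901) (nat_lit 26)))))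
 (.n (.n (.n (.n (.p (nat_lit 0x8ce09dd02) (nat_lit 0x200400) (nat_lit 5))
 (.p (nat_lit 0x268d149102) (nat_lit 0x260000000a00) (nat_lit 40)))
 (.p (nat_lit 0xdfa05cd02) (nat_lit 0x50060e) (nat_lit 4)))
 (.n (.p (nat_lit 0x6f1bbd02) (nat_lit 0x400103) (nat_lit 30))
 (.p (nat_lit 0x2202220021fc21fa21f8024d21ff07) (nat_lit 0x300829) (nat_lit 7))))
 (.n (.n (.p (nat_lit 0xa6144502) (nat_lit 0x440a00) (nat_lit 1))
 (.p (nat_lit 0x768076607640762075e051b06) (nat_lit 0x100008811c) (nat_lit 51)))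
 (.n (.p (nat_lit 0x20f220f020ee20ec20ea20e800aa07) (nat_lit 0x805) (nat_lit 8))
 (.p (nat_lit 0x26a102a302) (nat_lit 0x120000000000) (nat_lit 38))))))

def c256_165 : Tr :=
 .n (.n (.n (.n (.n (.n (.p (nat_lit 0x25e025a026303) (nat_lit 0x1400050002a) (nat_lit 17))
 (.p (nat_lit 0x276d081d02) (nat_lit 0x60080000300) (nat_lit 38)))
 (.p (nat_lit 0x71706ff02) (nat_lit 0x508207) (nat_lit 16)))
 (.n (.p (nat_lit 0x12b40eaf02) (nat_lit 0x440801) (nat_lit 5))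
 (.p (nat_lit 0xbc40bc20bc00bbe0bba036b06) (nat_lit 0x1000002023) (nat_lit 52))))
 (.n (.n (.n (.p (nat_lit 0xe6c0e5502) (nat_lit 0x540600) (nat_lit 4))
 (.p (nat_lit 0x668287902) (nat_lit 0x588bb0344000200000000) (nat_lit 50)))
 (.p (nat_lit 0x1a40b6d02) (nat_lit 0x340415) (nat_lit 1)))
 (.n (.p (nat_lit 0xc7e0c7c0c7a0c780c7617d906) (nat_lit 0x100000cab03) (nat_lit 52))
 (.p (nat_lit 0x1afe1ac502) (nat_lit 0xa2c) (nat_lit 4)))))
 (.n (.n (.n (.n (.p (nat_lit 0x8420840083e083a083806ed06) (nat_lit 0x2000080300) (nat_lit 51))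
 (.p (nat_lit 0x26b113af02) (nat_lit 0x20000000900) (nat_lit 39)))
 (.p (nat_lit 0xe540e520e4e0e4c0e4a0a8106) (nat_lit 0x400008c40e) (nat_lit 52)))
 (.n (.p (nat_lit 0x1b21163502) (nat_lit 0x544a02) (nat_lit 16))
 (.p (nat_lit 0x6e1bfd02) (nat_lit 0x400126) (nat_lit 1))))
 (.n (.n (.p (nat_lit 0x143a1438143414321430129306) (nat_lit 0x40000d6900) (nat_lit 51))
 (.p (nat_lit 0x92409220920091c091a036106) (nat_lit 0x200008601c) (nat_lit 51)))
 (.n (.p (nat_lit 0x1782177e177a17780f330f2f06) (nat_lit 0xa0000d2605) (nat_lit 52))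
 (.p (nat_lit 0x201262702) (nat_lit 0x500823) (nat_lit 28))))))
 (.n (.n (.n (.n (.n (.p (nat_lit 0x57b056f02) (nat_lit 0x440100) (nat_lit 34))
 (.p (nat_lit 0x27490e5f02) (nat_lit 0x2a0080000600) (nat_lit 41)))
 (.p (nat_lit 0x15fe03ff02) (nat_lit 0x240a07) (nat_lit 4)))
 (.n (.p (nat_lit 0x19e019de19dc19da19d807ed06) (nat_lit 0x800004a202) (nat_lit 51))
 (.p (nat_lit 0x11dc23a102) (nat_lit 0x400823) (nat_lit 29))))
 (.n (.n (.n (.p (nat_lit 0x116611621160115e0fd10fc906) (nat_lit 0x880000c800) (nat_lit 51))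
 (.p (nat_lit 0x121428b502) (nat_lit 0x3503a8d64000200040600) (nat_lit 50)))
 (.p (nat_lit 0x152006d902) (nat_lit 0x100a15) (nat_lit 4)))
 (.n (.p (nat_lit 0x10e4132f02) (nat_lit 0x40704) (nat_lit 5))
 (.p (nat_lit 0x9f251102) (nat_lit 0x805) (nat_lit 28)))))
 (.n (.n (.n (.n (.p (nat_lit 0xb57099502) (nat_lit 0x440400) (nat_lit 16))
 (.p (nat_lit 0x2747172b02) (nat_lit 0x2c0080000b00) (nat_lit 41)))
 (.p (nat_lit 0x1d601d5e1d5c1d5a1d5601231d5907) (nat_lit 0x140411) (nat_lit 7)))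
 (.n (.p (nat_lit 0x1d5d0b8502) (nat_lit 0x342403) (nat_lit 16))
 (.p (nat_lit 0x1110110e110a11081106071306) (nat_lit 0x400001022a) (nat_lit 52))))
 (.n (.n (.p (nat_lit 0x16ed151902) (nat_lit 0x30ab00) (nat_lit 16))
 (.p (nat_lit 0x145e145c14581456145401a5145b07) (nat_lit 0x34091c) (nat_lit 7)))
 (.n (.p (nat_lit 0x1014174302) (nat_lit 0x200706) (nat_lit 5))
 (.p (nat_lit 0x26f3048902) (nat_lit 0x200040000100) (nat_lit 38))))))

def c128_37 : Tr := .n c256_37 c256_165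

def c256_101 : Tr :=
 .n (.n (.n (.n (.n (.n (.p (nat_lit 0x14a01480146015104) (nat_lit 0x7000400015) (nat_lit 17))
 (.p (nat_lit 0x26d527cb02) (nat_lit 0xe0020000300) (nat_lit 37)))
 (.p (nat_lit 0xa2147d02) (nat_lit 0x240906) (nat_lit 1)))
 (.n (.p (nat_lit 0xaaf0a9d02) (nat_lit 0x514401) (nat_lit 16))
 (.p (nat_lit 0x1a420ad02) (nat_lit 0x300721) (nat_lit 1))))
 (.n (.n (.n (.p (nat_lit 0xdc20dc00dbe0dbc0d690d6706) (nat_lit 0x1800012600) (nat_lit 52))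
 (.p (nat_lit 0x578286b02) (nat_lit 0x281d30342800100040000) (nat_lit 50)))
 (.p (nat_lit 0x4320430042a0428015e014b0149042f042d09) (nat_lit 0x1a40015) (nat_lit 10)))
 (.n (.p (nat_lit 0xbb80bb40bb20bb00bae170706) (nat_lit 0x800000ab03) (nat_lit 51))
 (.p (nat_lit 0x255246502) (nat_lit 0xb2a) (nat_lit 30)))))
 (.n (.n (.n (.n (.p (nat_lit 0x7b905e902) (nat_lit 0x40200) (nat_lit 16))
 (.p (nat_lit 0x26f3120902) (nat_lit 0x200040000800) (nat_lit 39)))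
 (.p (nat_lit 0x780077c077a0778077608eb06) (nat_lit 0x800008a30e) (nat_lit 52)))
 (.n (.p (nat_lit 0x16300fab02) (nat_lit 0x340a02) (nat_lit 5))
 (.p (nat_lit 0x1940240502) (nat_lit 0xa24) (nat_lit 29))))
 (.n (.n (.p (nat_lit 0x13a111ad02) (nat_lit 0x50e900) (nat_lit 16))
 (.p (nat_lit 0x1ef61e3f02) (nat_lit 0x540519) (nat_lit 5)))
 (.n (.p (nat_lit 0xa3205502) (nat_lit 0x240505) (nat_lit 30))
 (.p (nat_lit 0x1cb25e102) (nat_lit 0x51e) (nat_lit 28))))))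
 (.n (.n (.n (.n (.n (.p (nat_lit 0x4be04bc04ba04b804b604b406) (nat_lit 0x8100) (nat_lit 52))
 (.p (nat_lit 0x269d0d4f02) (nat_lit 0x160000000600) (nat_lit 38)))
 (.p (nat_lit 0x25e0b5902) (nat_lit 0x540407) (nat_lit 1)))
 (.n (.p (nat_lit 0x45e0f5502) (nat_lit 0x540002) (nat_lit 5))
 (.p (nat_lit 0x93c093a09380934093207c906) (nat_lit 0x20000c0223) (nat_lit 52))))
 (.n (.n (.n (.p (nat_lit 0x10aa10a810a210a00ee90ee706) (nat_lit 0x60000d6700) (nat_lit 52))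
 (.p (nat_lit 0xf3e28a902) (nat_lit 0x350521a84000100000600) (nat_lit 49)))
 (.p (nat_lit 0x10ce22d302) (nat_lit 0x340715) (nat_lit 29)))
 (.n (.p (nat_lit 0xf280f240f220f200f1e00850f2707) (nat_lit 0x440604) (nat_lit 7))
 (.p (nat_lit 0x70006e006800660005004506) (nat_lit 0x1316603) (nat_lit 26)))))
 (.n (.n (.n (.n (.p (nat_lit 0xa8f08d302) (nat_lit 0x404400) (nat_lit 16))
 (.p (nat_lit 0x2765283502) (nat_lit 0xe0080000a00) (nat_lit 36)))
 (.p (nat_lit 0xea40ea20e9e0e9c0e9a189b06) (nat_lit 0x400001040f) (nat_lit 51)))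
 (.n (.p (nat_lit 0x7fa123b02) (nat_lit 0x540203) (nat_lit 4))
 (.p (nat_lit 0xd8061102) (nat_lit 0x24012a) (nat_lit 1))))
 (.n (.n (.p (nat_lit 0x1633144502) (nat_lit 0x44ea00) (nat_lit 16))
 (.p (nat_lit 0x1d930c5d02) (nat_lit 0x41051c) (nat_lit 16)))
 (.n (.p (nat_lit 0xa3210d02) (nat_lit 0x240805) (nat_lit 30))
 (.p (nat_lit 0x26b702b102) (nat_lit 0x2c0020000000) (nat_lit 40))))))

def c256_229 : Tr :=
 .n (.n (.n (.n (.n (.n (.p (nat_lit 0x30002fc02fa02f802c302bb06) (nat_lit 0x8800008000) (nat_lit 51))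
 (.p (nat_lit 0x26c927d902) (nat_lit 0x1a0020000400) (nat_lit 37)))
 (.p (nat_lit 0xaba0ab80ab40ab20ab008dd06) (nat_lit 0x4000088307) (nat_lit 52)))
 (.n (.p (nat_lit 0x1032102e102c102a1028139306) (nat_lit 0x800008e901) (nat_lit 51))
 (.p (nat_lit 0xbb80bb40bb20bb00bae052d06) (nat_lit 0x800000a123) (nat_lit 51))))
 (.n (.n (.n (.p (nat_lit 0xdda0f4502) (nat_lit 0x100700) (nat_lit 5))
 (.p (nat_lit 0x1580288502) (nat_lit 0x344580a64000400040600) (nat_lit 50)))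
 (.p (nat_lit 0x9220920091e091c091a0c5306) (nat_lit 0x10000086515) (nat_lit 51)))
 (.n (.p (nat_lit 0x80013e302) (nat_lit 0x240204) (nat_lit 4))
 (.p (nat_lit 0x1f651e4d02) (nat_lit 0x11622e) (nat_lit 16)))))
 (.n (.n (.n (.n (.p (nat_lit 0x7b4091702) (nat_lit 0x440300) (nat_lit 4))
 (.p (nat_lit 0x281e163b02) (nat_lit 0x4004e900) (nat_lit 48)))
 (.p (nat_lit 0x13b813b613b213b013ae0b6106) (nat_lit 0x40000d240e) (nat_lit 52)))
 (.n (.p (nat_lit 0x17ca10a902) (nat_lit 0x440b02) (nat_lit 4))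
 (.p (nat_lit 0x1f5e202d02) (nat_lit 0x440128) (nat_lit 4))))
 (.n (.n (.p (nat_lit 0x1504150214fe14fc14fa135906) (nat_lit 0x4000010a00) (nat_lit 51))
 (.p (nat_lit 0x2ac02aa02a802a602a4043506) (nat_lit 0x80004001c) (nat_lit 52)))
 (.n (.p (nat_lit 0x10f414f302) (nat_lit 0x240705) (nat_lit 5))
 (.p (nat_lit 0x25e025c02560254000700d906) (nat_lit 0x1a0412a) (nat_lit 26))))))
 (.n (.n (.n (.n (.n (.p (nat_lit 0x148051102) (nat_lit 0x200200) (nat_lit 1))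
 (.p (nat_lit 0x26ed0f3b02) (nat_lit 0x260040000700) (nat_lit 38)))
 (.p (nat_lit 0x1dff178702) (nat_lit 0x150b07) (nat_lit 16)))
 (.n (.p (nat_lit 0x1150114e114c114a1148139706) (nat_lit 0x80000a902) (nat_lit 52))
 (.p (nat_lit 0x16da0a5102) (nat_lit 0xb23) (nat_lit 4))))
 (.n (.n (.n (.p (nat_lit 0x1217120b02) (nat_lit 0x340800) (nat_lit 34))
 (.p (nat_lit 0xc8828c302) (nat_lit 0x3508a9d84000500040000) (nat_lit 50)))
 (.p (nat_lit 0x1aa819dd02) (nat_lit 0x200517) (nat_lit 5)))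
 (.n (.p (nat_lit 0xe3b171302) (nat_lit 0x400b04) (nat_lit 15))
 (.p (nat_lit 0x10e010c010601040143000506) (nat_lit 0x1a1640e) (nat_lit 26)))))
 (.n (.n (.n (.n (.p (nat_lit 0xbd60bd40bd20bd00a6d0a6b06) (nat_lit 0x18000004500) (nat_lit 52))
 (.p (nat_lit 0x578284902) (nat_lit 0x4a1a36344000100040000) (nat_lit 50)))
 (.p (nat_lit 0x1dee1c4902) (nat_lit 0x500b11) (nat_lit 4)))
 (.n (.p (nat_lit 0x6d1dbb02) (nat_lit 0x340603) (nat_lit 30))
 (.p (nat_lit 0x12e612e412e212de12dc07d506) (nat_lit 0x200005222a) (nat_lit 51))))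
 (.n (.n (.p (nat_lit 0x176a17661764176015f715f106) (nat_lit 0x90000d0b00) (nat_lit 52))
 (.p (nat_lit 0x16d808bf02) (nat_lit 0x500b1c) (nat_lit 4)))
 (.n (.p (nat_lit 0x38a038803860384038211f906) (nat_lit 0x800080806) (nat_lit 51))
 (.p (nat_lit 0x277b049b02) (nat_lit 0x2800a0000100) (nat_lit 40))))))

def c128_101 : Tr := .n c256_101 c256_229

def c64_37 : Tr := .n c128_37 c128_101

def c32_5 : Tr := .n c64_5 c64_37

def c256_21 : Tr :=
 .n (.n (.n (.n (.n (.n (.p (nat_lit 0x4800440040004b04) (nat_lit 0x15000400002) (nat_lit 17))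
 (.p (nat_lit 0x26d5066302) (nat_lit 0xe0020000200) (nat_lit 40)))
 (.p (nat_lit 0x12ce176b02) (nat_lit 0x540806) (nat_lit 4)))
 (.n (.p (nat_lit 0x17e315f702) (nat_lit 0x452b00) (nat_lit 16))
 (.p (nat_lit 0x1af61a2702) (nat_lit 0x200a1e) (nat_lit 4))))
 (.n (.n (.n (.p (nat_lit 0x25a0b4902) (nat_lit 0x340500) (nat_lit 1))
 (.p (nat_lit 0x110e285702) (nat_lit 0x4a8876344000200000600) (nat_lit 49)))
 (.p (nat_lit 0x20f81f5102) (nat_lit 0x200813) (nat_lit 5)))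
 (.n (.p (nat_lit 0x1638126b02) (nat_lit 0x140a03) (nat_lit 5))
 (.p (nat_lit 0x9b60bfb02) (nat_lit 0x34032a) (nat_lit 5)))))
 (.n (.n (.n (.n (.p (nat_lit 0x6c406c206be06bc06ba051306) (nat_lit 0x4000010200) (nat_lit 52))
 (.p (nat_lit 0x278d280b02) (nat_lit 0x1600a0000700) (nat_lit 36)))
 (.p (nat_lit 0x1266126412621260125e1cdd06) (nat_lit 0x80005430a) (nat_lit 51)))
 (.n (.p (nat_lit 0x155e0f9d02) (nat_lit 0x200a02) (nat_lit 4))
 (.p (nat_lit 0x180618a502) (nat_lit 0x124) (nat_lit 5))))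
 (.n (.n (.p (nat_lit 0x12b110b102) (nat_lit 0x24c800) (nat_lit 16))
 (.p (nat_lit 0x1b1819b102) (nat_lit 0x140a17) (nat_lit 4)))
 (.n (.p (nat_lit 0x1f541f521f501f4e1f4c064706) (nat_lit 0x4000050105) (nat_lit 51))
 (.p (nat_lit 0x16c258502) (nat_lit 0x300715) (nat_lit 27))))))
 (.n (.n (.n (.n (.n (.p (nat_lit 0x3c003be03bc03ba03b803b606) (nat_lit 0xc6000) (nat_lit 52))
 (.p (nat_lit 0x27e4192302) (nat_lit 0x4c500) (nat_lit 47)))
 (.p (nat_lit 0x9a002f302) (nat_lit 0x440307) (nat_lit 5)))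
 (.n (.p (nat_lit 0xbb80bb40bb20bb00bae146906) (nat_lit 0x800004a901) (nat_lit 51))
 (.p (nat_lit 0x37e037c037a03780376060106) (nat_lit 0x8000c0123) (nat_lit 52))))
 (.n (.n (.n (.p (nat_lit 0xfe30de102) (nat_lit 0x402700) (nat_lit 16))
 (.p (nat_lit 0x910289302) (nat_lit 0x354221ca4000300040000) (nat_lit 49)))
 (.p (nat_lit 0x2b802b602b402b202ae0d0d06) (nat_lit 0x1000040515) (nat_lit 51)))
 (.n (.p (nat_lit 0xb9f0b9302) (nat_lit 0x456404) (nat_lit 16))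
 (.p (nat_lit 0x20e6208902) (nat_lit 0x54072f) (nat_lit 5)))))
 (.n (.n (.n (.n (.p (nat_lit 0x9c307b702) (nat_lit 0x550300) (nat_lit 16))
 (.p (nat_lit 0x26b3157302) (nat_lit 0xa00) (nat_lit 39)))
 (.p (nat_lit 0xd0805c502) (nat_lit 0x54050e) (nat_lit 4)))
 (.n (.p (nat_lit 0x671bb502) (nat_lit 0x103) (nat_lit 30))
 (.p (nat_lit 0x21ca21a902) (nat_lit 0x400729) (nat_lit 4))))
 (.n (.n (.p (nat_lit 0x157f157302) (nat_lit 0x40a00) (nat_lit 34))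
 (.p (nat_lit 0x51c084902) (nat_lit 0x20011c) (nat_lit 5)))
 (.n (.p (nat_lit 0x12e612e412e212de12dc10f506) (nat_lit 0x2000052705) (nat_lit 51))
 (.p (nat_lit 0x26b1038102) (nat_lit 0x20000000000) (nat_lit 41))))))

def c256_149 : Tr :=
 .n (.n (.n (.n (.n (.n (.p (nat_lit 0x20001fe020503) (nat_lit 0x18000500023) (nat_lit 17))
 (.p (nat_lit 0x272927d302) (nat_lit 0x1a0060000300) (nat_lit 37)))
 (.p (nat_lit 0x4a604a204a0049e049c06fd06) (nat_lit 0x8000006207) (nat_lit 52)))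
 (.n (.p (nat_lit 0x120111e902) (nat_lit 0x414801) (nat_lit 16))
 (.p (nat_lit 0x1f7235102) (nat_lit 0x23) (nat_lit 30))))
 (.n (.n (.n (.p (nat_lit 0x280e6702) (nat_lit 0x240600) (nat_lit 1))
 (.p (nat_lit 0xd5c287702) (nat_lit 0x568872b44000000000600) (nat_lit 50)))
 (.p (nat_lit 0xc4f0a8d02) (nat_lit 0x300415) (nat_lit 15)))
 (.n (.p (nat_lit 0x38a038803860384038217cf06) (nat_lit 0x8000c0b03) (nat_lit 51))
 (.p (nat_lit 0x1a161ab902) (nat_lit 0x4022c) (nat_lit 4)))))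
 (.n (.n (.n (.n (.p (nat_lit 0x6f0081d02) (nat_lit 0x400300) (nat_lit 4))
 (.p (nat_lit 0x2765121902) (nat_lit 0xe0080000800) (nat_lit 41)))
 (.p (nat_lit 0x2ac02aa02a802a402a20a7f06) (nat_lit 0x200000040e) (nat_lit 52)))
 (.n (.p (nat_lit 0x120e120c120a12061204162f06) (nat_lit 0x20000d0a02) (nat_lit 52))
 (.p (nat_lit 0x1b261a7d02) (nat_lit 0x240a25) (nat_lit 5))))
 (.n (.n (.p (nat_lit 0x14081406140414021400129706) (nat_lit 0x100000cc900) (nat_lit 52))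
 (.p (nat_lit 0x362083302) (nat_lit 0x30001c) (nat_lit 4)))
 (.n (.p (nat_lit 0xf340f320f300f2c0f2a00a30f2f07) (nat_lit 0x240605) (nat_lit 7))
 (.p (nat_lit 0x2610260e260c260a26080001020207) (nat_lit 0x223) (nat_lit 25))))))
 (.n (.n (.n (.n (.n (.p (nat_lit 0x565034f02) (nat_lit 0x514100) (nat_lit 16))
 (.p (nat_lit 0x270d27f902) (nat_lit 0x60040000600) (nat_lit 37)))
 (.p (nat_lit 0x10be03f302) (nat_lit 0x540707) (nat_lit 5)))
 (.n (.p (nat_lit 0x4319c702) (nat_lit 0x240202) (nat_lit 30))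
 (.p (nat_lit 0xff20b1502) (nat_lit 0x300723) (nat_lit 4))))
 (.n (.n (.n (.p (nat_lit 0x1119110d02) (nat_lit 0x300800) (nat_lit 34))
 (.p (nat_lit 0xd5c28b302) (nat_lit 0x352868d84000000000600) (nat_lit 50)))
 (.p (nat_lit 0x144a22f302) (nat_lit 0x140915) (nat_lit 29)))
 (.n (.p (nat_lit 0xffc132702) (nat_lit 0x200704) (nat_lit 5))
 (.p (nat_lit 0xa800a400a2009e0003029d06) (nat_lit 0xc0e505) (nat_lit 26)))))
 (.n (.n (.n (.n (.p (nat_lit 0xb0e0b0c0b0a0b080b06098d06) (nat_lit 0x8000c4400) (nat_lit 52))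
 (.p (nat_lit 0x273f172902) (nat_lit 0x40060000b00) (nat_lit 41)))
 (.p (nat_lit 0x6e1d1f02) (nat_lit 0x400411) (nat_lit 1)))
 (.n (.p (nat_lit 0xb84114302) (nat_lit 0x340403) (nat_lit 4))
 (.p (nat_lit 0x918091609140912090e070f06) (nat_lit 0x100008622a) (nat_lit 52))))
 (.n (.n (.p (nat_lit 0x16b5151902) (nat_lit 0x300b00) (nat_lit 16))
 (.p (nat_lit 0x11d6088b02) (nat_lit 0x40081c) (nat_lit 5)))
 (.n (.p (nat_lit 0x24e0aad02) (nat_lit 0x400406) (nat_lit 1))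
 (.p (nat_lit 0x26d1056902) (nat_lit 0x120020000100) (nat_lit 39))))))

def c128_21 : Tr := .n c256_21 c256_149

def c256_85 : Tr :=
 .n (.n (.n (.n (.n (.n (.p (nat_lit 0xf200ee00ec00f904) (nat_lit 0x580040000a) (nat_lit 17))
 (.p (nat_lit 0x27c6065d02) (nat_lit 0x80000200) (nat_lit 45)))
 (.p (nat_lit 0x13ac13aa13a813a400ca00bf00bb13a713a309) (nat_lit 0x1000906) (nat_lit 10)))
 (.n (.p (nat_lit 0xa940e9302) (nat_lit 0x100401) (nat_lit 4))
 (.p (nat_lit 0x1e1234b02) (nat_lit 0x340021) (nat_lit 30))))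
 (.n (.n (.n (.p (nat_lit 0x2e0d7102) (nat_lit 0x500600) (nat_lit 1))
 (.p (nat_lit 0xe4a286702) (nat_lit 0x1a2274b50000000040600) (nat_lit 49)))
 (.p (nat_lit 0x428067702) (nat_lit 0x40015) (nat_lit 5)))
 (.n (.p (nat_lit 0x65e065c065a0658065616ff06) (nat_lit 0x800004b03) (nat_lit 52))
 (.p (nat_lit 0x29c161b02) (nat_lit 0x440a2a) (nat_lit 1)))))
 (.n (.n (.n (.n (.p (nat_lit 0x7740770076e076c076a05f106) (nat_lit 0x800004a200) (nat_lit 51))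
 (.p (nat_lit 0x26c3120702) (nat_lit 0x200020000800) (nat_lit 39)))
 (.p (nat_lit 0x8ea04a502) (nat_lit 0x40030e) (nat_lit 4)))
 (.n (.p (nat_lit 0x1569155d02) (nat_lit 0x112a02) (nat_lit 16))
 (.p (nat_lit 0x190e18bd02) (nat_lit 0x100924) (nat_lit 4))))
 (.n (.n (.p (nat_lit 0x136b11a702) (nat_lit 0x206900) (nat_lit 16))
 (.p (nat_lit 0x131613141312130e130c1edd06) (nat_lit 0x200000c519) (nat_lit 52)))
 (.n (.p (nat_lit 0xb9c15ad02) (nat_lit 0x340405) (nat_lit 4))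
 (.p (nat_lit 0x25c825c625c425c225c0000901aa07) (nat_lit 0x40251c) (nat_lit 25))))))
 (.n (.n (.n (.n (.n (.p (nat_lit 0x34e034c0348034603440007034b07) (nat_lit 0x300100) (nat_lit 7))
 (.p (nat_lit 0x26b327f302) (nat_lit 0x600) (nat_lit 37)))
 (.p (nat_lit 0xa7d0a7102) (nat_lit 0x104407) (nat_lit 16)))
 (.n (.p (nat_lit 0x174817441742173e1627162106) (nat_lit 0x900004ea01) (nat_lit 51))
 (.p (nat_lit 0x1f9237702) (nat_lit 0x140223) (nat_lit 30))))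
 (.n (.n (.n (.p (nat_lit 0x10861080107e107c0eeb0ee906) (nat_lit 0xc000054700) (nat_lit 51))
 (.p (nat_lit 0x37428a302) (nat_lit 0x350521a84000000040000) (nat_lit 49)))
 (.p (nat_lit 0x14b22c702) (nat_lit 0x300715) (nat_lit 30)))
 (.n (.p (nat_lit 0x1f0b0e3b02) (nat_lit 0x404604) (nat_lit 16))
 (.p (nat_lit 0x24d024ce24cc24ca24c80105007207) (nat_lit 0x16103) (nat_lit 25)))))
 (.n (.n (.n (.n (.p (nat_lit 0xa6d08d502) (nat_lit 0x500400) (nat_lit 15))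
 (.p (nat_lit 0x282e1f6702) (nat_lit 0x4000aa00) (nat_lit 48)))
 (.p (nat_lit 0x16c0050702) (nat_lit 0x300b0e) (nat_lit 5)))
 (.n (.p (nat_lit 0x63d063102) (nat_lit 0x54103) (nat_lit 16))
 (.p (nat_lit 0x3c003bc03ba03b803b6053906) (nat_lit 0x800008612a) (nat_lit 52))))
 (.n (.n (.p (nat_lit 0x15f3144102) (nat_lit 0x240a00) (nat_lit 15))
 (.p (nat_lit 0xc5c086502) (nat_lit 0x40051c) (nat_lit 4)))
 (.n (.p (nat_lit 0x120311f702) (nat_lit 0x50c805) (nat_lit 16))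
 (.p (nat_lit 0x26cf27a702) (nat_lit 0x140020000000) (nat_lit 36))))))

def c256_213 : Tr :=
 .n (.n (.n (.n (.n (.n (.p (nat_lit 0x2dc02da02d802d402d202bf06) (nat_lit 0x2000084000) (nat_lit 52))
 (.p (nat_lit 0x27d60c5502) (nat_lit 0x4400) (nat_lit 47)))
 (.p (nat_lit 0x8dc03b102) (nat_lit 0x300307) (nat_lit 5)))
 (.n (.p (nat_lit 0x57c057a057805740572138f06) (nat_lit 0x2000082901) (nat_lit 51))
 (.p (nat_lit 0x52c0ae902) (nat_lit 0x400123) (nat_lit 5))))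
 (.n (.n (.n (.p (nat_lit 0xf090e6502) (nat_lit 0x14a600) (nat_lit 16))
 (.p (nat_lit 0x1112288302) (nat_lit 0x342221ca4000200000600) (nat_lit 50)))
 (.p (nat_lit 0xc5222b302) (nat_lit 0x500515) (nat_lit 29)))
 (.n (.p (nat_lit 0x71e13d702) (nat_lit 0x204) (nat_lit 4))
 (.p (nat_lit 0x28d247d02) (nat_lit 0x62d) (nat_lit 30)))))
 (.n (.n (.n (.n (.p (nat_lit 0x90d06f302) (nat_lit 0x514300) (nat_lit 16))
 (.p (nat_lit 0x26ff12e102) (nat_lit 0x140040000900) (nat_lit 40)))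
 (.p (nat_lit 0x65e065c0658065606540b6106) (nat_lit 0x400004440e) (nat_lit 52)))
 (.n (.p (nat_lit 0x17c21b3b02) (nat_lit 0x40b02) (nat_lit 29))
 (.p (nat_lit 0x1322131e131c131a13181e2706) (nat_lit 0x800008c127) (nat_lit 51))))
 (.n (.n (.p (nat_lit 0x14d414d214d014ca1357135506) (nat_lit 0x300000ca00) (nat_lit 52))
 (.p (nat_lit 0x43e043c043a0436043401a3043907) (nat_lit 0x24001c) (nat_lit 7)))
 (.n (.p (nat_lit 0x12da12d812d412d212d0100b06) (nat_lit 0x4000012705) (nat_lit 52))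
 (.p (nat_lit 0x24f264d02) (nat_lit 0x400729) (nat_lit 28))))))
 (.n (.n (.n (.n (.n (.p (nat_lit 0x63f042102) (nat_lit 0x252100) (nat_lit 16))
 (.p (nat_lit 0x270f280302) (nat_lit 0x40040000700) (nat_lit 37)))
 (.p (nat_lit 0x178c034102) (nat_lit 0x440b07) (nat_lit 5)))
 (.n (.p (nat_lit 0x1ace1acc1aca1ac81ac61ac406) (nat_lit 0x54502) (nat_lit 52))
 (.p (nat_lit 0x1fb23c102) (nat_lit 0x200a23) (nat_lit 30))))
 (.n (.n (.n (.p (nat_lit 0x6610ad02) (nat_lit 0x40800) (nat_lit 1))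
 (.p (nat_lit 0x82428c102) (nat_lit 0x332a05d81000300000000) (nat_lit 50)))
 (.p (nat_lit 0x696069406920690068c190506) (nat_lit 0x1000088916) (nat_lit 52)))
 (.n (.p (nat_lit 0x851f1f02) (nat_lit 0x400b04) (nat_lit 30))
 (.p (nat_lit 0xf5254902) (nat_lit 0x400b0a) (nat_lit 28)))))
 (.n (.n (.n (.n (.p (nat_lit 0xa6c0a6a0a660a620018000700030a690a6509) (nat_lit 0x1900500) (nat_lit 10))
 (.p (nat_lit 0x1656284502) (nat_lit 0x4a1a22344000500000600) (nat_lit 50)))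
 (.p (nat_lit 0x1b6c1b6a1b681b661da11d9706) (nat_lit 0x10800056511) (nat_lit 51)))
 (.n (.p (nat_lit 0xe3b0e2f02) (nat_lit 0x414603) (nat_lit 16))
 (.p (nat_lit 0x92409220920091e091c07d106) (nat_lit 0x8000c622a) (nat_lit 51))))
 (.n (.n (.p (nat_lit 0x1748174617441742173e15f106) (nat_lit 0x100004eb00) (nat_lit 51))
 (.p (nat_lit 0x160e098102) (nat_lit 0x440a1c) (nat_lit 5)))
 (.n (.p (nat_lit 0x11fa175702) (nat_lit 0x100806) (nat_lit 5))
 (.p (nat_lit 0x275127b702) (nat_lit 0x220080000100) (nat_lit 36))))))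

def c128_85 : Tr := .n c256_85 c256_213

def c64_21 : Tr := .n c128_21 c128_85

def c256_53 : Tr :=
 .n (.n (.n (.n (.n (.n (.p (nat_lit 0x82007c008b03) (nat_lit 0x4800500004) (nat_lit 17))
 (.p (nat_lit 0x27be05f902) (nat_lit 0x40048200) (nat_lit 47)))
 (.p (nat_lit 0x121a12141212121012cd12cb06) (nat_lit 0xc0000d0806) (nat_lit 51)))
 (.n (.p (nat_lit 0x25181302) (nat_lit 0x40101) (nat_lit 30))
 (.p (nat_lit 0x1e1e1ea102) (nat_lit 0x500020) (nat_lit 5))))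
 (.n (.n (.n (.p (nat_lit 0x3970b4d02) (nat_lit 0x540500) (nat_lit 15))
 (.p (nat_lit 0x1210285d02) (nat_lit 0x1a2260b50000200040600) (nat_lit 50)))
 (.p (nat_lit 0x350073b02) (nat_lit 0x15) (nat_lit 4)))
 (.n (.p (nat_lit 0x17d9164102) (nat_lit 0x540a03) (nat_lit 15))
 (.p (nat_lit 0x13800cdd02) (nat_lit 0x10092a) (nat_lit 4)))))
 (.n (.n (.n (.n (.p (nat_lit 0x5ea072702) (nat_lit 0x140200) (nat_lit 4))
 (.p (nat_lit 0x268b120502) (nat_lit 0x280000000800) (nat_lit 39)))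
 (.p (nat_lit 0x2160211b02) (nat_lit 0x54020d) (nat_lit 4)))
 (.n (.p (nat_lit 0xbac0baa0ba80ba60ba2155d06) (nat_lit 0x100000aa02) (nat_lit 52))
 (.p (nat_lit 0x23ea23e823e623e423e223e0021607) (nat_lit 0x40224) (nat_lit 8))))
 (.n (.n (.p (nat_lit 0x11ac12e702) (nat_lit 0x500900) (nat_lit 5))
 (.p (nat_lit 0x1d641c7102) (nat_lit 0x140418) (nat_lit 4)))
 (.n (.p (nat_lit 0x90c1fa102) (nat_lit 0x500305) (nat_lit 29))
 (.p (nat_lit 0x182017e017c0178018901d906) (nat_lit 0xc14418) (nat_lit 26))))))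
 (.n (.n (.n (.n (.n (.p (nat_lit 0x455039702) (nat_lit 0x54c000) (nat_lit 16))
 (.p (nat_lit 0x273527ed02) (nat_lit 0xe0060000500) (nat_lit 36)))
 (.p (nat_lit 0x1ce1099d02) (nat_lit 0x250307) (nat_lit 16)))
 (.n (.p (nat_lit 0x167416721670166e166a155106) (nat_lit 0x100000ea01) (nat_lit 52))
 (.p (nat_lit 0x1c5d060702) (nat_lit 0x350123) (nat_lit 16))))
 (.n (.n (.n (.p (nat_lit 0xee6102d02) (nat_lit 0x240700) (nat_lit 5))
 (.p (nat_lit 0x382289d02) (nat_lit 0x356068ca4000000040000) (nat_lit 50)))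
 (.p (nat_lit 0x157c15781576157415720d1306) (nat_lit 0x80000d4515) (nat_lit 52)))
 (.n (.p (nat_lit 0x48e048a048604840e3b0e3706) (nat_lit 0xa000002604) (nat_lit 52))
 (.p (nat_lit 0x7024af02) (nat_lit 0x500902) (nat_lit 27)))))
 (.n (.n (.n (.n (.p (nat_lit 0x9ee09ec09e809e609e408d106) (nat_lit 0x4000000400) (nat_lit 52))
 (.p (nat_lit 0x26db282b02) (nat_lit 0x80020000a00) (nat_lit 36)))
 (.p (nat_lit 0x11b805cf02) (nat_lit 0x80e) (nat_lit 5)))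
 (.n (.p (nat_lit 0x122063302) (nat_lit 0x140103) (nat_lit 1))
 (.p (nat_lit 0xaf60af20af00aee0aec221506) (nat_lit 0x80000c2829) (nat_lit 52))))
 (.n (.n (.p (nat_lit 0x15ba15b815b615b415b2144706) (nat_lit 0x1000004ca00) (nat_lit 51))
 (.p (nat_lit 0x5f8085502) (nat_lit 0x24011c) (nat_lit 5)))
 (.n (.p (nat_lit 0x11f2150102) (nat_lit 0x300805) (nat_lit 5))
 (.p (nat_lit 0x269127a502) (nat_lit 0x220000000000) (nat_lit 37))))))

def c256_181 : Tr :=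
 .n (.n (.n (.n (.n (.n (.p (nat_lit 0x2ba02af02) (nat_lit 0x0) (nat_lit 5))
 (.p (nat_lit 0x277f081f02) (nat_lit 0x2400a0000300) (nat_lit 38)))
 (.p (nat_lit 0x5a0059e059c059a059607bb06) (nat_lit 0x1000048207) (nat_lit 51)))
 (.n (.p (nat_lit 0xfba0fb80fb60fb012b112af06) (nat_lit 0x3000056801) (nat_lit 51))
 (.p (nat_lit 0x4440ad902) (nat_lit 0x240023) (nat_lit 5))))
 (.n (.n (.n (.p (nat_lit 0xeb00eac0eaa0ea80e6b0e6306) (nat_lit 0x88000d0600) (nat_lit 51))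
 (.p (nat_lit 0x9dc287b02) (nat_lit 0x5898b0b44000400000000) (nat_lit 50)))
 (.p (nat_lit 0x840083e083c083a08380b7106) (nat_lit 0x100000c0415) (nat_lit 51)))
 (.n (.p (nat_lit 0x148e148c14881486148417d506) (nat_lit 0x4000054b03) (nat_lit 52))
 (.p (nat_lit 0xbe60be40be20be00bdc1b0106) (nat_lit 0x1000084a2c) (nat_lit 51)))))
 (.n (.n (.n (.n (.p (nat_lit 0x872086e086c086a086806f106) (nat_lit 0x800008a300) (nat_lit 52))
 (.p (nat_lit 0x281811ed02) (nat_lit 0x16900) (nat_lit 48)))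
 (.p (nat_lit 0xc3f0a7d02) (nat_lit 0x10040e) (nat_lit 15)))
 (.n (.p (nat_lit 0x16f8109b02) (nat_lit 0x300b02) (nat_lit 4))
 (.p (nat_lit 0x6e1c5f02) (nat_lit 0x440126) (nat_lit 1))))
 (.n (.n (.p (nat_lit 0x146b129702) (nat_lit 0x54c900) (nat_lit 16))
 (.p (nat_lit 0x120c1208120612040367036306) (nat_lit 0x1400009001c) (nat_lit 52)))
 (.n (.p (nat_lit 0x100e14ed02) (nat_lit 0x500705) (nat_lit 4))
 (.p (nat_lit 0x210020e020c020a024f002f06) (nat_lit 0x2514124) (nat_lit 26))))))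
 (.n (.n (.n (.n (.n (.p (nat_lit 0x5aa05a805a405a20427042106) (nat_lit 0x120000c8100) (nat_lit 52))
 (.p (nat_lit 0x268d101d02) (nat_lit 0x260000000700) (nat_lit 39)))
 (.p (nat_lit 0x16ae033102) (nat_lit 0xb07) (nat_lit 5)))
 (.n (.p (nat_lit 0xb780f7302) (nat_lit 0x340402) (nat_lit 4))
 (.p (nat_lit 0x20123af02) (nat_lit 0x540823) (nat_lit 30))))
 (.n (.n (.n (.p (nat_lit 0x11a30fc902) (nat_lit 0x800) (nat_lit 15))
 (.p (nat_lit 0xac428bb02) (nat_lit 0x352868d84000400040000) (nat_lit 50)))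
 (.p (nat_lit 0x152815261524151e0158014901471523152109) (nat_lit 0x1100a15) (nat_lit 10)))
 (.n (.p (nat_lit 0x10ec10ea10e810e600920087007d10ef10e509) (nat_lit 0x2840704) (nat_lit 10))
 (.p (nat_lit 0xc400c200bc00ba00a3000706) (nat_lit 0x1312806) (nat_lit 26)))))
 (.n (.n (.n (.n (.p (nat_lit 0xb93099502) (nat_lit 0x452400) (nat_lit 16))
 (.p (nat_lit 0x662283d02) (nat_lit 0x260d84344000200000000) (nat_lit 50)))
 (.p (nat_lit 0x127e127c1278127612741d5d06) (nat_lit 0x4000056411) (nat_lit 51)))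
 (.n (.p (nat_lit 0xd3e115702) (nat_lit 0x340503) (nat_lit 4))
 (.p (nat_lit 0x1e4f071102) (nat_lit 0x21222a) (nat_lit 16))))
 (.n (.n (.p (nat_lit 0x15ee172302) (nat_lit 0x40b00) (nat_lit 5))
 (.p (nat_lit 0x1530097502) (nat_lit 0x300a1c) (nat_lit 5)))
 (.n (.p (nat_lit 0xed40ed20ed00ece0eca101306) (nat_lit 0x1000014706) (nat_lit 52))
 (.p (nat_lit 0x273d049702) (nat_lit 0x60060000100) (nat_lit 40))))))

def c128_53 : Tr := .n c256_53 c256_181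

def c256_117 : Tr :=
 .n (.n (.n (.n (.n (.n (.p (nat_lit 0x1590157015203) (nat_lit 0x40800015) (nat_lit 19))
 (.p (nat_lit 0x2705091f02) (nat_lit 0xe0040000300) (nat_lit 41)))
 (.p (nat_lit 0x148216ad02) (nat_lit 0x540906) (nat_lit 5)))
 (.n (.p (nat_lit 0xd2c0d9f02) (nat_lit 0x540501) (nat_lit 5))
 (.p (nat_lit 0x20d21fc502) (nat_lit 0x40721) (nat_lit 5))))
 (.n (.n (.n (.p (nat_lit 0xdfd0d6702) (nat_lit 0x4600) (nat_lit 16))
 (.p (nat_lit 0x826286d02) (nat_lit 0x568bb0344000300000000) (nat_lit 50)))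
 (.p (nat_lit 0x229a22982296229422922290015007) (nat_lit 0x415) (nat_lit 8)))
 (.n (.p (nat_lit 0x1588158415821580157e170706) (nat_lit 0x8000094b03) (nat_lit 51))
 (.p (nat_lit 0x17b80cf502) (nat_lit 0x140b2a) (nat_lit 5)))))
 (.n (.n (.n (.n (.p (nat_lit 0x7eb05ef02) (nat_lit 0x34e200) (nat_lit 16))
 (.p (nat_lit 0x28141ce102) (nat_lit 0x40040800) (nat_lit 48)))
 (.p (nat_lit 0x109226502) (nat_lit 0x24030e) (nat_lit 30)))
 (.n (.p (nat_lit 0x38a0388038603840380162d06) (nat_lit 0x10000c0a02) (nat_lit 51))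
 (.p (nat_lit 0x241a24182416241424122410022407) (nat_lit 0x25) (nat_lit 8))))
 (.n (.n (.p (nat_lit 0x129013b302) (nat_lit 0x240900) (nat_lit 4))
 (.p (nat_lit 0x6a2069e069c069a06981f1306) (nat_lit 0x800004a619) (nat_lit 52)))
 (.n (.p (nat_lit 0xe4415b902) (nat_lit 0x300605) (nat_lit 5))
 (.p (nat_lit 0x1e525f302) (nat_lit 0x500721) (nat_lit 28))))))
 (.n (.n (.n (.n (.n (.p (nat_lit 0x508050605040500034f034706) (nat_lit 0x11000016100) (nat_lit 51))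
 (.p (nat_lit 0x268b0e5702) (nat_lit 0x280000000600) (nat_lit 41)))
 (.p (nat_lit 0xde403db02) (nat_lit 0x607) (nat_lit 5)))
 (.n (.p (nat_lit 0x45197f02) (nat_lit 0x340102) (nat_lit 30))
 (.p (nat_lit 0xe100a2b02) (nat_lit 0x623) (nat_lit 4))))
 (.n (.n (.n (.p (nat_lit 0x10d30eed02) (nat_lit 0x544700) (nat_lit 16))
 (.p (nat_lit 0x12d228ab02) (nat_lit 0x350521a86800300000600) (nat_lit 49)))
 (.p (nat_lit 0x11ca22df02) (nat_lit 0x300815) (nat_lit 29)))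
 (.n (.p (nat_lit 0x82a0828082608200f230f2106) (nat_lit 0x3000046604) (nat_lit 51))
 (.p (nat_lit 0x8600840080007e006d000106) (nat_lit 0x180e604) (nat_lit 26)))))
 (.n (.n (.n (.n (.p (nat_lit 0x9900ac102) (nat_lit 0x240400) (nat_lit 5))
 (.p (nat_lit 0x268f172302) (nat_lit 0x240000000b00) (nat_lit 41)))
 (.p (nat_lit 0x5a0059e059c059a0596191b06) (nat_lit 0x100004890f) (nat_lit 51)))
 (.n (.p (nat_lit 0x1cc61cc41cc21cc01cbe1cbc007207) (nat_lit 0x40303) (nat_lit 8))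
 (.p (nat_lit 0x3b403b003ae03ac03aa061506) (nat_lit 0x800004612a) (nat_lit 51))))
 (.n (.n (.p (nat_lit 0x1518165502) (nat_lit 0x300b00) (nat_lit 5))
 (.p (nat_lit 0xd20096d02) (nat_lit 0x54051c) (nat_lit 5)))
 (.n (.p (nat_lit 0x131613141312130e130c12bd06) (nat_lit 0x200004c805) (nat_lit 52))
 (.p (nat_lit 0x273727a902) (nat_lit 0xc0060000000) (nat_lit 36))))))

def c256_245 : Tr :=
 .n (.n (.n (.n (.n (.n (.p (nat_lit 0x35f02bd02) (nat_lit 0x106000) (nat_lit 16))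
 (.p (nat_lit 0x27370ab702) (nat_lit 0xc0060000400) (nat_lit 39)))
 (.p (nat_lit 0x13b813b413b213b013ae08df06) (nat_lit 0x8000092307) (nat_lit 52)))
 (.n (.p (nat_lit 0x14620ec102) (nat_lit 0x140901) (nat_lit 4))
 (.p (nat_lit 0x535052902) (nat_lit 0x200123) (nat_lit 16))))
 (.n (.n (.n (.p (nat_lit 0xf6a0f680f660f620f600ddd06) (nat_lit 0x2000084700) (nat_lit 52))
 (.p (nat_lit 0xc88288b02) (nat_lit 0x342221ca4000500040000) (nat_lit 50)))
 (.p (nat_lit 0x13c413c213be13bc13ba0c4f06) (nat_lit 0x4000092515) (nat_lit 51)))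
 (.n (.p (nat_lit 0x804080207fe07fc0098008700810807080109) (nat_lit 0x2a40204) (nat_lit 10))
 (.p (nat_lit 0x1f6a206302) (nat_lit 0x40022f) (nat_lit 5)))))
 (.n (.n (.n (.n (.p (nat_lit 0x94809460944093e07b107af06) (nat_lit 0x3000042300) (nat_lit 52))
 (.p (nat_lit 0x272d282302) (nat_lit 0x160060000900) (nat_lit 37)))
 (.p (nat_lit 0xc3e04cf02) (nat_lit 0x10050e) (nat_lit 5)))
 (.n (.p (nat_lit 0xea40ea00e9e0e9a17cb17c506) (nat_lit 0x9000050b02) (nat_lit 51))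
 (.p (nat_lit 0x20b8203702) (nat_lit 0x300728) (nat_lit 4))))
 (.n (.n (.p (nat_lit 0x151d135d02) (nat_lit 0x500a00) (nat_lit 15))
 (.p (nat_lit 0x111c111a111811161114043506) (nat_lit 0x80005001c) (nat_lit 51)))
 (.n (.p (nat_lit 0x2ac02aa02a802a402a210f506) (nat_lit 0x2000040705) (nat_lit 52))
 (.p (nat_lit 0x288028602840282028d004106) (nat_lit 0x11222c) (nat_lit 26))))))
 (.n (.n (.n (.n (.n (.p (nat_lit 0x14e051702) (nat_lit 0x500200) (nat_lit 1))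
 (.p (nat_lit 0x27410f4902) (nat_lit 0x20060000700) (nat_lit 40)))
 (.p (nat_lit 0x1ca61b8902) (nat_lit 0x14020a) (nat_lit 5)))
 (.n (.p (nat_lit 0x146e0f8f02) (nat_lit 0x140902) (nat_lit 4))
 (.p (nat_lit 0x16e223d102) (nat_lit 0x400b23) (nat_lit 29))))
 (.n (.n (.p (nat_lit 0x1250124e124c124a1248124606) (nat_lit 0x4c800) (nat_lit 52))
 (.p (nat_lit 0x1ad619a902) (nat_lit 0x340517) (nat_lit 5)))
 (.n (.p (nat_lit 0x17e2143902) (nat_lit 0x440b04) (nat_lit 5))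
 (.p (nat_lit 0x256825662564256225600171012c07) (nat_lit 0x50c311) (nat_lit 25)))))
 (.n (.n (.n (.n (.p (nat_lit 0xc3a0c380c340c320a690a6506) (nat_lit 0x5000096500) (nat_lit 52))
 (.p (nat_lit 0x148a284d02) (nat_lit 0x4a1a34344000400000600) (nat_lit 49)))
 (.p (nat_lit 0x1e0c1bed02) (nat_lit 0x240b11) (nat_lit 5)))
 (.n (.p (nat_lit 0x1090108e108c108a10880f1d06) (nat_lit 0x100000d4603) (nat_lit 52))
 (.p (nat_lit 0x1f9507db02) (nat_lit 0x55422a) (nat_lit 16))))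
 (.n (.n (.p (nat_lit 0xe6715f302) (nat_lit 0x240b00) (nat_lit 15))
 (.p (nat_lit 0x184a1848184618441842180306) (nat_lit 0x800001211d) (nat_lit 52)))
 (.n (.p (nat_lit 0xbaa0ba80ba40ba2120311fd06) (nat_lit 0x1200000a806) (nat_lit 52))
 (.p (nat_lit 0x2693065502) (nat_lit 0x200000000200) (nat_lit 38))))))

def c128_117 : Tr := .n c256_117 c256_245

def c64_53 : Tr := .n c128_53 c128_117

def c32_21 : Tr := .n c64_21 c64_53

def c16_5 : Tr := .n c32_5 c32_21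

def c256_13 : Tr :=
 .n (.n (.n (.n (.n (.n (.p (nat_lit 0x2e002c0028003104) (nat_lit 0x1a000400001) (nat_lit 17))
 (.p (nat_lit 0x27ba1b1702) (nat_lit 0x4e200) (nat_lit 48)))
 (.p (nat_lit 0x12ce12cc12ca12c812c400bd12c707) (nat_lit 0x140806) (nat_lit 7)))
 (.n (.p (nat_lit 0x17c915f502) (nat_lit 0x34eb00) (nat_lit 16))
 (.p (nat_lit 0x19741a4b02) (nat_lit 0x44001e) (nat_lit 4))))
 (.n (.n (.n (.p (nat_lit 0xc710a6902) (nat_lit 0x310500) (nat_lit 16))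
 (.p (nat_lit 0xab2285102) (nat_lit 0x4a8876344000400040000) (nat_lit 49)))
 (.p (nat_lit 0x20141f4902) (nat_lit 0x400413) (nat_lit 4)))
 (.n (.p (nat_lit 0x1709157102) (nat_lit 0x500a03) (nat_lit 15))
 (.p (nat_lit 0x1fd708f902) (nat_lit 0x51432a) (nat_lit 16)))))
 (.n (.n (.n (.n (.p (nat_lit 0x6a2069e069c06980515050f06) (nat_lit 0x900000a200) (nat_lit 52))
 (.p (nat_lit 0x2765280902) (nat_lit 0xe0080000700) (nat_lit 37)))
 (.p (nat_lit 0x1ce61ce41ce01cde1cdc00f31ce307) (nat_lit 0x34030a) (nat_lit 7)))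
 (.n (.p (nat_lit 0x119e119c119a11981196147706) (nat_lit 0x100000d6902) (nat_lit 51))
 (.p (nat_lit 0x17b20a5f02) (nat_lit 0x440b23) (nat_lit 4))))
 (.n (.n (.p (nat_lit 0x129910af02) (nat_lit 0x142800) (nat_lit 16))
 (.p (nat_lit 0x1aee19fd02) (nat_lit 0x400a17) (nat_lit 5)))
 (.n (.p (nat_lit 0x56405620560055c055a00a3055f07) (nat_lit 0x200105) (nat_lit 7))
 (.p (nat_lit 0x14e014c014a0144000501a106) (nat_lit 0x110a415) (nat_lit 26))))))
 (.n (.n (.n (.n (.n (.p (nat_lit 0x396038b02) (nat_lit 0x540000) (nat_lit 5))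
 (.p (nat_lit 0x268727e502) (nat_lit 0x2c0000000500) (nat_lit 37)))
 (.p (nat_lit 0xd7223f02) (nat_lit 0x140307) (nat_lit 30)))
 (.n (.p (nat_lit 0x65e065c065a06560654146506) (nat_lit 0x2000044901) (nat_lit 52))
 (.p (nat_lit 0x60a060606040602060001ff060907) (nat_lit 0x440123) (nat_lit 7))))
 (.n (.n (.n (.p (nat_lit 0xfc20fc00fbe0fbc0de30de106) (nat_lit 0x18000096700) (nat_lit 51))
 (.p (nat_lit 0x1654288f02) (nat_lit 0x356221ca4000500000600) (nat_lit 50)))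
 (.p (nat_lit 0xd1006ab02) (nat_lit 0x340515) (nat_lit 5)))
 (.n (.p (nat_lit 0xb94130b02) (nat_lit 0x540404) (nat_lit 4))
 (.p (nat_lit 0x20c4207f02) (nat_lit 0x50072f) (nat_lit 5)))))
 (.n (.n (.n (.n (.p (nat_lit 0x9a707af02) (nat_lit 0x142300) (nat_lit 16))
 (.p (nat_lit 0x2789282502) (nat_lit 0x1a00a0000900) (nat_lit 37)))
 (.p (nat_lit 0xd0005bd02) (nat_lit 0x14050e) (nat_lit 4)))
 (.n (.p (nat_lit 0xf4046502) (nat_lit 0x440003) (nat_lit 1))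
 (.p (nat_lit 0x20e21c702) (nat_lit 0x200729) (nat_lit 1))))
 (.n (.n (.p (nat_lit 0x156f135b02) (nat_lit 0x410a00) (nat_lit 16))
 (.p (nat_lit 0x518093f02) (nat_lit 0x11c) (nat_lit 4)))
 (.n (.p (nat_lit 0xc7e0c7c0c7a0c780c7610fb06) (nat_lit 0x100000ca705) (nat_lit 52))
 (.p (nat_lit 0x26e226e026de26dc26da26d826d626d426d226d026ce26cc26ca26c826c626c426c226c026be26bc26ba26b826b626b418) (nat_lit 0x20000000) (nat_lit 35))))))

def c256_141 : Tr :=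
 .n (.n (.n (.n (.n (.n (.p (nat_lit 0x1f201f001ec01f504) (nat_lit 0x1a000400022) (nat_lit 17))
 (.p (nat_lit 0x273127d302) (nat_lit 0x120060000300) (nat_lit 37)))
 (.p (nat_lit 0x6fc02cf02) (nat_lit 0x400207) (nat_lit 4)))
 (.n (.p (nat_lit 0xfa20f9e0f9c0f9a0f9811e906) (nat_lit 0x8000014801) (nat_lit 52))
 (.p (nat_lit 0x21f2216702) (nat_lit 0x300822) (nat_lit 5))))
 (.n (.n (.n (.p (nat_lit 0xe620e5702) (nat_lit 0x40600) (nat_lit 5))
 (.p (nat_lit 0x111a287502) (nat_lit 0x588872b44000200000600) (nat_lit 50)))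
 (.p (nat_lit 0x83608320830082e082c0a8f06) (nat_lit 0x8000000415) (nat_lit 52)))
 (.n (.p (nat_lit 0x17d817d417d217d017ce006f17d707) (nat_lit 0x440b03) (nat_lit 7))
 (.p (nat_lit 0xbd80bd60bd40bd20bd0192d06) (nat_lit 0x1000004492b) (nat_lit 52)))))
 (.n (.n (.n (.n (.p (nat_lit 0x6ec082502) (nat_lit 0x200300) (nat_lit 5))
 (.p (nat_lit 0x276d111b02) (nat_lit 0x60080000800) (nat_lit 40)))
 (.p (nat_lit 0xa8004bb02) (nat_lit 0x30040e) (nat_lit 4)))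
 (.n (.p (nat_lit 0xe5e0e5c0e5a0e580e56163506) (nat_lit 0x100000cca02) (nat_lit 51))
 (.p (nat_lit 0x1a141a101a0e1a0c1a0a02211a1307) (nat_lit 0x440225) (nat_lit 7))))
 (.n (.n (.p (nat_lit 0x13fe13fa13f813f613f4129506) (nat_lit 0x800004c900) (nat_lit 51))
 (.p (nat_lit 0x35c082d02) (nat_lit 0x1c) (nat_lit 4)))
 (.n (.p (nat_lit 0x20a420a220a0209e209c209a00aa07) (nat_lit 0x40605) (nat_lit 8))
 (.p (nat_lit 0x20001fe01fa01f80239000706) (nat_lit 0x314123) (nat_lit 26))))))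
 (.n (.n (.n (.n (.n (.p (nat_lit 0x54b034902) (nat_lit 0x210100) (nat_lit 16))
 (.p (nat_lit 0x26b70d5d02) (nat_lit 0x2c0020000600) (nat_lit 40)))
 (.p (nat_lit 0xfd603e702) (nat_lit 0x300707) (nat_lit 5)))
 (.n (.p (nat_lit 0x7e40f6102) (nat_lit 0x40202) (nat_lit 4))
 (.p (nat_lit 0xf02239502) (nat_lit 0x440623) (nat_lit 29))))
 (.n (.n (.n (.p (nat_lit 0x1115110902) (nat_lit 0x100800) (nat_lit 34))
 (.p (nat_lit 0x111228b102) (nat_lit 0x350521a82800200000600) (nat_lit 50)))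
 (.p (nat_lit 0x136422ef02) (nat_lit 0x500915) (nat_lit 29)))
 (.n (.p (nat_lit 0x1f110f2502) (nat_lit 0x344604) (nat_lit 16))
 (.p (nat_lit 0x1e4250502) (nat_lit 0x500305) (nat_lit 27)))))
 (.n (.n (.n (.n (.p (nat_lit 0xaea0ae80ae60ae00991098f06) (nat_lit 0x3000042400) (nat_lit 51))
 (.p (nat_lit 0x26eb283902) (nat_lit 0x280040000b00) (nat_lit 37)))
 (.p (nat_lit 0x1d161c1302) (nat_lit 0x411) (nat_lit 5)))
 (.n (.p (nat_lit 0xb7e113f02) (nat_lit 0x40403) (nat_lit 4))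
 (.p (nat_lit 0x38a0388038603840382070d06) (nat_lit 0x80008022a) (nat_lit 51))))
 (.n (.n (.p (nat_lit 0x16ac16aa16a416a21519151706) (nat_lit 0x6000092b00) (nat_lit 51))
 (.p (nat_lit 0x11d0088502) (nat_lit 0x81c) (nat_lit 5)))
 (.n (.p (nat_lit 0xaa4166302) (nat_lit 0x406) (nat_lit 5))
 (.p (nat_lit 0x268727ad02) (nat_lit 0x2c0000000100) (nat_lit 37))))))

def c128_13 : Tr := .n c256_13 c256_141

def c256_77 : Tr :=
 .n (.n (.n (.n (.n (.n (.p (nat_lit 0xc000be00c903) (nat_lit 0x6000500006) (nat_lit 17))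
 (.p (nat_lit 0x2757065d02) (nat_lit 0x1c0080000200) (nat_lit 38)))
 (.p (nat_lit 0x13ac13aa13a613a413a200c113a907) (nat_lit 0x300906) (nat_lit 7)))
 (.n (.p (nat_lit 0x7de0e8b02) (nat_lit 0x240201) (nat_lit 5))
 (.p (nat_lit 0x1f3a1ff102) (nat_lit 0x140021) (nat_lit 4))))
 (.n (.n (.n (.p (nat_lit 0xd680d5d02) (nat_lit 0x100600) (nat_lit 5))
 (.p (nat_lit 0x724286502) (nat_lit 0x281d30346800200040000) (nat_lit 49)))
 (.p (nat_lit 0x5a0059c059805960359035506) (nat_lit 0xa000008015) (nat_lit 51)))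
 (.n (.p (nat_lit 0x17081dd702) (nat_lit 0x500b03) (nat_lit 29))
 (.p (nat_lit 0x154c246302) (nat_lit 0x500a2a) (nat_lit 29)))))
 (.n (.n (.n (.n (.p (nat_lit 0x75c075a0758075205ed05eb06) (nat_lit 0x3000048200) (nat_lit 51))
 (.p (nat_lit 0x26c9121302) (nat_lit 0x1a0020000800) (nat_lit 41)))
 (.p (nat_lit 0x8e4225702) (nat_lit 0x10030e) (nat_lit 29)))
 (.n (.p (nat_lit 0x1720171e171a17181716156106) (nat_lit 0x4000096a02) (nat_lit 52))
 (.p (nat_lit 0x20d23fb02) (nat_lit 0x140824) (nat_lit 30))))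
 (.n (.n (.p (nat_lit 0x135511a502) (nat_lit 0x100900) (nat_lit 15))
 (.p (nat_lit 0x1ede1e6902) (nat_lit 0x300519) (nat_lit 5)))
 (.n (.p (nat_lit 0xba109cb02) (nat_lit 0x540305) (nat_lit 15))
 (.p (nat_lit 0x14c25bd02) (nat_lit 0x40011c) (nat_lit 27))))))
 (.n (.n (.n (.n (.n (.p (nat_lit 0x348048902) (nat_lit 0x200100) (nat_lit 4))
 (.p (nat_lit 0x278927f102) (nat_lit 0x1a00a0000500) (nat_lit 37)))
 (.p (nat_lit 0xbe60be20be00bde0bdc0a7706) (nat_lit 0x8000084407) (nat_lit 51)))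
 (.n (.p (nat_lit 0x16240dd302) (nat_lit 0x340a01) (nat_lit 5))
 (.p (nat_lit 0x85a0858085608520850070506) (nat_lit 0x2000082223) (nat_lit 51))))
 (.n (.n (.n (.p (nat_lit 0x107a1078107610700ee70ee506) (nat_lit 0x30000d2700) (nat_lit 51))
 (.p (nat_lit 0x65c28a102) (nat_lit 0x340a621b0000200000000) (nat_lit 49)))
 (.p (nat_lit 0x14522c102) (nat_lit 0x715) (nat_lit 30)))
 (.n (.p (nat_lit 0x12da12d812d412d212d00e3906) (nat_lit 0x4000012604) (nat_lit 52))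
 (.p (nat_lit 0x6724c702) (nat_lit 0x103) (nat_lit 28)))))
 (.n (.n (.n (.n (.p (nat_lit 0xa4e0a4c0a480a460a4408d106) (nat_lit 0x4000014400) (nat_lit 52))
 (.p (nat_lit 0x270b282f02) (nat_lit 0x80040000a00) (nat_lit 36)))
 (.p (nat_lit 0x129a05db02) (nat_lit 0x24080e) (nat_lit 5)))
 (.n (.p (nat_lit 0x1c481c461c441c421c40063106) (nat_lit 0x800056103) (nat_lit 52))
 (.p (nat_lit 0x53a0c9902) (nat_lit 0x50012a) (nat_lit 5))))
 (.n (.n (.p (nat_lit 0x15de15dc15da15d81447143d06) (nat_lit 0x10800050a00) (nat_lit 52))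
 (.p (nat_lit 0xc56085f02) (nat_lit 0x10051c) (nat_lit 4)))
 (.n (.p (nat_lit 0x143a14381434143011f311ef06) (nat_lit 0x5000096805) (nat_lit 51))
 (.p (nat_lit 0x27a41dfd02) (nat_lit 0x50000) (nat_lit 47))))))

def c256_205 : Tr :=
 .n (.n (.n (.n (.n (.n (.p (nat_lit 0x2c202c002be02bc0014000b000102c502bb09) (nat_lit 0x2800000) (nat_lit 10))
 (.p (nat_lit 0x268909cd02) (nat_lit 0x2a0000000400) (nat_lit 38)))
 (.p (nat_lit 0xd5223102) (nat_lit 0x307) (nat_lit 30)))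
 (.n (.p (nat_lit 0x13940dc302) (nat_lit 0x500901) (nat_lit 4))
 (.p (nat_lit 0x52609ff02) (nat_lit 0x100123) (nat_lit 4))))
 (.n (.n (.n (.p (nat_lit 0xeeb0e6b02) (nat_lit 0x440600) (nat_lit 15))
 (.p (nat_lit 0x1492288102) (nat_lit 0x585a12b21000400000600) (nat_lit 50)))
 (.p (nat_lit 0xc4e22af02) (nat_lit 0x300515) (nat_lit 29)))
 (.n (.p (nat_lit 0x55613d302) (nat_lit 0x400104) (nat_lit 4))
 (.p (nat_lit 0x1c7c1d7b02) (nat_lit 0x30022d) (nat_lit 4)))))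
 (.n (.n (.n (.n (.p (nat_lit 0x8e906ef02) (nat_lit 0x302300) (nat_lit 16))
 (.p (nat_lit 0x270b281f02) (nat_lit 0x80040000900) (nat_lit 36)))
 (.p (nat_lit 0x2b802b602b402b202ae0b5d06) (nat_lit 0x100004040e) (nat_lit 51)))
 (.n (.p (nat_lit 0x170116f502) (nat_lit 0x112b02) (nat_lit 16))
 (.p (nat_lit 0x9fa09f809f609f209f01df506) (nat_lit 0x2000080b26) (nat_lit 52))))
 (.n (.n (.p (nat_lit 0x135c135a135613540010000700011359135309) (nat_lit 0x1800a00) (nat_lit 10))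
 (.p (nat_lit 0x434083902) (nat_lit 0x4001c) (nat_lit 5)))
 (.n (.p (nat_lit 0xbb80bb40bb20bb00bae100d06) (nat_lit 0x800000a705) (nat_lit 51))
 (.p (nat_lit 0x250024e024c0246020f00bd06) (nat_lit 0x110e129) (nat_lit 26))))))
 (.n (.n (.n (.n (.n (.p (nat_lit 0x629042102) (nat_lit 0x24e100) (nat_lit 16))
 (.p (nat_lit 0x28000e2902) (nat_lit 0x20012700) (nat_lit 48)))
 (.p (nat_lit 0x1788041502) (nat_lit 0x240b07) (nat_lit 4)))
 (.n (.p (nat_lit 0xd360f7f02) (nat_lit 0x440502) (nat_lit 5))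
 (.p (nat_lit 0x15360b2302) (nat_lit 0xa23) (nat_lit 5))))
 (.n (.n (.n (.p (nat_lit 0x11f50fd102) (nat_lit 0x414800) (nat_lit 16))
 (.p (nat_lit 0x171a28bf02) (nat_lit 0x3503a8d84000500040600) (nat_lit 49)))
 (.p (nat_lit 0x18a0183f02) (nat_lit 0x400416) (nat_lit 4)))
 (.n (.p (nat_lit 0x171417121710170c170a0081170f07) (nat_lit 0x200b04) (nat_lit 7))
 (.p (nat_lit 0xf1253b02) (nat_lit 0x200a0a) (nat_lit 28)))))
 (.n (.n (.n (.n (.p (nat_lit 0xa6a0bab02) (nat_lit 0x400500) (nat_lit 4))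
 (.p (nat_lit 0xf48284502) (nat_lit 0x4a1a22344000100000600) (nat_lit 50)))
 (.p (nat_lit 0x1da01c3d02) (nat_lit 0x540511) (nat_lit 4)))
 (.n (.p (nat_lit 0x108610841080107e107c0e2d06) (nat_lit 0x4000014603) (nat_lit 51))
 (.p (nat_lit 0x48e048a04880486048407d906) (nat_lit 0x800004222a) (nat_lit 52))))
 (.n (.n (.p (nat_lit 0x172c172015f903) (nat_lit 0x540b00) (nat_lit 6))
 (.p (nat_lit 0x160608ab02) (nat_lit 0x40a1c) (nat_lit 4)))
 (.n (.p (nat_lit 0xeb00eae0eac0ea80ea610ff06) (nat_lit 0x20000d0706) (nat_lit 51))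
 (.p (nat_lit 0x27b4191d02) (nat_lit 0x6004c100) (nat_lit 48))))))

def c128_77 : Tr := .n c256_77 c256_205

def c64_13 : Tr := .n c128_13 c128_77

def c256_45 : Tr :=
 .n (.n (.n (.n (.n (.n (.p (nat_lit 0x70006e006a007304) (nat_lit 0x1a000400003) (nat_lit 17))
 (.p (nat_lit 0x26e727c102) (nat_lit 0x2c0040000200) (nat_lit 36)))
 (.p (nat_lit 0xc8c0c880c860c840c8212cd06) (nat_lit 0x80000ca806) (nat_lit 51)))
 (.n (.p (nat_lit 0x17ee17ec17ea17e817e6054106) (nat_lit 0x4000012101) (nat_lit 52))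
 (.p (nat_lit 0x1e161e8f02) (nat_lit 0x100020) (nat_lit 4))))
 (.n (.n (.n (.p (nat_lit 0xce80ce60ce40ce20b4b0b4706) (nat_lit 0xa000054500) (nat_lit 52))
 (.p (nat_lit 0x148a285b02) (nat_lit 0x281d30344000400000600) (nat_lit 49)))
 (.p (nat_lit 0x2206215302) (nat_lit 0x140814) (nat_lit 5)))
 (.n (.p (nat_lit 0x1322131e131c131a1318163f06) (nat_lit 0x80000cca03) (nat_lit 51))
 (.p (nat_lit 0xf060cd302) (nat_lit 0x4062a) (nat_lit 5)))))
 (.n (.n (.n (.n (.p (nat_lit 0x71b051502) (nat_lit 0x40e200) (nat_lit 16))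
 (.p (nat_lit 0x2693120502) (nat_lit 0x200000000800) (nat_lit 39)))
 (.p (nat_lit 0x1e061ba902) (nat_lit 0x540b0a) (nat_lit 4)))
 (.n (.p (nat_lit 0x82a0828082608220820155f06) (nat_lit 0x2000006a02) (nat_lit 51))
 (.p (nat_lit 0x1838183418321830182e0213183707) (nat_lit 0x440124) (nat_lit 7))))
 (.n (.n (.p (nat_lit 0x8211a902) (nat_lit 0x300900) (nat_lit 1))
 (.p (nat_lit 0x1bae230f02) (nat_lit 0x340018) (nat_lit 29)))
 (.n (.p (nat_lit 0x90c090a09080906090200a1090507) (nat_lit 0x100305) (nat_lit 7))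
 (.p (nat_lit 0x17d25a502) (nat_lit 0x200018) (nat_lit 28))))))
 (.n (.n (.n (.n (.n (.p (nat_lit 0x42b038f02) (nat_lit 0x144000) (nat_lit 16))
 (.p (nat_lit 0x27ea1b0302) (nat_lit 0x4000e500) (nat_lit 48)))
 (.p (nat_lit 0x1588158615841580157e099d06) (nat_lit 0x20000d4307) (nat_lit 51)))
 (.n (.p (nat_lit 0x154e0ecb02) (nat_lit 0xa01) (nat_lit 4))
 (.p (nat_lit 0x13c413c213be13bc13ba060706) (nat_lit 0x40000d2123) (nat_lit 51))))
 (.n (.n (.n (.p (nat_lit 0xeec0eea0ee80ee60ee400010ee307) (nat_lit 0x40700) (nat_lit 7))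
 (.p (nat_lit 0x13c4289702) (nat_lit 0x344580ca4000300040600) (nat_lit 50)))
 (.p (nat_lit 0x1110110e110a110811060d1106) (nat_lit 0x4000050515) (nat_lit 52)))
 (.n (.p (nat_lit 0x871f0302) (nat_lit 0x500604) (nat_lit 30))
 (.p (nat_lit 0x24a424a224a0249e249c01d1004a07) (nat_lit 0x304402) (nat_lit 25)))))
 (.n (.n (.n (.n (.p (nat_lit 0x8d209e102) (nat_lit 0x400400) (nat_lit 5))
 (.p (nat_lit 0x282613a302) (nat_lit 0xca00) (nat_lit 48)))
 (.p (nat_lit 0x10c004eb02) (nat_lit 0x14070e) (nat_lit 4)))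
 (.n (.p (nat_lit 0x1bf21bee1bec1bea1be8054f06) (nat_lit 0x8000096103) (nat_lit 51))
 (.p (nat_lit 0xaea0ae80ae60ae20ae021fd06) (nat_lit 0x2000002829) (nat_lit 51))))
 (.n (.n (.p (nat_lit 0x144414421440143e143c000b144707) (nat_lit 0x540a00) (nat_lit 7))
 (.p (nat_lit 0x17fb051902) (nat_lit 0xc11c) (nat_lit 16)))
 (.n (.p (nat_lit 0x11f611f411f211f011ec00a111ef07) (nat_lit 0x100805) (nat_lit 7))
 (.p (nat_lit 0x269902a302) (nat_lit 0x1a0000000000) (nat_lit 38))))))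

def c256_173 : Tr :=
 .n (.n (.n (.n (.n (.n (.p (nat_lit 0x2750273026203) (nat_lit 0xa110002a) (nat_lit 19))
 (.p (nat_lit 0x2745081d02) (nat_lit 0x2e0080000300) (nat_lit 38)))
 (.p (nat_lit 0x7c002db02) (nat_lit 0x440207) (nat_lit 4)))
 (.n (.p (nat_lit 0x106e106c106a106612b112ad06) (nat_lit 0x2800052801) (nat_lit 51))
 (.p (nat_lit 0x2366236423622360235e235c020207) (nat_lit 0x40023) (nat_lit 8))))
 (.n (.n (.n (.p (nat_lit 0xe980e960e940e920e900e6b06) (nat_lit 0x8000048600) (nat_lit 52))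
 (.p (nat_lit 0x2b0287b02) (nat_lit 0x5898b0b44000000000000) (nat_lit 50)))
 (.p (nat_lit 0xb6e22a502) (nat_lit 0x440415) (nat_lit 29)))
 (.n (.p (nat_lit 0x111c111a11181116111417cf06) (nat_lit 0x800050b03) (nat_lit 51))
 (.p (nat_lit 0x1b041a9f02) (nat_lit 0x300a2c) (nat_lit 5)))))
 (.n (.n (.n (.n (.p (nat_lit 0x84e084c08480846084406ef06) (nat_lit 0x4000002300) (nat_lit 51))
 (.p (nat_lit 0x269313bb02) (nat_lit 0x200000000900) (nat_lit 41)))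
 (.p (nat_lit 0x13c413c213c013be13ba0a7d06) (nat_lit 0x100009240e) (nat_lit 51)))
 (.n (.p (nat_lit 0x16f4109702) (nat_lit 0x100b02) (nat_lit 4))
 (.p (nat_lit 0x1c561d3902) (nat_lit 0x40126) (nat_lit 4))))
 (.n (.n (.p (nat_lit 0x1451129502) (nat_lit 0x444900) (nat_lit 16))
 (.p (nat_lit 0x102610241022101c0361035f06) (nat_lit 0x300008e01c) (nat_lit 52)))
 (.n (.p (nat_lit 0x100814e702) (nat_lit 0x200705) (nat_lit 4))
 (.p (nat_lit 0x2630262e262c262a262801ed020207) (nat_lit 0x204b23) (nat_lit 25))))))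
 (.n (.n (.n (.n (.n (.p (nat_lit 0x5a0059e059c059a0596041f06) (nat_lit 0x1000048100) (nat_lit 51))
 (.p (nat_lit 0x26ab27fd02) (nat_lit 0x80000000700) (nat_lit 37)))
 (.p (nat_lit 0x1604040502) (nat_lit 0x540a07) (nat_lit 4)))
 (.n (.p (nat_lit 0x1a2c1a2a1a281a261a241a2206) (nat_lit 0x14302) (nat_lit 52))
 (.p (nat_lit 0x1f923a702) (nat_lit 0x140823) (nat_lit 30))))
 (.n (.n (.n (.p (nat_lit 0x1188118411821180117e0fd106) (nat_lit 0x8000094800) (nat_lit 52))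
 (.p (nat_lit 0x38228bb02) (nat_lit 0x352868d84000000040000) (nat_lit 50)))
 (.p (nat_lit 0x152407a102) (nat_lit 0x300a15) (nat_lit 5)))
 (.n (.p (nat_lit 0x10ee10ec10ea10e610e4008110e907) (nat_lit 0x240704) (nat_lit 7))
 (.p (nat_lit 0xc000be00bc00ba000b019b06) (nat_lit 0x2c10206) (nat_lit 26)))))
 (.n (.n (.n (.n (.p (nat_lit 0xb6f099502) (nat_lit 0x444400) (nat_lit 16))
 (.p (nat_lit 0x278f172102) (nat_lit 0x1400a0000b00) (nat_lit 39)))
 (.p (nat_lit 0x701d6102) (nat_lit 0x540411) (nat_lit 1)))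
 (.n (.p (nat_lit 0xc74115102) (nat_lit 0x500503) (nat_lit 4))
 (.p (nat_lit 0x157c157a157815761574070d06) (nat_lit 0x80009422a) (nat_lit 52))))
 (.n (.n (.p (nat_lit 0x1709151d02) (nat_lit 0x510b00) (nat_lit 16))
 (.p (nat_lit 0x152c08a102) (nat_lit 0x100a1c) (nat_lit 4)))
 (.n (.p (nat_lit 0xe860e840e820e801019101306) (nat_lit 0x9000082706) (nat_lit 51))
 (.p (nat_lit 0x27b0049502) (nat_lit 0x40000100) (nat_lit 46))))))

def c128_45 : Tr := .n c256_45 c256_173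

def c256_109 : Tr :=
 .n (.n (.n (.n (.n (.n (.p (nat_lit 0x14e014c014a015104) (nat_lit 0x1c000400015) (nat_lit 17))
 (.p (nat_lit 0x27ca091d02) (nat_lit 0x20040300) (nat_lit 46)))
 (.p (nat_lit 0xc1222b02) (nat_lit 0x340906) (nat_lit 30)))
 (.n (.p (nat_lit 0xc6418cf02) (nat_lit 0x400501) (nat_lit 29))
 (.p (nat_lit 0x930092e092a0928092620ad06) (nat_lit 0x4000000721) (nat_lit 51))))
 (.n (.n (.n (.p (nat_lit 0xde10d6f02) (nat_lit 0x400600) (nat_lit 15))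
 (.p (nat_lit 0xc86286b02) (nat_lit 0x281d30342800500040000) (nat_lit 50)))
 (.p (nat_lit 0x4be04bc04ba04b804b4042b06) (nat_lit 0x1000048015) (nat_lit 52)))
 (.n (.p (nat_lit 0x1110110e110c110a1106170106) (nat_lit 0x1000010b03) (nat_lit 52))
 (.p (nat_lit 0x16ee0c2f02) (nat_lit 0x400b2a) (nat_lit 4)))))
 (.n (.n (.n (.n (.p (nat_lit 0x7cd05f102) (nat_lit 0x448200) (nat_lit 16))
 (.p (nat_lit 0x26eb120902) (nat_lit 0x280040000800) (nat_lit 39)))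
 (.p (nat_lit 0x9a4058b02) (nat_lit 0x4030e) (nat_lit 5)))
 (.n (.p (nat_lit 0x16321630162e162c162a0049163507) (nat_lit 0x540a02) (nat_lit 7))
 (.p (nat_lit 0x24c194702) (nat_lit 0x300a24) (nat_lit 1))))
 (.n (.n (.p (nat_lit 0x13ba13ae128d03) (nat_lit 0x40900) (nat_lit 6))
 (.p (nat_lit 0x1f0a1e4702) (nat_lit 0x400619) (nat_lit 5)))
 (.n (.p (nat_lit 0xe3e14cb02) (nat_lit 0x605) (nat_lit 4))
 (.p (nat_lit 0x1e201e001de01da01a9019306) (nat_lit 0x290e121) (nat_lit 26))))))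
 (.n (.n (.n (.n (.n (.p (nat_lit 0x4c804c604c404c0034f034706) (nat_lit 0x11000088100) (nat_lit 51))
 (.p (nat_lit 0x26910d4f02) (nat_lit 0x220000000600) (nat_lit 38)))
 (.p (nat_lit 0xcba0cb80cb60cb40cb00b5106) (nat_lit 0x10000c4407) (nat_lit 52)))
 (.n (.p (nat_lit 0x626104102) (nat_lit 0x140102) (nat_lit 4))
 (.p (nat_lit 0x976097409720970096e07cf06) (nat_lit 0x10000054223) (nat_lit 51))))
 (.n (.n (.n (.p (nat_lit 0x10b70eed02) (nat_lit 0x540700) (nat_lit 15))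
 (.p (nat_lit 0x164628a902) (nat_lit 0x350521a84000500000600) (nat_lit 49)))
 (.p (nat_lit 0x11c406bb02) (nat_lit 0x815) (nat_lit 4)))
 (.n (.p (nat_lit 0x37e037c037a037803760f1f06) (nat_lit 0x8000c0604) (nat_lit 52))
 (.p (nat_lit 0x70006e006800660005008306) (nat_lit 0x1316a03) (nat_lit 26)))))
 (.n (.n (.n (.n (.p (nat_lit 0x98c0ab102) (nat_lit 0x40400) (nat_lit 4))
 (.p (nat_lit 0x26af172302) (nat_lit 0x40000000b00) (nat_lit 41)))
 (.p (nat_lit 0x4be04bc04ba04b804b418fb06) (nat_lit 0x100000890f) (nat_lit 52)))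
 (.n (.p (nat_lit 0x80707fb02) (nat_lit 0x554203) (nat_lit 16))
 (.p (nat_lit 0x6140ca102) (nat_lit 0x44012a) (nat_lit 5))))
 (.n (.n (.p (nat_lit 0x1514164502) (nat_lit 0x100b00) (nat_lit 4))
 (.p (nat_lit 0xd1a096702) (nat_lit 0x24051c) (nat_lit 5)))
 (.n (.p (nat_lit 0x12c0211102) (nat_lit 0x440805) (nat_lit 29))
 (.p (nat_lit 0x270302a702) (nat_lit 0x100040000000) (nat_lit 38))))))

def c256_237 : Tr :=
 .n (.n (.n (.n (.n (.n (.p (nat_lit 0x34702bd02) (nat_lit 0x100000) (nat_lit 15))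
 (.p (nat_lit 0x270727db02) (nat_lit 0xc0040000400) (nat_lit 36)))
 (.p (nat_lit 0x1030102e102c102a102808e106) (nat_lit 0x1000008e307) (nat_lit 51)))
 (.n (.p (nat_lit 0x18fd138f02) (nat_lit 0x202901) (nat_lit 16))
 (.p (nat_lit 0x1110110e110a11081106052b06) (nat_lit 0x4000010123) (nat_lit 52))))
 (.n (.n (.n (.p (nat_lit 0xde00f3f02) (nat_lit 0x400700) (nat_lit 4))
 (.p (nat_lit 0x57a288b02) (nat_lit 0x342221ca4000100040000) (nat_lit 50)))
 (.p (nat_lit 0x102610241022101e101c0c4d06) (nat_lit 0x200008e515) (nat_lit 52)))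
 (.n (.p (nat_lit 0x8041e5f02) (nat_lit 0x440204) (nat_lit 29))
 (.p (nat_lit 0x1f8d1e8302) (nat_lit 0x5622e) (nat_lit 16)))))
 (.n (.n (.n (.n (.p (nat_lit 0x930092e092c092607b107af06) (nat_lit 0x3000040300) (nat_lit 51))
 (.p (nat_lit 0x2735282302) (nat_lit 0xe0060000900) (nat_lit 37)))
 (.p (nat_lit 0x1d5b0b5f02) (nat_lit 0x25040e) (nat_lit 16)))
 (.n (.p (nat_lit 0x17cc17ca17c817c200580043004117c717c509) (nat_lit 0x1140b02) (nat_lit 10))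
 (.p (nat_lit 0x24c209902) (nat_lit 0x300628) (nat_lit 1))))
 (.n (.n (.p (nat_lit 0x1510150e150c15061357135506) (nat_lit 0x3000090a00) (nat_lit 51))
 (.p (nat_lit 0xbaa0ba80ba40ba2043f043906) (nat_lit 0x1200004a01c) (nat_lit 52)))
 (.n (.p (nat_lit 0x10fa10f610f410f210f000a710f907) (nat_lit 0x440705) (nat_lit 7))
 (.p (nat_lit 0x25e025c025602540283000706) (nat_lit 0x130e22a) (nat_lit 26))))))
 (.n (.n (.n (.n (.n (.p (nat_lit 0x512066702) (nat_lit 0x300200) (nat_lit 5))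
 (.p (nat_lit 0x2804195102) (nat_lit 0x40006700) (nat_lit 48)))
 (.p (nat_lit 0x1090108e108c108a10881a3706) (nat_lit 0x10000094309) (nat_lit 52)))
 (.n (.p (nat_lit 0x11941190118e118a139f139906) (nat_lit 0x9000016902) (nat_lit 52))
 (.p (nat_lit 0x16de0b3302) (nat_lit 0x200b23) (nat_lit 5))))
 (.n (.n (.n (.p (nat_lit 0x10b6121b02) (nat_lit 0x540800) (nat_lit 5))
 (.p (nat_lit 0x12da28c702) (nat_lit 0x3508a9d84000300000600) (nat_lit 49)))
 (.p (nat_lit 0x108410821080107e107c1aaf06) (nat_lit 0x10000014517) (nat_lit 51)))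
 (.n (.p (nat_lit 0x17e417e217e017de17da007f17dd07) (nat_lit 0x140b04) (nat_lit 7))
 (.p (nat_lit 0x178256102) (nat_lit 0x311) (nat_lit 27)))))
 (.n (.n (.n (.n (.p (nat_lit 0xbf20bf00bec0be80a690a6506) (nat_lit 0x5000006500) (nat_lit 51))
 (.p (nat_lit 0xc8a284902) (nat_lit 0x4a1a36344000500040000) (nat_lit 50)))
 (.p (nat_lit 0x4ca04c804c604c204c01de906) (nat_lit 0x2000088b11) (nat_lit 51)))
 (.n (.p (nat_lit 0x711dbf02) (nat_lit 0x540603) (nat_lit 30))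
 (.p (nat_lit 0x158615841582157e07db07d306) (nat_lit 0x110000d422a) (nat_lit 51))))
 (.n (.n (.p (nat_lit 0x17821780177e177c177815f106) (nat_lit 0x10000d2b00) (nat_lit 52))
 (.p (nat_lit 0x17b317a702) (nat_lit 0x44ab1c) (nat_lit 16)))
 (.n (.p (nat_lit 0x81e081a081808160814120106) (nat_lit 0x8000006806) (nat_lit 52))
 (.p (nat_lit 0x26af27b902) (nat_lit 0x40000000200) (nat_lit 37))))))

def c128_109 : Tr := .n c256_109 c256_237

def c64_45 : Tr := .n c128_45 c128_109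

def c32_13 : Tr := .n c64_13 c64_45

def c256_29 : Tr :=
 .n (.n (.n (.n (.n (.n (.p (nat_lit 0x480046004d03) (nat_lit 0x18000500002) (nat_lit 17))
 (.p (nat_lit 0x26c9065702) (nat_lit 0x1a0020000200) (nat_lit 38)))
 (.p (nat_lit 0x570056e056c0568056612c906) (nat_lit 0x20000c2806) (nat_lit 52)))
 (.n (.p (nat_lit 0x4520e7502) (nat_lit 0x440001) (nat_lit 4))
 (.p (nat_lit 0x1b721ccb02) (nat_lit 0x10001f) (nat_lit 5))))
 (.n (.n (.n (.p (nat_lit 0xb4c0c8d02) (nat_lit 0x540500) (nat_lit 5))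
 (.p (nat_lit 0xf48285902) (nat_lit 0x4a8874b44000100000600) (nat_lit 50)))
 (.p (nat_lit 0x21be213502) (nat_lit 0x440414) (nat_lit 5)))
 (.n (.p (nat_lit 0x163c126f02) (nat_lit 0x340a03) (nat_lit 5))
 (.p (nat_lit 0xaf60af40af20af00aec09b306) (nat_lit 0x10000c232a) (nat_lit 52)))))
 (.n (.n (.n (.n (.p (nat_lit 0x6f1051502) (nat_lit 0x400200) (nat_lit 15))
 (.p (nat_lit 0x26b3110702) (nat_lit 0x800) (nat_lit 38)))
 (.p (nat_lit 0x1d541b6302) (nat_lit 0x34040a) (nat_lit 5)))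
 (.n (.p (nat_lit 0x15640fa302) (nat_lit 0x500a02) (nat_lit 4))
 (.p (nat_lit 0x1810187102) (nat_lit 0x500124) (nat_lit 4))))
 (.n (.n (.p (nat_lit 0x12c110b502) (nat_lit 0x454800) (nat_lit 16))
 (.p (nat_lit 0x1b1e1a0702) (nat_lit 0x440a17) (nat_lit 5)))
 (.n (.p (nat_lit 0x80c14b302) (nat_lit 0x240205) (nat_lit 5))
 (.p (nat_lit 0x14d259302) (nat_lit 0x400815) (nat_lit 28))))))
 (.n (.n (.n (.n (.n (.p (nat_lit 0x3d803d603d403d2038f038d06) (nat_lit 0x18000c8000) (nat_lit 52))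
 (.p (nat_lit 0x27e60a7102) (nat_lit 0x20002500) (nat_lit 48)))
 (.p (nat_lit 0x48e048a04880486048409a106) (nat_lit 0x8000042307) (nat_lit 52)))
 (.n (.p (nat_lit 0x12da12d812d412d212d0146706) (nat_lit 0x4000052901) (nat_lit 52))
 (.p (nat_lit 0x92409220920091e091c060106) (nat_lit 0x8000c6123) (nat_lit 51))))
 (.n (.n (.n (.p (nat_lit 0xfff0ddf02) (nat_lit 0x312700) (nat_lit 16))
 (.p (nat_lit 0xf4a289502) (nat_lit 0x356068ca4000100000600) (nat_lit 50)))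
 (.p (nat_lit 0x66a06660664066206600d1306) (nat_lit 0x8000044515) (nat_lit 51)))
 (.n (.p (nat_lit 0xe341efb02) (nat_lit 0x100604) (nat_lit 29))
 (.p (nat_lit 0x2f249102) (nat_lit 0x500501) (nat_lit 28)))))
 (.n (.n (.n (.n (.p (nat_lit 0x9d809cc08cb03) (nat_lit 0x400) (nat_lit 6))
 (.p (nat_lit 0x2693282902) (nat_lit 0x200000000a00) (nat_lit 37)))
 (.p (nat_lit 0x1d990d0102) (nat_lit 0x15050e) (nat_lit 16)))
 (.n (.p (nat_lit 0x6b1bb902) (nat_lit 0x200103) (nat_lit 30))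
 (.p (nat_lit 0x18921890188e188a188821c706) (nat_lit 0x2000014729) (nat_lit 52))))
 (.n (.n (.p (nat_lit 0x1440158302) (nat_lit 0x240a00) (nat_lit 5))
 (.p (nat_lit 0x520232902) (nat_lit 0x40011c) (nat_lit 29)))
 (.n (.p (nat_lit 0x12c110f902) (nat_lit 0x440705) (nat_lit 15))
 (.p (nat_lit 0x26a902a302) (nat_lit 0xa0000000000) (nat_lit 38))))))

def c256_157 : Tr :=
 .n (.n (.n (.n (.n (.n (.p (nat_lit 0x24c024a0246025304) (nat_lit 0x6800400029) (nat_lit 17))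
 (.p (nat_lit 0x271f091502) (nat_lit 0x240060000300) (nat_lit 39)))
 (.p (nat_lit 0x5b805b405b205b006fd06f506) (nat_lit 0x880000a207) (nat_lit 52)))
 (.n (.p (nat_lit 0x12ae0ea902) (nat_lit 0x140801) (nat_lit 5))
 (.p (nat_lit 0x36e0acf02) (nat_lit 0x300023) (nat_lit 5))))
 (.n (.n (.n (.p (nat_lit 0xe6c0e6a0e660e640e6200070e6907) (nat_lit 0x340600) (nat_lit 7))
 (.p (nat_lit 0x1494287702) (nat_lit 0x568872b44000400000600) (nat_lit 50)))
 (.p (nat_lit 0xb68068f02) (nat_lit 0x140415) (nat_lit 4)))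
 (.n (.p (nat_lit 0x81e081a08180816081417d706) (nat_lit 0x8000046b03) (nat_lit 52))
 (.p (nat_lit 0x1a201ac302) (nat_lit 0x54022c) (nat_lit 4)))))
 (.n (.n (.n (.n (.p (nat_lit 0x6f206f006ee06ea000e0005000106ed06e909) (nat_lit 0x1000300) (nat_lit 10))
 (.p (nat_lit 0x275d121902) (nat_lit 0x160080000800) (nat_lit 41)))
 (.p (nat_lit 0x92409220920091e091c0a7b06) (nat_lit 0x80008640e) (nat_lit 51)))
 (.n (.p (nat_lit 0x1588158615841580157e162f06) (nat_lit 0x20000d4a02) (nat_lit 51))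
 (.p (nat_lit 0xa120a100a0e0a0c0a081b2506) (nat_lit 0x10000c2a25) (nat_lit 51))))
 (.n (.n (.p (nat_lit 0x141e141c141a14181297129506) (nat_lit 0x180000ce900) (nat_lit 52))
 (.p (nat_lit 0x3640360035e035c01c001a901a50367036309) (nat_lit 0x2b0001c) (nat_lit 10)))
 (.n (.p (nat_lit 0xa720a302) (nat_lit 0x440605) (nat_lit 30))
 (.p (nat_lit 0x22c261f02) (nat_lit 0x100823) (nat_lit 27))))))
 (.n (.n (.n (.n (.n (.p (nat_lit 0x420057702) (nat_lit 0x240100) (nat_lit 5))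
 (.p (nat_lit 0x272127fb02) (nat_lit 0x220060000600) (nat_lit 36)))
 (.p (nat_lit 0x11b403fb02) (nat_lit 0x400807) (nat_lit 5)))
 (.n (.p (nat_lit 0x4719cb02) (nat_lit 0x440202) (nat_lit 30))
 (.p (nat_lit 0x10e00b1f02) (nat_lit 0x340723) (nat_lit 4))))
 (.n (.n (.n (.p (nat_lit 0xfd20fce0fcc0fca0012000900010fd10fc909) (nat_lit 0x2000800) (nat_lit 10))
 (.p (nat_lit 0x149828b302) (nat_lit 0x352868d84000400000600) (nat_lit 50)))
 (.p (nat_lit 0x145222fb02) (nat_lit 0x540915) (nat_lit 29)))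
 (.n (.p (nat_lit 0x1002132d02) (nat_lit 0x500704) (nat_lit 5))
 (.p (nat_lit 0xa800a600a4009e000300bf06) (nat_lit 0xa0e605) (nat_lit 26)))))
 (.n (.n (.n (.n (.p (nat_lit 0xb400b3e0b3c0b3a0995098f06) (nat_lit 0x90000d6400) (nat_lit 51))
 (.p (nat_lit 0x283a162502) (nat_lit 0x6004eb00) (nat_lit 47)))
 (.p (nat_lit 0x119411921190118e118a1d1906) (nat_lit 0x1000016411) (nat_lit 52)))
 (.n (.p (nat_lit 0xb88114702) (nat_lit 0x540403) (nat_lit 4))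
 (.p (nat_lit 0xe5e0e5c0e5a0e580e56071706) (nat_lit 0x1000008c22a) (nat_lit 51))))
 (.n (.n (.p (nat_lit 0x16d5151902) (nat_lit 0x306b00) (nat_lit 16))
 (.p (nat_lit 0x1370089502) (nat_lit 0x50091c) (nat_lit 4)))
 (.n (.p (nat_lit 0x21b621b421b221b021ae21ac06) (nat_lit 0x50406) (nat_lit 52))
 (.p (nat_lit 0x2703048902) (nat_lit 0x100040000100) (nat_lit 38))))))

def c128_29 : Tr := .n c256_29 c256_157

def c256_93 : Tr :=
 .n (.n (.n (.n (.n (.n (.p (nat_lit 0x1170115011203) (nat_lit 0x2a0000e) (nat_lit 19))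
 (.p (nat_lit 0x268b27c902) (nat_lit 0x280000000300) (nat_lit 36)))
 (.p (nat_lit 0x1478177902) (nat_lit 0x40906) (nat_lit 4)))
 (.n (.p (nat_lit 0xa9c0e9902) (nat_lit 0x500401) (nat_lit 4))
 (.p (nat_lit 0x19e20a702) (nat_lit 0x721) (nat_lit 1))))
 (.n (.n (.n (.p (nat_lit 0xd9e0d9c0d9a0d980d690d6706) (nat_lit 0x180008a600) (nat_lit 51))
 (.p (nat_lit 0x157a286702) (nat_lit 0x1a2274b50000400040600) (nat_lit 49)))
 (.p (nat_lit 0x4320430042c042a0428014b042f07) (nat_lit 0x340015) (nat_lit 7)))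
 (.n (.p (nat_lit 0x82a0826082408220820170706) (nat_lit 0x8000006b03) (nat_lit 51))
 (.p (nat_lit 0x161a1618161416120274025f0259161d161709) (nat_lit 0x2a40a2a) (nat_lit 10)))))
 (.n (.n (.n (.n (.p (nat_lit 0x7a207a0079e079c079a05f106) (nat_lit 0x8000054200) (nat_lit 51))
 (.p (nat_lit 0x2705111702) (nat_lit 0xe0040000800) (nat_lit 40)))
 (.p (nat_lit 0x680067a0678067608eb08e906) (nat_lit 0xc00008030e) (nat_lit 51)))
 (.n (.p (nat_lit 0x162c108b02) (nat_lit 0x140a02) (nat_lit 4))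
 (.p (nat_lit 0x191618c502) (nat_lit 0x500924) (nat_lit 4))))
 (.n (.n (.p (nat_lit 0x138d11a502) (nat_lit 0x10c900) (nat_lit 16))
 (.p (nat_lit 0x1eee1e3902) (nat_lit 0x140519) (nat_lit 5)))
 (.n (.p (nat_lit 0xd450b9902) (nat_lit 0x140405) (nat_lit 15))
 (.p (nat_lit 0x25d425d025ce25cc25ca022101aa07) (nat_lit 0x40a71c) (nat_lit 25))))))
 (.n (.n (.n (.n (.n (.p (nat_lit 0x34e049b02) (nat_lit 0x500100) (nat_lit 5))
 (.p (nat_lit 0x26ab27f302) (nat_lit 0x80000000600) (nat_lit 37)))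
 (.p (nat_lit 0xb50030502) (nat_lit 0x140407) (nat_lit 5)))
 (.n (.p (nat_lit 0x456103502) (nat_lit 0x40002) (nat_lit 4))
 (.p (nat_lit 0x7cc0b0d02) (nat_lit 0x440223) (nat_lit 4))))
 (.n (.n (.n (.p (nat_lit 0x108e108c108a10880eed0eeb06) (nat_lit 0x180000d4700) (nat_lit 52))
 (.p (nat_lit 0xab028a302) (nat_lit 0x350521a84000400040000) (nat_lit 49)))
 (.p (nat_lit 0x11c70fe502) (nat_lit 0x100715) (nat_lit 15)))
 (.n (.p (nat_lit 0xf20131b02) (nat_lit 0x140604) (nat_lit 5))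
 (.p (nat_lit 0x6724d302) (nat_lit 0x603) (nat_lit 28)))))
 (.n (.n (.n (.n (.p (nat_lit 0xa7d08cd02) (nat_lit 0x102400) (nat_lit 16))
 (.p (nat_lit 0x2737157902) (nat_lit 0xc0060000a00) (nat_lit 39)))
 (.p (nat_lit 0x179405e502) (nat_lit 0x340b0e) (nat_lit 4)))
 (.n (.p (nat_lit 0x7f4123502) (nat_lit 0x240203) (nat_lit 4))
 (.p (nat_lit 0x1c01053102) (nat_lit 0x1012a) (nat_lit 16))))
 (.n (.n (.p (nat_lit 0x160d144302) (nat_lit 0x346a00) (nat_lit 16))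
 (.p (nat_lit 0xa060a040a0209fe09fc0c5906) (nat_lit 0x200000251c) (nat_lit 52)))
 (.n (.p (nat_lit 0x12ba150902) (nat_lit 0x140805) (nat_lit 5))
 (.p (nat_lit 0x26bf02b102) (nat_lit 0x240020000000) (nat_lit 40))))))

def c256_221 : Tr :=
 .n (.n (.n (.n (.n (.n (.p (nat_lit 0x2f402f202f002ec02ea02bf06) (nat_lit 0x2000086000) (nat_lit 51))
 (.p (nat_lit 0x26d909cf02) (nat_lit 0xa0020000400) (nat_lit 38)))
 (.p (nat_lit 0x8de08dc08da08d808d600df08e107) (nat_lit 0x500307) (nat_lit 7)))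
 (.n (.p (nat_lit 0x9d609d209d009ce09cc139306) (nat_lit 0x8000008901) (nat_lit 52))
 (.p (nat_lit 0x65e065c065a06580656052506) (nat_lit 0x800004123) (nat_lit 52))))
 (.n (.n (.n (.p (nat_lit 0xf2b0e6302) (nat_lit 0x54600) (nat_lit 16))
 (.p (nat_lit 0xe58288502) (nat_lit 0x344580a64000000040600) (nat_lit 50)))
 (.p (nat_lit 0x65e065c065a065806560c4906) (nat_lit 0x800004515) (nat_lit 52)))
 (.n (.p (nat_lit 0x1e3e1e3c1e3a1e381e36072306) (nat_lit 0x800008a204) (nat_lit 51))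
 (.p (nat_lit 0x1e4a1ec302) (nat_lit 0x22e) (nat_lit 4)))))
 (.n (.n (.n (.n (.p (nat_lit 0x91d091102) (nat_lit 0x140300) (nat_lit 34))
 (.p (nat_lit 0x26f312e102) (nat_lit 0x200040000900) (nat_lit 40)))
 (.p (nat_lit 0xc8c0c880c860c840c820b6306) (nat_lit 0x80000ca40e) (nat_lit 51)))
 (.n (.p (nat_lit 0x17c610a502) (nat_lit 0x240b02) (nat_lit 4))
 (.p (nat_lit 0x1f2a1ec102) (nat_lit 0x500b27) (nat_lit 5))))
 (.n (.n (.p (nat_lit 0x14ec14ea14e814e414e2135706) (nat_lit 0x200000ea00) (nat_lit 52))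
 (.p (nat_lit 0x43e043a04380436043401a7043d07) (nat_lit 0x44001c) (nat_lit 7)))
 (.n (.p (nat_lit 0x10f015cb02) (nat_lit 0x40705) (nat_lit 4))
 (.p (nat_lit 0x2658265626542652265000a3025207) (nat_lit 0x202929) (nat_lit 25))))))
 (.n (.n (.n (.n (.n (.p (nat_lit 0x50c065502) (nat_lit 0x200) (nat_lit 4))
 (.p (nat_lit 0x26f50f3b02) (nat_lit 0x1e0040000700) (nat_lit 38)))
 (.p (nat_lit 0x22522250224e224c224a224800e2178b178717850a) (nat_lit 0xc840b07) (nat_lit 31)))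
 (.n (.p (nat_lit 0x139c0f8702) (nat_lit 0x300902) (nat_lit 4))
 (.p (nat_lit 0x15400b2d02) (nat_lit 0x500a23) (nat_lit 5))))
 (.n (.n (.n (.p (nat_lit 0x6a10b102) (nat_lit 0x240800) (nat_lit 1))
 (.p (nat_lit 0x57c28c302) (nat_lit 0x3508a9d84000100040000) (nat_lit 50)))
 (.p (nat_lit 0x1a401a3e1a3c1a3a1a381a8b06) (nat_lit 0x8000040417) (nat_lit 51)))
 (.n (.p (nat_lit 0x15d415d215d015ce15ca170d06) (nat_lit 0x100008eb04) (nat_lit 52))
 (.p (nat_lit 0x10e010c010601040007014906) (nat_lit 0x1a0830e) (nat_lit 26)))))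
 (.n (.n (.n (.n (.p (nat_lit 0xbce0bcc0bca0bc60a670a6306) (nat_lit 0x2800082500) (nat_lit 52))
 (.p (nat_lit 0x12e0284702) (nat_lit 0x4a1a36344000300000600) (nat_lit 50)))
 (.p (nat_lit 0x1de81c4302) (nat_lit 0x200b11) (nat_lit 4)))
 (.n (.p (nat_lit 0xf14125502) (nat_lit 0x140603) (nat_lit 4))
 (.p (nat_lit 0x1026102410221020101c07d306) (nat_lit 0x10000ce22a) (nat_lit 52))))
 (.n (.n (.p (nat_lit 0x175e175a17581756175415f706) (nat_lit 0x8000050b00) (nat_lit 51))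
 (.p (nat_lit 0x16ce08b702) (nat_lit 0xb1c) (nat_lit 4)))
 (.n (.p (nat_lit 0x120211fe11fc11fa11f800c3120107) (nat_lit 0x400806) (nat_lit 7))
 (.p (nat_lit 0x27a1049b02) (nat_lit 0x200a0000100) (nat_lit 40))))))

def c128_93 : Tr := .n c256_93 c256_221

def c64_29 : Tr := .n c128_29 c128_93

def c256_61 : Tr :=
 .n (.n (.n (.n (.n (.n (.p (nat_lit 0xa800a2009e00ab04) (nat_lit 0x12800400005) (nat_lit 17))
 (.p (nat_lit 0x2771066902) (nat_lit 0x20080000200) (nat_lit 40)))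
 (.p (nat_lit 0x147b12c702) (nat_lit 0x140806) (nat_lit 15)))
 (.n (.p (nat_lit 0x61e181902) (nat_lit 0x340101) (nat_lit 29))
 (.p (nat_lit 0x1f301fa702) (nat_lit 0x200021) (nat_lit 4))))
 (.n (.n (.n (.p (nat_lit 0xd1d0b4902) (nat_lit 0x346500) (nat_lit 16))
 (.p (nat_lit 0xbb30bab09d909d3082b0817066906550497048902b102ad28600d) (nat_lit 0x281d30346800000000000) (nat_lit 33)))
 (.p (nat_lit 0x149228902) (nat_lit 0x200015) (nat_lit 30)))
 (.n (.p (nat_lit 0x691dcf02) (nat_lit 0x100b03) (nat_lit 30))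
 (.p (nat_lit 0x1ed61ed41ed21ed01ece138706) (nat_lit 0x800008492a) (nat_lit 51)))))
 (.n (.n (.n (.n (.p (nat_lit 0x5f0072d02) (nat_lit 0x440200) (nat_lit 4))
 (.p (nat_lit 0x280c1bf502) (nat_lit 0x8800) (nat_lit 48)))
 (.p (nat_lit 0x176a1768176617641760216f06) (nat_lit 0x10000d030d) (nat_lit 52)))
 (.n (.p (nat_lit 0xf3e0f3c0f3a0f380f36156506) (nat_lit 0x1000000ea02) (nat_lit 52))
 (.p (nat_lit 0x185c185a185818561854185106) (nat_lit 0x4000042224) (nat_lit 52))))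
 (.n (.n (.p (nat_lit 0x131613141312130e130c11a706) (nat_lit 0x200000c900) (nat_lit 52))
 (.p (nat_lit 0x1da81c9f02) (nat_lit 0x340518) (nat_lit 4)))
 (.n (.p (nat_lit 0x9f1fd902) (nat_lit 0x40305) (nat_lit 30))
 (.p (nat_lit 0x17e017c017a0178014d017106) (nat_lit 0x2516618) (nat_lit 26))))))
 (.n (.n (.n (.n (.n (.p (nat_lit 0x46b038f02) (nat_lit 0x152000) (nat_lit 16))
 (.p (nat_lit 0x27230bb502) (nat_lit 0x200060000500) (nat_lit 40)))
 (.p (nat_lit 0xa780a760a740a700a6e00d90a7307) (nat_lit 0x200407) (nat_lit 7)))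
 (.n (.p (nat_lit 0x193d155702) (nat_lit 0x406a01) (nat_lit 16))
 (.p (nat_lit 0x7040afd02) (nat_lit 0x200223) (nat_lit 4))))
 (.n (.n (.n (.p (nat_lit 0xeea102502) (nat_lit 0x440700) (nat_lit 4))
 (.p (nat_lit 0xc88289d02) (nat_lit 0x356068ca4000500040000) (nat_lit 50)))
 (.p (nat_lit 0x1ef70d1502) (nat_lit 0x552515) (nat_lit 16)))
 (.n (.p (nat_lit 0x81e081c0818081608140e3906) (nat_lit 0x4000006604) (nat_lit 52))
 (.p (nat_lit 0x4124b302) (nat_lit 0x100b02) (nat_lit 28)))))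
 (.n (.n (.n (.n (.p (nat_lit 0xa060a040a020a0009fc08cd06) (nat_lit 0x1000002400) (nat_lit 52))
 (.p (nat_lit 0x26cb158102) (nat_lit 0x180020000a00) (nat_lit 41)))
 (.p (nat_lit 0x11c004fd02) (nat_lit 0x40080e) (nat_lit 4)))
 (.n (.p (nat_lit 0x6341c0b02) (nat_lit 0x240103) (nat_lit 29))
 (.p (nat_lit 0x5320c9102) (nat_lit 0x10012a) (nat_lit 5))))
 (.n (.n (.p (nat_lit 0x15c615c415c215c015be144706) (nat_lit 0x1000004ea00) (nat_lit 51))
 (.p (nat_lit 0x5fe085b02) (nat_lit 0x54011c) (nat_lit 5)))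
 (.n (.p (nat_lit 0x11f411f211f011ee11ec00a911f707) (nat_lit 0x500805) (nat_lit 7))
 (.p (nat_lit 0x268d038102) (nat_lit 0x260000000000) (nat_lit 41))))))

def c256_189 : Tr :=
 .n (.n (.n (.n (.n (.n (.p (nat_lit 0x2b102a502) (nat_lit 0x100000) (nat_lit 34))
 (.p (nat_lit 0x26b327d502) (nat_lit 0x400) (nat_lit 36)))
 (.p (nat_lit 0x5d405d205d005ce07c307c106) (nat_lit 0x18000050207) (nat_lit 51)))
 (.n (.p (nat_lit 0x18f512b102) (nat_lit 0x248801) (nat_lit 16))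
 (.p (nat_lit 0x44a044604440442044001ff044907) (nat_lit 0x440023) (nat_lit 7))))
 (.n (.n (.n (.p (nat_lit 0xec80ec60ec40ec20ec00e6306) (nat_lit 0x8000d2600) (nat_lit 52))
 (.p (nat_lit 0x736287d02) (nat_lit 0x585a12b21000200040000) (nat_lit 50)))
 (.p (nat_lit 0x1d650b6902) (nat_lit 0x150415) (nat_lit 16)))
 (.n (.p (nat_lit 0xf1d17d902) (nat_lit 0x540b03) (nat_lit 15))
 (.p (nat_lit 0x1c04247702) (nat_lit 0x30012d) (nat_lit 29)))))
 (.n (.n (.n (.n (.p (nat_lit 0x8a408a208a0089e06f306f106) (nat_lit 0x18000014300) (nat_lit 52))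
 (.p (nat_lit 0x26cb281d02) (nat_lit 0x180020000900) (nat_lit 37)))
 (.p (nat_lit 0xb5a05a302) (nat_lit 0x4040e) (nat_lit 4)))
 (.n (.p (nat_lit 0x16fc109f02) (nat_lit 0x500b02) (nat_lit 4))
 (.p (nat_lit 0x128a12881286128212801c5b06) (nat_lit 0x20000d6126) (nat_lit 52))))
 (.n (.n (.p (nat_lit 0x1354148702) (nat_lit 0x100a00) (nat_lit 4))
 (.p (nat_lit 0x1588158615821580157e036306) (nat_lit 0x400009401c) (nat_lit 51)))
 (.n (.p (nat_lit 0x57c057a057805740572100906) (nat_lit 0x2000082705) (nat_lit 51))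
 (.p (nat_lit 0x210020e020c020a024f022306) (nat_lit 0x2514824) (nat_lit 26))))))
 (.n (.n (.n (.n (.n (.p (nat_lit 0x5f1042502) (nat_lit 0x440100) (nat_lit 15))
 (.p (nat_lit 0x27fc11e102) (nat_lit 0x16700) (nat_lit 47)))
 (.p (nat_lit 0x16b8041102) (nat_lit 0x500b07) (nat_lit 4)))
 (.n (.p (nat_lit 0x3f1a8d02) (nat_lit 0x502) (nat_lit 30))
 (.p (nat_lit 0x137623b502) (nat_lit 0x200923) (nat_lit 29))))
 (.n (.n (.n (.p (nat_lit 0x11b90fc902) (nat_lit 0x2800) (nat_lit 16))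
 (.p (nat_lit 0x91428bd02) (nat_lit 0x352868d64000300040000) (nat_lit 49)))
 (.p (nat_lit 0x1531152502) (nat_lit 0x308a15) (nat_lit 16)))
 (.n (.p (nat_lit 0x1288128612841282128010ef06) (nat_lit 0x100000d6704) (nat_lit 52))
 (.p (nat_lit 0xd5252502) (nat_lit 0x407) (nat_lit 28)))))
 (.n (.n (.n (.n (.p (nat_lit 0x2560a6502) (nat_lit 0x100500) (nat_lit 1))
 (.p (nat_lit 0x382283f02) (nat_lit 0x4a1a22344000000040000) (nat_lit 50)))
 (.p (nat_lit 0x1d881d861d841d821d80012b1d8b07) (nat_lit 0x500511) (nat_lit 7)))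
 (.n (.p (nat_lit 0xe28124902) (nat_lit 0x100603) (nat_lit 4))
 (.p (nat_lit 0x7da07d807d607d407d0025707d307) (nat_lit 0x14022a) (nat_lit 7))))
 (.n (.n (.p (nat_lit 0x15f2171b02) (nat_lit 0x240b00) (nat_lit 4))
 (.p (nat_lit 0x1ac01bb01b9097908a905) (nat_lit 0x88d00a1c) (nat_lit 9)))
 (.n (.p (nat_lit 0x10fc167702) (nat_lit 0x140706) (nat_lit 4))
 (.p (nat_lit 0x272b27b502) (nat_lit 0x180060000100) (nat_lit 36))))))

def c128_61 : Tr := .n c256_61 c256_189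

def c256_125 : Tr :=
 .n (.n (.n (.n (.n (.n (.p (nat_lit 0x1a601a201a001ab04) (nat_lit 0xb00040001c) (nat_lit 17))
 (.p (nat_lit 0x26f5082502) (nat_lit 0x1e0040000300) (nat_lit 40)))
 (.p (nat_lit 0x15bc15b815b615b21481147b06) (nat_lit 0x900004c906) (nat_lit 51)))
 (.n (.p (nat_lit 0x11e00e9b02) (nat_lit 0x801) (nat_lit 5))
 (.p (nat_lit 0x20da200d02) (nat_lit 0x440721) (nat_lit 4))))
 (.n (.n (.n (.p (nat_lit 0xe190d7102) (nat_lit 0x508600) (nat_lit 16))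
 (.p (nat_lit 0x578286f02) (nat_lit 0x588872b44000100040000) (nat_lit 50)))
 (.p (nat_lit 0xa8a068502) (nat_lit 0x200415) (nat_lit 4)))
 (.n (.p (nat_lit 0x1ded170702) (nat_lit 0x402b03) (nat_lit 16))
 (.p (nat_lit 0x17c00cfd02) (nat_lit 0x540b2a) (nat_lit 5)))))
 (.n (.n (.n (.n (.p (nat_lit 0x80f05ef02) (nat_lit 0x354200) (nat_lit 16))
 (.p (nat_lit 0x2727110d02) (nat_lit 0x1c0060000800) (nat_lit 38)))
 (.p (nat_lit 0x9ae04b302) (nat_lit 0x54030e) (nat_lit 4)))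
 (.n (.p (nat_lit 0x65e065c065806560654163106) (nat_lit 0x4000044a02) (nat_lit 52))
 (.p (nat_lit 0x195c1a7302) (nat_lit 0x300025) (nat_lit 5))))
 (.n (.n (.p (nat_lit 0x84129502) (nat_lit 0x440900) (nat_lit 1))
 (.p (nat_lit 0x1fec1fea1fe81fe61fe4203d06) (nat_lit 0x80004041a) (nat_lit 51)))
 (.n (.p (nat_lit 0x168a16881686168216800e4306) (nat_lit 0x2000010605) (nat_lit 52))
 (.p (nat_lit 0x25fc25fa25f825f625f4019501f407) (nat_lit 0x212122) (nat_lit 25))))))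
 (.n (.n (.n (.n (.n (.p (nat_lit 0x51d034902) (nat_lit 0x206100) (nat_lit 16))
 (.p (nat_lit 0x26df0d5d02) (nat_lit 0x40020000600) (nat_lit 40)))
 (.p (nat_lit 0xdee031502) (nat_lit 0x500607) (nat_lit 4)))
 (.n (.p (nat_lit 0x7ef062f02) (nat_lit 0x540102) (nat_lit 15))
 (.p (nat_lit 0xe160a3102) (nat_lit 0x400623) (nat_lit 4))))
 (.n (.n (.n (.p (nat_lit 0x10f30ee502) (nat_lit 0x154700) (nat_lit 16))
 (.p (nat_lit 0x48e28ad02) (nat_lit 0x354a621b0000100000000) (nat_lit 49)))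
 (.p (nat_lit 0x11d711cd02) (nat_lit 0x408815) (nat_lit 16)))
 (.n (.p (nat_lit 0xbac0baa0ba80ba60ba20f2106) (nat_lit 0x100004a604) (nat_lit 52))
 (.p (nat_lit 0xa824ef02) (nat_lit 0x500b04) (nat_lit 27)))))
 (.n (.n (.n (.n (.p (nat_lit 0xac50ab902) (nat_lit 0x440400) (nat_lit 34))
 (.p (nat_lit 0x283621b902) (nat_lit 0x42b00) (nat_lit 47)))
 (.p (nat_lit 0x21582156215421522150192f06) (nat_lit 0x2000090a0f) (nat_lit 51)))
 (.n (.p (nat_lit 0x9c01cc502) (nat_lit 0x440303) (nat_lit 29))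
 (.p (nat_lit 0x70c0bd102) (nat_lit 0x22a) (nat_lit 4))))
 (.n (.n (.p (nat_lit 0x151c165902) (nat_lit 0x500b00) (nat_lit 5))
 (.p (nat_lit 0xb0e0b0c0b080b060b040d1d06) (nat_lit 0x40000c451c) (nat_lit 52)))
 (.n (.p (nat_lit 0x142e142c142a142612bd12b906) (nat_lit 0x2800056805) (nat_lit 51))
 (.p (nat_lit 0x276327ab02) (nat_lit 0x100080000000) (nat_lit 36))))))

def c256_253 : Tr :=
 .n (.n (.n (.n (.n (.n (.p (nat_lit 0x38c037502) (nat_lit 0x40000) (nat_lit 4))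
 (.p (nat_lit 0x276527e102) (nat_lit 0xe0080000400) (nat_lit 36)))
 (.p (nat_lit 0xa7108d902) (nat_lit 0x100307) (nat_lit 15)))
 (.n (.p (nat_lit 0x14680dcd02) (nat_lit 0x440901) (nat_lit 5))
 (.p (nat_lit 0x6000a0902) (nat_lit 0x40123) (nat_lit 5))))
 (.n (.n (.n (.p (nat_lit 0xf960f920f8e0f8c0de10ddd06) (nat_lit 0xa000092700) (nat_lit 52))
 (.p (nat_lit 0x91e288d02) (nat_lit 0x356221ca4000300040000) (nat_lit 50)))
 (.p (nat_lit 0x171e171c171a171817160c5306) (nat_lit 0x10000096515) (nat_lit 52)))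
 (.n (.p (nat_lit 0x1e961e941e921e901e8e1e8c06) (nat_lit 0x304) (nat_lit 52))
 (.p (nat_lit 0x1f8e206902) (nat_lit 0x14022f) (nat_lit 4)))))
 (.n (.n (.n (.n (.p (nat_lit 0x95e095c095a095807b707ad06) (nat_lit 0x1080004a300) (nat_lit 51))
 (.p (nat_lit 0x2723282302) (nat_lit 0x200060000900) (nat_lit 37)))
 (.p (nat_lit 0xc4404d502) (nat_lit 0x40050e) (nat_lit 5)))
 (.n (.p (nat_lit 0xec80ec40ec20ec00ebe17cb06) (nat_lit 0x80000d2b02) (nat_lit 52))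
 (.p (nat_lit 0x213c217b02) (nat_lit 0x200129) (nat_lit 4))))
 (.n (.n (.p (nat_lit 0x153d135902) (nat_lit 0x308a00) (nat_lit 16))
 (.p (nat_lit 0x13b613b413b213b013ae043f06) (nat_lit 0x100000d201c) (nat_lit 52)))
 (.n (.p (nat_lit 0x66a06660664066010f910f306) (nat_lit 0x9000044705) (nat_lit 51))
 (.p (nat_lit 0x2860284028202800297021906) (nat_lit 0x281232c) (nat_lit 26))))))
 (.n (.n (.n (.n (.n (.p (nat_lit 0x680067c067806760515051106) (nat_lit 0xa000080200) (nat_lit 51))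
 (.p (nat_lit 0x27330f4902) (nat_lit 0x100060000700) (nat_lit 40)))
 (.p (nat_lit 0x1cac1b8f02) (nat_lit 0x44020a) (nat_lit 5)))
 (.n (.p (nat_lit 0x6e147502) (nat_lit 0x440902) (nat_lit 1))
 (.p (nat_lit 0x16e916dd02) (nat_lit 0x100b23) (nat_lit 16))))
 (.n (.n (.p (nat_lit 0x1270126e126c126a126810b706) (nat_lit 0x100000d4800) (nat_lit 51))
 (.p (nat_lit 0xf5e0f5c0f5a0f580f561ad106) (nat_lit 0x8000c2517) (nat_lit 51)))
 (.n (.p (nat_lit 0x14f614f414f214f014ee17e506) (nat_lit 0x100000ceb04) (nat_lit 51))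
 (.p (nat_lit 0x6e257302) (nat_lit 0x400411) (nat_lit 27)))))
 (.n (.n (.n (.n (.p (nat_lit 0xc410a6702) (nat_lit 0x202500) (nat_lit 16))
 (.p (nat_lit 0x654284f02) (nat_lit 0x4a0d84344000200000000) (nat_lit 49)))
 (.p (nat_lit 0x1e101e0e1e0c1e0a1e08012b1e1307) (nat_lit 0x540b11) (nat_lit 7)))
 (.n (.p (nat_lit 0x1568125f02) (nat_lit 0x100a03) (nat_lit 5))
 (.p (nat_lit 0x8f40bef02) (nat_lit 0x30032a) (nat_lit 5))))
 (.n (.n (.p (nat_lit 0x179915f102) (nat_lit 0x144b00) (nat_lit 16))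
 (.p (nat_lit 0x193e186702) (nat_lit 0x500a1d) (nat_lit 5)))
 (.n (.p (nat_lit 0x157c157a15781576157411f906) (nat_lit 0x800094806) (nat_lit 52))
 (.p (nat_lit 0x268b065502) (nat_lit 0x280000000200) (nat_lit 38))))))

def c128_125 : Tr := .n c256_125 c256_253

def c64_61 : Tr := .n c128_61 c128_125

def c32_29 : Tr := .n c64_29 c64_61

def c16_13 : Tr := .n c32_13 c32_29

def c8_5 : Tr := .n c16_5 c16_13

def c4_1 : Tr := .n c8_1 c8_5

def b1 : Tr := c4_1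

theorem hb2_1 : allp (tst G49 true (getA DT)) b1 = true := by decide +kernel

end Vale.Agent.P032.H437.Ev3
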