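import Vale.Agent.P032.H437.Ev3.T

namespace Vale.Agent.P032.H437.Ev3
open Vale.Agent.P032.H859.Rup Vale.Agent.P032.H437

def c256_2 : Tr :=
 .n (.n (.n (.n (.n (.n (.p (nat_lit 0x401) (nat_lit 0x200000) (nat_lit 0))
 (.p (nat_lit 0x2685065502) (nat_lit 0x2e0000000200) (nat_lit 38)))
 (.p (nat_lit 0x13ad120302) (nat_lit 0x500806) (nat_lit 15)))
 (.n (.p (nat_lit 0x17a915f902) (nat_lit 0x546b00) (nat_lit 16))
 (.p (nat_lit 0x194e1a3b02) (nat_lit 0x10001e) (nat_lit 5))))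
 (.n (.n (.n (.p (nat_lit 0xc510a6b02) (nat_lit 0x404500) (nat_lit 16))
 (.p (nat_lit 0x9d8284f02) (nat_lit 0x4a0d84344000400000000) (nat_lit 50)))
 (.p (nat_lit 0x5c405c205c005be05ba1e0b06) (nat_lit 0x10000cab11) (nat_lit 52)))
 (.n (.p (nat_lit 0x156c126302) (nat_lit 0x300a03) (nat_lit 5))
 (.p (nat_lit 0x8f80bf302) (nat_lit 0x50032a) (nat_lit 5)))))
 (.n (.n (.n (.n (.p (nat_lit 0x696069406920690068c050f06) (nat_lit 0x1000088200) (nat_lit 52))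
 (.p (nat_lit 0x2729102302) (nat_lit 0x1a0060000700) (nat_lit 39)))
 (.p (nat_lit 0x1c1c1c1a1c181c141ca91ca506) (nat_lit 0x280004820a) (nat_lit 51)))
 (.n (.p (nat_lit 0x14760f9702) (nat_lit 0x540902) (nat_lit 4))
 (.p (nat_lit 0x17aa0a5902) (nat_lit 0x40b23) (nat_lit 4))))
 (.n (.n (.p (nat_lit 0x128a1288128612841282128006) (nat_lit 0xd6800) (nat_lit 52))
 (.p (nat_lit 0x17a1adf02) (nat_lit 0x100917) (nat_lit 1)))
 (.n (.p (nat_lit 0xf2517e102) (nat_lit 0x340b04) (nat_lit 15))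
 (.p (nat_lit 0x13c013a013801360121010d06) (nat_lit 0x40e612) (nat_lit 26))))))
 (.n (.n (.n (.n (.n (.p (nat_lit 0x383037702) (nat_lit 0x140000) (nat_lit 34))
 (.p (nat_lit 0x26ad0ba302) (nat_lit 0x60000000500) (nat_lit 38)))
 (.p (nat_lit 0x8e708db02) (nat_lit 0x204307) (nat_lit 16)))
 (.n (.p (nat_lit 0x2b802b602b402b202b0146106) (nat_lit 0x800040901) (nat_lit 51))
 (.p (nat_lit 0x1f9236b02) (nat_lit 0x140123) (nat_lit 30))))
 (.n (.n (.n (.p (nat_lit 0xfa20f9e0f9c0f9a0f980de106) (nat_lit 0x8000014700) (nat_lit 52))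
 (.p (nat_lit 0xd4e288f02) (nat_lit 0x356221ca4000000000600) (nat_lit 49)))
 (.p (nat_lit 0xc5f0c5302) (nat_lit 0x508515) (nat_lit 16)))
 (.n (.p (nat_lit 0xb8c13ed02) (nat_lit 0x140404) (nat_lit 5))
 (.p (nat_lit 0x15d415d215ce15cc15ca1f9306) (nat_lit 0x40000ce22f) (nat_lit 52)))))
 (.n (.n (.n (.n (.p (nat_lit 0x98d07ad02) (nat_lit 0x40300) (nat_lit 15))
 (.p (nat_lit 0x271b13b502) (nat_lit 0x280060000900) (nat_lit 39)))
 (.p (nat_lit 0x3b403b003ae03ac03aa0c4506) (nat_lit 0x800000650e) (nat_lit 51)))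
 (.n (.p (nat_lit 0xee00ede0eda0ed80ed617c906) (nat_lit 0x40000d4b02) (nat_lit 52))
 (.p (nat_lit 0x167416721670166e166a213b06) (nat_lit 0x100000e129) (nat_lit 52))))
 (.n (.n (.p (nat_lit 0x1551135502) (nat_lit 0x10ca00) (nat_lit 16))
 (.p (nat_lit 0x1720171c17181716043d043906) (nat_lit 0xa0000d601c) (nat_lit 52)))
 (.n (.p (nat_lit 0x9220920091e091c091a10fb06) (nat_lit 0x100000c6705) (nat_lit 51))
 (.p (nat_lit 0x27f267b02) (nat_lit 0x92c) (nat_lit 28))))))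

def c256_130 : Tr :=
 .n (.n (.n (.n (.n (.n (.p (nat_lit 0x1a4019e01ad03) (nat_lit 0x480050001c) (nat_lit 17))
 (.p (nat_lit 0x26e727cd02) (nat_lit 0x2c0040000300) (nat_lit 36)))
 (.p (nat_lit 0x15ec15ea15e815e615e4147906) (nat_lit 0x8000d0906) (nat_lit 52)))
 (.n (.p (nat_lit 0x11e60da702) (nat_lit 0x300801) (nat_lit 4))
 (.p (nat_lit 0x83608340830082e082c20d906) (nat_lit 0x4000040721) (nat_lit 52))))
 (.n (.n (.n (.p (nat_lit 0xe290d6902) (nat_lit 0x110600) (nat_lit 16))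
 (.p (nat_lit 0xab2286f02) (nat_lit 0x588872b44000400040000) (nat_lit 49)))
 (.p (nat_lit 0xa8c075902) (nat_lit 0x300415) (nat_lit 5)))
 (.n (.p (nat_lit 0x17ce128102) (nat_lit 0x40b03) (nat_lit 4))
 (.p (nat_lit 0x192418d502) (nat_lit 0x14092b) (nat_lit 5)))))
 (.n (.n (.n (.n (.p (nat_lit 0x6e8082102) (nat_lit 0x300) (nat_lit 5))
 (.p (nat_lit 0x2723120b02) (nat_lit 0x200060000800) (nat_lit 39)))
 (.p (nat_lit 0x750074e074a074809ab09a506) (nat_lit 0x48000c030e) (nat_lit 52)))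
 (.n (.p (nat_lit 0x918091609140912090e162d06) (nat_lit 0x10000c6a02) (nat_lit 52))
 (.p (nat_lit 0x223241b02) (nat_lit 0x500025) (nat_lit 30))))
 (.n (.n (.p (nat_lit 0x129613b902) (nat_lit 0x540900) (nat_lit 4))
 (.p (nat_lit 0x208e1f7d02) (nat_lit 0x24051a) (nat_lit 4)))
 (.n (.p (nat_lit 0x176a17681764176217600e4506) (nat_lit 0x4000090605) (nat_lit 52))
 (.p (nat_lit 0x1fb260302) (nat_lit 0x200023) (nat_lit 28))))))
 (.n (.n (.n (.n (.n (.p (nat_lit 0x529034902) (nat_lit 0x208100) (nat_lit 16))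
 (.p (nat_lit 0x26cf27f702) (nat_lit 0x140020000600) (nat_lit 36)))
 (.p (nat_lit 0xe230ded02) (nat_lit 0x408607) (nat_lit 16)))
 (.n (.p (nat_lit 0x41198f02) (nat_lit 0x100202) (nat_lit 30))
 (.p (nat_lit 0x18c418c218be18bc18ba0e1506) (nat_lit 0x4000012623) (nat_lit 52))))
 (.n (.n (.n (.p (nat_lit 0x10fd0ee502) (nat_lit 0x156700) (nat_lit 16))
 (.p (nat_lit 0x82428ad02) (nat_lit 0x354a621b0000300000000) (nat_lit 50)))
 (.p (nat_lit 0x135e079302) (nat_lit 0x100915) (nat_lit 5)))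
 (.n (.p (nat_lit 0xd580d560d540d520d500f1f06) (nat_lit 0x80004c604) (nat_lit 52))
 (.p (nat_lit 0xa324f502) (nat_lit 0x200205) (nat_lit 28)))))
 (.n (.n (.n (.n (.p (nat_lit 0x99609940992098c0016000500030991098f09) (nat_lit 0x1140400) (nat_lit 10))
 (.p (nat_lit 0x26d5171902) (nat_lit 0xe0020000b00) (nat_lit 39)))
 (.p (nat_lit 0x1090108e108c108a10881a6b06) (nat_lit 0x10000094410) (nat_lit 52)))
 (.n (.p (nat_lit 0x671ce902) (nat_lit 0x403) (nat_lit 30))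
 (.p (nat_lit 0x7100ca902) (nat_lit 0x20022a) (nat_lit 5))))
 (.n (.n (.p (nat_lit 0x16741670166e166c166a151b06) (nat_lit 0x800000eb00) (nat_lit 52))
 (.p (nat_lit 0x43f0d2102) (nat_lit 0x54051c) (nat_lit 15)))
 (.n (.p (nat_lit 0x12cd12c102) (nat_lit 0x44c805) (nat_lit 16))
 (.p (nat_lit 0x274b02b702) (nat_lit 0x280080000000) (nat_lit 40))))))

def c128_2 : Tr := .n c256_2 c256_130

def c256_66 : Tr :=
 .n (.n (.n (.n (.n (.n (.p (nat_lit 0xa800a600a000ab04) (nat_lit 0x19000400005) (nat_lit 17))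
 (.p (nat_lit 0x2767066902) (nat_lit 0xc0080000200) (nat_lit 40)))
 (.p (nat_lit 0x13a2169902) (nat_lit 0x906) (nat_lit 5)))
 (.n (.p (nat_lit 0x182418221820181e0623062106) (nat_lit 0x18000048101) (nat_lit 51))
 (.p (nat_lit 0x1f341feb02) (nat_lit 0x400021) (nat_lit 5))))
 (.n (.n (.n (.p (nat_lit 0xd330b4702) (nat_lit 0x24e500) (nat_lit 16))
 (.p (nat_lit 0x724286302) (nat_lit 0x281d30344000200040000) (nat_lit 49)))
 (.p (nat_lit 0x358074302) (nat_lit 0x400015) (nat_lit 4)))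
 (.n (.p (nat_lit 0x1704127b02) (nat_lit 0x300b03) (nat_lit 5))
 (.p (nat_lit 0x15440ce502) (nat_lit 0x100a2a) (nat_lit 4)))))
 (.n (.n (.n (.n (.p (nat_lit 0x739072f02) (nat_lit 0x540200) (nat_lit 34))
 (.p (nat_lit 0x280c1cdd02) (nat_lit 0x40800) (nat_lit 48)))
 (.p (nat_lit 0x21e0212302) (nat_lit 0x50080d) (nat_lit 4)))
 (.n (.p (nat_lit 0x111c111a111811141112155f06) (nat_lit 0x2000010a02) (nat_lit 51))
 (.p (nat_lit 0x18ec23ef02) (nat_lit 0x100824) (nat_lit 29))))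
 (.n (.n (.p (nat_lit 0x133813361334133011a711a306) (nat_lit 0x280008e900) (nat_lit 51))
 (.p (nat_lit 0x116611621160115e115c1dab06) (nat_lit 0x800004c518) (nat_lit 51)))
 (.n (.p (nat_lit 0x9c61fdd02) (nat_lit 0x240305) (nat_lit 29))
 (.p (nat_lit 0x1a601a401a2019e01c9000306) (nat_lit 0x290c01c) (nat_lit 26))))))
 (.n (.n (.n (.n (.n (.p (nat_lit 0x47d038d02) (nat_lit 0x56000) (nat_lit 16))
 (.p (nat_lit 0x27590bb702) (nat_lit 0x1a0080000500) (nat_lit 40)))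
 (.p (nat_lit 0xa7602ff02) (nat_lit 0x400407) (nat_lit 5)))
 (.n (.p (nat_lit 0x1561155502) (nat_lit 0x310a01) (nat_lit 16))
 (.p (nat_lit 0x70a070807040702070001fd070707) (nat_lit 0x300223) (nat_lit 7))))
 (.n (.n (.n (.p (nat_lit 0xeec102702) (nat_lit 0x540700) (nat_lit 4))
 (.p (nat_lit 0x732289f02) (nat_lit 0x354868ca4000200040000) (nat_lit 50)))
 (.p (nat_lit 0xe0006b302) (nat_lit 0x200615) (nat_lit 5)))
 (.n (.p (nat_lit 0x918091609120910090e0e3906) (nat_lit 0x4000086604) (nat_lit 52))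
 (.p (nat_lit 0x24ba24b824b624b424b20001004a07) (nat_lit 0x12b02) (nat_lit 25)))))
 (.n (.n (.n (.n (.p (nat_lit 0xa120a0e0a0c0a0a0a0808d306) (nat_lit 0x8000082400) (nat_lit 51))
 (.p (nat_lit 0x26c5282d02) (nat_lit 0x1e0020000a00) (nat_lit 37)))
 (.p (nat_lit 0x1bd01bce1bcc1bca1bc811bb06) (nat_lit 0x100000880e) (nat_lit 52)))
 (.n (.p (nat_lit 0x638122d02) (nat_lit 0x440103) (nat_lit 4))
 (.p (nat_lit 0x5340c9302) (nat_lit 0x20012a) (nat_lit 5))))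
 (.n (.n (.p (nat_lit 0x15d415d015ce15cc15ca144506) (nat_lit 0x80000cea00) (nat_lit 52))
 (.p (nat_lit 0x6a206a0069e069c05f705f506) (nat_lit 0x180004a11c) (nat_lit 52)))
 (.n (.p (nat_lit 0x130212fe12fc12f811f511ef06) (nat_lit 0x9000084805) (nat_lit 51))
 (.p (nat_lit 0x268902af02) (nat_lit 0x2a0000000000) (nat_lit 40))))))

def c256_194 : Tr :=
 .n (.n (.n (.n (.n (.n (.p (nat_lit 0xda02c102) (nat_lit 0x300000) (nat_lit 1))
 (.p (nat_lit 0x26ab27d502) (nat_lit 0x80000000400) (nat_lit 36)))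
 (.p (nat_lit 0x9a107c102) (nat_lit 0x440207) (nat_lit 15)))
 (.n (.p (nat_lit 0x138c0dbb02) (nat_lit 0x100901) (nat_lit 4))
 (.p (nat_lit 0xc980c940c900c8e0449044506) (nat_lit 0xa000042023) (nat_lit 51))))
 (.n (.n (.n (.p (nat_lit 0xed40ed00ece0ecc0eca0e6b06) (nat_lit 0x8000054600) (nat_lit 52))
 (.p (nat_lit 0xc8c287d02) (nat_lit 0x585a12b21000500040000) (nat_lit 50)))
 (.p (nat_lit 0xc48076b02) (nat_lit 0x515) (nat_lit 5)))
 (.n (.p (nat_lit 0x17e117d502) (nat_lit 0x354b03) (nat_lit 16))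
 (.p (nat_lit 0x1c661d6d02) (nat_lit 0x24012d) (nat_lit 4)))))
 (.n (.n (.n (.n (.p (nat_lit 0x8cf06ed02) (nat_lit 0x200300) (nat_lit 15))
 (.p (nat_lit 0x26c313bd02) (nat_lit 0x200020000900) (nat_lit 41)))
 (.p (nat_lit 0xb5e05a702) (nat_lit 0x24040e) (nat_lit 4)))
 (.n (.p (nat_lit 0x16fc16f816f616f400540047003f16fb16f309) (nat_lit 0x2000b02) (nat_lit 10))
 (.p (nat_lit 0x1df21d0d02) (nat_lit 0x100b26) (nat_lit 4))))
 (.n (.n (.p (nat_lit 0xa4135902) (nat_lit 0x300a00) (nat_lit 1))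
 (.p (nat_lit 0x51b035f02) (nat_lit 0x10001c) (nat_lit 15)))
 (.n (.p (nat_lit 0x72e072c072807260724100b06) (nat_lit 0x4000084705) (nat_lit 52))
 (.p (nat_lit 0x213264302) (nat_lit 0x400a24) (nat_lit 28))))))
 (.n (.n (.n (.n (.n (.p (nat_lit 0x5ff042702) (nat_lit 0x546100) (nat_lit 16))
 (.p (nat_lit 0x27fe1a1702) (nat_lit 0x4a700) (nat_lit 48)))
 (.p (nat_lit 0x16e716af02) (nat_lit 0x8b07) (nat_lit 16)))
 (.n (.p (nat_lit 0x2880c6b02) (nat_lit 0x500502) (nat_lit 1))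
 (.p (nat_lit 0x137a23b902) (nat_lit 0x400923) (nat_lit 29))))
 (.n (.n (.n (.p (nat_lit 0x11d10fc902) (nat_lit 0x6800) (nat_lit 16))
 (.p (nat_lit 0xc8828bd02) (nat_lit 0x352868d64000500040000) (nat_lit 50)))
 (.p (nat_lit 0x16ca06e502) (nat_lit 0x400b15) (nat_lit 5)))
 (.n (.p (nat_lit 0x170a133b02) (nat_lit 0xb04) (nat_lit 4))
 (.p (nat_lit 0x252c252a252825262524000500e007) (nat_lit 0x204407) (nat_lit 25)))))
 (.n (.n (.n (.n (.p (nat_lit 0xa660ba702) (nat_lit 0x200500) (nat_lit 4))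
 (.p (nat_lit 0x910283f02) (nat_lit 0x4a1a22344000300040000) (nat_lit 49)))
 (.p (nat_lit 0x1d961c3302) (nat_lit 0x40511) (nat_lit 4)))
 (.n (.p (nat_lit 0xe300e2e0e2c0e280e26006b0e2b07) (nat_lit 0x200603) (nat_lit 7))
 (.p (nat_lit 0x7d80cb902) (nat_lit 0x44022a) (nat_lit 4))))
 (.n (.n (.p (nat_lit 0xc015f502) (nat_lit 0x340b00) (nat_lit 1))
 (.p (nat_lit 0x2004200220001ffa152f152d06) (nat_lit 0x300000ea1c) (nat_lit 52)))
 (.n (.p (nat_lit 0x10fe21d302) (nat_lit 0x240706) (nat_lit 29))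
 (.p (nat_lit 0x272127b502) (nat_lit 0x220060000100) (nat_lit 36))))))

def c128_66 : Tr := .n c256_66 c256_194

def c64_2 : Tr := .n c128_2 c128_66

def c256_34 : Tr :=
 .n (.n (.n (.n (.n (.n (.p (nat_lit 0x5f005d005b004e04) (nat_lit 0x36300002) (nat_lit 20))
 (.p (nat_lit 0x2713066502) (nat_lit 0x40000200) (nat_lit 40)))
 (.p (nat_lit 0x72e072c07280726072412cb06) (nat_lit 0x40000c4806) (nat_lit 52)))
 (.n (.p (nat_lit 0x481045102) (nat_lit 0x354001) (nat_lit 16))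
 (.p (nat_lit 0x119e119c119a119811961b7906) (nat_lit 0x1000009601f) (nat_lit 51))))
 (.n (.n (.n (.p (nat_lit 0xcae0cac0caa0ca60ca40b4706) (nat_lit 0x2000044500) (nat_lit 51))
 (.p (nat_lit 0x1486285902) (nat_lit 0x4a8874b44000400000600) (nat_lit 49)))
 (.p (nat_lit 0x21e4214702) (nat_lit 0x100814) (nat_lit 5)))
 (.n (.p (nat_lit 0x163e1dc902) (nat_lit 0x440a03) (nat_lit 29))
 (.p (nat_lit 0xe1c0c0302) (nat_lit 0x10062a) (nat_lit 4)))))
 (.n (.n (.n (.n (.p (nat_lit 0x6fb051302) (nat_lit 0x300200) (nat_lit 16))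
 (.p (nat_lit 0x26af111302) (nat_lit 0x40000000800) (nat_lit 40)))
 (.p (nat_lit 0x1dde1b6b02) (nat_lit 0x300b0a) (nat_lit 5)))
 (.n (.p (nat_lit 0x2ac02aa02a802a602a4155b06) (nat_lit 0x800000a02) (nat_lit 52))
 (.p (nat_lit 0x182e18af02) (nat_lit 0x40124) (nat_lit 4))))
 (.n (.n (.p (nat_lit 0x7c11a302) (nat_lit 0x900) (nat_lit 1))
 (.p (nat_lit 0x696069406920690068c1b1906) (nat_lit 0x10000c8a17) (nat_lit 52)))
 (.n (.p (nat_lit 0x81214b702) (nat_lit 0x540205) (nat_lit 5))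
 (.p (nat_lit 0x188259902) (nat_lit 0x100915) (nat_lit 27))))))
 (.n (.n (.n (.n (.n (.p (nat_lit 0x40e040c040a04080397038d06) (nat_lit 0x10800056000) (nat_lit 52))
 (.p (nat_lit 0x270f27eb02) (nat_lit 0x40040000500) (nat_lit 36)))
 (.p (nat_lit 0x81e081c081808160814099f06) (nat_lit 0x4000046307) (nat_lit 52)))
 (.n (.p (nat_lit 0x172c1728172617241722146906) (nat_lit 0x80000d6901) (nat_lit 51))
 (.p (nat_lit 0xc7e0c7c0c7a0c780c76060b06) (nat_lit 0x100000ca123) (nat_lit 52))))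
 (.n (.n (.n (.p (nat_lit 0x100d0de102) (nat_lit 0x414700) (nat_lit 16))
 (.p (nat_lit 0x148c289502) (nat_lit 0x356068ca4000400000600) (nat_lit 49)))
 (.p (nat_lit 0xbac0baa0ba80ba60ba20d0d06) (nat_lit 0x100004a515) (nat_lit 52)))
 (.n (.p (nat_lit 0xe38131302) (nat_lit 0x300604) (nat_lit 4))
 (.p (nat_lit 0x46249902) (nat_lit 0x400801) (nat_lit 27)))))
 (.n (.n (.n (.n (.p (nat_lit 0x9db09cf02) (nat_lit 0x100400) (nat_lit 34))
 (.p (nat_lit 0x268f149102) (nat_lit 0x240000000a00) (nat_lit 40)))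
 (.p (nat_lit 0xdf205c902) (nat_lit 0x10060e) (nat_lit 4)))
 (.n (.p (nat_lit 0x54e122102) (nat_lit 0x400103) (nat_lit 4))
 (.p (nat_lit 0x21fc21b102) (nat_lit 0x200829) (nat_lit 4))))
 (.n (.n (.p (nat_lit 0x1442158502) (nat_lit 0x340a00) (nat_lit 5))
 (.p (nat_lit 0x67406720670066e066c051d06) (nat_lit 0x200000011c) (nat_lit 51)))
 (.n (.p (nat_lit 0x110110f702) (nat_lit 0x34c705) (nat_lit 16))
 (.p (nat_lit 0x26a5037502) (nat_lit 0xe0000000000) (nat_lit 39))))))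

def c256_162 : Tr :=
 .n (.n (.n (.n (.n (.n (.p (nat_lit 0x25e025c0256026104) (nat_lit 0x1900040002a) (nat_lit 17))
 (.p (nat_lit 0x2773081d02) (nat_lit 0x80000300) (nat_lit 38)))
 (.p (nat_lit 0x8e106ff02) (nat_lit 0x500207) (nat_lit 15)))
 (.n (.p (nat_lit 0x12b20ead02) (nat_lit 0x340801) (nat_lit 5))
 (.p (nat_lit 0x37209ef02) (nat_lit 0x500023) (nat_lit 4))))
 (.n (.n (.n (.p (nat_lit 0xe6c0e680e660e640e6200090e6b07) (nat_lit 0x440600) (nat_lit 7))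
 (.p (nat_lit 0x488287902) (nat_lit 0x588bb0344000100000000) (nat_lit 49)))
 (.p (nat_lit 0xb6a069102) (nat_lit 0x240415) (nat_lit 4)))
 (.n (.p (nat_lit 0xbac0baa0ba80ba60ba217d106) (nat_lit 0x100004ab03) (nat_lit 52))
 (.p (nat_lit 0xfac0faa0fa80fa60fa41a2106) (nat_lit 0x100000d422c) (nat_lit 51)))))
 (.n (.n (.n (.n (.p (nat_lit 0x83408320830082e082c06f306) (nat_lit 0x10000000300) (nat_lit 52))
 (.p (nat_lit 0x26b3281902) (nat_lit 0x900) (nat_lit 36)))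
 (.p (nat_lit 0xc7e0c7c0c7a0c780c760a8506) (nat_lit 0x1000008a40e) (nat_lit 52)))
 (.n (.p (nat_lit 0x17cd163502) (nat_lit 0x540a02) (nat_lit 15))
 (.p (nat_lit 0x1bf81cf902) (nat_lit 0x200126) (nat_lit 4))))
 (.n (.n (.p (nat_lit 0x142e142a142814261424129506) (nat_lit 0x8000056900) (nat_lit 51))
 (.p (nat_lit 0x72e072c072807260724036306) (nat_lit 0x400008401c) (nat_lit 52)))
 (.n (.p (nat_lit 0x175e175c175a175617540f2f06) (nat_lit 0x2000050605) (nat_lit 51))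
 (.p (nat_lit 0x1fd262302) (nat_lit 0x300823) (nat_lit 28))))))
 (.n (.n (.n (.n (.n (.p (nat_lit 0x10c042502) (nat_lit 0x440100) (nat_lit 1))
 (.p (nat_lit 0x27710e5f02) (nat_lit 0x20080000600) (nat_lit 41)))
 (.p (nat_lit 0x21dd11b102) (nat_lit 0x216807) (nat_lit 16)))
 (.n (.p (nat_lit 0x7ee07ec07ea07e400580043004107e907e709) (nat_lit 0x1140202) (nat_lit 10))
 (.p (nat_lit 0x11da239b02) (nat_lit 0x100823) (nat_lit 29))))
 (.n (.n (.n (.p (nat_lit 0x115a1158115411520fcf0fc906) (nat_lit 0x480008a800) (nat_lit 52))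
 (.p (nat_lit 0x102228b502) (nat_lit 0x3503a8d64000100040600) (nat_lit 49)))
 (.p (nat_lit 0x151e06d702) (nat_lit 0xa15) (nat_lit 4)))
 (.n (.p (nat_lit 0x119e119c119a11981196100306) (nat_lit 0x10000096704) (nat_lit 51))
 (.p (nat_lit 0xa800a600a4009e007f000506) (nat_lit 0xa10705) (nat_lit 26)))))
 (.n (.n (.n (.n (.p (nat_lit 0xb4f098d02) (nat_lit 0x40400) (nat_lit 16))
 (.p (nat_lit 0x274d172b02) (nat_lit 0x260080000b00) (nat_lit 41)))
 (.p (nat_lit 0x681d5902) (nat_lit 0x140411) (nat_lit 1)))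
 (.n (.p (nat_lit 0x1d4c1d4a1d481d461d440b8906) (nat_lit 0x10000056403) (nat_lit 51))
 (.p (nat_lit 0x1032102e102c102a1028071506) (nat_lit 0x800008e22a) (nat_lit 51))))
 (.n (.n (.p (nat_lit 0x16e3151b02) (nat_lit 0x408b00) (nat_lit 16))
 (.p (nat_lit 0x1456089902) (nat_lit 0x14091c) (nat_lit 4)))
 (.n (.p (nat_lit 0x1012174102) (nat_lit 0x100706) (nat_lit 5))
 (.p (nat_lit 0x26f9048902) (nat_lit 0x1a0040000100) (nat_lit 38))))))

def c128_34 : Tr := .n c256_34 c256_162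

def c256_98 : Tr :=
 .n (.n (.n (.n (.n (.n (.p (nat_lit 0x12a01280122012d04) (nat_lit 0x19000400011) (nat_lit 17))
 (.p (nat_lit 0x27c8070102) (nat_lit 0xa300) (nat_lit 48)))
 (.p (nat_lit 0x14821480147e147c147800bd147b07) (nat_lit 0x140906) (nat_lit 7)))
 (.n (.p (nat_lit 0x18950a9302) (nat_lit 0x2401) (nat_lit 16))
 (.p (nat_lit 0x20b020ae20ac20aa20a601dd20a907) (nat_lit 0x100721) (nat_lit 7))))
 (.n (.n (.n (.p (nat_lit 0xdc20dc00dbe0dbc0dba0db806) (nat_lit 0x12600) (nat_lit 52))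
 (.p (nat_lit 0x37e286b02) (nat_lit 0x281d30342800000040000) (nat_lit 49)))
 (.p (nat_lit 0x432075102) (nat_lit 0x540015) (nat_lit 4)))
 (.n (.p (nat_lit 0x9e209e009dc09da09d8170506) (nat_lit 0x4000008b03) (nat_lit 51))
 (.p (nat_lit 0x17b7161302) (nat_lit 0x40a2a) (nat_lit 15)))))
 (.n (.n (.n (.n (.p (nat_lit 0x7b305ef02) (nat_lit 0x340200) (nat_lit 15))
 (.p (nat_lit 0x26fb111702) (nat_lit 0x180040000800) (nat_lit 40)))
 (.p (nat_lit 0x6a206a0069c069a069808e906) (nat_lit 0x400000a30e) (nat_lit 52)))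
 (.n (.p (nat_lit 0x163416321630162c162a0043162f07) (nat_lit 0x240a02) (nat_lit 7))
 (.p (nat_lit 0x240e240c240a240824062404021607) (nat_lit 0xa24) (nat_lit 8))))
 (.n (.n (.p (nat_lit 0x139911a502) (nat_lit 0x10e900) (nat_lit 16))
 (.p (nat_lit 0x1ef41e7702) (nat_lit 0x440519) (nat_lit 4)))
 (.n (.p (nat_lit 0xd4414c102) (nat_lit 0x140505) (nat_lit 4))
 (.p (nat_lit 0x1a925df02) (nat_lit 0x500a1c) (nat_lit 28))))))
 (.n (.n (.n (.n (.n (.p (nat_lit 0x4b204b004ae04ac04aa04a806) (nat_lit 0x86100) (nat_lit 52))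
 (.p (nat_lit 0x26a30d4f02) (nat_lit 0x100000000600) (nat_lit 38)))
 (.p (nat_lit 0xe200e900e5030903d505) (nat_lit 0x44340407) (nat_lit 9)))
 (.n (.p (nat_lit 0x45a0f5302) (nat_lit 0x340002) (nat_lit 5))
 (.p (nat_lit 0x7ce237f02) (nat_lit 0x540223) (nat_lit 29))))
 (.n (.n (.n (.p (nat_lit 0x109c109a109810960eed0ee306) (nat_lit 0x10800056700) (nat_lit 52))
 (.p (nat_lit 0x1729171b1587157313c513b11211120b102d10250e590e5528a60d) (nat_lit 0x350521a86800000040600) (nat_lit 33)))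
 (.p (nat_lit 0x10ca22cf02) (nat_lit 0x140715) (nat_lit 29)))
 (.n (.p (nat_lit 0xf280f260f220f200f1e00830f2507) (nat_lit 0x340604) (nat_lit 7))
 (.p (nat_lit 0x24da24d824d624d424d20009007207) (nat_lit 0x414603) (nat_lit 25)))))
 (.n (.n (.n (.n (.p (nat_lit 0xa8708cb02) (nat_lit 0x4400) (nat_lit 16))
 (.p (nat_lit 0x276b283502) (nat_lit 0x80080000a00) (nat_lit 36)))
 (.p (nat_lit 0x1898182302) (nat_lit 0x20040f) (nat_lit 5)))
 (.n (.p (nat_lit 0x18007f902) (nat_lit 0x440203) (nat_lit 1))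
 (.p (nat_lit 0x60e0bc702) (nat_lit 0x14012a) (nat_lit 4))))
 (.n (.n (.p (nat_lit 0x1627144502) (nat_lit 0x44ca00) (nat_lit 16))
 (.p (nat_lit 0xa280a240a220a200c5d0c5506) (nat_lit 0x880008451c) (nat_lit 51)))
 (.n (.p (nat_lit 0x12bc150b02) (nat_lit 0x240805) (nat_lit 5))
 (.p (nat_lit 0x26bb038302) (nat_lit 0x280020000000) (nat_lit 41))))))

def c256_226 : Tr :=
 .n (.n (.n (.n (.n (.n (.p (nat_lit 0x30002fe02fc02f802bf02bb06) (nat_lit 0x2800008000) (nat_lit 51))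
 (.p (nat_lit 0x26d109db02) (nat_lit 0x120020000400) (nat_lit 40)))
 (.p (nat_lit 0x66a066606640662066008df06) (nat_lit 0x8000004307) (nat_lit 51)))
 (.n (.p (nat_lit 0xc7e0c7c0c7a0c780c76139506) (nat_lit 0x1000008a901) (nat_lit 52))
 (.p (nat_lit 0x81e081c081808160814052b06) (nat_lit 0x4000006123) (nat_lit 52))))
 (.n (.n (.n (.p (nat_lit 0xdd80f4302) (nat_lit 0x700) (nat_lit 5))
 (.p (nat_lit 0x13b6288502) (nat_lit 0x344580a64000300040600) (nat_lit 49)))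
 (.p (nat_lit 0x82a08280824082208200c4f06) (nat_lit 0x4000006515) (nat_lit 51)))
 (.n (.p (nat_lit 0x18807ff02) (nat_lit 0x140204) (nat_lit 1))
 (.p (nat_lit 0x1e541ecd02) (nat_lit 0x50022e) (nat_lit 4)))))
 (.n (.n (.n (.n (.p (nat_lit 0x7b2091502) (nat_lit 0x340300) (nat_lit 4))
 (.p (nat_lit 0x281e1e2302) (nat_lit 0x40008900) (nat_lit 48)))
 (.p (nat_lit 0x1110110e110c110a11080b5b06) (nat_lit 0x80005040e) (nat_lit 52)))
 (.n (.p (nat_lit 0x17c810a702) (nat_lit 0x340b02) (nat_lit 4))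
 (.p (nat_lit 0x1f5a202902) (nat_lit 0x240128) (nat_lit 4))))
 (.n (.n (.p (nat_lit 0x14f814f414f214f014ee135b06) (nat_lit 0x800008ea00) (nat_lit 51))
 (.p (nat_lit 0x1a9231f02) (nat_lit 0x54001c) (nat_lit 30)))
 (.n (.p (nat_lit 0x10fa10f810f610f410f000a110f307) (nat_lit 0x140705) (nat_lit 7))
 (.p (nat_lit 0x25b266102) (nat_lit 0x30012a) (nat_lit 28))))))
 (.n (.n (.n (.n (.n (.p (nat_lit 0x50e065702) (nat_lit 0x100200) (nat_lit 4))
 (.p (nat_lit 0x26ef280502) (nat_lit 0x240040000700) (nat_lit 36)))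
 (.p (nat_lit 0x17b7178502) (nat_lit 0x48b07) (nat_lit 16)))
 (.n (.p (nat_lit 0x13a0139c139a139813960047139f07) (nat_lit 0x400902) (nat_lit 7))
 (.p (nat_lit 0x1943153902) (nat_lit 0x10ca23) (nat_lit 16))))
 (.n (.n (.n (.p (nat_lit 0x10b2120b02) (nat_lit 0x340800) (nat_lit 4))
 (.p (nat_lit 0xab228c302) (nat_lit 0x3508a9d84000400040000) (nat_lit 49)))
 (.p (nat_lit 0x1aa6199b02) (nat_lit 0x100517) (nat_lit 4)))
 (.n (.p (nat_lit 0x1510150c150a15081713170b06) (nat_lit 0x8800090b04) (nat_lit 51))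
 (.p (nat_lit 0x10e010c01060104011d000706) (nat_lit 0x130c40e) (nat_lit 26)))))
 (.n (.n (.n (.n (.p (nat_lit 0xbd80bd60bd40bd20bd00a6d06) (nat_lit 0x10000004500) (nat_lit 52))
 (.p (nat_lit 0x374284902) (nat_lit 0x4a1a36344000000040000) (nat_lit 49)))
 (.p (nat_lit 0x1dec1be502) (nat_lit 0x400b11) (nat_lit 5)))
 (.n (.p (nat_lit 0xf16116d02) (nat_lit 0x240603) (nat_lit 5))
 (.p (nat_lit 0x111c111811161114111207d906) (nat_lit 0x800005022a) (nat_lit 51))))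
 (.n (.n (.p (nat_lit 0x176a176817661762176015f306) (nat_lit 0x20000d0b00) (nat_lit 52))
 (.p (nat_lit 0x16d4098902) (nat_lit 0x300b1c) (nat_lit 5)))
 (.n (.p (nat_lit 0x2b802b602b402b202ae11fb06) (nat_lit 0x1000000806) (nat_lit 51))
 (.p (nat_lit 0x2797049b02) (nat_lit 0xc00a0000100) (nat_lit 40))))))

def c128_98 : Tr := .n c256_98 c256_226

def c64_34 : Tr := .n c128_34 c128_98

def c32_2 : Tr := .n c64_2 c64_34

def c256_18 : Tr :=
 .n (.n (.n (.n (.n (.n (.p (nat_lit 0x4400420040004b04) (nat_lit 0x7000400002) (nat_lit 17))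
 (.p (nat_lit 0x26db066302) (nat_lit 0x80020000200) (nat_lit 40)))
 (.p (nat_lit 0x12ce12cc12c812c612c400c112cb07) (nat_lit 0x340806) (nat_lit 7)))
 (.n (.p (nat_lit 0x17d915f902) (nat_lit 0x550b00) (nat_lit 16))
 (.p (nat_lit 0x19e1af302) (nat_lit 0xa1e) (nat_lit 1))))
 (.n (.n (.n (.p (nat_lit 0x2580b4702) (nat_lit 0x240500) (nat_lit 1))
 (.p (nat_lit 0x172b17211583157513bb13b5121b1207102f10210e590e4b28540d) (nat_lit 0x4a8874b44000000040600) (nat_lit 33)))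
 (.p (nat_lit 0x20f41f4d02) (nat_lit 0x813) (nat_lit 5)))
 (.n (.p (nat_lit 0x671dc102) (nat_lit 0x40a03) (nat_lit 30))
 (.p (nat_lit 0x9b40ccb02) (nat_lit 0x24032a) (nat_lit 4)))))
 (.n (.n (.n (.n (.p (nat_lit 0x6ae06aa06a806a60515050d06) (nat_lit 0x880008a200) (nat_lit 51))
 (.p (nat_lit 0x28080f1b02) (nat_lit 0x80052700) (nat_lit 47)))
 (.p (nat_lit 0x1ce61b9d02) (nat_lit 0x54030a) (nat_lit 4)))
 (.n (.p (nat_lit 0x155c0f9b02) (nat_lit 0x100a02) (nat_lit 4))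
 (.p (nat_lit 0x17b717ab02) (nat_lit 0x40b23) (nat_lit 16))))
 (.n (.n (.p (nat_lit 0x12a710b302) (nat_lit 0x348800) (nat_lit 16))
 (.p (nat_lit 0x6a206a0069e069c06981ae906) (nat_lit 0x100000aa17) (nat_lit 52)))
 (.n (.p (nat_lit 0x646158d02) (nat_lit 0x340105) (nat_lit 5))
 (.p (nat_lit 0x14e014c014801460187000706) (nat_lit 0x312515) (nat_lit 26))))))
 (.n (.n (.n (.n (.n (.p (nat_lit 0x3a803a603a403a2038f038d06) (nat_lit 0x18000c4000) (nat_lit 51))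
 (.p (nat_lit 0x27e21aff02) (nat_lit 0xe500) (nat_lit 48)))
 (.p (nat_lit 0x99e02f102) (nat_lit 0x340307) (nat_lit 5)))
 (.n (.p (nat_lit 0x918091609140912090e146306) (nat_lit 0x10000c6901) (nat_lit 52))
 (.p (nat_lit 0x60a060606040600020601ff01f90609060309) (nat_lit 0x2140123) (nat_lit 10))))
 (.n (.n (.n (.p (nat_lit 0xfd50ddd02) (nat_lit 0x200700) (nat_lit 16))
 (.p (nat_lit 0x57a289302) (nat_lit 0x354221ca4000100040000) (nat_lit 50)))
 (.p (nat_lit 0xd1406af02) (nat_lit 0x540515) (nat_lit 5)))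
 (.n (.p (nat_lit 0x1eb61eb41eb21eb01eae0b8d06) (nat_lit 0x1000042404) (nat_lit 51))
 (.p (nat_lit 0x20e2208502) (nat_lit 0x24072f) (nat_lit 5)))))
 (.n (.n (.n (.n (.p (nat_lit 0x9bb07b702) (nat_lit 0x54a300) (nat_lit 16))
 (.p (nat_lit 0x282413c502) (nat_lit 0xa0040900) (nat_lit 46)))
 (.p (nat_lit 0xd0404dd02) (nat_lit 0x34050e) (nat_lit 5)))
 (.n (.p (nat_lit 0x1bb1046502) (nat_lit 0x444003) (nat_lit 16))
 (.p (nat_lit 0x21c821a702) (nat_lit 0x300729) (nat_lit 4))))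
 (.n (.n (.p (nat_lit 0x143c157f02) (nat_lit 0x40a00) (nat_lit 5))
 (.p (nat_lit 0x51a084702) (nat_lit 0x10011c) (nat_lit 5)))
 (.n (.p (nat_lit 0x111c111a11181114111210f506) (nat_lit 0x2000050705) (nat_lit 51))
 (.p (nat_lit 0x26b302af02) (nat_lit 0x0) (nat_lit 40))))))

def c256_146 : Tr :=
 .n (.n (.n (.n (.n (.n (.p (nat_lit 0x20001fe01f8020304) (nat_lit 0x19000400023) (nat_lit 17))
 (.p (nat_lit 0x272d082702) (nat_lit 0x160060000300) (nat_lit 40)))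
 (.p (nat_lit 0x6fc06fa06f806f606f400df06ff07) (nat_lit 0x500207) (nat_lit 7)))
 (.n (.p (nat_lit 0x139311e902) (nat_lit 0x400801) (nat_lit 15))
 (.p (nat_lit 0x235a23582356235423522350020207) (nat_lit 0x23) (nat_lit 8))))
 (.n (.n (.n (.p (nat_lit 0xe580e4c0e6503) (nat_lit 0x140600) (nat_lit 6))
 (.p (nat_lit 0x164a287502) (nat_lit 0x588872b44000500000600) (nat_lit 49)))
 (.p (nat_lit 0x85a08560854085208500a8f06) (nat_lit 0x8000082415) (nat_lit 51)))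
 (.n (.p (nat_lit 0x2b802b602b402b202ae17d106) (nat_lit 0x1000040b03) (nat_lit 51))
 (.p (nat_lit 0x19be1ab502) (nat_lit 0x30022c) (nat_lit 5)))))
 (.n (.n (.n (.n (.p (nat_lit 0x6ee082702) (nat_lit 0x300300) (nat_lit 5))
 (.p (nat_lit 0x2767111b02) (nat_lit 0xc0080000800) (nat_lit 40)))
 (.p (nat_lit 0xa8404bf02) (nat_lit 0x50040e) (nat_lit 4)))
 (.n (.p (nat_lit 0x10241022101e101c1635162f06) (nat_lit 0x120000cea02) (nat_lit 52))
 (.p (nat_lit 0x1b241a5b02) (nat_lit 0x140a25) (nat_lit 4))))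
 (.n (.n (.p (nat_lit 0x140a1408140614041402140006) (nat_lit 0xcc900) (nat_lit 52))
 (.p (nat_lit 0x360083102) (nat_lit 0x20001c) (nat_lit 4)))
 (.n (.p (nat_lit 0xf2c209d02) (nat_lit 0x140605) (nat_lit 29))
 (.p (nat_lit 0x1fd260d02) (nat_lit 0x300223) (nat_lit 28))))))
 (.n (.n (.n (.n (.n (.p (nat_lit 0x559034f02) (nat_lit 0x512100) (nat_lit 16))
 (.p (nat_lit 0x271327f902) (nat_lit 0x40000600) (nat_lit 37)))
 (.p (nat_lit 0x10b803ed02) (nat_lit 0x240707) (nat_lit 5)))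
 (.n (.p (nat_lit 0x7ee07ec07ea07e807e4004107e707) (nat_lit 0x140202) (nat_lit 7))
 (.p (nat_lit 0xf0d0f0102) (nat_lit 0x340623) (nat_lit 16))))
 (.n (.n (.n (.p (nat_lit 0x6c0fcf02) (nat_lit 0x300800) (nat_lit 1))
 (.p (nat_lit 0x164628b102) (nat_lit 0x350521a82800500000600) (nat_lit 49)))
 (.p (nat_lit 0x14522f102) (nat_lit 0x40915) (nat_lit 30)))
 (.n (.p (nat_lit 0xff8132502) (nat_lit 0x704) (nat_lit 5))
 (.p (nat_lit 0xa800a400a2009e000901dd06) (nat_lit 0x210e305) (nat_lit 26)))))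
 (.n (.n (.n (.n (.p (nat_lit 0xaf40af20af00aec0997098f06) (nat_lit 0x110000c2400) (nat_lit 52))
 (.p (nat_lit 0x2838217102) (nat_lit 0x40040b00) (nat_lit 47)))
 (.p (nat_lit 0x1d201d1e1d1c1d181d1601251d1b07) (nat_lit 0x200411) (nat_lit 7)))
 (.n (.p (nat_lit 0xb82123f02) (nat_lit 0x240403) (nat_lit 5))
 (.p (nat_lit 0x81e081c081a08180816070d06) (nat_lit 0x80000622a) (nat_lit 52))))
 (.n (.n (.p (nat_lit 0xd6d151902) (nat_lit 0x300b00) (nat_lit 15))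
 (.p (nat_lit 0x11d4088902) (nat_lit 0x30081c) (nat_lit 5)))
 (.n (.p (nat_lit 0x24c0aab02) (nat_lit 0x300406) (nat_lit 1))
 (.p (nat_lit 0x27ac21e302) (nat_lit 0x16100) (nat_lit 47))))))

def c128_18 : Tr := .n c256_18 c256_146

def c256_82 : Tr :=
 .n (.n (.n (.n (.n (.n (.p (nat_lit 0xde00da00e303) (nat_lit 0x14000500007) (nat_lit 17))
 (.p (nat_lit 0x275327c702) (nat_lit 0x200080000200) (nat_lit 36)))
 (.p (nat_lit 0x13ac177702) (nat_lit 0x500906) (nat_lit 4)))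
 (.n (.p (nat_lit 0x20a0a9302) (nat_lit 0x401) (nat_lit 1))
 (.p (nat_lit 0x1f3c234902) (nat_lit 0x240021) (nat_lit 29))))
 (.n (.n (.n (.p (nat_lit 0xd6c0d6102) (nat_lit 0x300600) (nat_lit 5))
 (.p (nat_lit 0xabc286502) (nat_lit 0x281d30346800400040000) (nat_lit 50)))
 (.p (nat_lit 0x363035702) (nat_lit 0x308015) (nat_lit 16)))
 (.n (.p (nat_lit 0x37e037c037a0378037616ff06) (nat_lit 0x800080b03) (nat_lit 52))
 (.p (nat_lit 0x16140ced02) (nat_lit 0x140a2a) (nat_lit 4)))))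
 (.n (.n (.n (.n (.p (nat_lit 0x76807640762076005f105e906) (nat_lit 0x88000c8200) (nat_lit 51))
 (.p (nat_lit 0x26c5120702) (nat_lit 0x1e0020000800) (nat_lit 39)))
 (.p (nat_lit 0x8e804a302) (nat_lit 0x30030e) (nat_lit 4)))
 (.n (.p (nat_lit 0x1af5155d02) (nat_lit 0x106a02) (nat_lit 16))
 (.p (nat_lit 0x1a801a7e1a7c1a7a1a7818f706) (nat_lit 0x40000d4824) (nat_lit 51))))
 (.n (.n (.p (nat_lit 0x136111a702) (nat_lit 0x204900) (nat_lit 16))
 (.p (nat_lit 0x1ee01ede1edc1eda1ed801911ee307) (nat_lit 0x500519) (nat_lit 7)))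
 (.n (.p (nat_lit 0xba00b9e0b9c0b9a0b9600a10b9907) (nat_lit 0x140405) (nat_lit 7))
 (.p (nat_lit 0x1fa25c502) (nat_lit 0x20051c) (nat_lit 27))))))
 (.n (.n (.n (.n (.n (.p (nat_lit 0x34a048b02) (nat_lit 0x300100) (nat_lit 4))
 (.p (nat_lit 0x27850bb902) (nat_lit 0x1e00a0000500) (nat_lit 40)))
 (.p (nat_lit 0xc300c2e0c2c0c2a0c280a6f06) (nat_lit 0x800016407) (nat_lit 52)))
 (.n (.p (nat_lit 0x16280ee102) (nat_lit 0x540a01) (nat_lit 4))
 (.p (nat_lit 0x1f7237502) (nat_lit 0x40223) (nat_lit 30))))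
 (.n (.n (.n (.p (nat_lit 0x108610841082107c0ee70ee506) (nat_lit 0x3000054700) (nat_lit 51))
 (.p (nat_lit 0x9d828a102) (nat_lit 0x340a621b0000400000000) (nat_lit 50)))
 (.p (nat_lit 0xfe622c502) (nat_lit 0x200715) (nat_lit 29)))
 (.n (.p (nat_lit 0xffd0e3702) (nat_lit 0x200604) (nat_lit 15))
 (.p (nat_lit 0x12a24d102) (nat_lit 0x500103) (nat_lit 27)))))
 (.n (.n (.n (.n (.p (nat_lit 0xa6708cf02) (nat_lit 0x200400) (nat_lit 15))
 (.p (nat_lit 0x26eb283102) (nat_lit 0x280040000a00) (nat_lit 37)))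
 (.p (nat_lit 0x16ba050102) (nat_lit 0xb0e) (nat_lit 5)))
 (.n (.p (nat_lit 0x1c5f063902) (nat_lit 0x448103) (nat_lit 16))
 (.p (nat_lit 0x243e243c243a24382436243402620537053505330a) (nat_lit 0xd10012a) (nat_lit 31))))
 (.n (.n (.p (nat_lit 0x15ec15e815e615e41445143d06) (nat_lit 0x88000d0a00) (nat_lit 52))
 (.p (nat_lit 0xc5e0c5c0c5a0c560c5401a30c5907) (nat_lit 0x20051c) (nat_lit 7)))
 (.n (.p (nat_lit 0x210511f502) (nat_lit 0x404805) (nat_lit 16))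
 (.p (nat_lit 0x26d527a702) (nat_lit 0xe0020000000) (nat_lit 36))))))

def c256_210 : Tr :=
 .n (.n (.n (.n (.n (.n (.p (nat_lit 0x2d002cc02ca02c802c602c306) (nat_lit 0x8000004000) (nat_lit 52))
 (.p (nat_lit 0x26850ab102) (nat_lit 0x2e0000000400) (nat_lit 39)))
 (.p (nat_lit 0x8da03af02) (nat_lit 0x200307) (nat_lit 5)))
 (.n (.p (nat_lit 0x37e037c037a03780376138b06) (nat_lit 0x800080901) (nat_lit 52))
 (.p (nat_lit 0x52a0a0302) (nat_lit 0x300123) (nat_lit 4))))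
 (.n (.n (.n (.p (nat_lit 0xefd0e6502) (nat_lit 0x148600) (nat_lit 16))
 (.p (nat_lit 0xf40288302) (nat_lit 0x342221ca4000100000600) (nat_lit 49)))
 (.p (nat_lit 0xc5206a302) (nat_lit 0x500515) (nat_lit 4)))
 (.n (.p (nat_lit 0x63e12eb02) (nat_lit 0x240104) (nat_lit 5))
 (.p (nat_lit 0x127e127c127a127812741c7906) (nat_lit 0x100001622d) (nat_lit 51)))))
 (.n (.n (.n (.n (.p (nat_lit 0x8f506ef02) (nat_lit 0x30a300) (nat_lit 16))
 (.p (nat_lit 0x270313bf02) (nat_lit 0x100040000900) (nat_lit 41)))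
 (.p (nat_lit 0x56e056c056805660b650b5f06) (nat_lit 0x120000c240e) (nat_lit 52)))
 (.n (.p (nat_lit 0x17c210a102) (nat_lit 0x40b02) (nat_lit 4))
 (.p (nat_lit 0x1e261eb502) (nat_lit 0x400127) (nat_lit 5))))
 (.n (.n (.p (nat_lit 0x14be14bc14ba14b81359135306) (nat_lit 0x4800086a00) (nat_lit 51))
 (.p (nat_lit 0x436231702) (nat_lit 0x14001c) (nat_lit 29)))
 (.n (.p (nat_lit 0x1110110e110c110a1108100506) (nat_lit 0x800010705) (nat_lit 52))
 (.p (nat_lit 0x20a264702) (nat_lit 0x729) (nat_lit 27))))))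
 (.n (.n (.n (.n (.n (.p (nat_lit 0x637042302) (nat_lit 0x350100) (nat_lit 16))
 (.p (nat_lit 0x2713102d02) (nat_lit 0x40000700) (nat_lit 41)))
 (.p (nat_lit 0xdb224f02) (nat_lit 0x340b07) (nat_lit 30)))
 (.n (.p (nat_lit 0x1ab61ab41ab21ab00d390d3106) (nat_lit 0x11000044502) (nat_lit 51))
 (.p (nat_lit 0x23c153b02) (nat_lit 0x200a23) (nat_lit 1))))
 (.n (.n (.n (.p (nat_lit 0x11ff0fcf02) (nat_lit 0x316800) (nat_lit 16))
 (.p (nat_lit 0x65a28c102) (nat_lit 0x332a05d81000200000000) (nat_lit 49)))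
 (.p (nat_lit 0x1908184902) (nat_lit 0x300916) (nat_lit 4)))
 (.n (.p (nat_lit 0x1712134302) (nat_lit 0x400b04) (nat_lit 4))
 (.p (nat_lit 0xed254302) (nat_lit 0xb0a) (nat_lit 28)))))
 (.n (.n (.n (.n (.p (nat_lit 0xa6c0bad02) (nat_lit 0x500500) (nat_lit 4))
 (.p (nat_lit 0x148a284502) (nat_lit 0x4a1a22344000400000600) (nat_lit 49)))
 (.p (nat_lit 0x1b501b4e1b4c1b481d9b1d9706) (nat_lit 0x28000c4511) (nat_lit 52)))
 (.n (.p (nat_lit 0x1db30e2f02) (nat_lit 0x40a603) (nat_lit 16))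
 (.p (nat_lit 0x82a082808260822082007d506) (nat_lit 0x200004622a) (nat_lit 51))))
 (.n (.n (.p (nat_lit 0x15f615f215f015ee0020000b000715f915f509) (nat_lit 0x2b40b00) (nat_lit 10))
 (.p (nat_lit 0x160c08b102) (nat_lit 0x340a1c) (nat_lit 4)))
 (.n (.p (nat_lit 0x11f8168102) (nat_lit 0x806) (nat_lit 4))
 (.p (nat_lit 0x275727b702) (nat_lit 0x1c0080000100) (nat_lit 36))))))

def c128_82 : Tr := .n c256_82 c256_210

def c64_18 : Tr := .n c128_18 c128_82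

def c256_50 : Tr :=
 .n (.n (.n (.n (.n (.n (.p (nat_lit 0x840082007c008904) (nat_lit 0xc800400004) (nat_lit 17))
 (.p (nat_lit 0x27c0051d02) (nat_lit 0x40008200) (nat_lit 48)))
 (.p (nat_lit 0x1110110e110c110a110612c706) (nat_lit 0x1000050806) (nat_lit 52)))
 (.n (.p (nat_lit 0x181c181a1818181618141812003007) (nat_lit 0x40101) (nat_lit 8))
 (.p (nat_lit 0x1e1c1e9502) (nat_lit 0x400020) (nat_lit 4))))
 (.n (.n (.n (.p (nat_lit 0x3910b4702) (nat_lit 0x240500) (nat_lit 15))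
 (.p (nat_lit 0xe5e285d02) (nat_lit 0x1a2260b50000000040600) (nat_lit 50)))
 (.p (nat_lit 0x5a0059e059c059a0596220706) (nat_lit 0x1000048814) (nat_lit 51)))
 (.n (.p (nat_lit 0x17d3163b02) (nat_lit 0x240a03) (nat_lit 15))
 (.p (nat_lit 0xf0e0f0a0f080f060278025f025b0f110f0d09) (nat_lit 0x2b4062a) (nat_lit 10)))))
 (.n (.n (.n (.n (.p (nat_lit 0x5e8073102) (nat_lit 0x40200) (nat_lit 5))
 (.p (nat_lit 0x268d110702) (nat_lit 0x260000000800) (nat_lit 38)))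
 (.p (nat_lit 0x215a211502) (nat_lit 0x24020d) (nat_lit 4)))
 (.n (.p (nat_lit 0x9e209e009de09dc09da155b06) (nat_lit 0x800008a02) (nat_lit 51))
 (.p (nat_lit 0xeb00eae0eac0ea80ea6183306) (nat_lit 0x20000d0124) (nat_lit 51))))
 (.n (.n (.p (nat_lit 0x11aa12e502) (nat_lit 0x400900) (nat_lit 5))
 (.p (nat_lit 0x183231302) (nat_lit 0x540018) (nat_lit 30)))
 (.n (.p (nat_lit 0x90a15a502) (nat_lit 0x400305) (nat_lit 4))
 (.p (nat_lit 0x180017e017c01780171012306) (nat_lit 0x290c018) (nat_lit 26))))))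
 (.n (.n (.n (.n (.n (.p (nat_lit 0x443038f02) (nat_lit 0x148000) (nat_lit 16))
 (.p (nat_lit 0x273927ed02) (nat_lit 0xa0060000500) (nat_lit 36)))
 (.p (nat_lit 0x9ad09a102) (nat_lit 0x444307) (nat_lit 16)))
 (.n (.p (nat_lit 0x15580ed502) (nat_lit 0x500a01) (nat_lit 4))
 (.p (nat_lit 0x613060702) (nat_lit 0x340123) (nat_lit 16))))
 (.n (.n (.n (.p (nat_lit 0x102b101f02) (nat_lit 0x140700) (nat_lit 34))
 (.p (nat_lit 0xbb50ba709e309d50821081b066506570499048f02b102a328980d) (nat_lit 0x356068ca4000000000000) (nat_lit 33)))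
 (.p (nat_lit 0x148e148c1488148614840d1106) (nat_lit 0x4000054515) (nat_lit 52)))
 (.n (.p (nat_lit 0x38a03880386038403820e3306) (nat_lit 0x800080604) (nat_lit 51))
 (.p (nat_lit 0x6824a902) (nat_lit 0x100902) (nat_lit 27)))))
 (.n (.n (.n (.n (.p (nat_lit 0x8d409e302) (nat_lit 0x500400) (nat_lit 5))
 (.p (nat_lit 0x28261f5702) (nat_lit 0x48a00) (nat_lit 48)))
 (.p (nat_lit 0x129910c102) (nat_lit 0x14070e) (nat_lit 15)))
 (.n (.p (nat_lit 0x630122502) (nat_lit 0x40103) (nat_lit 4))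
 (.p (nat_lit 0x2214219d02) (nat_lit 0x440829) (nat_lit 5))))
 (.n (.n (.p (nat_lit 0x15a615a415a0159e1443144106) (nat_lit 0x6000046a00) (nat_lit 52))
 (.p (nat_lit 0x5f6094d02) (nat_lit 0x14011c) (nat_lit 4)))
 (.n (.p (nat_lit 0x11f020ed02) (nat_lit 0x200805) (nat_lit 29))
 (.p (nat_lit 0x2695037502) (nat_lit 0x1e0000000000) (nat_lit 39))))))

def c256_178 : Tr :=
 .n (.n (.n (.n (.n (.n (.p (nat_lit 0x2ac02aa02a802a602a402a206) (nat_lit 0x0) (nat_lit 2))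
 (.p (nat_lit 0x2783081f02) (nat_lit 0x2000a0000300) (nat_lit 38)))
 (.p (nat_lit 0x7c203a902) (nat_lit 0x540207) (nat_lit 5)))
 (.n (.p (nat_lit 0x108410821080107e107c12b706) (nat_lit 0x10000054801) (nat_lit 51))
 (.p (nat_lit 0x4420ad702) (nat_lit 0x140023) (nat_lit 5))))
 (.n (.n (.n (.p (nat_lit 0xeb00eae0eac0eaa0ea60e6506) (nat_lit 0x10000d0600) (nat_lit 51))
 (.p (nat_lit 0x81e287b02) (nat_lit 0x5898b0b44000300000000) (nat_lit 49)))
 (.p (nat_lit 0x930092c092a092809260b6f06) (nat_lit 0x8000040415) (nat_lit 51)))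
 (.n (.p (nat_lit 0x12da12d812d612d412d017d106) (nat_lit 0x1000052b03) (nat_lit 52))
 (.p (nat_lit 0x1b081aa302) (nat_lit 0x500a2c) (nat_lit 5)))))
 (.n (.n (.n (.n (.p (nat_lit 0x8720870086e086c086a086806) (nat_lit 0x8a300) (nat_lit 52))
 (.p (nat_lit 0x281a1ed902) (nat_lit 0x4900) (nat_lit 47)))
 (.p (nat_lit 0x157c157a1576157415720a8106) (nat_lit 0x400009440e) (nat_lit 52)))
 (.n (.p (nat_lit 0x16fc16fa16f816f416f2004316f707) (nat_lit 0x200b02) (nat_lit 7))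
 (.p (nat_lit 0x1c5a1d0502) (nat_lit 0x240126) (nat_lit 5))))
 (.n (.n (.p (nat_lit 0x1465129102) (nat_lit 0x24c900) (nat_lit 16))
 (.p (nat_lit 0x120e120c120a12081204035f06) (nat_lit 0x100009001c) (nat_lit 52)))
 (.n (.p (nat_lit 0x100c14eb02) (nat_lit 0x400705) (nat_lit 4))
 (.p (nat_lit 0x2140210020c020a024b002d06) (nat_lit 0x1414124) (nat_lit 26))))))
 (.n (.n (.n (.n (.n (.p (nat_lit 0x5ac05aa05a805a605a405a206) (nat_lit 0xc8100) (nat_lit 52))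
 (.p (nat_lit 0x268f27ff02) (nat_lit 0x240000000700) (nat_lit 36)))
 (.p (nat_lit 0x1619160102) (nat_lit 0x348a07) (nat_lit 16)))
 (.n (.p (nat_lit 0xb740f6f02) (nat_lit 0x140402) (nat_lit 4))
 (.p (nat_lit 0x12a823ad02) (nat_lit 0x440823) (nat_lit 29))))
 (.n (.n (.n (.p (nat_lit 0x11a0119e119c119a11980fc906) (nat_lit 0x800096800) (nat_lit 51))
 (.p (nat_lit 0x91428bb02) (nat_lit 0x352868d84000300040000) (nat_lit 49)))
 (.p (nat_lit 0x152807a302) (nat_lit 0x500a15) (nat_lit 5)))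
 (.n (.p (nat_lit 0x10ee10ea10e810e610e4008510ed07) (nat_lit 0x440704) (nat_lit 7))
 (.p (nat_lit 0xc400c200bc00ba0007002906) (nat_lit 0x1a10706) (nat_lit 26)))))
 (.n (.n (.n (.n (.p (nat_lit 0xb87099502) (nat_lit 0x450400) (nat_lit 16))
 (.p (nat_lit 0x488283d02) (nat_lit 0x260d84344000100000000) (nat_lit 49)))
 (.p (nat_lit 0x1170116e116c11681d5d1d5906) (nat_lit 0x50000cc411) (nat_lit 51)))
 (.n (.p (nat_lit 0x1d8f0c6d02) (nat_lit 0x106503) (nat_lit 16))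
 (.p (nat_lit 0x8f7071502) (nat_lit 0x40022a) (nat_lit 15))))
 (.n (.n (.p (nat_lit 0x1720171e171c171a1718171606) (nat_lit 0x40b00) (nat_lit 2))
 (.p (nat_lit 0x153415321530152c152a01a3152f07) (nat_lit 0x200a1c) (nat_lit 7)))
 (.n (.p (nat_lit 0xec80ec60ec40ec00ebe101506) (nat_lit 0x2000092706) (nat_lit 52))
 (.p (nat_lit 0x2743049702) (nat_lit 0x60000100) (nat_lit 40))))))

def c128_50 : Tr := .n c256_50 c256_178

def c256_114 : Tr :=
 .n (.n (.n (.n (.n (.n (.p (nat_lit 0x14e014c015303) (nat_lit 0x18000500015) (nat_lit 17))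
 (.p (nat_lit 0x2707091f02) (nat_lit 0xc0040000300) (nat_lit 41)))
 (.p (nat_lit 0xc800cd00cf16ab178105) (nat_lit 0xa0c40906) (nat_lit 9)))
 (.n (.p (nat_lit 0xd280d9b02) (nat_lit 0x340501) (nat_lit 5))
 (.p (nat_lit 0x8a808a408a2089e20af20a906) (nat_lit 0x9000014721) (nat_lit 52))))
 (.n (.n (.n (.p (nat_lit 0xdf10d6702) (nat_lit 0x2600) (nat_lit 16))
 (.p (nat_lit 0x654286d02) (nat_lit 0x568bb0344000200000000) (nat_lit 49)))
 (.p (nat_lit 0x43d043102) (nat_lit 0x448015) (nat_lit 16)))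
 (.n (.p (nat_lit 0x149a1496149414921490170706) (nat_lit 0x8000014b03) (nat_lit 51))
 (.p (nat_lit 0x17b60c3302) (nat_lit 0x40b2a) (nat_lit 4)))))
 (.n (.n (.n (.n (.p (nat_lit 0x7dd05e902) (nat_lit 0x4c200) (nat_lit 16))
 (.p (nat_lit 0x28141bf902) (nat_lit 0x40008800) (nat_lit 48)))
 (.p (nat_lit 0x9a6226302) (nat_lit 0x14030e) (nat_lit 29)))
 (.n (.p (nat_lit 0x2b802b402b202b002ae163306) (nat_lit 0x8000040a02) (nat_lit 51))
 (.p (nat_lit 0x194a189302) (nat_lit 0x500a24) (nat_lit 4))))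
 (.n (.n (.p (nat_lit 0x1296129412921290128c0003128f07) (nat_lit 0x140900) (nat_lit 7))
 (.p (nat_lit 0x1f101e7d02) (nat_lit 0x340619) (nat_lit 4)))
 (.n (.p (nat_lit 0xe4215b702) (nat_lit 0x200605) (nat_lit 5))
 (.p (nat_lit 0x1dd25ed02) (nat_lit 0x100721) (nat_lit 28))))))
 (.n (.n (.n (.n (.n (.p (nat_lit 0x4e804e604e404e2034f034706) (nat_lit 0x1100000e100) (nat_lit 52))
 (.p (nat_lit 0x268d0e5702) (nat_lit 0x260000000600) (nat_lit 41)))
 (.p (nat_lit 0xb630b5702) (nat_lit 0x444407) (nat_lit 16)))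
 (.n (.p (nat_lit 0x43197d02) (nat_lit 0x240102) (nat_lit 30))
 (.p (nat_lit 0x185307cf02) (nat_lit 0x54c223) (nat_lit 16))))
 (.n (.n (.n (.p (nat_lit 0x10cd0ee702) (nat_lit 0x244700) (nat_lit 16))
 (.p (nat_lit 0xf4628ab02) (nat_lit 0x350521a86800100000600) (nat_lit 50)))
 (.p (nat_lit 0x11c806bf02) (nat_lit 0x200815) (nat_lit 4)))
 (.n (.p (nat_lit 0x66a06680666066406600f2106) (nat_lit 0x1000044604) (nat_lit 51))
 (.p (nat_lit 0x8400820080007c0003013d06) (nat_lit 0xd0c104) (nat_lit 26)))))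
 (.n (.n (.n (.n (.p (nat_lit 0x98e0abf02) (nat_lit 0x140400) (nat_lit 5))
 (.p (nat_lit 0x2691283702) (nat_lit 0x220000000b00) (nat_lit 37)))
 (.p (nat_lit 0x191e17f702) (nat_lit 0x44090f) (nat_lit 4)))
 (.n (.p (nat_lit 0xaa108ff02) (nat_lit 0x400303) (nat_lit 15))
 (.p (nat_lit 0x61606140612060e0268025902550611060d09) (nat_lit 0x104012a) (nat_lit 10))))
 (.n (.n (.p (nat_lit 0x1653164702) (nat_lit 0x200b00) (nat_lit 34))
 (.p (nat_lit 0xd1e096b02) (nat_lit 0x44051c) (nat_lit 5)))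
 (.n (.p (nat_lit 0x12c212c012be12ba00b000a3009f12bd12b909) (nat_lit 0x1040805) (nat_lit 10))
 (.p (nat_lit 0x26f902a702) (nat_lit 0x1a0040000000) (nat_lit 38))))))

def c256_242 : Tr :=
 .n (.n (.n (.n (.n (.n (.p (nat_lit 0x35102bb02) (nat_lit 0x4000) (nat_lit 16))
 (.p (nat_lit 0x27da1b2702) (nat_lit 0x4004e400) (nat_lit 48)))
 (.p (nat_lit 0x12da12d812d612d412d008d906) (nat_lit 0x1000012307) (nat_lit 52)))
 (.n (.p (nat_lit 0x13ab139302) (nat_lit 0x414901) (nat_lit 16))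
 (.p (nat_lit 0x1658165616541650164e052906) (nat_lit 0x2000016123) (nat_lit 51))))
 (.n (.n (.n (.p (nat_lit 0xde20f4d02) (nat_lit 0x500700) (nat_lit 5))
 (.p (nat_lit 0xab8288b02) (nat_lit 0x342221ca4000400040000) (nat_lit 49)))
 (.p (nat_lit 0x12e612e412e212de12dc0c4d06) (nat_lit 0x2000012515) (nat_lit 51)))
 (.n (.p (nat_lit 0x871e6102) (nat_lit 0x540204) (nat_lit 30))
 (.p (nat_lit 0x1f66206102) (nat_lit 0x20022f) (nat_lit 5)))))
 (.n (.n (.n (.n (.p (nat_lit 0x93c093a09380934093207b106) (nat_lit 0x20000c0300) (nat_lit 52))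
 (.p (nat_lit 0x273113c102) (nat_lit 0x120060000900) (nat_lit 41)))
 (.p (nat_lit 0xc3c04cd02) (nat_lit 0x50e) (nat_lit 5)))
 (.n (.p (nat_lit 0xea40ea20ea00e9a17c717c506) (nat_lit 0x3000050b02) (nat_lit 51))
 (.p (nat_lit 0x20b2203102) (nat_lit 0x728) (nat_lit 4))))
 (.n (.n (.p (nat_lit 0x1517135702) (nat_lit 0x200a00) (nat_lit 15))
 (.p (nat_lit 0xf4a0f480f460f440f42043f06) (nat_lit 0x1000004e01c) (nat_lit 51)))
 (.n (.p (nat_lit 0x10fa20d102) (nat_lit 0x540705) (nat_lit 29))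
 (.p (nat_lit 0x25d266d02) (nat_lit 0x40032a) (nat_lit 28))))))
 (.n (.n (.n (.n (.n (.p (nat_lit 0x514066902) (nat_lit 0x400200) (nat_lit 5))
 (.p (nat_lit 0x28020f1702) (nat_lit 0x40052700) (nat_lit 47)))
 (.p (nat_lit 0x1cae1cac1caa1ca81ca600ed1ca507) (nat_lit 0x4020a) (nat_lit 7)))
 (.n (.p (nat_lit 0x1add139702) (nat_lit 0x4902) (nat_lit 16))
 (.p (nat_lit 0x1fd23cf02) (nat_lit 0x300b23) (nat_lit 30))))
 (.n (.n (.n (.p (nat_lit 0x123a1238123612341232123006) (nat_lit 0xc4800) (nat_lit 52))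
 (.p (nat_lit 0x165428c702) (nat_lit 0x3508a9d84000500000600) (nat_lit 50)))
 (.p (nat_lit 0x1ad019a502) (nat_lit 0x40517) (nat_lit 5)))
 (.n (.p (nat_lit 0x17e0143702) (nat_lit 0x340b04) (nat_lit 5))
 (.p (nat_lit 0x12b256b02) (nat_lit 0x500311) (nat_lit 28)))))
 (.n (.n (.n (.n (.p (nat_lit 0xc140c120c0e0c0c0a690a6506) (nat_lit 0x5000012500) (nat_lit 51))
 (.p (nat_lit 0xf48284d02) (nat_lit 0x4a1a34344000100000600) (nat_lit 50)))
 (.p (nat_lit 0x1e0a1c4d02) (nat_lit 0x140b11) (nat_lit 4)))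
 (.n (.p (nat_lit 0xfa20f9e0f9c0f9a0f980f1b06) (nat_lit 0x8000054603) (nat_lit 52))
 (.p (nat_lit 0x1a1d07d702) (nat_lit 0x34e22a) (nat_lit 16))))
 (.n (.n (.p (nat_lit 0x1780177e177a177815f915f306) (nat_lit 0x120000d2b00) (nat_lit 52))
 (.p (nat_lit 0x1802185b02) (nat_lit 0x40011d) (nat_lit 4)))
 (.n (.p (nat_lit 0xbac0baa0ba80ba60ba211fb06) (nat_lit 0x100000a806) (nat_lit 52))
 (.p (nat_lit 0x26ad073102) (nat_lit 0x60000000200) (nat_lit 41))))))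

def c128_114 : Tr := .n c256_114 c256_242

def c64_50 : Tr := .n c128_50 c128_114

def c32_18 : Tr := .n c64_18 c64_50

def c16_2 : Tr := .n c32_2 c32_18

def c256_10 : Tr :=
 .n (.n (.n (.n (.n (.n (.p (nat_lit 0x23001f001b0015000f000d06) (nat_lit 0x415100000) (nat_lit 22))
 (.p (nat_lit 0x27b8073102) (nat_lit 0x40200) (nat_lit 46)))
 (.p (nat_lit 0x12c4168d02) (nat_lit 0x40806) (nat_lit 5)))
 (.n (.p (nat_lit 0x17c115f902) (nat_lit 0x54ab00) (nat_lit 16))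
 (.p (nat_lit 0x19701a4702) (nat_lit 0x24001e) (nat_lit 4))))
 (.n (.n (.n (.p (nat_lit 0xc630a6902) (nat_lit 0x30c500) (nat_lit 16))
 (.p (nat_lit 0x738285102) (nat_lit 0x4a8876344000200040000) (nat_lit 50)))
 (.p (nat_lit 0x1eea228302) (nat_lit 0x540512) (nat_lit 29)))
 (.n (.p (nat_lit 0x140a1408140414021400156d06) (nat_lit 0x400008ca03) (nat_lit 52))
 (.p (nat_lit 0xa120a100a0c0a0a0a0808f506) (nat_lit 0x400008232a) (nat_lit 51)))))
 (.n (.n (.n (.n (.p (nat_lit 0x6a206a0069c069a0698051306) (nat_lit 0x400000a200) (nat_lit 52))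
 (.p (nat_lit 0x276b280902) (nat_lit 0x80080000700) (nat_lit 37)))
 (.p (nat_lit 0x1ce01b9702) (nat_lit 0x24030a) (nat_lit 4)))
 (.n (.p (nat_lit 0x125c125a125612521473146f06) (nat_lit 0x50000cc902) (nat_lit 52))
 (.p (nat_lit 0x17b00b3f02) (nat_lit 0x340b23) (nat_lit 5))))
 (.n (.n (.p (nat_lit 0x129310b302) (nat_lit 0x340800) (nat_lit 15))
 (.p (nat_lit 0x1ae819f702) (nat_lit 0x100a17) (nat_lit 5)))
 (.n (.p (nat_lit 0x481047702) (nat_lit 0x34c005) (nat_lit 16))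
 (.p (nat_lit 0x257e257c257a257825760003015007) (nat_lit 0x100415) (nat_lit 25))))))
 (.n (.n (.n (.n (.n (.p (nat_lit 0x394038902) (nat_lit 0x440000) (nat_lit 5))
 (.p (nat_lit 0x268d0baf02) (nat_lit 0x260000000500) (nat_lit 40)))
 (.p (nat_lit 0xd5223d02) (nat_lit 0x40307) (nat_lit 30)))
 (.n (.p (nat_lit 0x48c048a048804860484146b06) (nat_lit 0x10000042901) (nat_lit 52))
 (.p (nat_lit 0x606236f02) (nat_lit 0x340123) (nat_lit 29))))
 (.n (.n (.n (.p (nat_lit 0xfc60fc40fc00fbe0fbc0ddf06) (nat_lit 0x4000096700) (nat_lit 51))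
 (.p (nat_lit 0x148c288f02) (nat_lit 0x356221ca4000400000600) (nat_lit 49)))
 (.p (nat_lit 0xd0e077b02) (nat_lit 0x240515) (nat_lit 4)))
 (.n (.p (nat_lit 0xb92130902) (nat_lit 0x440404) (nat_lit 4))
 (.p (nat_lit 0x20c0207b02) (nat_lit 0x20072f) (nat_lit 5)))))
 (.n (.n (.n (.n (.p (nat_lit 0x99f07b302) (nat_lit 0x340300) (nat_lit 16))
 (.p (nat_lit 0x278f282502) (nat_lit 0x1400a0000900) (nat_lit 37)))
 (.p (nat_lit 0x1d810c3d02) (nat_lit 0x1050e) (nat_lit 16)))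
 (.n (.p (nat_lit 0x4621b7d02) (nat_lit 0x140003) (nat_lit 29))
 (.p (nat_lit 0x21c421a302) (nat_lit 0x100729) (nat_lit 4))))
 (.n (.n (.p (nat_lit 0x1565135d02) (nat_lit 0x50ea00) (nat_lit 16))
 (.p (nat_lit 0x1971043902) (nat_lit 0x24e01c) (nat_lit 16)))
 (.n (.p (nat_lit 0xbac0baa0ba60ba40ba210f706) (nat_lit 0x400004a705) (nat_lit 52))
 (.p (nat_lit 0x29602920290028c0257029b06) (nat_lit 0xc16a2d) (nat_lit 26))))))

def c256_138 : Tr :=
 .n (.n (.n (.n (.n (.n (.p (nat_lit 0x1d401d001ce01d704) (nat_lit 0x1600040001e) (nat_lit 17))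
 (.p (nat_lit 0x273527d302) (nat_lit 0xe0060000300) (nat_lit 37)))
 (.p (nat_lit 0x6fa02cd02) (nat_lit 0x300207) (nat_lit 4)))
 (.n (.p (nat_lit 0x11e811e611e411e211e0002f11eb07) (nat_lit 0x500801) (nat_lit 7))
 (.p (nat_lit 0x19e21ef02) (nat_lit 0x822) (nat_lit 1))))
 (.n (.n (.n (.p (nat_lit 0xe540e520e500e4e0e4c0e4a06) (nat_lit 0x40600) (nat_lit 2))
 (.p (nat_lit 0xf3a287502) (nat_lit 0x588872b44000100000600) (nat_lit 49)))
 (.p (nat_lit 0xa90229b02) (nat_lit 0x500415) (nat_lit 29)))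
 (.n (.p (nat_lit 0x17d4119d02) (nat_lit 0x340b03) (nat_lit 5))
 (.p (nat_lit 0x192c18e902) (nat_lit 0x54092b) (nat_lit 4)))))
 (.n (.n (.n (.n (.p (nat_lit 0x823081702) (nat_lit 0x100300) (nat_lit 34))
 (.p (nat_lit 0x28160fff02) (nat_lit 0x60014800) (nat_lit 48)))
 (.p (nat_lit 0xa840a820a800a7e0a7a01070a7d07) (nat_lit 0x10040e) (nat_lit 7)))
 (.n (.p (nat_lit 0xbb80bb40bb20bb00bae163306) (nat_lit 0x800004aa02) (nat_lit 51))
 (.p (nat_lit 0x1d01a1102) (nat_lit 0x340225) (nat_lit 1))))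
 (.n (.n (.p (nat_lit 0x13e413e213e013de1297129506) (nat_lit 0x180000c4900) (nat_lit 52))
 (.p (nat_lit 0x21041f8902) (nat_lit 0x40081a) (nat_lit 5)))
 (.n (.p (nat_lit 0x10090e4302) (nat_lit 0x200605) (nat_lit 15))
 (.p (nat_lit 0x20001fe01fa01f8021f000106) (nat_lit 0x180e123) (nat_lit 26))))))
 (.n (.n (.n (.n (.n (.p (nat_lit 0x53f034902) (nat_lit 0x20c100) (nat_lit 16))
 (.p (nat_lit 0x26bd0d5d02) (nat_lit 0x260020000600) (nat_lit 40)))
 (.p (nat_lit 0xf0b0ef302) (nat_lit 0x248607) (nat_lit 16)))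
 (.n (.p (nat_lit 0x19b619b419b219b019ae071d06) (nat_lit 0x10000094202) (nat_lit 52))
 (.p (nat_lit 0x1fb239102) (nat_lit 0x240623) (nat_lit 30))))
 (.n (.n (.n (.p (nat_lit 0x680fcb02) (nat_lit 0x100800) (nat_lit 1))
 (.p (nat_lit 0xf3e28b102) (nat_lit 0x350521a82800100000600) (nat_lit 49)))
 (.p (nat_lit 0x14d22ed02) (nat_lit 0x400915) (nat_lit 30)))
 (.n (.p (nat_lit 0x164c164a1648164416420f2306) (nat_lit 0x2000056604) (nat_lit 52))
 (.p (nat_lit 0xa5250102) (nat_lit 0x300305) (nat_lit 28)))))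
 (.n (.n (.n (.n (.p (nat_lit 0xaea0ae80ae60ae40ae2098d06) (nat_lit 0x800042400) (nat_lit 51))
 (.p (nat_lit 0x26f1283902) (nat_lit 0x220040000b00) (nat_lit 37)))
 (.p (nat_lit 0x1ca21ca01c9c1c9a1c981cb706) (nat_lit 0x400008a311) (nat_lit 52)))
 (.n (.p (nat_lit 0x1d141d101d0e1d0c1d0a0aa106) (nat_lit 0x8000016403) (nat_lit 52))
 (.p (nat_lit 0x7160caf02) (nat_lit 0x50022a) (nat_lit 5))))
 (.n (.n (.p (nat_lit 0x169616921690168e168c151b06) (nat_lit 0x8000090b00) (nat_lit 51))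
 (.p (nat_lit 0x10da088302) (nat_lit 0x54071c) (nat_lit 5)))
 (.n (.p (nat_lit 0x652173502) (nat_lit 0x440106) (nat_lit 5))
 (.p (nat_lit 0x26a927ad02) (nat_lit 0xa0000000100) (nat_lit 37))))))

def c128_10 : Tr := .n c256_10 c256_138

def c256_74 : Tr :=
 .n (.n (.n (.n (.n (.n (.p (nat_lit 0xc000be00ba00c704) (nat_lit 0x6800400006) (nat_lit 17))
 (.p (nat_lit 0x2759065d02) (nat_lit 0x1a0080000200) (nat_lit 38)))
 (.p (nat_lit 0x13a6169d02) (nat_lit 0x200906) (nat_lit 5)))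
 (.n (.p (nat_lit 0x64d061902) (nat_lit 0x54101) (nat_lit 16))
 (.p (nat_lit 0x1f381faf02) (nat_lit 0x40021) (nat_lit 5))))
 (.n (.n (.n (.p (nat_lit 0xd660d5b02) (nat_lit 0x600) (nat_lit 5))
 (.p (nat_lit 0x37e286502) (nat_lit 0x281d30346800000040000) (nat_lit 49)))
 (.p (nat_lit 0x59405920590058c0355035106) (nat_lit 0x2800086015) (nat_lit 51)))
 (.n (.p (nat_lit 0x1708119502) (nat_lit 0x500b03) (nat_lit 4))
 (.p (nat_lit 0x29e154d02) (nat_lit 0x500a2a) (nat_lit 1)))))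
 (.n (.n (.n (.n (.p (nat_lit 0x750074c074a074805f105e906) (nat_lit 0x88000c0200) (nat_lit 52))
 (.p (nat_lit 0x26d1281302) (nat_lit 0x120020000800) (nat_lit 37)))
 (.p (nat_lit 0x8e4049f02) (nat_lit 0x10030e) (nat_lit 4)))
 (.n (.p (nat_lit 0x13c413c013be13bc13ba156306) (nat_lit 0x8000092a02) (nat_lit 51))
 (.p (nat_lit 0x2402240023fe23fc23fa23f8021607) (nat_lit 0x40824) (nat_lit 8))))
 (.n (.n (.p (nat_lit 0x1350134e134a134611a911a506) (nat_lit 0x5000096900) (nat_lit 52))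
 (.p (nat_lit 0x1edc1e6702) (nat_lit 0x200519) (nat_lit 5)))
 (.n (.p (nat_lit 0x2004200220001ffc1ffa09c706) (nat_lit 0x200004e305) (nat_lit 52))
 (.p (nat_lit 0x19f25b702) (nat_lit 0x11c) (nat_lit 28))))))
 (.n (.n (.n (.n (.n (.p (nat_lit 0x346049302) (nat_lit 0x100100) (nat_lit 5))
 (.p (nat_lit 0x27ee0bb702) (nat_lit 0x80000500) (nat_lit 46)))
 (.p (nat_lit 0xca20ca00c9e0c9c0a730a6f06) (nat_lit 0x2800082407) (nat_lit 51)))
 (.n (.p (nat_lit 0x16220edb02) (nat_lit 0x240a01) (nat_lit 4))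
 (.p (nat_lit 0x842083e083c083a0838070906) (nat_lit 0x8000080223) (nat_lit 51))))
 (.n (.n (.n (.p (nat_lit 0x106e106c1068106610640ee906) (nat_lit 0x4000052700) (nat_lit 51))
 (.p (nat_lit 0x2b628a102) (nat_lit 0x340a621b0000000000000) (nat_lit 50)))
 (.p (nat_lit 0xe0622bf02) (nat_lit 0x500615) (nat_lit 29)))
 (.n (.p (nat_lit 0xf3e0f3c0f380f360e3d0e3706) (nat_lit 0x1200000e604) (nat_lit 52))
 (.p (nat_lit 0x70006e006a0068000700ed06) (nat_lit 0x1816003) (nat_lit 26)))))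
 (.n (.n (.n (.n (.p (nat_lit 0xa420a400a3e0a3c08d508d306) (nat_lit 0x18000012400) (nat_lit 51))
 (.p (nat_lit 0x2711282f02) (nat_lit 0x20040000a00) (nat_lit 36)))
 (.p (nat_lit 0x20f911bd02) (nat_lit 0x21480e) (nat_lit 16)))
 (.n (.p (nat_lit 0x1c3c1c3a1c381c361c341c3206) (nat_lit 0xca103) (nat_lit 52))
 (.p (nat_lit 0x53a0536053405320530025d053907) (nat_lit 0x40012a) (nat_lit 7))))
 (.n (.n (.p (nat_lit 0x15e015de15da15d81443143d06) (nat_lit 0x4800050a00) (nat_lit 52))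
 (.p (nat_lit 0xc54095702) (nat_lit 0x51c) (nat_lit 5)))
 (.n (.p (nat_lit 0x13441340133e133c133a11f506) (nat_lit 0x8000016805) (nat_lit 52))
 (.p (nat_lit 0x27a4053102) (nat_lit 0x8000) (nat_lit 47))))))

def c256_202 : Tr :=
 .n (.n (.n (.n (.n (.n (.p (nat_lit 0x2c402b902) (nat_lit 0x500000) (nat_lit 5))
 (.p (nat_lit 0x268d09d902) (nat_lit 0x260000000400) (nat_lit 40)))
 (.p (nat_lit 0x223a2238223622342232223000e007) (nat_lit 0x307) (nat_lit 8)))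
 (.n (.p (nat_lit 0x13920dc102) (nat_lit 0x400901) (nat_lit 4))
 (.p (nat_lit 0x607044702) (nat_lit 0x340023) (nat_lit 15))))
 (.n (.n (.n (.p (nat_lit 0xee50e6502) (nat_lit 0x140600) (nat_lit 15))
 (.p (nat_lit 0x12d0288102) (nat_lit 0x585a12b21000300000600) (nat_lit 49)))
 (.p (nat_lit 0xc4c22ad02) (nat_lit 0x200515) (nat_lit 29)))
 (.n (.p (nat_lit 0x479046d02) (nat_lit 0x456004) (nat_lit 16))
 (.p (nat_lit 0x1c761d7502) (nat_lit 0x22d) (nat_lit 4)))))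
 (.n (.n (.n (.n (.p (nat_lit 0x8e106f302) (nat_lit 0x500300) (nat_lit 16))
 (.p (nat_lit 0x2711281f02) (nat_lit 0x20040000900) (nat_lit 36)))
 (.p (nat_lit 0xb6404cb02) (nat_lit 0x54040e) (nat_lit 5)))
 (.n (.p (nat_lit 0xdce0dcc0dca0dc60dc416f706) (nat_lit 0x2000092b02) (nat_lit 51))
 (.p (nat_lit 0x1dfa1d1502) (nat_lit 0x500b26) (nat_lit 4))))
 (.n (.n (.p (nat_lit 0x135c148f02) (nat_lit 0x500a00) (nat_lit 4))
 (.p (nat_lit 0x1f33036302) (nat_lit 0x31401c) (nat_lit 16)))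
 (.n (.p (nat_lit 0xaba0ab80ab60ab40ab0100706) (nat_lit 0x1000088705) (nat_lit 52))
 (.p (nat_lit 0x240023e023c02380249029f06) (nat_lit 0xd0c028) (nat_lit 26))))))
 (.n (.n (.n (.n (.n (.p (nat_lit 0x61d042102) (nat_lit 0x24c100) (nat_lit 16))
 (.p (nat_lit 0x26c5280102) (nat_lit 0x1e0020000700) (nat_lit 36)))
 (.p (nat_lit 0x1786033b02) (nat_lit 0x140b07) (nat_lit 5)))
 (.n (.p (nat_lit 0xd34105f02) (nat_lit 0x340502) (nat_lit 4))
 (.p (nat_lit 0x1385137902) (nat_lit 0x300923) (nat_lit 16))))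
 (.n (.n (.n (.p (nat_lit 0x11eb0fd302) (nat_lit 0x50c800) (nat_lit 16))
 (.p (nat_lit 0x13c028bf02) (nat_lit 0x3503a8d84000300040600) (nat_lit 50)))
 (.p (nat_lit 0x189c183b02) (nat_lit 0x416) (nat_lit 4)))
 (.n (.p (nat_lit 0x170c1f1902) (nat_lit 0x100b04) (nat_lit 29))
 (.p (nat_lit 0xf400f200ee00ec00df012506) (nat_lit 0x2a1620a) (nat_lit 26)))))
 (.n (.n (.n (.n (.p (nat_lit 0xbb40ba80a6903) (nat_lit 0x300500) (nat_lit 6))
 (.p (nat_lit 0xd4e284502) (nat_lit 0x4a1a22344000000000600) (nat_lit 49)))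
 (.p (nat_lit 0x1d9c227302) (nat_lit 0x340511) (nat_lit 29)))
 (.n (.p (nat_lit 0xe30116702) (nat_lit 0x500603) (nat_lit 5))
 (.p (nat_lit 0x2ac02aa02a802a602a407d106) (nat_lit 0x80004022a) (nat_lit 52))))
 (.n (.n (.p (nat_lit 0xc415f902) (nat_lit 0x540b00) (nat_lit 1))
 (.p (nat_lit 0x1541153502) (nat_lit 0x50aa1c) (nat_lit 16)))
 (.n (.p (nat_lit 0x1104175302) (nat_lit 0x540706) (nat_lit 5))
 (.p (nat_lit 0x27b206fb02) (nat_lit 0x6000a100) (nat_lit 47))))))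

def c128_74 : Tr := .n c256_74 c256_202

def c64_10 : Tr := .n c128_10 c128_74

def c256_42 : Tr :=
 .n (.n (.n (.n (.n (.n (.p (nat_lit 0x6e00680066007304) (nat_lit 0x9800400003) (nat_lit 17))
 (.p (nat_lit 0x26ed27c102) (nat_lit 0x260040000200) (nat_lit 36)))
 (.p (nat_lit 0x9e209dc09da09d812cd12cb06) (nat_lit 0xc000048806) (nat_lit 51)))
 (.n (.p (nat_lit 0x5400e7d02) (nat_lit 0x300101) (nat_lit 5))
 (.p (nat_lit 0x1d121d101d0e1d0c1d0a1d9506) (nat_lit 0x1000001651f) (nat_lit 52))))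
 (.n (.n (.n (.p (nat_lit 0xcd00cce0ccc0cc80cc60b4706) (nat_lit 0x20000c6500) (nat_lit 52))
 (.p (nat_lit 0x111a285b02) (nat_lit 0x281d30344000200000600) (nat_lit 50)))
 (.p (nat_lit 0x4be04bc04b804b604b421e906) (nat_lit 0x4000008814) (nat_lit 52)))
 (.n (.p (nat_lit 0x13fe13fc13fa13f613f4163b06) (nat_lit 0x200004ca03) (nat_lit 51))
 (.p (nat_lit 0xe240c0b02) (nat_lit 0x50062a) (nat_lit 4)))))
 (.n (.n (.n (.n (.p (nat_lit 0x715051502) (nat_lit 0x40a200) (nat_lit 16))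
 (.p (nat_lit 0x26a9111302) (nat_lit 0xa0000000800) (nat_lit 40)))
 (.p (nat_lit 0x1e001ba302) (nat_lit 0x240b0a) (nat_lit 4)))
 (.n (.p (nat_lit 0x66a0668066606640660155d06) (nat_lit 0x1000004a02) (nat_lit 51))
 (.p (nat_lit 0x1834187902) (nat_lit 0x340124) (nat_lit 5))))
 (.n (.n (.p (nat_lit 0x8011a702) (nat_lit 0x200900) (nat_lit 1))
 (.p (nat_lit 0x1bac1c9102) (nat_lit 0x240018) (nat_lit 4)))
 (.n (.p (nat_lit 0x902159f02) (nat_lit 0x305) (nat_lit 4))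
 (.p (nat_lit 0x259e259c259a259825960087015007) (nat_lit 0x50a915) (nat_lit 25))))))
 (.n (.n (.n (.n (.n (.p (nat_lit 0x425039502) (nat_lit 0x440000) (nat_lit 15))
 (.p (nat_lit 0x26e50bb302) (nat_lit 0x2e0040000500) (nat_lit 40)))
 (.p (nat_lit 0x120e120c120a1204099d099b06) (nat_lit 0x30000d0307) (nat_lit 52)))
 (.n (.p (nat_lit 0x147d146502) (nat_lit 0x254901) (nat_lit 16))
 (.p (nat_lit 0x12181216121412121210060b06) (nat_lit 0x100000d0123) (nat_lit 51))))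
 (.n (.n (.n (.p (nat_lit 0x3e0ee302) (nat_lit 0x40700) (nat_lit 1))
 (.p (nat_lit 0x1206289702) (nat_lit 0x344580ca4000200040600) (nat_lit 49)))
 (.p (nat_lit 0x1032102e102c102a10280d1306) (nat_lit 0x80000ce515) (nat_lit 51)))
 (.n (.p (nat_lit 0x8a0095009713fd131505) (nat_lit 0xa5400604) (nat_lit 9))
 (.p (nat_lit 0x4324a102) (nat_lit 0x200402) (nat_lit 28)))))
 (.n (.n (.n (.n (.p (nat_lit 0x9df09d302) (nat_lit 0x300400) (nat_lit 34))
 (.p (nat_lit 0x2689149102) (nat_lit 0x2a0000000a00) (nat_lit 40)))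
 (.p (nat_lit 0xfde04e502) (nat_lit 0x20070e) (nat_lit 4)))
 (.n (.p (nat_lit 0x711bbf02) (nat_lit 0x500103) (nat_lit 30))
 (.p (nat_lit 0xad20ad00acc0aca0ac821ff06) (nat_lit 0x4000000829) (nat_lit 51))))
 (.n (.n (.p (nat_lit 0xa8144702) (nat_lit 0x540a00) (nat_lit 1))
 (.p (nat_lit 0x790078e078c078a051f051906) (nat_lit 0x480008e11c) (nat_lit 52)))
 (.n (.p (nat_lit 0x9f20e902) (nat_lit 0x805) (nat_lit 30))
 (.p (nat_lit 0x269d037502) (nat_lit 0x160000000000) (nat_lit 39))))))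

def c256_170 : Tr :=
 .n (.n (.n (.n (.n (.n (.p (nat_lit 0x26d0267026203) (nat_lit 0x2100002a) (nat_lit 19))
 (.p (nat_lit 0x274b081d02) (nat_lit 0x280080000300) (nat_lit 38)))
 (.p (nat_lit 0x7bc03a302) (nat_lit 0x240207) (nat_lit 5)))
 (.n (.p (nat_lit 0x103c103a10381036103412b106) (nat_lit 0x20000c0801) (nat_lit 52))
 (.p (nat_lit 0xcc40cc20cc00cbc0371036b06) (nat_lit 0x9000006023) (nat_lit 52))))
 (.n (.n (.n (.p (nat_lit 0xe6a0e680e660e640014000b00010e6d0e6309) (nat_lit 0x2840600) (nat_lit 10))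
 (.p (nat_lit 0xbaa287902) (nat_lit 0x588bb0344000500000000) (nat_lit 49)))
 (.p (nat_lit 0x1a60b6f02) (nat_lit 0x440415) (nat_lit 1)))
 (.n (.p (nat_lit 0x10321030102e102a102817d306) (nat_lit 0x20000ceb03) (nat_lit 51))
 (.p (nat_lit 0x1b021a9d02) (nat_lit 0x200a2c) (nat_lit 5)))))
 (.n (.n (.n (.n (.p (nat_lit 0x83e083c083a083806f306f106) (nat_lit 0x18000080300) (nat_lit 51))
 (.p (nat_lit 0x26ab281902) (nat_lit 0x80000000900) (nat_lit 36)))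
 (.p (nat_lit 0x111c11181116111411120a8306) (nat_lit 0x800001040e) (nat_lit 51)))
 (.n (.p (nat_lit 0x16f20fb102) (nat_lit 0xb02) (nat_lit 5))
 (.p (nat_lit 0x127e127c127a127812741bf706) (nat_lit 0x1000016126) (nat_lit 51))))
 (.n (.n (.p (nat_lit 0x1445129502) (nat_lit 0x440900) (nat_lit 15))
 (.p (nat_lit 0xe540e520e500e4a0361035f06) (nat_lit 0x300008c01c) (nat_lit 52)))
 (.n (.p (nat_lit 0x100415bf02) (nat_lit 0x705) (nat_lit 5))
 (.p (nat_lit 0x1fd262d02) (nat_lit 0x300b23) (nat_lit 28))))))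
 (.n (.n (.n (.n (.n (.p (nat_lit 0x58805860580057e0423042106) (nat_lit 0x6000046100) (nat_lit 51))
 (.p (nat_lit 0x26b127fd02) (nat_lit 0x20000000700) (nat_lit 37)))
 (.p (nat_lit 0x100160302) (nat_lit 0x440a07) (nat_lit 1)))
 (.n (.p (nat_lit 0x7f507e902) (nat_lit 0x252202) (nat_lit 16))
 (.p (nat_lit 0x12a023a502) (nat_lit 0x40823) (nat_lit 29))))
 (.n (.n (.n (.p (nat_lit 0x117c117a117611740fcf0fc906) (nat_lit 0x4800014800) (nat_lit 52))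
 (.p (nat_lit 0xbb50ba709e109d70821081b06650657049b048d02b102a328b60d) (nat_lit 0x352868d84000000000000) (nat_lit 33)))
 (.p (nat_lit 0x1522079f02) (nat_lit 0x200a15) (nat_lit 5)))
 (.n (.p (nat_lit 0x6a10e902) (nat_lit 0x240704) (nat_lit 1))
 (.p (nat_lit 0x25182516251425122510000300aa07) (nat_lit 0x10c805) (nat_lit 25)))))
 (.n (.n (.n (.n (.p (nat_lit 0xb63099502) (nat_lit 0x442400) (nat_lit 16))
 (.p (nat_lit 0x2795172102) (nat_lit 0xe00a0000b00) (nat_lit 39)))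
 (.p (nat_lit 0x6e1d5f02) (nat_lit 0x440411) (nat_lit 1)))
 (.n (.p (nat_lit 0xc6e114b02) (nat_lit 0x200503) (nat_lit 4))
 (.p (nat_lit 0x13b813b413b213b013ae071506) (nat_lit 0x800009222a) (nat_lit 52))))
 (.n (.n (.p (nat_lit 0x1703151702) (nat_lit 0x210b00) (nat_lit 16))
 (.p (nat_lit 0x152a096f02) (nat_lit 0xa1c) (nat_lit 5)))
 (.n (.p (nat_lit 0x101a167502) (nat_lit 0x500706) (nat_lit 4))
 (.p (nat_lit 0x26e9057702) (nat_lit 0x2a0040000100) (nat_lit 41))))))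

def c128_42 : Tr := .n c256_42 c256_170

def c256_106 : Tr :=
 .n (.n (.n (.n (.n (.n (.p (nat_lit 0x14e014c0144015104) (nat_lit 0x18800400015) (nat_lit 17))
 (.p (nat_lit 0x26cb27cb02) (nat_lit 0x180020000300) (nat_lit 37)))
 (.p (nat_lit 0x147e177f02) (nat_lit 0x340906) (nat_lit 4)))
 (.n (.p (nat_lit 0x2718c902) (nat_lit 0x100501) (nat_lit 30))
 (.p (nat_lit 0x20b020ac20aa20a820a601e320af07) (nat_lit 0x400721) (nat_lit 7))))
 (.n (.n (.n (.p (nat_lit 0xddb0d6902) (nat_lit 0x100600) (nat_lit 15))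
 (.p (nat_lit 0xab6286b02) (nat_lit 0x281d30342800400040000) (nat_lit 49)))
 (.p (nat_lit 0x586058405820580057e043306) (nat_lit 0x10000046015) (nat_lit 51)))
 (.n (.p (nat_lit 0xf3e0f3c0f3a0f380f36170906) (nat_lit 0x1000000eb03) (nat_lit 52))
 (.p (nat_lit 0x16ec0c2d02) (nat_lit 0x300b2a) (nat_lit 4)))))
 (.n (.n (.n (.n (.p (nat_lit 0x7c705eb02) (nat_lit 0x148200) (nat_lit 16))
 (.p (nat_lit 0x26ed281502) (nat_lit 0x260040000800) (nat_lit 36)))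
 (.p (nat_lit 0x1cb108e302) (nat_lit 0x1030e) (nat_lit 16)))
 (.n (.p (nat_lit 0x471b1302) (nat_lit 0x440a02) (nat_lit 30))
 (.p (nat_lit 0x1944188d02) (nat_lit 0x200a24) (nat_lit 4))))
 (.n (.n (.p (nat_lit 0x7c128d02) (nat_lit 0x40900) (nat_lit 1))
 (.p (nat_lit 0x1f041e4102) (nat_lit 0x619) (nat_lit 5)))
 (.n (.p (nat_lit 0xd4c14c902) (nat_lit 0x540505) (nat_lit 4))
 (.p (nat_lit 0x25e825e625e425e225e0028901d607) (nat_lit 0x50051e) (nat_lit 25))))))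
 (.n (.n (.n (.n (.n (.p (nat_lit 0x4ca04c804c604c204c0034906) (nat_lit 0x2000088100) (nat_lit 51))
 (.p (nat_lit 0x269327f502) (nat_lit 0x200000000600) (nat_lit 36)))
 (.p (nat_lit 0xc980c960c920c8e0b550b5106) (nat_lit 0x5000042407) (nat_lit 51)))
 (.n (.p (nat_lit 0x624103f02) (nat_lit 0x40102) (nat_lit 4))
 (.p (nat_lit 0x960095c095a095807cd07c506) (nat_lit 0x880004a223) (nat_lit 51))))
 (.n (.n (.n (.p (nat_lit 0x10b10ee702) (nat_lit 0x240700) (nat_lit 15))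
 (.p (nat_lit 0x12e628a902) (nat_lit 0x350521a84000300000600) (nat_lit 50)))
 (.p (nat_lit 0x19ea19e819e619e419e210cb06) (nat_lit 0x10000ca715) (nat_lit 52)))
 (.n (.p (nat_lit 0x2ac02aa02a802a602a40f1f06) (nat_lit 0x800040604) (nat_lit 52))
 (.p (nat_lit 0x7124e502) (nat_lit 0x500a03) (nat_lit 28)))))
 (.n (.n (.n (.n (.p (nat_lit 0xaa508cb02) (nat_lit 0x16400) (nat_lit 16))
 (.p (nat_lit 0x26b3283702) (nat_lit 0xb00) (nat_lit 37)))
 (.p (nat_lit 0x18fe17ed02) (nat_lit 0x40090f) (nat_lit 4)))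
 (.n (.p (nat_lit 0x1ca707f302) (nat_lit 0x140203) (nat_lit 16))
 (.p (nat_lit 0x612244702) (nat_lit 0x34012a) (nat_lit 29))))
 (.n (.n (.p (nat_lit 0x163f144502) (nat_lit 0x450a00) (nat_lit 16))
 (.p (nat_lit 0xd18086b02) (nat_lit 0x14051c) (nat_lit 4)))
 (.n (.p (nat_lit 0x8412c102) (nat_lit 0x440805) (nat_lit 1))
 (.p (nat_lit 0x27a60c3f02) (nat_lit 0x20004000) (nat_lit 48))))))

def c256_234 : Tr :=
 .n (.n (.n (.n (.n (.n (.p (nat_lit 0x33803360334033202c302bb06) (nat_lit 0x8800016000) (nat_lit 51))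
 (.p (nat_lit 0x270d27db02) (nat_lit 0x60040000400) (nat_lit 36)))
 (.p (nat_lit 0x10321030102e102a102808db06) (nat_lit 0x200008e307) (nat_lit 51)))
 (.n (.p (nat_lit 0x1720171e171c17181716138f06) (nat_lit 0x2000096901) (nat_lit 52))
 (.p (nat_lit 0xf3e0f3c0f3a0f380f36052f06) (nat_lit 0x1000000e123) (nat_lit 52))))
 (.n (.n (.n (.p (nat_lit 0xdde0f3d02) (nat_lit 0x300700) (nat_lit 4))
 (.p (nat_lit 0x374288b02) (nat_lit 0x342221ca4000000040000) (nat_lit 49)))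
 (.p (nat_lit 0xe540e520e4e0e4c0e4a0c4f06) (nat_lit 0x400008c515) (nat_lit 52)))
 (.n (.p (nat_lit 0x8021e5d02) (nat_lit 0x340204) (nat_lit 29))
 (.p (nat_lit 0x1e8a1ed702) (nat_lit 0x54022e) (nat_lit 5)))))
 (.n (.n (.n (.n (.p (nat_lit 0x925091902) (nat_lit 0x540300) (nat_lit 34))
 (.p (nat_lit 0x273d12d702) (nat_lit 0x60060000900) (nat_lit 38)))
 (.p (nat_lit 0xd090b6502) (nat_lit 0x54040e) (nat_lit 15)))
 (.n (.p (nat_lit 0x17cc0fc702) (nat_lit 0x540b02) (nat_lit 5))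
 (.p (nat_lit 0x2094241d02) (nat_lit 0x628) (nat_lit 29))))
 (.n (.n (.p (nat_lit 0x1504150014fe14fa135b135506) (nat_lit 0x9000010a00) (nat_lit 51))
 (.p (nat_lit 0x8280826082408220820043f06) (nat_lit 0x1000004601c) (nat_lit 51)))
 (.n (.p (nat_lit 0x10f620cd02) (nat_lit 0x340705) (nat_lit 29))
 (.p (nat_lit 0x25e025c0256025401fb000706) (nat_lit 0x130622a) (nat_lit 26))))))
 (.n (.n (.n (.n (.n (.p (nat_lit 0x665065902) (nat_lit 0x200200) (nat_lit 34))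
 (.p (nat_lit 0x26e5280302) (nat_lit 0x2e0040000700) (nat_lit 37)))
 (.p (nat_lit 0x1a34196902) (nat_lit 0x400309) (nat_lit 5)))
 (.n (.p (nat_lit 0x119411921190118e118a139906) (nat_lit 0x1000016902) (nat_lit 52))
 (.p (nat_lit 0x16dc23cb02) (nat_lit 0x100b23) (nat_lit 29))))
 (.n (.n (.n (.p (nat_lit 0x1219120d02) (nat_lit 0x440800) (nat_lit 34))
 (.p (nat_lit 0xf4c28c702) (nat_lit 0x3508a9d84000100000600) (nat_lit 50)))
 (.p (nat_lit 0x1aae19a302) (nat_lit 0x500517) (nat_lit 4)))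
 (.n (.p (nat_lit 0x17e417e217e017de17dc007d17db07) (nat_lit 0x40b04) (nat_lit 7))
 (.p (nat_lit 0x10d255d02) (nat_lit 0x40080e) (nat_lit 28)))))
 (.n (.n (.n (.n (.p (nat_lit 0xbe40be20be00bde0bdc0a6d06) (nat_lit 0x10000084500) (nat_lit 51))
 (.p (nat_lit 0xab6284902) (nat_lit 0x4a1a36344000400040000) (nat_lit 49)))
 (.p (nat_lit 0x5940592058e058c058a1deb06) (nat_lit 0x4000086b11) (nat_lit 51)))
 (.n (.p (nat_lit 0xf1c117102) (nat_lit 0x540603) (nat_lit 5))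
 (.p (nat_lit 0x149a149614941492149007d906) (nat_lit 0x800005422a) (nat_lit 51))))
 (.n (.n (.p (nat_lit 0x1776177417721770176c15f106) (nat_lit 0x1000052b00) (nat_lit 52))
 (.p (nat_lit 0x17a408c502) (nat_lit 0x340b1c) (nat_lit 4)))
 (.n (.p (nat_lit 0x66a066806660664066011fb06) (nat_lit 0x1000004806) (nat_lit 51))
 (.p (nat_lit 0x26b127b902) (nat_lit 0x20000000200) (nat_lit 37))))))

def c128_106 : Tr := .n c256_106 c256_234

def c64_42 : Tr := .n c128_42 c128_106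

def c32_10 : Tr := .n c64_10 c64_42

def c256_26 : Tr :=
 .n (.n (.n (.n (.n (.n (.p (nat_lit 0x440042004d03) (nat_lit 0x6000500002) (nat_lit 17))
 (.p (nat_lit 0x26cf066302) (nat_lit 0x140020000200) (nat_lit 40)))
 (.p (nat_lit 0x2ac02a802a602a402a212cd06) (nat_lit 0x8000040806) (nat_lit 52)))
 (.n (.p (nat_lit 0x44e0d7502) (nat_lit 0x140001) (nat_lit 5))
 (.p (nat_lit 0x9540950094e094c094a1afb06) (nat_lit 0x8000082a1e) (nat_lit 52))))
 (.n (.n (.n (.p (nat_lit 0xb4a0c8b02) (nat_lit 0x440500) (nat_lit 5))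
 (.p (nat_lit 0xd4e285902) (nat_lit 0x4a8874b44000000000600) (nat_lit 49)))
 (.p (nat_lit 0x21b8212f02) (nat_lit 0x40414) (nat_lit 5)))
 (.n (.p (nat_lit 0x163a1dc502) (nat_lit 0x240a03) (nat_lit 29))
 (.p (nat_lit 0x9ba0bff02) (nat_lit 0x54032a) (nat_lit 5)))))
 (.n (.n (.n (.n (.p (nat_lit 0x6eb050f02) (nat_lit 0x100200) (nat_lit 15))
 (.p (nat_lit 0x2783280b02) (nat_lit 0x2000a0000700) (nat_lit 36)))
 (.p (nat_lit 0x1d501b5f02) (nat_lit 0x14040a) (nat_lit 5)))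
 (.n (.p (nat_lit 0x15620fa102) (nat_lit 0x400a02) (nat_lit 4))
 (.p (nat_lit 0x180c186f02) (nat_lit 0x300124) (nat_lit 4))))
 (.n (.n (.p (nat_lit 0x12bb10af02) (nat_lit 0x154800) (nat_lit 16))
 (.p (nat_lit 0x1b1c1a0502) (nat_lit 0x340a17) (nat_lit 5)))
 (.n (.p (nat_lit 0x80a159502) (nat_lit 0x140205) (nat_lit 4))
 (.p (nat_lit 0x17a258d02) (nat_lit 0x100815) (nat_lit 27))))))
 (.n (.n (.n (.n (.n (.p (nat_lit 0x3cc03ca03c803c40391038d06) (nat_lit 0x2800048000) (nat_lit 52))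
 (.p (nat_lit 0x26cf27e702) (nat_lit 0x140020000500) (nat_lit 36)))
 (.p (nat_lit 0x9a2224702) (nat_lit 0x540307) (nat_lit 29)))
 (.n (.p (nat_lit 0x1110110e110c110a1106146306) (nat_lit 0x1000050901) (nat_lit 52))
 (.p (nat_lit 0x82a0828082608240820060306) (nat_lit 0x1000046123) (nat_lit 51))))
 (.n (.n (.n (.p (nat_lit 0xff10ddd02) (nat_lit 0x208700) (nat_lit 16))
 (.p (nat_lit 0xd4e289502) (nat_lit 0x356068ca4000000000600) (nat_lit 49)))
 (.p (nat_lit 0x57c057a0576057405720d1106) (nat_lit 0x40000c2515) (nat_lit 51)))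
 (.n (.p (nat_lit 0xe321ef902) (nat_lit 0x604) (nat_lit 29))
 (.p (nat_lit 0x27248b02) (nat_lit 0x100501) (nat_lit 28)))))
 (.n (.n (.n (.n (.p (nat_lit 0x1f608cb02) (nat_lit 0x400) (nat_lit 1))
 (.p (nat_lit 0x26ab282702) (nat_lit 0x80000000a00) (nat_lit 36)))
 (.p (nat_lit 0x3260324032203200d070d0106) (nat_lit 0x900005050e) (nat_lit 52)))
 (.n (.p (nat_lit 0x54a121d02) (nat_lit 0x200103) (nat_lit 4))
 (.p (nat_lit 0x251243302) (nat_lit 0x500729) (nat_lit 30))))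
 (.n (.n (.p (nat_lit 0x1581157502) (nat_lit 0x140a00) (nat_lit 34))
 (.p (nat_lit 0x51e232702) (nat_lit 0x30011c) (nat_lit 29)))
 (.n (.p (nat_lit 0x157c157a15761574157210f706) (nat_lit 0x40000d4705) (nat_lit 52))
 (.p (nat_lit 0x26ad038102) (nat_lit 0x60000000000) (nat_lit 41))))))

def c256_154 : Tr :=
 .n (.n (.n (.n (.n (.n (.p (nat_lit 0x22b0229022603) (nat_lit 0x2c00025) (nat_lit 19))
 (.p (nat_lit 0x2725082702) (nat_lit 0x1e0060000300) (nat_lit 40)))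
 (.p (nat_lit 0x5ac05aa05a805a405a206f906) (nat_lit 0x2000088207) (nat_lit 52)))
 (.n (.p (nat_lit 0x12b612b412b212b012ae002512ad07) (nat_lit 0x40801) (nat_lit 7))
 (.p (nat_lit 0x36c0acd02) (nat_lit 0x200023) (nat_lit 5))))
 (.n (.n (.n (.p (nat_lit 0x2a0e6902) (nat_lit 0x340600) (nat_lit 1))
 (.p (nat_lit 0x12d6287702) (nat_lit 0x568872b44000300000600) (nat_lit 49)))
 (.p (nat_lit 0xb66068d02) (nat_lit 0x40415) (nat_lit 4)))
 (.n (.p (nat_lit 0x66a066806660664066017d106) (nat_lit 0x1000044b03) (nat_lit 51))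
 (.p (nat_lit 0x1a1c1abf02) (nat_lit 0x34022c) (nat_lit 4)))))
 (.n (.n (.n (.n (.p (nat_lit 0x6f2082b02) (nat_lit 0x500300) (nat_lit 5))
 (.p (nat_lit 0x275f111b02) (nat_lit 0x140080000800) (nat_lit 40)))
 (.p (nat_lit 0x82a08280826082408220a7b06) (nat_lit 0x80000640e) (nat_lit 51)))
 (.n (.p (nat_lit 0x12da12d812d412d212d0163106) (nat_lit 0x4000052a02) (nat_lit 52))
 (.p (nat_lit 0x1b2c1a6302) (nat_lit 0x540a25) (nat_lit 4))))
 (.n (.n (.p (nat_lit 0x141614121410140e140c129506) (nat_lit 0x800004e900) (nat_lit 52))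
 (.p (nat_lit 0x36603620360035e035c01a7036507) (nat_lit 0x40001c) (nat_lit 7)))
 (.n (.p (nat_lit 0xa520a102) (nat_lit 0x340605) (nat_lit 30))
 (.p (nat_lit 0x214261b02) (nat_lit 0x500623) (nat_lit 27))))))
 (.n (.n (.n (.n (.n (.p (nat_lit 0x575056902) (nat_lit 0x140100) (nat_lit 34))
 (.p (nat_lit 0x272527fb02) (nat_lit 0x1e0060000600) (nat_lit 36)))
 (.p (nat_lit 0x11b003f702) (nat_lit 0x200807) (nat_lit 5)))
 (.n (.p (nat_lit 0x7ec0f6902) (nat_lit 0x440202) (nat_lit 4))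
 (.p (nat_lit 0x11db0fef02) (nat_lit 0x100723) (nat_lit 15))))
 (.n (.n (.n (.p (nat_lit 0x700fd302) (nat_lit 0x500800) (nat_lit 1))
 (.p (nat_lit 0x12d628b302) (nat_lit 0x352868d84000300000600) (nat_lit 49)))
 (.p (nat_lit 0x145006d302) (nat_lit 0x440915) (nat_lit 4)))
 (.n (.p (nat_lit 0x1000132b02) (nat_lit 0x400704) (nat_lit 5))
 (.p (nat_lit 0xc4250f02) (nat_lit 0x500605) (nat_lit 27)))))
 (.n (.n (.n (.n (.p (nat_lit 0xb200b1e0b1c0b1a0995098f06) (nat_lit 0x90000ce400) (nat_lit 52))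
 (.p (nat_lit 0x2723172902) (nat_lit 0x200060000b00) (nat_lit 41)))
 (.p (nat_lit 0x1d201c1d02) (nat_lit 0x500411) (nat_lit 5)))
 (.n (.p (nat_lit 0xb86124302) (nat_lit 0x440403) (nat_lit 5))
 (.p (nat_lit 0xc8c0c880c840c820715071106) (nat_lit 0xa00008a22a) (nat_lit 51))))
 (.n (.n (.p (nat_lit 0x16cb151b02) (nat_lit 0x404b00) (nat_lit 16))
 (.p (nat_lit 0x136a089102) (nat_lit 0x20091c) (nat_lit 4)))
 (.n (.p (nat_lit 0x218a21882186218421820aaf06) (nat_lit 0x1000000e406) (nat_lit 51))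
 (.p (nat_lit 0x270b27b102) (nat_lit 0x80040000100) (nat_lit 37))))))

def c128_26 : Tr := .n c256_26 c256_154

def c256_90 : Tr :=
 .n (.n (.n (.n (.n (.n (.p (nat_lit 0x10e010c0106011104) (nat_lit 0x1900040000e) (nat_lit 17))
 (.p (nat_lit 0x26af081502) (nat_lit 0x40000000300) (nat_lit 38)))
 (.p (nat_lit 0x15c615c415c215c015be13ad06) (nat_lit 0x1000000e906) (nat_lit 51)))
 (.n (.p (nat_lit 0xa980d9302) (nat_lit 0x300401) (nat_lit 5))
 (.p (nat_lit 0x1f421fb702) (nat_lit 0x540021) (nat_lit 5))))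
 (.n (.n (.n (.p (nat_lit 0xd8c0d8a0d880d860d710d6706) (nat_lit 0x10800082600) (nat_lit 52))
 (.p (nat_lit 0x121a286702) (nat_lit 0x1a2274b50000200040600) (nat_lit 50)))
 (.p (nat_lit 0x4320430042e042a04280149042d07) (nat_lit 0x240015) (nat_lit 7)))
 (.n (.p (nat_lit 0x82a082808260824082216ff06) (nat_lit 0x800006b03) (nat_lit 51))
 (.p (nat_lit 0x161a1618161616141612025f161d07) (nat_lit 0x540a2a) (nat_lit 7)))))
 (.n (.n (.n (.n (.p (nat_lit 0x780077e0778077605ef05ed06) (nat_lit 0x60000ca200) (nat_lit 52))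
 (.p (nat_lit 0x2810146f02) (nat_lit 0x2004c800) (nat_lit 48)))
 (.p (nat_lit 0x8ec04a702) (nat_lit 0x50030e) (nat_lit 4)))
 (.n (.p (nat_lit 0x162a108902) (nat_lit 0x40a02) (nat_lit 4))
 (.p (nat_lit 0x191619141910190e190c0211191307) (nat_lit 0x300924) (nat_lit 7))))
 (.n (.n (.p (nat_lit 0x137f11a302) (nat_lit 0xa900) (nat_lit 16))
 (.p (nat_lit 0x1eec1e6f02) (nat_lit 0x40519) (nat_lit 4)))
 (.n (.p (nat_lit 0xba0202302) (nat_lit 0x540405) (nat_lit 29))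
 (.p (nat_lit 0x1d225d302) (nat_lit 0x40071c) (nat_lit 27))))))
 (.n (.n (.n (.n (.n (.p (nat_lit 0x499048d02) (nat_lit 0x400100) (nat_lit 34))
 (.p (nat_lit 0x26af0e5702) (nat_lit 0x40000000600) (nat_lit 41)))
 (.p (nat_lit 0xb4e030302) (nat_lit 0x40407) (nat_lit 5)))
 (.n (.p (nat_lit 0x17821780177e177a1778162306) (nat_lit 0x20000d2a01) (nat_lit 52))
 (.p (nat_lit 0x7ca0b0b02) (nat_lit 0x340223) (nat_lit 4))))
 (.n (.n (.n (.p (nat_lit 0x1092108e108a10880eeb0ee706) (nat_lit 0xa0000d4700) (nat_lit 52))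
 (.p (nat_lit 0x73028a302) (nat_lit 0x350521a84000200040000) (nat_lit 50)))
 (.p (nat_lit 0xfec22cb02) (nat_lit 0x500715) (nat_lit 29)))
 (.n (.p (nat_lit 0xf1e140102) (nat_lit 0x40604) (nat_lit 4))
 (.p (nat_lit 0x70006e006800660005023106) (nat_lit 0x1316403) (nat_lit 26)))))
 (.n (.n (.n (.n (.p (nat_lit 0xa7708d302) (nat_lit 0x400400) (nat_lit 16))
 (.p (nat_lit 0x282e1f5b02) (nat_lit 0x40048a00) (nat_lit 48)))
 (.p (nat_lit 0x1de916bf02) (nat_lit 0x210b0e) (nat_lit 16)))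
 (.n (.p (nat_lit 0x7f2123302) (nat_lit 0x140203) (nat_lit 4))
 (.p (nat_lit 0x30c030a030603020537053306) (nat_lit 0x500008812a) (nat_lit 51))))
 (.n (.n (.p (nat_lit 0x1603144502) (nat_lit 0x440a00) (nat_lit 16))
 (.p (nat_lit 0xc5c0c5a0c580c5601b401a9019f0c5f0c5509) (nat_lit 0x280051c) (nat_lit 10)))
 (.n (.p (nat_lit 0x12b8210902) (nat_lit 0x40805) (nat_lit 29))
 (.p (nat_lit 0x26c302b102) (nat_lit 0x200020000000) (nat_lit 40))))))

def c256_218 : Tr :=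
 .n (.n (.n (.n (.n (.n (.p (nat_lit 0x2e802e602e402e202bd02bb06) (nat_lit 0x1800006000) (nat_lit 52))
 (.p (nat_lit 0x27d40d1702) (nat_lit 0x44400) (nat_lit 48)))
 (.p (nat_lit 0x8de223902) (nat_lit 0x400307) (nat_lit 29)))
 (.n (.p (nat_lit 0x82a0828082408220820139106) (nat_lit 0x4000006901) (nat_lit 51))
 (.p (nat_lit 0x2b802b402b202b002ae052d06) (nat_lit 0x8000000123) (nat_lit 51))))
 (.n (.n (.n (.p (nat_lit 0xf1f0e6302) (nat_lit 0x52600) (nat_lit 16))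
 (.p (nat_lit 0x1646288302) (nat_lit 0x342221ca4000500000600) (nat_lit 49)))
 (.p (nat_lit 0x37e037c037a037803760c4906) (nat_lit 0x800080515) (nat_lit 52)))
 (.n (.p (nat_lit 0x72212f502) (nat_lit 0x400204) (nat_lit 5))
 (.p (nat_lit 0x1db2248502) (nat_lit 0x40062d) (nat_lit 29)))))
 (.n (.n (.n (.n (.p (nat_lit 0x1a007af02) (nat_lit 0x140300) (nat_lit 1))
 (.p (nat_lit 0x26f5282102) (nat_lit 0x1e0040000900) (nat_lit 37)))
 (.p (nat_lit 0x91809160914090e0b5f0b5d06) (nat_lit 0x30000c640e) (nat_lit 52)))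
 (.n (.p (nat_lit 0x411b3d02) (nat_lit 0x140b02) (nat_lit 30))
 (.p (nat_lit 0x1f261ebd02) (nat_lit 0x200b27) (nat_lit 5))))
 (.n (.n (.p (nat_lit 0x14e014dc14da14d8135b135306) (nat_lit 0x880008ca00) (nat_lit 52))
 (.p (nat_lit 0x43a231b02) (nat_lit 0x34001c) (nat_lit 29)))
 (.n (.p (nat_lit 0x20c1100902) (nat_lit 0x20a705) (nat_lit 16))
 (.p (nat_lit 0x23e265502) (nat_lit 0x300929) (nat_lit 27))))))
 (.n (.n (.n (.n (.n (.p (nat_lit 0x651042302) (nat_lit 0x356100) (nat_lit 16))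
 (.p (nat_lit 0x26fb0f3b02) (nat_lit 0x180040000700) (nat_lit 38)))
 (.p (nat_lit 0x178e225302) (nat_lit 0x540b07) (nat_lit 29)))
 (.n (.p (nat_lit 0x1398106702) (nat_lit 0x100902) (nat_lit 5))
 (.p (nat_lit 0x153e0b2b02) (nat_lit 0x400a23) (nat_lit 5))))
 (.n (.n (.n (.p (nat_lit 0x10ae120702) (nat_lit 0x140800) (nat_lit 4))
 (.p (nat_lit 0x37428c302) (nat_lit 0x3508a9d84000000040000) (nat_lit 49)))
 (.p (nat_lit 0x1d01a8902) (nat_lit 0x340417) (nat_lit 1)))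
 (.n (.p (nat_lit 0x171417121710170c008e0081007d170f170b09) (nat_lit 0x1000b04) (nat_lit 10))
 (.p (nat_lit 0x109255102) (nat_lit 0x20030e) (nat_lit 28)))))
 (.n (.n (.n (.n (.p (nat_lit 0xbc40bc00bbe0bbc0bba0a6b06) (nat_lit 0x8000002500) (nat_lit 52))
 (.p (nat_lit 0x110e284702) (nat_lit 0x4a1a36344000200000600) (nat_lit 49)))
 (.p (nat_lit 0x1de41bdd02) (nat_lit 0xb11) (nat_lit 5)))
 (.n (.p (nat_lit 0xf121db502) (nat_lit 0x40603) (nat_lit 29))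
 (.p (nat_lit 0xc7e0c7c0c7a0c780c7607db06) (nat_lit 0x100000ca22a) (nat_lit 52))))
 (.n (.n (.p (nat_lit 0x17521750174e174c15f115ef06) (nat_lit 0x18000ceb00) (nat_lit 51))
 (.p (nat_lit 0x1fb61fb41fb21fb01fae160d06) (nat_lit 0x40000c0a1c) (nat_lit 51)))
 (.n (.p (nat_lit 0x11fe175b02) (nat_lit 0x300806) (nat_lit 5))
 (.p (nat_lit 0x27b6191f02) (nat_lit 0x8004c100) (nat_lit 48))))))

def c128_90 : Tr := .n c256_90 c256_218

def c64_26 : Tr := .n c128_26 c128_90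

def c256_58 : Tr :=
 .n (.n (.n (.n (.n (.n (.p (nat_lit 0x9b0091008a03) (nat_lit 0x81800004) (nat_lit 19))
 (.p (nat_lit 0x27c205fb02) (nat_lit 0x60048200) (nat_lit 47)))
 (.p (nat_lit 0x1588158615821580157e12cb06) (nat_lit 0x40000d4806) (nat_lit 51)))
 (.n (.p (nat_lit 0x61c181702) (nat_lit 0x240101) (nat_lit 29))
 (.p (nat_lit 0xa01f2f02) (nat_lit 0x100021) (nat_lit 1))))
 (.n (.n (.n (.p (nat_lit 0xd130b4b02) (nat_lit 0x444500) (nat_lit 16))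
 (.p (nat_lit 0x1720285d02) (nat_lit 0x1a2260b50000500040600) (nat_lit 49)))
 (.p (nat_lit 0x352228702) (nat_lit 0x100015) (nat_lit 29)))
 (.n (.p (nat_lit 0x1700118d02) (nat_lit 0x100b03) (nat_lit 4))
 (.p (nat_lit 0x13860c1302) (nat_lit 0x40092a) (nat_lit 5)))))
 (.n (.n (.n (.n (.p (nat_lit 0x5ee072b02) (nat_lit 0x340200) (nat_lit 4))
 (.p (nat_lit 0x2685110702) (nat_lit 0x2e0000000800) (nat_lit 38)))
 (.p (nat_lit 0x2172212b02) (nat_lit 0x44030d) (nat_lit 4)))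
 (.n (.p (nat_lit 0xe540e520e4e0e4c0e4a156106) (nat_lit 0x400008ca02) (nat_lit 52))
 (.p (nat_lit 0x185023e702) (nat_lit 0x340224) (nat_lit 29))))
 (.n (.n (.p (nat_lit 0x1302130012fe12f811a711a506) (nat_lit 0x3000084900) (nat_lit 51))
 (.p (nat_lit 0x1da21c9902) (nat_lit 0x40518) (nat_lit 4)))
 (.n (.p (nat_lit 0x1fc21fc01fbe1fbc1fb8090506) (nat_lit 0x100000e305) (nat_lit 51))
 (.p (nat_lit 0x18125b302) (nat_lit 0x400618) (nat_lit 28))))))
 (.n (.n (.n (.n (.n (.p (nat_lit 0x463038f02) (nat_lit 0x150000) (nat_lit 16))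
 (.p (nat_lit 0x272f27ed02) (nat_lit 0x140060000500) (nat_lit 36)))
 (.p (nat_lit 0xa7002f902) (nat_lit 0x100407) (nat_lit 5)))
 (.n (.p (nat_lit 0x169616921690168e168c155706) (nat_lit 0x8000090a01) (nat_lit 51))
 (.p (nat_lit 0x7020afb02) (nat_lit 0x100223) (nat_lit 4))))
 (.n (.n (.n (.p (nat_lit 0xee8102f02) (nat_lit 0x340700) (nat_lit 5))
 (.p (nat_lit 0x91a289d02) (nat_lit 0x356068ca4000300040000) (nat_lit 50)))
 (.p (nat_lit 0xd210d1502) (nat_lit 0x548515) (nat_lit 16)))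
 (.n (.p (nat_lit 0x65e065c0658065606540e3906) (nat_lit 0x4000004604) (nat_lit 52))
 (.p (nat_lit 0x4800460040003e002b000506) (nat_lit 0x1a16a02) (nat_lit 26)))))
 (.n (.n (.n (.n (.p (nat_lit 0x9fa09f609f409f208d308cb06) (nat_lit 0x8800080400) (nat_lit 52))
 (.p (nat_lit 0x26d1148702) (nat_lit 0x120020000a00) (nat_lit 38)))
 (.p (nat_lit 0x11bc05d302) (nat_lit 0x20080e) (nat_lit 5)))
 (.n (.p (nat_lit 0x124063502) (nat_lit 0x240103) (nat_lit 1))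
 (.p (nat_lit 0x53a05380536053405320255053107) (nat_lit 0x12a) (nat_lit 7))))
 (.n (.n (.p (nat_lit 0x15c815c615c415c01441143d06) (nat_lit 0x280004ea00) (nat_lit 51))
 (.p (nat_lit 0x5fc085902) (nat_lit 0x44011c) (nat_lit 5)))
 (.n (.p (nat_lit 0x11f420f102) (nat_lit 0x400805) (nat_lit 29))
 (.p (nat_lit 0x268f038102) (nat_lit 0x240000000000) (nat_lit 41))))))

def c256_186 : Tr :=
 .n (.n (.n (.n (.n (.n (.p (nat_lit 0x2bc02a502) (nat_lit 0x100000) (nat_lit 4))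
 (.p (nat_lit 0x2779081f02) (nat_lit 0x2a00a0000300) (nat_lit 38)))
 (.p (nat_lit 0x5c405c205c005be05ba07bb06) (nat_lit 0x10000ca207) (nat_lit 52)))
 (.n (.p (nat_lit 0x146512b102) (nat_lit 0x240801) (nat_lit 15))
 (.p (nat_lit 0x1fd236302) (nat_lit 0x340023) (nat_lit 30))))
 (.n (.n (.n (.p (nat_lit 0xebc0eb60eb40eb20e6b0e6906) (nat_lit 0xc000052600) (nat_lit 51))
 (.p (nat_lit 0x568287d02) (nat_lit 0x585a12b21000100040000) (nat_lit 49)))
 (.p (nat_lit 0xd0f0b6b02) (nat_lit 0x240415) (nat_lit 15)))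
 (.n (.p (nat_lit 0x164c16481644164217d717d306) (nat_lit 0xa000056b03) (nat_lit 52))
 (.p (nat_lit 0x28f247302) (nat_lit 0x10012d) (nat_lit 30)))))
 (.n (.n (.n (.n (.p (nat_lit 0x89408920890088e088c06f106) (nat_lit 0x8000012300) (nat_lit 52))
 (.p (nat_lit 0x26d3281d02) (nat_lit 0x100020000900) (nat_lit 37)))
 (.p (nat_lit 0x1d1d0a8102) (nat_lit 0x31040e) (nat_lit 16)))
 (.n (.p (nat_lit 0x16fa0fb902) (nat_lit 0x400b02) (nat_lit 5))
 (.p (nat_lit 0x1250124e124c124812461c5b06) (nat_lit 0x200004c126) (nat_lit 52))))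
 (.n (.n (.p (nat_lit 0x1352149102) (nat_lit 0xa00) (nat_lit 5))
 (.p (nat_lit 0x13c213c013be13bc13ba036706) (nat_lit 0x1000009201c) (nat_lit 51)))
 (.n (.p (nat_lit 0x38a0388038603840382100506) (nat_lit 0x800080705) (nat_lit 51))
 (.p (nat_lit 0x215263b02) (nat_lit 0x500824) (nat_lit 28))))))
 (.n (.n (.n (.n (.n (.p (nat_lit 0x5d605d405d005ce0425042106) (nat_lit 0xa000050100) (nat_lit 51))
 (.p (nat_lit 0x27fe194d02) (nat_lit 0x6700) (nat_lit 48)))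
 (.p (nat_lit 0x16b4040d02) (nat_lit 0x300b07) (nat_lit 4)))
 (.n (.p (nat_lit 0xb810b7502) (nat_lit 0x152402) (nat_lit 16))
 (.p (nat_lit 0x13740a3f02) (nat_lit 0x100923) (nat_lit 5))))
 (.n (.n (.n (.p (nat_lit 0x11ad0fd302) (nat_lit 0x500800) (nat_lit 15))
 (.p (nat_lit 0x57c28bd02) (nat_lit 0x352868d64000100040000) (nat_lit 50)))
 (.p (nat_lit 0x16c7152302) (nat_lit 0x200a15) (nat_lit 15)))
 (.n (.p (nat_lit 0x1188118611841182117e10e706) (nat_lit 0x10000d4704) (nat_lit 52))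
 (.p (nat_lit 0xa8252302) (nat_lit 0x500906) (nat_lit 27)))))
 (.n (.n (.n (.n (.p (nat_lit 0xa620ba302) (nat_lit 0x500) (nat_lit 4))
 (.p (nat_lit 0xba8283d02) (nat_lit 0x260d84344000500000000) (nat_lit 49)))
 (.p (nat_lit 0x1d841c2d02) (nat_lit 0x200511) (nat_lit 4)))
 (.n (.p (nat_lit 0x1da10d4302) (nat_lit 0x542503) (nat_lit 16))
 (.p (nat_lit 0x7d00bdd02) (nat_lit 0x4022a) (nat_lit 5))))
 (.n (.n (.p (nat_lit 0x15f815f615f415f215ee000315f107) (nat_lit 0x140b00) (nat_lit 7))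
 (.p (nat_lit 0x1e4153502) (nat_lit 0x500a1c) (nat_lit 1)))
 (.n (.p (nat_lit 0x21cb101902) (nat_lit 0x408706) (nat_lit 16))
 (.p (nat_lit 0x2735049702) (nat_lit 0xe0060000100) (nat_lit 40))))))

def c128_58 : Tr := .n c256_58 c256_186

def c256_122 : Tr :=
 .n (.n (.n (.n (.n (.n (.p (nat_lit 0x16e016a017303) (nat_lit 0xa000500017) (nat_lit 17))
 (.p (nat_lit 0x26fb082502) (nat_lit 0x180040000300) (nat_lit 40)))
 (.p (nat_lit 0x1482147c147a147800d200c300c11481147f09) (nat_lit 0x2340906) (nat_lit 10)))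
 (.n (.p (nat_lit 0xd370d2b02) (nat_lit 0x450501) (nat_lit 16))
 (.p (nat_lit 0x1a420d902) (nat_lit 0x340721) (nat_lit 1))))
 (.n (.n (.n (.p (nat_lit 0xe0f0d7102) (nat_lit 0x506600) (nat_lit 16))
 (.p (nat_lit 0x374286f02) (nat_lit 0x588872b44000000040000) (nat_lit 49)))
 (.p (nat_lit 0xa88075502) (nat_lit 0x100415) (nat_lit 5)))
 (.n (.p (nat_lit 0xe31170902) (nat_lit 0x500b03) (nat_lit 15))
 (.p (nat_lit 0x17be0c3902) (nat_lit 0x440b2a) (nat_lit 4)))))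
 (.n (.n (.n (.n (.p (nat_lit 0x7fd05e902) (nat_lit 0x52200) (nat_lit 16))
 (.p (nat_lit 0x2741110d02) (nat_lit 0x20060000800) (nat_lit 38)))
 (.p (nat_lit 0x9ac04b102) (nat_lit 0x44030e) (nat_lit 4)))
 (.n (.p (nat_lit 0x57c057a057605740572163106) (nat_lit 0x40000c2a02) (nat_lit 51))
 (.p (nat_lit 0x195a1a7102) (nat_lit 0x200025) (nat_lit 5))))
 (.n (.n (.p (nat_lit 0x129213c102) (nat_lit 0x340900) (nat_lit 5))
 (.p (nat_lit 0x20401f7302) (nat_lit 0x34041a) (nat_lit 5)))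
 (.n (.p (nat_lit 0xe4814d502) (nat_lit 0x500605) (nat_lit 4))
 (.p (nat_lit 0x1ef25f902) (nat_lit 0x300122) (nat_lit 28))))))
 (.n (.n (.n (.n (.n (.p (nat_lit 0x515034d02) (nat_lit 0x400100) (nat_lit 15))
 (.p (nat_lit 0x27f217c302) (nat_lit 0x50600) (nat_lit 47)))
 (.p (nat_lit 0xdea031302) (nat_lit 0x300607) (nat_lit 4)))
 (.n (.p (nat_lit 0x62e0f5f02) (nat_lit 0x540102) (nat_lit 5))
 (.p (nat_lit 0xe140a2f02) (nat_lit 0x300623) (nat_lit 4))))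
 (.n (.n (.n (.p (nat_lit 0x10eb0ee902) (nat_lit 0x352700) (nat_lit 16))
 (.p (nat_lit 0x165428ab02) (nat_lit 0x350521a86800500000600) (nat_lit 50)))
 (.p (nat_lit 0x136111c902) (nat_lit 0x200815) (nat_lit 15)))
 (.n (.p (nat_lit 0x92409220920091c091a0f2306) (nat_lit 0x20000c6604) (nat_lit 51))
 (.p (nat_lit 0x7f24e902) (nat_lit 0x100b04) (nat_lit 28)))))
 (.n (.n (.n (.n (.p (nat_lit 0x1fe099502) (nat_lit 0x440400) (nat_lit 1))
 (.p (nat_lit 0x2836213902) (nat_lit 0x8b00) (nat_lit 47)))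
 (.p (nat_lit 0x1932182b02) (nat_lit 0x400a0f) (nat_lit 4)))
 (.n (.p (nat_lit 0x6b1cc102) (nat_lit 0x240303) (nat_lit 30))
 (.p (nat_lit 0x41a041804160414060f060d06) (nat_lit 0x18000d612a) (nat_lit 52))))
 (.n (.n (.p (nat_lit 0x1657164b02) (nat_lit 0x400b00) (nat_lit 34))
 (.p (nat_lit 0xa120a100a0e0a0c0a080d1906) (nat_lit 0x10000c251c) (nat_lit 51)))
 (.n (.p (nat_lit 0x14221420141e141a141812bd06) (nat_lit 0x20000ce805) (nat_lit 52))
 (.p (nat_lit 0x277102b702) (nat_lit 0x20080000000) (nat_lit 40))))))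

def c256_250 : Tr :=
 .n (.n (.n (.n (.n (.n (.p (nat_lit 0x36f02c102) (nat_lit 0x308000) (nat_lit 16))
 (.p (nat_lit 0x276b27e102) (nat_lit 0x80080000400) (nat_lit 36)))
 (.p (nat_lit 0x164c164a16481644164208db06) (nat_lit 0x2000016307) (nat_lit 52)))
 (.n (.p (nat_lit 0x14660ec502) (nat_lit 0x340901) (nat_lit 4))
 (.p (nat_lit 0x2143052f02) (nat_lit 0x516123) (nat_lit 16))))
 (.n (.n (.n (.p (nat_lit 0xf8a0f880f840f800ddf0ddb06) (nat_lit 0x5000012700) (nat_lit 52))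
 (.p (nat_lit 0x72a288d02) (nat_lit 0x356221ca4000200040000) (nat_lit 49)))
 (.p (nat_lit 0x1588158415821580157e0c5106) (nat_lit 0x8000094515) (nat_lit 51)))
 (.n (.p (nat_lit 0x80d080102) (nat_lit 0x256204) (nat_lit 16))
 (.p (nat_lit 0x14f814f414f214f014ee1f6b06) (nat_lit 0x800008e22f) (nat_lit 51)))))
 (.n (.n (.n (.n (.p (nat_lit 0x960095e095c095a095607af06) (nat_lit 0x100004a300) (nat_lit 51))
 (.p (nat_lit 0x272913c102) (nat_lit 0x1a0060000900) (nat_lit 41)))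
 (.p (nat_lit 0xc4205b502) (nat_lit 0x30050e) (nat_lit 4)))
 (.n (.p (nat_lit 0xdb60db20db00dac17cb17c506) (nat_lit 0x90000d0b02) (nat_lit 52))
 (.p (nat_lit 0xa120a100a0e0a0c0a0820b506) (nat_lit 0x1000082728) (nat_lit 51))))
 (.n (.n (.p (nat_lit 0x1531135902) (nat_lit 0x306a00) (nat_lit 16))
 (.p (nat_lit 0x12da12d812d412d212d0043b06) (nat_lit 0x400005201c) (nat_lit 52)))
 (.n (.p (nat_lit 0x570056e056c0568056610f506) (nat_lit 0x20000c2705) (nat_lit 52))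
 (.p (nat_lit 0x21e267702) (nat_lit 0x30032c) (nat_lit 27))))))
 (.n (.n (.n (.n (.n (.p (nat_lit 0x67406720670066e066c051106) (nat_lit 0x2000000200) (nat_lit 51))
 (.p (nat_lit 0x27370f4902) (nat_lit 0xc0060000700) (nat_lit 40)))
 (.p (nat_lit 0x1caa1b4d02) (nat_lit 0x34020a) (nat_lit 4)))
 (.n (.p (nat_lit 0x14720f9302) (nat_lit 0x340902) (nat_lit 4))
 (.p (nat_lit 0x21b621b421b221b016dd16db06) (nat_lit 0x1800010b23) (nat_lit 52))))
 (.n (.n (.p (nat_lit 0x125c125a1254125210b310b106) (nat_lit 0x60000cc800) (nat_lit 52))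
 (.p (nat_lit 0x1ada19eb02) (nat_lit 0x540517) (nat_lit 4)))
 (.n (.p (nat_lit 0x15c615c415c215c015be17e506) (nat_lit 0x1000004eb04) (nat_lit 51))
 (.p (nat_lit 0x121256d02) (nat_lit 0x411) (nat_lit 28)))))
 (.n (.n (.n (.n (.p (nat_lit 0x2c30a6b02) (nat_lit 0x400500) (nat_lit 15))
 (.p (nat_lit 0x2b0284f02) (nat_lit 0x4a0d84344000000000000) (nat_lit 50)))
 (.p (nat_lit 0x1e121e0e1e0c1e0a1e0801291e1107) (nat_lit 0x440b11) (nat_lit 7)))
 (.n (.p (nat_lit 0x1566117302) (nat_lit 0xa03) (nat_lit 4))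
 (.p (nat_lit 0x8f20cc102) (nat_lit 0x20032a) (nat_lit 4))))
 (.n (.n (.p (nat_lit 0x178b15f502) (nat_lit 0x340b00) (nat_lit 16))
 (.p (nat_lit 0x1ec193b02) (nat_lit 0x200a1d) (nat_lit 1)))
 (.n (.p (nat_lit 0x12da12d812d612d412d011fb06) (nat_lit 0x1000012806) (nat_lit 52))
 (.p (nat_lit 0x268d27bb02) (nat_lit 0x260000000200) (nat_lit 36))))))

def c128_122 : Tr := .n c256_122 c256_250

def c64_58 : Tr := .n c128_58 c128_122

def c32_26 : Tr := .n c64_26 c64_58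

def c16_10 : Tr := .n c32_10 c32_26

def c8_2 : Tr := .n c16_2 c16_10

def c256_6 : Tr :=
 .n (.n (.n (.n (.n (.n (.p (nat_lit 0x150011000f000d04) (nat_lit 0x50d100000) (nat_lit 21))
 (.p (nat_lit 0x27ba051902) (nat_lit 0x8200) (nat_lit 48)))
 (.p (nat_lit 0x21f111fd02) (nat_lit 0x206806) (nat_lit 16)))
 (.n (.p (nat_lit 0x17b515f902) (nat_lit 0x548b00) (nat_lit 16))
 (.p (nat_lit 0x107a1078107410721070195306) (nat_lit 0x400009201e) (nat_lit 51))))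
 (.n (.n (.n (.p (nat_lit 0xc5b0a6902) (nat_lit 0x306500) (nat_lit 16))
 (.p (nat_lit 0x382285102) (nat_lit 0x4a8876344000000040000) (nat_lit 50)))
 (.p (nat_lit 0x1ee6227d02) (nat_lit 0x240512) (nat_lit 29)))
 (.n (.p (nat_lit 0x1570126702) (nat_lit 0x500a03) (nat_lit 5))
 (.p (nat_lit 0xade0ada0ad60ad408f708f306) (nat_lit 0xa00008032a) (nat_lit 51)))))
 (.n (.n (.n (.n (.p (nat_lit 0x69606920690068e068c051506) (nat_lit 0x8000088200) (nat_lit 52))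
 (.p (nat_lit 0x27150f4902) (nat_lit 0x2e0060000700) (nat_lit 40)))
 (.p (nat_lit 0x1cdc1b9302) (nat_lit 0x4030a) (nat_lit 4)))
 (.n (.p (nat_lit 0x123a1238123412301473146f06) (nat_lit 0x50000c4902) (nat_lit 52))
 (.p (nat_lit 0x17ac23d702) (nat_lit 0x140b23) (nat_lit 29))))
 (.n (.n (.p (nat_lit 0x1288128612841282128010b706) (nat_lit 0x100000d6800) (nat_lit 52))
 (.p (nat_lit 0x1801ae502) (nat_lit 0x400917) (nat_lit 1)))
 (.n (.p (nat_lit 0x47414a102) (nat_lit 0x240005) (nat_lit 4))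
 (.p (nat_lit 0x149257902) (nat_lit 0x200415) (nat_lit 28))))))
 (.n (.n (.n (.n (.n (.p (nat_lit 0x385037902) (nat_lit 0x240000) (nat_lit 34))
 (.p (nat_lit 0x26a90ba302) (nat_lit 0xa0000000500) (nat_lit 38)))
 (.p (nat_lit 0x1a3308db02) (nat_lit 0x20e307) (nat_lit 16)))
 (.n (.p (nat_lit 0x2b602b402b202b002ae146b06) (nat_lit 0x10000040901) (nat_lit 51))
 (.p (nat_lit 0x604236d02) (nat_lit 0x240123) (nat_lit 29))))
 (.n (.n (.n (.p (nat_lit 0xfba0fb80fb40fb00ddf0ddb06) (nat_lit 0x5000016700) (nat_lit 51))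
 (.p (nat_lit 0x110c288f02) (nat_lit 0x356221ca4000200000600) (nat_lit 49)))
 (.p (nat_lit 0xd0a077702) (nat_lit 0x40515) (nat_lit 4)))
 (.n (.p (nat_lit 0xb90130702) (nat_lit 0x340404) (nat_lit 4))
 (.p (nat_lit 0x2401fd502) (nat_lit 0x40032f) (nat_lit 1)))))
 (.n (.n (.n (.n (.p (nat_lit 0x99507b502) (nat_lit 0x440300) (nat_lit 15))
 (.p (nat_lit 0x271512d702) (nat_lit 0x2e0060000900) (nat_lit 38)))
 (.p (nat_lit 0x31e031c031a031803160c4106) (nat_lit 0x200008c50e) (nat_lit 52)))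
 (.n (.p (nat_lit 0x17d917cd02) (nat_lit 0x552b02) (nat_lit 16))
 (.p (nat_lit 0x20a21c302) (nat_lit 0x729) (nat_lit 1))))
 (.n (.n (.p (nat_lit 0x155b135302) (nat_lit 0xea00) (nat_lit 16))
 (.p (nat_lit 0x441043502) (nat_lit 0x4a01c) (nat_lit 16)))
 (.n (.p (nat_lit 0x9e209de09dc09d810f910f306) (nat_lit 0x9000048705) (nat_lit 51))
 (.p (nat_lit 0x289268302) (nat_lit 0x50092c) (nat_lit 28))))))

def c256_134 : Tr :=
 .n (.n (.n (.n (.n (.n (.p (nat_lit 0x1b501b301ac03) (nat_lit 0x2a0001c) (nat_lit 19))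
 (.p (nat_lit 0x27cc070502) (nat_lit 0x4000a300) (nat_lit 48)))
 (.p (nat_lit 0x6f6039902) (nat_lit 0x100207) (nat_lit 5)))
 (.n (.p (nat_lit 0x11e80da902) (nat_lit 0x400801) (nat_lit 4))
 (.p (nat_lit 0x8720870086c086a086820d906) (nat_lit 0x40000ca721) (nat_lit 52))))
 (.n (.n (.n (.p (nat_lit 0xe370d6b02) (nat_lit 0x212600) (nat_lit 16))
 (.p (nat_lit 0x172d171f1583157513bb13b51219120f102f10210e590e4b28700d) (nat_lit 0x588872b44000000040600) (nat_lit 33)))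
 (.p (nat_lit 0xa8e075b02) (nat_lit 0x400415) (nat_lit 5)))
 (.n (.p (nat_lit 0x17d2128502) (nat_lit 0x240b03) (nat_lit 4))
 (.p (nat_lit 0x192818d902) (nat_lit 0x34092b) (nat_lit 5)))))
 (.n (.n (.n (.n (.p (nat_lit 0x6ea081702) (nat_lit 0x100300) (nat_lit 4))
 (.p (nat_lit 0x271b110d02) (nat_lit 0x280060000800) (nat_lit 38)))
 (.p (nat_lit 0xa7a04b502) (nat_lit 0x40e) (nat_lit 4)))
 (.n (.p (nat_lit 0xaba0ab80ab60ab40ab2162b06) (nat_lit 0x8000c8a02) (nat_lit 52))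
 (.p (nat_lit 0x1cc1a0d02) (nat_lit 0x140225) (nat_lit 1))))
 (.n (.n (.p (nat_lit 0x12961292128e128c001e000900051295129109) (nat_lit 0x2240900) (nat_lit 10))
 (.p (nat_lit 0x14f814f414f214f014ee209106) (nat_lit 0x80000ce51a) (nat_lit 51)))
 (.n (.p (nat_lit 0x16ac16a616a416a20e470e4506) (nat_lit 0xc000092605) (nat_lit 51))
 (.p (nat_lit 0x20001fe01fa01f80001025b06) (nat_lit 0x302023) (nat_lit 26))))))
 (.n (.n (.n (.n (.n (.p (nat_lit 0x533034702) (nat_lit 0x10a100) (nat_lit 16))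
 (.p (nat_lit 0x26c727f702) (nat_lit 0x1c0020000600) (nat_lit 36)))
 (.p (nat_lit 0xef6031d02) (nat_lit 0x440607) (nat_lit 4)))
 (.n (.p (nat_lit 0x170071d02) (nat_lit 0x500202) (nat_lit 1))
 (.p (nat_lit 0xefa238d02) (nat_lit 0x40623) (nat_lit 29))))
 (.n (.n (.n (.p (nat_lit 0x660fc902) (nat_lit 0x800) (nat_lit 1))
 (.p (nat_lit 0xbb428ad02) (nat_lit 0x354a621b0000500000000) (nat_lit 50)))
 (.p (nat_lit 0x136022e902) (nat_lit 0x200915) (nat_lit 29)))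
 (.n (.p (nat_lit 0x111c11181116111411120f2706) (nat_lit 0x8000050604) (nat_lit 51))
 (.p (nat_lit 0x9f24fb02) (nat_lit 0x305) (nat_lit 28)))))
 (.n (.n (.n (.n (.p (nat_lit 0xade0adc0ad80ad60993098d06) (nat_lit 0x48000c0400) (nat_lit 51))
 (.p (nat_lit 0x2711165302) (nat_lit 0x20040000b00) (nat_lit 40)))
 (.p (nat_lit 0x1cb61bc502) (nat_lit 0x300311) (nat_lit 4)))
 (.n (.p (nat_lit 0x2320aa102) (nat_lit 0x400403) (nat_lit 1))
 (.p (nat_lit 0x7140bd902) (nat_lit 0x40022a) (nat_lit 4))))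
 (.n (.n (.p (nat_lit 0x168a1688168616841682168006) (nat_lit 0x10b00) (nat_lit 52))
 (.p (nat_lit 0xe0e087b02) (nat_lit 0x50061c) (nat_lit 5)))
 (.n (.p (nat_lit 0x482166102) (nat_lit 0x540006) (nat_lit 4))
 (.p (nat_lit 0x27aa1de102) (nat_lit 0x80010000) (nat_lit 48))))))

def c128_6 : Tr := .n c256_6 c256_134

def c256_70 : Tr :=
 .n (.n (.n (.n (.n (.n (.p (nat_lit 0xa800a600ad03) (nat_lit 0x18000500005) (nat_lit 17))
 (.p (nat_lit 0x275f066902) (nat_lit 0x140080000200) (nat_lit 40)))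
 (.p (nat_lit 0x13a4169b02) (nat_lit 0x100906) (nat_lit 5)))
 (.n (.p (nat_lit 0x1839062302) (nat_lit 0x548101) (nat_lit 16))
 (.p (nat_lit 0x15d415d015ce15cc15ca1f3506) (nat_lit 0x800008e021) (nat_lit 52))))
 (.n (.n (.n (.p (nat_lit 0xd4b0b4b02) (nat_lit 0x454500) (nat_lit 16))
 (.p (nat_lit 0xab6286302) (nat_lit 0x281d30344000400040000) (nat_lit 49)))
 (.p (nat_lit 0x35a067502) (nat_lit 0x500015) (nat_lit 5)))
 (.n (.p (nat_lit 0x1706127d02) (nat_lit 0x400b03) (nat_lit 5))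
 (.p (nat_lit 0x15480ce702) (nat_lit 0x300a2a) (nat_lit 4)))))
 (.n (.n (.n (.n (.p (nat_lit 0x7440740073e073c05f105e906) (nat_lit 0x8800040200) (nat_lit 52))
 (.p (nat_lit 0x280c146d02) (nat_lit 0x4c800) (nat_lit 48)))
 (.p (nat_lit 0x8e2049d02) (nat_lit 0x30e) (nat_lit 4)))
 (.n (.p (nat_lit 0x12e612e412e212de12dc155f06) (nat_lit 0x2000012a02) (nat_lit 51))
 (.p (nat_lit 0x21323f502) (nat_lit 0x400824) (nat_lit 30))))
 (.n (.n (.p (nat_lit 0x134413421340133a11a711a506) (nat_lit 0x3000016900) (nat_lit 52))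
 (.p (nat_lit 0x1ed81e6302) (nat_lit 0x519) (nat_lit 5)))
 (.n (.p (nat_lit 0x9ca14bf02) (nat_lit 0x540305) (nat_lit 5))
 (.p (nat_lit 0x1a601a401a2019e01e5000306) (nat_lit 0x291401c) (nat_lit 26))))))
 (.n (.n (.n (.n (.n (.p (nat_lit 0x344048502) (nat_lit 0x100) (nat_lit 4))
 (.p (nat_lit 0x27550bb702) (nat_lit 0x1e0080000500) (nat_lit 40)))
 (.p (nat_lit 0xa78030102) (nat_lit 0x500407) (nat_lit 5)))
 (.n (.p (nat_lit 0x161e0ed702) (nat_lit 0x40a01) (nat_lit 4))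
 (.p (nat_lit 0x70a0b0302) (nat_lit 0x500223) (nat_lit 4))))
 (.n (.n (.n (.p (nat_lit 0x10481046104410421040103e06) (nat_lit 0xc2700) (nat_lit 52))
 (.p (nat_lit 0xac6289f02) (nat_lit 0x354868ca4000400040000) (nat_lit 50)))
 (.p (nat_lit 0x14b22bb02) (nat_lit 0x300615) (nat_lit 30)))
 (.n (.p (nat_lit 0xbb80bb40bb20bb00bae0e3b06) (nat_lit 0x800000a604) (nat_lit 51))
 (.p (nat_lit 0x6b24c102) (nat_lit 0x200003) (nat_lit 28)))))
 (.n (.n (.n (.n (.p (nat_lit 0xa280a260a240a220a2008cb06) (nat_lit 0x800084400) (nat_lit 51))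
 (.p (nat_lit 0x282c1f8f02) (nat_lit 0x2004aa00) (nat_lit 47)))
 (.p (nat_lit 0x1bf21bee1bec1bea1be811c106) (nat_lit 0x800009680e) (nat_lit 51)))
 (.n (.p (nat_lit 0x63a112d02) (nat_lit 0x540103) (nat_lit 5))
 (.p (nat_lit 0x5360c9502) (nat_lit 0x30012a) (nat_lit 5))))
 (.n (.n (.p (nat_lit 0x15d215ce15cc15ca1447144306) (nat_lit 0x140000cea00) (nat_lit 52))
 (.p (nat_lit 0x77e077c077a077805ff05f506) (nat_lit 0x108000ca11c) (nat_lit 52)))
 (.n (.p (nat_lit 0x13fc13fa13f813f613f411f706) (nat_lit 0x1000000c805) (nat_lit 51))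
 (.p (nat_lit 0x2687038102) (nat_lit 0x2c0000000000) (nat_lit 41))))))

def c256_198 : Tr :=
 .n (.n (.n (.n (.n (.n (.p (nat_lit 0x2c202ab02) (nat_lit 0x400000) (nat_lit 4))
 (.p (nat_lit 0x269127d702) (nat_lit 0x220000000400) (nat_lit 37)))
 (.p (nat_lit 0x1cad07c102) (nat_lit 0x450207) (nat_lit 16)))
 (.n (.p (nat_lit 0x139413921390138c138a0029138f07) (nat_lit 0x200901) (nat_lit 7))
 (.p (nat_lit 0xbf20bf00bec0bea0be8044706) (nat_lit 0x4000046023) (nat_lit 51))))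
 (.n (.n (.n (.p (nat_lit 0xee00ede0eda0ed80ed60e6906) (nat_lit 0x40000d4600) (nat_lit 52))
 (.p (nat_lit 0xf38288102) (nat_lit 0x585a12b21000100000600) (nat_lit 49)))
 (.p (nat_lit 0xc520c500c4e0c4c0c4801470c4b07) (nat_lit 0x100515) (nat_lit 7)))
 (.n (.p (nat_lit 0x46a13c902) (nat_lit 0x140004) (nat_lit 5))
 (.p (nat_lit 0x1c6c1d7302) (nat_lit 0x54012d) (nat_lit 4)))))
 (.n (.n (.n (.n (.p (nat_lit 0x8d706e902) (nat_lit 0x300) (nat_lit 16))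
 (.p (nat_lit 0x281c13bd02) (nat_lit 0x20040900) (nat_lit 46)))
 (.p (nat_lit 0xb6004c702) (nat_lit 0x34040e) (nat_lit 5)))
 (.n (.p (nat_lit 0xeb00eae0eac0ea816f716f306) (nat_lit 0x2800090b02) (nat_lit 51))
 (.p (nat_lit 0x1df61d1102) (nat_lit 0x300b26) (nat_lit 4))))
 (.n (.n (.p (nat_lit 0xa6135b02) (nat_lit 0x400a00) (nat_lit 1))
 (.p (nat_lit 0x194f035f02) (nat_lit 0x10e01c) (nat_lit 16)))
 (.n (.p (nat_lit 0x918091609140912090e100706) (nat_lit 0x1000086705) (nat_lit 52))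
 (.p (nat_lit 0x220021e021a02180043028906) (nat_lit 0x1502025) (nat_lit 26))))))
 (.n (.n (.n (.n (.n (.p (nat_lit 0x609042502) (nat_lit 0x448100) (nat_lit 16))
 (.p (nat_lit 0x26cd280102) (nat_lit 0x160020000700) (nat_lit 36)))
 (.p (nat_lit 0x1de116b702) (nat_lit 0x410b07) (nat_lit 16)))
 (.n (.p (nat_lit 0x2800d3102) (nat_lit 0x140502) (nat_lit 1))
 (.p (nat_lit 0x153d137902) (nat_lit 0x300923) (nat_lit 15))))
 (.n (.n (.n (.p (nat_lit 0x11e10fc902) (nat_lit 0xc800) (nat_lit 16))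
 (.p (nat_lit 0x103228bf02) (nat_lit 0x3503a8d84000100040600) (nat_lit 50)))
 (.p (nat_lit 0x179a07a702) (nat_lit 0x240b15) (nat_lit 4)))
 (.n (.p (nat_lit 0xa0170d02) (nat_lit 0x100b04) (nat_lit 1))
 (.p (nat_lit 0xf5253502) (nat_lit 0x40020a) (nat_lit 28)))))
 (.n (.n (.n (.n (.p (nat_lit 0xbb30ba702) (nat_lit 0x200500) (nat_lit 34))
 (.p (nat_lit 0xc80283f02) (nat_lit 0x4a1a22344000500040000) (nat_lit 49)))
 (.p (nat_lit 0x1d98226f02) (nat_lit 0x140511) (nat_lit 29)))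
 (.n (.p (nat_lit 0xe2e124f02) (nat_lit 0x400603) (nat_lit 4))
 (.p (nat_lit 0x7da0be702) (nat_lit 0x54022a) (nat_lit 5))))
 (.n (.n (.p (nat_lit 0xc215f702) (nat_lit 0x440b00) (nat_lit 1))
 (.p (nat_lit 0x16d1152d02) (nat_lit 0x100a1c) (nat_lit 15)))
 (.n (.p (nat_lit 0x1102167d02) (nat_lit 0x440706) (nat_lit 4))
 (.p (nat_lit 0x2717049702) (nat_lit 0x2c0060000100) (nat_lit 40))))))

def c128_70 : Tr := .n c256_70 c256_198

def c64_6 : Tr := .n c128_6 c128_70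

def c256_38 : Tr :=
 .n (.n (.n (.n (.n (.n (.p (nat_lit 0x650061004c03) (nat_lit 0xa1a00002) (nat_lit 19))
 (.p (nat_lit 0x270b27bf02) (nat_lit 0x80040000200) (nat_lit 37)))
 (.p (nat_lit 0x828082608240822082012cf06) (nat_lit 0x10000046806) (nat_lit 51)))
 (.n (.p (nat_lit 0x53e0d7f02) (nat_lit 0x200101) (nat_lit 4))
 (.p (nat_lit 0x1d921cd902) (nat_lit 0x40051f) (nat_lit 5))))
 (.n (.n (.n (.p (nat_lit 0xcba0cb80cb40cb20cb00b4906) (nat_lit 0x40000c4500) (nat_lit 52))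
 (.p (nat_lit 0xd5c285b02) (nat_lit 0x281d30344000000000600) (nat_lit 50)))
 (.p (nat_lit 0x21ec214f02) (nat_lit 0x500814) (nat_lit 5)))
 (.n (.p (nat_lit 0x163e163c163a163816360071164107) (nat_lit 0x540a03) (nat_lit 7))
 (.p (nat_lit 0xe200c0702) (nat_lit 0x30062a) (nat_lit 4)))))
 (.n (.n (.n (.n (.p (nat_lit 0x70d050d02) (nat_lit 0xa200) (nat_lit 16))
 (.p (nat_lit 0x26ab280f02) (nat_lit 0x80000000800) (nat_lit 37)))
 (.p (nat_lit 0x30c030a0306030403021ddf06) (nat_lit 0x4000088b0a) (nat_lit 51)))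
 (.n (.p (nat_lit 0x48e048c048a04880484155d06) (nat_lit 0x1000002a02) (nat_lit 52))
 (.p (nat_lit 0x1830187502) (nat_lit 0x140124) (nat_lit 5))))
 (.n (.n (.p (nat_lit 0x7e11a502) (nat_lit 0x100900) (nat_lit 1))
 (.p (nat_lit 0x1201bab02) (nat_lit 0x40018) (nat_lit 1)))
 (.n (.p (nat_lit 0x1f8a1f881f861f841f82080d06) (nat_lit 0x2000050205) (nat_lit 51))
 (.p (nat_lit 0x18e259f02) (nat_lit 0x400915) (nat_lit 27))))))
 (.n (.n (.n (.n (.n (.p (nat_lit 0x41d038d02) (nat_lit 0x40000) (nat_lit 15))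
 (.p (nat_lit 0x270727eb02) (nat_lit 0xc0040000500) (nat_lit 36)))
 (.p (nat_lit 0xf3e0f3c0f3a0f380f3609a306) (nat_lit 0x1000004e307) (nat_lit 52)))
 (.n (.p (nat_lit 0x1921146b02) (nat_lit 0x542901) (nat_lit 16))
 (.p (nat_lit 0xf4a0f480f460f440f42060b06) (nat_lit 0x1000004e123) (nat_lit 51))))
 (.n (.n (.n (.p (nat_lit 0x10170ddf02) (nat_lit 0x316700) (nat_lit 16))
 (.p (nat_lit 0xe4a289702) (nat_lit 0x344580ca4000000040600) (nat_lit 49)))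
 (.p (nat_lit 0xe600e5c0e5a0e580e560d1306) (nat_lit 0x80000cc515) (nat_lit 51)))
 (.n (.p (nat_lit 0xe3a131502) (nat_lit 0x400604) (nat_lit 4))
 (.p (nat_lit 0x4800460040003e000701cf06) (nat_lit 0x1a14302) (nat_lit 26)))))
 (.n (.n (.n (.n (.p (nat_lit 0x1fc08d102) (nat_lit 0x300400) (nat_lit 1))
 (.p (nat_lit 0x268d157f02) (nat_lit 0x260000000a00) (nat_lit 41)))
 (.p (nat_lit 0xfdd0df102) (nat_lit 0x60e) (nat_lit 15)))
 (.n (.p (nat_lit 0x12a055102) (nat_lit 0x500103) (nat_lit 1))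
 (.p (nat_lit 0x220021b502) (nat_lit 0x400829) (nat_lit 4))))
 (.n (.n (.p (nat_lit 0x1444157b02) (nat_lit 0x440a00) (nat_lit 4))
 (.p (nat_lit 0x768076607620760075e051f06) (nat_lit 0x400008811c) (nat_lit 51)))
 (.n (.p (nat_lit 0x11ec15d702) (nat_lit 0x805) (nat_lit 4))
 (.p (nat_lit 0x26a1037502) (nat_lit 0x120000000000) (nat_lit 39))))))

def c256_166 : Tr :=
 .n (.n (.n (.n (.n (.n (.p (nat_lit 0x25e025c026303) (nat_lit 0x1800050002a) (nat_lit 17))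
 (.p (nat_lit 0x2753081d02) (nat_lit 0x200080000300) (nat_lit 38)))
 (.p (nat_lit 0x7b802d302) (nat_lit 0x40207) (nat_lit 4)))
 (.n (.p (nat_lit 0x12b612b212b012ae12ac002d12b507) (nat_lit 0x440801) (nat_lit 7))
 (.p (nat_lit 0xbce0bcc0bca0bc80bc6036906) (nat_lit 0x800082023) (nat_lit 52))))
 (.n (.n (.n (.p (nat_lit 0xe6c0e6102) (nat_lit 0x540600) (nat_lit 5))
 (.p (nat_lit 0x81e287902) (nat_lit 0x588bb0344000300000000) (nat_lit 49)))
 (.p (nat_lit 0xb6c069302) (nat_lit 0x340415) (nat_lit 4)))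
 (.n (.p (nat_lit 0xd640d620d600d5e0d5a17d106) (nat_lit 0x100004cb03) (nat_lit 51))
 (.p (nat_lit 0x1afe1a9902) (nat_lit 0xa2c) (nat_lit 5)))))
 (.n (.n (.n (.n (.p (nat_lit 0x8420840083c083a083806ef06) (nat_lit 0x4000080300) (nat_lit 51))
 (.p (nat_lit 0x26af281902) (nat_lit 0x40000000900) (nat_lit 36)))
 (.p (nat_lit 0xf4a0f480f460f440f420a8506) (nat_lit 0x1000000e40e) (nat_lit 51)))
 (.n (.p (nat_lit 0x1b2d163502) (nat_lit 0x548a02) (nat_lit 16))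
 (.p (nat_lit 0x1bfc1cfd02) (nat_lit 0x400126) (nat_lit 4))))
 (.n (.n (.p (nat_lit 0x143d128d02) (nat_lit 0x40900) (nat_lit 15))
 (.p (nat_lit 0x9220920091c091a0367036106) (nat_lit 0x1200008601c) (nat_lit 51)))
 (.n (.p (nat_lit 0x10f70f3102) (nat_lit 0x340605) (nat_lit 15))
 (.p (nat_lit 0x2626262426222620261e028d020207) (nat_lit 0x823) (nat_lit 25))))))
 (.n (.n (.n (.n (.n (.p (nat_lit 0x10e042702) (nat_lit 0x540100) (nat_lit 1))
 (.p (nat_lit 0x27470e5f02) (nat_lit 0x2c0080000600) (nat_lit 41)))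
 (.p (nat_lit 0x1600040102) (nat_lit 0x340a07) (nat_lit 4)))
 (.n (.p (nat_lit 0x19f419f219f019ee19ec07ef06) (nat_lit 0x10000052202) (nat_lit 51))
 (.p (nat_lit 0x11de23a302) (nat_lit 0x500823) (nat_lit 29))))
 (.n (.n (.n (.p (nat_lit 0x11621160115e115c0fd30fd106) (nat_lit 0x1800000c800) (nat_lit 51))
 (.p (nat_lit 0x13b828b502) (nat_lit 0x3503a8d64000300040600) (nat_lit 49)))
 (.p (nat_lit 0x1520079d02) (nat_lit 0x100a15) (nat_lit 5)))
 (.n (.p (nat_lit 0x10ee10ec10ea10e810e6007d10e507) (nat_lit 0x40704) (nat_lit 7))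
 (.p (nat_lit 0xa3251302) (nat_lit 0x200805) (nat_lit 28)))))
 (.n (.n (.n (.n (.p (nat_lit 0xb5b098d02) (nat_lit 0x42400) (nat_lit 16))
 (.p (nat_lit 0x2745172b02) (nat_lit 0x2e0080000b00) (nat_lit 41)))
 (.p (nat_lit 0x1d5a1c2302) (nat_lit 0x240411) (nat_lit 4)))
 (.n (.p (nat_lit 0xb8f0b8302) (nat_lit 0x254403) (nat_lit 16))
 (.p (nat_lit 0x120e120c120a12061204071106) (nat_lit 0x200009022a) (nat_lit 52))))
 (.n (.n (.p (nat_lit 0x16f7151702) (nat_lit 0x20eb00) (nat_lit 16))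
 (.p (nat_lit 0x1ea01e9e1e9c1e9a1e98145906) (nat_lit 0x200004091c) (nat_lit 51)))
 (.n (.p (nat_lit 0x1016167102) (nat_lit 0x300706) (nat_lit 4))
 (.p (nat_lit 0x26f1048902) (nat_lit 0x220040000100) (nat_lit 38))))))

def c128_38 : Tr := .n c256_38 c256_166

def c256_102 : Tr :=
 .n (.n (.n (.n (.n (.n (.p (nat_lit 0x14b014901470145015005) (nat_lit 0x7800400015) (nat_lit 18))
 (.p (nat_lit 0x26d327cb02) (nat_lit 0x100020000300) (nat_lit 37)))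
 (.p (nat_lit 0x147c177d02) (nat_lit 0x240906) (nat_lit 4)))
 (.n (.p (nat_lit 0x18b818b618b418b218b018ae06) (nat_lit 0xc2401) (nat_lit 52))
 (.p (nat_lit 0x20ac200102) (nat_lit 0x300721) (nat_lit 4))))
 (.n (.n (.n (.p (nat_lit 0xdce0dcc0dca0dc80dc60d6706) (nat_lit 0x800092600) (nat_lit 51))
 (.p (nat_lit 0x724286b02) (nat_lit 0x281d30342800200040000) (nat_lit 49)))
 (.p (nat_lit 0x432042e042a04280160014d01490431042d09) (nat_lit 0x2240015) (nat_lit 10)))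
 (.n (.p (nat_lit 0xbb60bb40bb20bb00bae170906) (nat_lit 0x1000000ab03) (nat_lit 51))
 (.p (nat_lit 0x16e80c2902) (nat_lit 0x100b2a) (nat_lit 4)))))
 (.n (.n (.n (.n (.p (nat_lit 0x7bd05ed02) (nat_lit 0x240200) (nat_lit 16))
 (.p (nat_lit 0x26f1281502) (nat_lit 0x220040000800) (nat_lit 36)))
 (.p (nat_lit 0x77e077c077a0778077608ed06) (nat_lit 0x1000008a30e) (nat_lit 52)))
 (.n (.p (nat_lit 0x16301b1102) (nat_lit 0x340a02) (nat_lit 29))
 (.p (nat_lit 0x248194302) (nat_lit 0x100a24) (nat_lit 1))))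
 (.n (.n (.p (nat_lit 0x13a511a502) (nat_lit 0x116900) (nat_lit 16))
 (.p (nat_lit 0x13e813e613e413e213de1eef06) (nat_lit 0x10000c4519) (nat_lit 52)))
 (.n (.p (nat_lit 0xd4814c502) (nat_lit 0x340505) (nat_lit 4))
 (.p (nat_lit 0x1cd25e302) (nat_lit 0x10051e) (nat_lit 28))))))
 (.n (.n (.n (.n (.n (.p (nat_lit 0x4be04bc04ba04b804b4034706) (nat_lit 0x1000008100) (nat_lit 52))
 (.p (nat_lit 0x269b0d4f02) (nat_lit 0x180000000600) (nat_lit 38)))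
 (.p (nat_lit 0xb5803d902) (nat_lit 0x540407) (nat_lit 4)))
 (.n (.p (nat_lit 0x196a1968196619641962045b06) (nat_lit 0x4000046002) (nat_lit 51))
 (.p (nat_lit 0x93c093809360934093207cd06) (nat_lit 0x80000c0223) (nat_lit 52))))
 (.n (.n (.n (.p (nat_lit 0x10aa10a610a410a210a00eeb06) (nat_lit 0x80000d6700) (nat_lit 52))
 (.p (nat_lit 0xf4628a902) (nat_lit 0x350521a84000100000600) (nat_lit 50)))
 (.p (nat_lit 0x10d0078f02) (nat_lit 0x440715) (nat_lit 4)))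
 (.n (.p (nat_lit 0xf28140b02) (nat_lit 0x540604) (nat_lit 4))
 (.p (nat_lit 0x6724dd02) (nat_lit 0xa03) (nat_lit 28)))))
 (.n (.n (.n (.n (.p (nat_lit 0xa9108d502) (nat_lit 0x504400) (nat_lit 16))
 (.p (nat_lit 0x2763283502) (nat_lit 0x100080000a00) (nat_lit 36)))
 (.p (nat_lit 0x189d189502) (nat_lit 0x640f) (nat_lit 16)))
 (.n (.p (nat_lit 0x7fa1c8d02) (nat_lit 0x540203) (nat_lit 29))
 (.p (nat_lit 0x6100bc902) (nat_lit 0x24012a) (nat_lit 4))))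
 (.n (.n (.p (nat_lit 0x1635144702) (nat_lit 0x54ea00) (nat_lit 16))
 (.p (nat_lit 0x1f60d1702) (nat_lit 0x4051c) (nat_lit 1)))
 (.n (.p (nat_lit 0x12be15e902) (nat_lit 0x340805) (nat_lit 4))
 (.p (nat_lit 0x26b7038302) (nat_lit 0x2c0020000000) (nat_lit 41))))))

def c256_230 : Tr :=
 .n (.n (.n (.n (.n (.n (.p (nat_lit 0x30c030a0308030402bf02bb06) (nat_lit 0x2800088000) (nat_lit 51))
 (.p (nat_lit 0x26c727d902) (nat_lit 0x1c0020000400) (nat_lit 37)))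
 (.p (nat_lit 0xd640d620d600d5e0d5a08d906) (nat_lit 0x100000c307) (nat_lit 51)))
 (.n (.p (nat_lit 0x111c111a111811141112138f06) (nat_lit 0x2000010901) (nat_lit 51))
 (.p (nat_lit 0xc8c0c880c860c840c82052d06) (nat_lit 0x800008a123) (nat_lit 51))))
 (.n (.n (.n (.p (nat_lit 0x420ddd02) (nat_lit 0x200700) (nat_lit 1))
 (.p (nat_lit 0x171a288502) (nat_lit 0x344580a64000500040600) (nat_lit 49)))
 (.p (nat_lit 0xbb80bb60bb40bb20bae0c4b06) (nat_lit 0x100000a515) (nat_lit 51)))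
 (.n (.p (nat_lit 0x80012fd02) (nat_lit 0x240204) (nat_lit 5))
 (.p (nat_lit 0x1e821ecf02) (nat_lit 0x4022e) (nat_lit 5)))))
 (.n (.n (.n (.n (.p (nat_lit 0x7b4092302) (nat_lit 0x440300) (nat_lit 5))
 (.p (nat_lit 0x282012bd02) (nat_lit 0x40056900) (nat_lit 47)))
 (.p (nat_lit 0x13b813b413b213b013ae0b6306) (nat_lit 0x80000d240e) (nat_lit 52)))
 (.n (.p (nat_lit 0x17ca0fc502) (nat_lit 0x440b02) (nat_lit 5))
 (.p (nat_lit 0x1f60202f02) (nat_lit 0x540128) (nat_lit 4))))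
 (.n (.n (.p (nat_lit 0x1504150214fe14fc1359135306) (nat_lit 0x4800010a00) (nat_lit 51))
 (.p (nat_lit 0x57c057a057605740572043b06) (nat_lit 0x40000c201c) (nat_lit 51)))
 (.n (.p (nat_lit 0x10f420cb02) (nat_lit 0x240705) (nat_lit 29))
 (.p (nat_lit 0x25e025c02560254000500db06) (nat_lit 0x130412a) (nat_lit 26))))))
 (.n (.n (.n (.n (.n (.p (nat_lit 0x510065902) (nat_lit 0x200200) (nat_lit 4))
 (.p (nat_lit 0x26eb280502) (nat_lit 0x280040000700) (nat_lit 36)))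
 (.p (nat_lit 0x1e05178d02) (nat_lit 0x450b07) (nat_lit 16)))
 (.n (.p (nat_lit 0x115a1158115611541152139706) (nat_lit 0x80008a902) (nat_lit 52))
 (.p (nat_lit 0x16da0b2f02) (nat_lit 0xb23) (nat_lit 5))))
 (.n (.n (.n (.p (nat_lit 0x6e10b502) (nat_lit 0x440800) (nat_lit 1))
 (.p (nat_lit 0x1729171b1587157513bb13b91215120b103310250e590e4b28c40d) (nat_lit 0x3508a9d84000000040600) (nat_lit 33)))
 (.p (nat_lit 0x1aae1aac1aaa1aa61aa4016b1aa907) (nat_lit 0x200517) (nat_lit 7)))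
 (.n (.p (nat_lit 0xe3d171502) (nat_lit 0x500b04) (nat_lit 15))
 (.p (nat_lit 0x10e010c010601040141000706) (nat_lit 0x131640e) (nat_lit 26)))))
 (.n (.n (.n (.n (.p (nat_lit 0xbe60be40be00bdc0a690a6506) (nat_lit 0x5000084500) (nat_lit 51))
 (.p (nat_lit 0x72c284902) (nat_lit 0x4a1a36344000200040000) (nat_lit 49)))
 (.p (nat_lit 0x1dee1be702) (nat_lit 0x500b11) (nat_lit 5)))
 (.n (.p (nat_lit 0xf1a125b02) (nat_lit 0x440603) (nat_lit 4))
 (.p (nat_lit 0x12e412e212e012de12dc07db06) (nat_lit 0x1000005222a) (nat_lit 51))))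
 (.n (.n (.p (nat_lit 0x176a17641762176015f715f506) (nat_lit 0xc0000d0b00) (nat_lit 52))
 (.p (nat_lit 0xe0d16d702) (nat_lit 0x400b1c) (nat_lit 15)))
 (.n (.p (nat_lit 0x4980496049404920490120306) (nat_lit 0x10000002806) (nat_lit 51))
 (.p (nat_lit 0x2779049b02) (nat_lit 0x2a00a0000100) (nat_lit 40))))))

def c128_102 : Tr := .n c256_102 c256_230

def c64_38 : Tr := .n c128_38 c128_102

def c32_6 : Tr := .n c64_6 c64_38

def c256_22 : Tr :=
 .n (.n (.n (.n (.n (.n (.p (nat_lit 0x480046003e004b04) (nat_lit 0x18800400002) (nat_lit 17))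
 (.p (nat_lit 0x26d3066302) (nat_lit 0x100020000200) (nat_lit 40)))
 (.p (nat_lit 0x12ce169702) (nat_lit 0x540806) (nat_lit 5)))
 (.n (.p (nat_lit 0x17e515f902) (nat_lit 0x552b00) (nat_lit 16))
 (.p (nat_lit 0x1af81a2902) (nat_lit 0x300a1e) (nat_lit 4))))
 (.n (.n (.n (.p (nat_lit 0xb480c7d02) (nat_lit 0x340500) (nat_lit 4))
 (.p (nat_lit 0x111c285702) (nat_lit 0x4a8876344000200000600) (nat_lit 50)))
 (.p (nat_lit 0x20fa1f5302) (nat_lit 0x400813) (nat_lit 5)))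
 (.n (.p (nat_lit 0x16381dc302) (nat_lit 0x140a03) (nat_lit 29))
 (.p (nat_lit 0x9b80ccf02) (nat_lit 0x44032a) (nat_lit 4)))))
 (.n (.n (.n (.n (.p (nat_lit 0x6cc06ca06c806c60513050d06) (nat_lit 0x4800012200) (nat_lit 52))
 (.p (nat_lit 0x278b280b02) (nat_lit 0x1800a0000700) (nat_lit 36)))
 (.p (nat_lit 0x127e127c127a127812741cdf06) (nat_lit 0x100005630a) (nat_lit 51)))
 (.n (.p (nat_lit 0x155e108102) (nat_lit 0x200a02) (nat_lit 5))
 (.p (nat_lit 0x1808186b02) (nat_lit 0x100124) (nat_lit 4))))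
 (.n (.n (.p (nat_lit 0x12b310b302) (nat_lit 0x34c800) (nat_lit 16))
 (.p (nat_lit 0x1b181a0102) (nat_lit 0x140a17) (nat_lit 5)))
 (.n (.p (nat_lit 0x80d064502) (nat_lit 0x240105) (nat_lit 15))
 (.p (nat_lit 0x14d258702) (nat_lit 0x400715) (nat_lit 28))))))
 (.n (.n (.n (.n (.n (.p (nat_lit 0x3c003be03bc03ba03b8038d06) (nat_lit 0x8000c6000) (nat_lit 52))
 (.p (nat_lit 0x27e220df02) (nat_lit 0x54500) (nat_lit 48)))
 (.p (nat_lit 0x9a2099e099c099a099800dd09a107) (nat_lit 0x440307) (nat_lit 7)))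
 (.n (.p (nat_lit 0xc8c0c880c860c840c82146906) (nat_lit 0x80000ca901) (nat_lit 51))
 (.p (nat_lit 0x48e048a048804860484060906) (nat_lit 0x8000042123) (nat_lit 52))))
 (.n (.n (.n (.p (nat_lit 0xfe70ddd02) (nat_lit 0x204700) (nat_lit 16))
 (.p (nat_lit 0x91e289302) (nat_lit 0x354221ca4000300040000) (nat_lit 50)))
 (.p (nat_lit 0x2b802b402b202b002ae0d1306) (nat_lit 0x8000040515) (nat_lit 51)))
 (.n (.p (nat_lit 0x1ecc1eca1ec81ec61ec41ec206) (nat_lit 0x4504) (nat_lit 52))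
 (.p (nat_lit 0xcac0caa0ca80ca60ca420e706) (nat_lit 0x1000004472f) (nat_lit 51)))))
 (.n (.n (.n (.n (.p (nat_lit 0x9c507af02) (nat_lit 0x154300) (nat_lit 16))
 (.p (nat_lit 0x26b1282702) (nat_lit 0x20000000a00) (nat_lit 36)))
 (.p (nat_lit 0xd0804e102) (nat_lit 0x54050e) (nat_lit 5)))
 (.n (.p (nat_lit 0x548111f02) (nat_lit 0x100103) (nat_lit 5))
 (.p (nat_lit 0x21ca218b02) (nat_lit 0x400729) (nat_lit 5))))
 (.n (.n (.p (nat_lit 0xa0143f02) (nat_lit 0x140a00) (nat_lit 1))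
 (.p (nat_lit 0x51c232502) (nat_lit 0x20011c) (nat_lit 29)))
 (.n (.p (nat_lit 0x12e412e212e012de12dc10fb06) (nat_lit 0x10000052705) (nat_lit 51))
 (.p (nat_lit 0x26af27a502) (nat_lit 0x40000000000) (nat_lit 37))))))

def c256_150 : Tr :=
 .n (.n (.n (.n (.n (.n (.p (nat_lit 0x210020c020a021704) (nat_lit 0x5800400024) (nat_lit 17))
 (.p (nat_lit 0x2729082702) (nat_lit 0x1a0060000300) (nat_lit 40)))
 (.p (nat_lit 0x4b204ae04ac04a806fd06f706) (nat_lit 0x9000086207) (nat_lit 52)))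
 (.n (.p (nat_lit 0x120311eb02) (nat_lit 0x514801) (nat_lit 16))
 (.p (nat_lit 0x36a09e702) (nat_lit 0x100023) (nat_lit 4))))
 (.n (.n (.n (.p (nat_lit 0xe660e4f02) (nat_lit 0x240600) (nat_lit 4))
 (.p (nat_lit 0xf3a287702) (nat_lit 0x568872b44000100000600) (nat_lit 49)))
 (.p (nat_lit 0xc510a8f02) (nat_lit 0x400415) (nat_lit 15)))
 (.n (.p (nat_lit 0x498049604940492049017d906) (nat_lit 0x10000042b03) (nat_lit 51))
 (.p (nat_lit 0x1a181abb02) (nat_lit 0x14022c) (nat_lit 4)))))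
 (.n (.n (.n (.n (.p (nat_lit 0x6f0082902) (nat_lit 0x400300) (nat_lit 5))
 (.p (nat_lit 0x2763111b02) (nat_lit 0x100080000800) (nat_lit 40)))
 (.p (nat_lit 0x37e037c037a037803760a7b06) (nat_lit 0x80008040e) (nat_lit 52)))
 (.n (.p (nat_lit 0x120e120a120812061204163306) (nat_lit 0x80000d0a02) (nat_lit 52))
 (.p (nat_lit 0x1b281a5f02) (nat_lit 0x340a25) (nat_lit 4))))
 (.n (.n (.p (nat_lit 0x14081404140214001297129306) (nat_lit 0x140000cc900) (nat_lit 52))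
 (.p (nat_lit 0x362092d02) (nat_lit 0x30001c) (nat_lit 5)))
 (.n (.p (nat_lit 0xf2e209f02) (nat_lit 0x240605) (nat_lit 29))
 (.p (nat_lit 0x1f7261302) (nat_lit 0x623) (nat_lit 28))))))
 (.n (.n (.n (.n (.n (.p (nat_lit 0x41c056702) (nat_lit 0x40100) (nat_lit 4))
 (.p (nat_lit 0x270b27f902) (nat_lit 0x80040000600) (nat_lit 37)))
 (.p (nat_lit 0x10c510bb02) (nat_lit 0x344707) (nat_lit 16)))
 (.n (.p (nat_lit 0x7ea0f6702) (nat_lit 0x340202) (nat_lit 4))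
 (.p (nat_lit 0xff40b1702) (nat_lit 0x400723) (nat_lit 4))))
 (.n (.n (.n (.p (nat_lit 0x6e0fd102) (nat_lit 0x400800) (nat_lit 1))
 (.p (nat_lit 0xf3e28b302) (nat_lit 0x352868d84000100000600) (nat_lit 49)))
 (.p (nat_lit 0x18a144d02) (nat_lit 0x240915) (nat_lit 1)))
 (.n (.p (nat_lit 0xffe141302) (nat_lit 0x300704) (nat_lit 4))
 (.p (nat_lit 0x9f250702) (nat_lit 0x605) (nat_lit 28)))))
 (.n (.n (.n (.n (.p (nat_lit 0xb0e0b0c0b0a0b040991098f06) (nat_lit 0x30000c4400) (nat_lit 52))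
 (.p (nat_lit 0x2727165502) (nat_lit 0x1c0060000b00) (nat_lit 40)))
 (.p (nat_lit 0x1d1e1bcf02) (nat_lit 0x400411) (nat_lit 4)))
 (.n (.p (nat_lit 0xb84124102) (nat_lit 0x340403) (nat_lit 5))
 (.p (nat_lit 0x9d409d209d009ce09cc071706) (nat_lit 0x1000000822a) (nat_lit 52))))
 (.n (.n (.p (nat_lit 0x16bf151702) (nat_lit 0x202b00) (nat_lit 16))
 (.p (nat_lit 0x11d6233502) (nat_lit 0x40081c) (nat_lit 29)))
 (.n (.p (nat_lit 0xaac173d02) (nat_lit 0x400406) (nat_lit 4))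
 (.p (nat_lit 0x26cf056902) (nat_lit 0x140020000100) (nat_lit 39))))))

def c128_22 : Tr := .n c256_22 c256_150

def c256_86 : Tr :=
 .n (.n (.n (.n (.n (.n (.p (nat_lit 0xf200f000ee00f904) (nat_lit 0x700040000a) (nat_lit 17))
 (.p (nat_lit 0x27c6052102) (nat_lit 0x80008200) (nat_lit 48)))
 (.p (nat_lit 0x14d414d214ce14cc14ca13a906) (nat_lit 0x400000c906) (nat_lit 52)))
 (.n (.p (nat_lit 0xa960e9502) (nat_lit 0x200401) (nat_lit 4))
 (.p (nat_lit 0x1f401ff702) (nat_lit 0x440021) (nat_lit 4))))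
 (.n (.n (.n (.p (nat_lit 0xd700d5902) (nat_lit 0x500600) (nat_lit 4))
 (.p (nat_lit 0xe5e286702) (nat_lit 0x1a2274b50000000040600) (nat_lit 50)))
 (.p (nat_lit 0x42a074902) (nat_lit 0x140015) (nat_lit 4)))
 (.n (.p (nat_lit 0x65e065c065a06580654170106) (nat_lit 0x1000004b03) (nat_lit 52))
 (.p (nat_lit 0x161a0cef02) (nat_lit 0x440a2a) (nat_lit 4)))))
 (.n (.n (.n (.n (.p (nat_lit 0x770076e076c076a05f305f106) (nat_lit 0x1800004a200) (nat_lit 51))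
 (.p (nat_lit 0x26c1110902) (nat_lit 0x220020000800) (nat_lit 38)))
 (.p (nat_lit 0x8ea058702) (nat_lit 0x40030e) (nat_lit 5)))
 (.n (.p (nat_lit 0x156d156102) (nat_lit 0x312a02) (nat_lit 16))
 (.p (nat_lit 0x190e188102) (nat_lit 0x100924) (nat_lit 5))))
 (.n (.n (.p (nat_lit 0x137311a302) (nat_lit 0x8900) (nat_lit 16))
 (.p (nat_lit 0x140a14081404140214001edf06) (nat_lit 0x400008c519) (nat_lit 52)))
 (.n (.p (nat_lit 0xb9c201f02) (nat_lit 0x340405) (nat_lit 29))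
 (.p (nat_lit 0x1ca25cb02) (nat_lit 0x71c) (nat_lit 27))))))
 (.n (.n (.n (.n (.n (.p (nat_lit 0x497048b02) (nat_lit 0x300100) (nat_lit 34))
 (.p (nat_lit 0x26b30e5702) (nat_lit 0x600) (nat_lit 41)))
 (.p (nat_lit 0xa810a7502) (nat_lit 0x304407) (nat_lit 16)))
 (.n (.p (nat_lit 0x167e167c167a16781676161f06) (nat_lit 0x8000cea01) (nat_lit 52))
 (.p (nat_lit 0x7c80b0902) (nat_lit 0x240223) (nat_lit 4))))
 (.n (.n (.n (.p (nat_lit 0x108410821080107e107c0eed06) (nat_lit 0x10000054700) (nat_lit 51))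
 (.p (nat_lit 0x38228a302) (nat_lit 0x350521a84000000040000) (nat_lit 50)))
 (.p (nat_lit 0xfea078702) (nat_lit 0x400715) (nat_lit 4)))
 (.n (.p (nat_lit 0xe430e3702) (nat_lit 0x216604) (nat_lit 16))
 (.p (nat_lit 0x24d024cc24ca24c824c6010d007207) (nat_lit 0x416103) (nat_lit 25)))))
 (.n (.n (.n (.n (.p (nat_lit 0xa6f08cb02) (nat_lit 0x400) (nat_lit 16))
 (.p (nat_lit 0x282e13a702) (nat_lit 0x4000ca00) (nat_lit 48)))
 (.p (nat_lit 0x16c2050902) (nat_lit 0x400b0e) (nat_lit 5)))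
 (.n (.p (nat_lit 0x1c8c1c8a1c881c861c841c82007207) (nat_lit 0x40203) (nat_lit 8))
 (.p (nat_lit 0x3cc03c803c603c403c2053906) (nat_lit 0x800000812a) (nat_lit 52))))
 (.n (.n (.p (nat_lit 0x15f5144302) (nat_lit 0x340a00) (nat_lit 15))
 (.p (nat_lit 0xc5c095f02) (nat_lit 0x40051c) (nat_lit 5)))
 (.n (.p (nat_lit 0x21122110210e210c210a210800aa07) (nat_lit 0x40805) (nat_lit 8))
 (.p (nat_lit 0x26cb27a702) (nat_lit 0x180020000000) (nat_lit 36))))))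

def c256_214 : Tr :=
 .n (.n (.n (.n (.n (.n (.p (nat_lit 0x2dc02d802d602d402d202c306) (nat_lit 0x8000084000) (nat_lit 52))
 (.p (nat_lit 0x27d4190d02) (nat_lit 0xc400) (nat_lit 48)))
 (.p (nat_lit 0x8dc223702) (nat_lit 0x300307) (nat_lit 29)))
 (.n (.p (nat_lit 0x57c057a057605740572139106) (nat_lit 0x4000082901) (nat_lit 51))
 (.p (nat_lit 0x52e0a0702) (nat_lit 0x500123) (nat_lit 4))))
 (.n (.n (.n (.p (nat_lit 0xf130e6302) (nat_lit 0x50600) (nat_lit 16))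
 (.p (nat_lit 0x12d2288302) (nat_lit 0x342221ca4000300000600) (nat_lit 49)))
 (.p (nat_lit 0xc520c4e0c4c0c48015a014d01470c510c4b09) (nat_lit 0x2100515) (nat_lit 10)))
 (.n (.p (nat_lit 0x71e12f102) (nat_lit 0x204) (nat_lit 5))
 (.p (nat_lit 0x28f247f02) (nat_lit 0x10062d) (nat_lit 30)))))
 (.n (.n (.n (.n (.p (nat_lit 0x19e07ad02) (nat_lit 0x40300) (nat_lit 1))
 (.p (nat_lit 0x26fd12e102) (nat_lit 0x160040000900) (nat_lit 40)))
 (.p (nat_lit 0x72e072c0728072607240b6106) (nat_lit 0x40000c440e) (nat_lit 52)))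
 (.n (.p (nat_lit 0x3f1b3b02) (nat_lit 0x40b02) (nat_lit 30))
 (.p (nat_lit 0x143a14381434143214301e2506) (nat_lit 0x4000096127) (nat_lit 51))))
 (.n (.n (.p (nat_lit 0x14d414d214ce14cc14ca135906) (nat_lit 0x400000ca00) (nat_lit 52))
 (.p (nat_lit 0x1a3231902) (nat_lit 0x24001c) (nat_lit 30)))
 (.n (.p (nat_lit 0x11f1100902) (nat_lit 0x200705) (nat_lit 15))
 (.p (nat_lit 0x251264f02) (nat_lit 0x500729) (nat_lit 28))))))
 (.n (.n (.n (.n (.n (.p (nat_lit 0x641042302) (nat_lit 0x352100) (nat_lit 16))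
 (.p (nat_lit 0x270d280302) (nat_lit 0x60040000700) (nat_lit 37)))
 (.p (nat_lit 0x178e178a17881786178400dd178d07) (nat_lit 0x440b07) (nat_lit 7)))
 (.n (.p (nat_lit 0x13960f8102) (nat_lit 0x902) (nat_lit 4))
 (.p (nat_lit 0x153c0a4b02) (nat_lit 0x300a23) (nat_lit 4))))
 (.n (.n (.n (.p (nat_lit 0x10ac120502) (nat_lit 0x40800) (nat_lit 4))
 (.p (nat_lit 0x9d628c102) (nat_lit 0x332a05d81000400000000) (nat_lit 49)))
 (.p (nat_lit 0x77e077c077a07780776190b06) (nat_lit 0x1000008a916) (nat_lit 52)))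
 (.n (.p (nat_lit 0xa8171502) (nat_lit 0x500b04) (nat_lit 1))
 (.p (nat_lit 0xf7254b02) (nat_lit 0x500b0a) (nat_lit 28)))))
 (.n (.n (.n (.n (.p (nat_lit 0xa680a660a640a620022000b00090a6d0a6b09) (nat_lit 0x2c00500) (nat_lit 10))
 (.p (nat_lit 0xd4e284702) (nat_lit 0x4a1a36344000000000600) (nat_lit 49)))
 (.p (nat_lit 0x1b6c1b6a1b661b641da11d9b06) (nat_lit 0x12000056511) (nat_lit 51)))
 (.n (.p (nat_lit 0xe3d0e3102) (nat_lit 0x514603) (nat_lit 16))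
 (.p (nat_lit 0x9220920091e091c091a07db06) (nat_lit 0x100000c622a) (nat_lit 51))))
 (.n (.n (.p (nat_lit 0x174817461742173e15f515f106) (nat_lit 0x500004eb00) (nat_lit 51))
 (.p (nat_lit 0x1610098302) (nat_lit 0x540a1c) (nat_lit 5)))
 (.n (.p (nat_lit 0x11fc168502) (nat_lit 0x200806) (nat_lit 4))
 (.p (nat_lit 0x274f27b702) (nat_lit 0x240080000100) (nat_lit 36))))))

def c128_86 : Tr := .n c256_86 c256_214

def c64_22 : Tr := .n c128_22 c128_86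

def c256_54 : Tr :=
 .n (.n (.n (.n (.n (.n (.p (nat_lit 0x840082008b03) (nat_lit 0xc000500004) (nat_lit 17))
 (.p (nat_lit 0x273727c302) (nat_lit 0xc0060000200) (nat_lit 37)))
 (.p (nat_lit 0x12e412e212e012de12dc12cf06) (nat_lit 0x10000052806) (nat_lit 51)))
 (.n (.p (nat_lit 0x61a0d8702) (nat_lit 0x140101) (nat_lit 4))
 (.p (nat_lit 0x140a14061404140214001e1d06) (nat_lit 0x800008c020) (nat_lit 52))))
 (.n (.n (.n (.p (nat_lit 0xd030b4702) (nat_lit 0x242500) (nat_lit 16))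
 (.p (nat_lit 0x13b4285d02) (nat_lit 0x1a2260b50000300040600) (nat_lit 49)))
 (.p (nat_lit 0x350066d02) (nat_lit 0x15) (nat_lit 5)))
 (.n (.p (nat_lit 0x1dd61dd41dd21dd01dce1dcc007207) (nat_lit 0xb03) (nat_lit 8))
 (.p (nat_lit 0x13820c0f02) (nat_lit 0x20092a) (nat_lit 5)))))
 (.n (.n (.n (.n (.p (nat_lit 0x14805ed02) (nat_lit 0x240200) (nat_lit 1))
 (.p (nat_lit 0x2689280d02) (nat_lit 0x2a0000000800) (nat_lit 36)))
 (.p (nat_lit 0x2136213421322130212e215d06) (nat_lit 0x40000c820d) (nat_lit 51)))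
 (.n (.p (nat_lit 0xbac0baa0ba80ba40ba2155f06) (nat_lit 0x200000aa02) (nat_lit 52))
 (.p (nat_lit 0x184c23e102) (nat_lit 0x40224) (nat_lit 29))))
 (.n (.n (.p (nat_lit 0x12e712db02) (nat_lit 0x500900) (nat_lit 34))
 (.p (nat_lit 0x1d661c7302) (nat_lit 0x240418) (nat_lit 4)))
 (.n (.p (nat_lit 0x90c090a0908090600ae00a1009f0905090309) (nat_lit 0x800305) (nat_lit 10))
 (.p (nat_lit 0x17e017c017a0178019101d906) (nat_lit 0x2c14418) (nat_lit 26))))))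
 (.n (.n (.n (.n (.n (.p (nat_lit 0x457038d02) (nat_lit 0x4e000) (nat_lit 16))
 (.p (nat_lit 0x273327ed02) (nat_lit 0x100060000500) (nat_lit 36)))
 (.p (nat_lit 0x2540a6f02) (nat_lit 0x407) (nat_lit 1)))
 (.n (.p (nat_lit 0x17521750174e174c174a154f06) (nat_lit 0x80008ea01) (nat_lit 51))
 (.p (nat_lit 0x1f5f060902) (nat_lit 0x454123) (nat_lit 16))))
 (.n (.n (.n (.p (nat_lit 0xeec0eea0ee80ee40ee200050ee707) (nat_lit 0x240700) (nat_lit 7))
 (.p (nat_lit 0x57a289d02) (nat_lit 0x356068ca4000100040000) (nat_lit 50)))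
 (.p (nat_lit 0x1658165616541650164e0d0f06) (nat_lit 0x2000056515) (nat_lit 51)))
 (.n (.p (nat_lit 0x570056e056c056805660e3706) (nat_lit 0x2000082604) (nat_lit 52))
 (.p (nat_lit 0x4800460040003e0007006b06) (nat_lit 0x1a14902) (nat_lit 26)))))
 (.n (.n (.n (.n (.p (nat_lit 0x9ea09e809e609e408d508d306) (nat_lit 0x18000000400) (nat_lit 52))
 (.p (nat_lit 0x26d9282b02) (nat_lit 0xa0020000a00) (nat_lit 36)))
 (.p (nat_lit 0x12211bb02) (nat_lit 0x10080e) (nat_lit 1)))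
 (.n (.p (nat_lit 0x632122702) (nat_lit 0x140103) (nat_lit 4))
 (.p (nat_lit 0xb2c0b2a0b280b240b22221106) (nat_lit 0x2000054829) (nat_lit 51))))
 (.n (.n (.p (nat_lit 0x15ba15b615b415b21447144306) (nat_lit 0x1400004ca00) (nat_lit 51))
 (.p (nat_lit 0x5fe05fc05fa05f605f401a305f907) (nat_lit 0x24011c) (nat_lit 7)))
 (.n (.p (nat_lit 0x11f611f411f011ee11ec00a511f307) (nat_lit 0x300805) (nat_lit 7))
 (.p (nat_lit 0x269102af02) (nat_lit 0x220000000000) (nat_lit 40))))))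

def c256_182 : Tr :=
 .n (.n (.n (.n (.n (.n (.p (nat_lit 0x2ae02a202bb03) (nat_lit 0x0) (nat_lit 6))
 (.p (nat_lit 0x277f091902) (nat_lit 0x2400a0000300) (nat_lit 39)))
 (.p (nat_lit 0x4ca04c804c604c204c007bd06) (nat_lit 0x20000c8207) (nat_lit 51)))
 (.n (.p (nat_lit 0xfba0fb60fb40fb212b512ad06) (nat_lit 0x8800056801) (nat_lit 51))
 (.p (nat_lit 0x44a044804460442044001fb044507) (nat_lit 0x240023) (nat_lit 7))))
 (.n (.n (.n (.p (nat_lit 0xeb00eac0eaa0ea60e6b0e6506) (nat_lit 0x90000d0600) (nat_lit 51))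
 (.p (nat_lit 0xbaa287b02) (nat_lit 0x5898b0b44000500000000) (nat_lit 49)))
 (.p (nat_lit 0x84e084c084808440b6d0b6906) (nat_lit 0x5000042415) (nat_lit 51)))
 (.n (.p (nat_lit 0x157c157a15781576157417cf06) (nat_lit 0x8000d4b03) (nat_lit 52))
 (.p (nat_lit 0xbf20bf00bec0bea0be81b0506) (nat_lit 0x4000006a2c) (nat_lit 51)))))
 (.n (.n (.n (.n (.p (nat_lit 0x870086e086c086a086806f306) (nat_lit 0x1000008a300) (nat_lit 52))
 (.p (nat_lit 0x28181eed02) (nat_lit 0x44900) (nat_lit 48)))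
 (.p (nat_lit 0xa890a7d02) (nat_lit 0x10640e) (nat_lit 16)))
 (.n (.p (nat_lit 0x16f80fb702) (nat_lit 0x300b02) (nat_lit 5))
 (.p (nat_lit 0x1c5e1d4102) (nat_lit 0x440126) (nat_lit 4))))
 (.n (.n (.p (nat_lit 0x1475129502) (nat_lit 0x44e900) (nat_lit 16))
 (.p (nat_lit 0x12e612e412e212de12dc036106) (nat_lit 0x200001201c) (nat_lit 51)))
 (.n (.p (nat_lit 0x100e15c902) (nat_lit 0x500705) (nat_lit 5))
 (.p (nat_lit 0x218263302) (nat_lit 0x824) (nat_lit 27))))))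
 (.n (.n (.n (.n (.n (.p (nat_lit 0x5b605b405b205b005ae042706) (nat_lit 0x1000004a100) (nat_lit 52))
 (.p (nat_lit 0x268b27ff02) (nat_lit 0x280000000700) (nat_lit 36)))
 (.p (nat_lit 0x16b0040902) (nat_lit 0x100b07) (nat_lit 4)))
 (.n (.p (nat_lit 0xb7a0f7502) (nat_lit 0x440402) (nat_lit 4))
 (.p (nat_lit 0x1d421d3e1d3c1d3a1d3812a906) (nat_lit 0x80000c2823) (nat_lit 52))))
 (.n (.n (.n (.p (nat_lit 0x11a50fcb02) (nat_lit 0x100800) (nat_lit 15))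
 (.p (nat_lit 0xc7a28bb02) (nat_lit 0x352868d84000500040000) (nat_lit 49)))
 (.p (nat_lit 0x152615241522151e015c014f01471529152109) (nat_lit 0x2900a15) (nat_lit 10)))
 (.n (.p (nat_lit 0x122e122a1228122610ed10e506) (nat_lit 0x88000c2704) (nat_lit 52))
 (.p (nat_lit 0xbb251b02) (nat_lit 0x906) (nat_lit 28)))))
 (.n (.n (.n (.n (.p (nat_lit 0xb97098d02) (nat_lit 0x54400) (nat_lit 16))
 (.p (nat_lit 0x81c283d02) (nat_lit 0x260d84344000300000000) (nat_lit 49)))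
 (.p (nat_lit 0x127e127a1278127612741d5f06) (nat_lit 0x8000056411) (nat_lit 51)))
 (.n (.p (nat_lit 0xd40115902) (nat_lit 0x440503) (nat_lit 4))
 (.p (nat_lit 0x1e55071702) (nat_lit 0x51222a) (nat_lit 16))))
 (.n (.n (.p (nat_lit 0x1722171615ef03) (nat_lit 0x40b00) (nat_lit 6))
 (.p (nat_lit 0x1530233f02) (nat_lit 0x300a1c) (nat_lit 29)))
 (.n (.p (nat_lit 0xed40ed00ece0ecc1019101106) (nat_lit 0x8800014706) (nat_lit 52))
 (.p (nat_lit 0x273b049702) (nat_lit 0x80060000100) (nat_lit 40))))))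

def c128_54 : Tr := .n c256_54 c256_182

def c256_118 : Tr :=
 .n (.n (.n (.n (.n (.n (.p (nat_lit 0x1610157015203) (nat_lit 0x42000015) (nat_lit 19))
 (.p (nat_lit 0x2703082502) (nat_lit 0x100040000300) (nat_lit 40)))
 (.p (nat_lit 0x1482222f02) (nat_lit 0x540906) (nat_lit 29)))
 (.n (.p (nat_lit 0xd2c0d280d260d220038002d00270d2b0d2509) (nat_lit 0x2140501) (nat_lit 10))
 (.p (nat_lit 0x20d4200902) (nat_lit 0x140721) (nat_lit 4))))
 (.n (.n (.n (.p (nat_lit 0xdff0d6902) (nat_lit 0x104600) (nat_lit 16))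
 (.p (nat_lit 0x9ce286d02) (nat_lit 0x568bb0344000400000000) (nat_lit 49)))
 (.p (nat_lit 0xa86075302) (nat_lit 0x415) (nat_lit 5)))
 (.n (.p (nat_lit 0x158815841582157e1707170106) (nat_lit 0x9000094b03) (nat_lit 51))
 (.p (nat_lit 0x17ba0c3502) (nat_lit 0x240b2a) (nat_lit 4)))))
 (.n (.n (.n (.n (.p (nat_lit 0x7ed05f102) (nat_lit 0x44e200) (nat_lit 16))
 (.p (nat_lit 0x28141d5b02) (nat_lit 0x40042800) (nat_lit 48)))
 (.p (nat_lit 0x9aa04af02) (nat_lit 0x34030e) (nat_lit 4)))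
 (.n (.p (nat_lit 0x49a0498049604920490162f06) (nat_lit 0x2000042a02) (nat_lit 51))
 (.p (nat_lit 0x19561a6d02) (nat_lit 0x25) (nat_lit 5))))
 (.n (.n (.p (nat_lit 0x129013bf02) (nat_lit 0x240900) (nat_lit 5))
 (.p (nat_lit 0x77e077c077a077807761f1506) (nat_lit 0x100000ca619) (nat_lit 52)))
 (.n (.p (nat_lit 0xe480e460e420e400e3e00a50e4507) (nat_lit 0x300605) (nat_lit 7))
 (.p (nat_lit 0x25f225f025ee25ec25ea000901e607) (nat_lit 0x400721) (nat_lit 25))))))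
 (.n (.n (.n (.n (.n (.p (nat_lit 0x50d034502) (nat_lit 0x100) (nat_lit 15))
 (.p (nat_lit 0x268727f302) (nat_lit 0x2c0000000600) (nat_lit 37)))
 (.p (nat_lit 0xde6030f02) (nat_lit 0x100607) (nat_lit 4)))
 (.n (.p (nat_lit 0x62c104702) (nat_lit 0x440102) (nat_lit 4))
 (.p (nat_lit 0xe10238102) (nat_lit 0x623) (nat_lit 29))))
 (.n (.n (.n (.p (nat_lit 0x10d90eeb02) (nat_lit 0x446700) (nat_lit 16))
 (.p (nat_lit 0x12e628ab02) (nat_lit 0x350521a86800300000600) (nat_lit 50)))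
 (.p (nat_lit 0x11cc06c302) (nat_lit 0x400815) (nat_lit 4)))
 (.n (.p (nat_lit 0x82a08280824082208200f2506) (nat_lit 0x4000046604) (nat_lit 51))
 (.p (nat_lit 0x8400820080007e0071000106) (nat_lit 0x280e604) (nat_lit 26)))))
 (.n (.n (.n (.n (.p (nat_lit 0xac10ab502) (nat_lit 0x240400) (nat_lit 34))
 (.p (nat_lit 0x268d283702) (nat_lit 0x260000000b00) (nat_lit 37)))
 (.p (nat_lit 0x140192f02) (nat_lit 0x200a0f) (nat_lit 1)))
 (.n (.p (nat_lit 0x671cbd02) (nat_lit 0x40303) (nat_lit 30))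
 (.p (nat_lit 0x3b203b003ae03ac03aa061706) (nat_lit 0x1000004612a) (nat_lit 51))))
 (.n (.n (.p (nat_lit 0x1655164902) (nat_lit 0x300b00) (nat_lit 34))
 (.p (nat_lit 0xd1e0d1c0d1a0d180d1601a90d2107) (nat_lit 0x54051c) (nat_lit 7)))
 (.n (.p (nat_lit 0x131613121310130e130c12c106) (nat_lit 0x800004c805) (nat_lit 52))
 (.p (nat_lit 0x273702a902) (nat_lit 0xc0060000000) (nat_lit 38))))))

def c256_246 : Tr :=
 .n (.n (.n (.n (.n (.n (.p (nat_lit 0x36102bf02) (nat_lit 0x206000) (nat_lit 16))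
 (.p (nat_lit 0x271f27df02) (nat_lit 0x240060000400) (nat_lit 37)))
 (.p (nat_lit 0x148e148c14881486148408dd06) (nat_lit 0x4000014307) (nat_lit 52)))
 (.n (.p (nat_lit 0x14620dc702) (nat_lit 0x140901) (nat_lit 5))
 (.p (nat_lit 0x53b052f02) (nat_lit 0x500123) (nat_lit 16))))
 (.n (.n (.n (.p (nat_lit 0xf660f640f620f600de30de106) (nat_lit 0x18000084700) (nat_lit 52))
 (.p (nat_lit 0x374288d02) (nat_lit 0x356221ca4000000040000) (nat_lit 49)))
 (.p (nat_lit 0x13c213c013be13bc13ba0c5306) (nat_lit 0x10000092515) (nat_lit 51)))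
 (.n (.p (nat_lit 0x1e601e5e1e5c1e5a1e581e56008a0807080107ff0a) (nat_lit 0x15140204) (nat_lit 31))
 (.p (nat_lit 0x1f6c204f02) (nat_lit 0x50022f) (nat_lit 4)))))
 (.n (.n (.n (.n (.p (nat_lit 0x94809460942094007b307ad06) (nat_lit 0x4800042300) (nat_lit 52))
 (.p (nat_lit 0x272d13c102) (nat_lit 0x160060000900) (nat_lit 41)))
 (.p (nat_lit 0xd80c4102) (nat_lit 0x20050e) (nat_lit 1)))
 (.n (.p (nat_lit 0xea20ea00e9e0e9c0e9a17cd06) (nat_lit 0x10000050b02) (nat_lit 51))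
 (.p (nat_lit 0x20bc20ba20b620b420b2023f20b907) (nat_lit 0x300728) (nat_lit 7))))
 (.n (.n (.p (nat_lit 0x151f135302) (nat_lit 0x4a00) (nat_lit 16))
 (.p (nat_lit 0x111c111a111811141112043906) (nat_lit 0x200005001c) (nat_lit 51)))
 (.n (.p (nat_lit 0x37e037c037a0378037610f106) (nat_lit 0x8000c0705) (nat_lit 52))
 (.p (nat_lit 0x28602840282027e0297004106) (nat_lit 0x291222c) (nat_lit 26))))))
 (.n (.n (.n (.n (.n (.p (nat_lit 0x516065f02) (nat_lit 0x500200) (nat_lit 4))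
 (.p (nat_lit 0x273f0f4902) (nat_lit 0x40060000700) (nat_lit 40)))
 (.p (nat_lit 0x1cae1cac1caa1ca81ca400ef1ca707) (nat_lit 0x14020a) (nat_lit 7)))
 (.n (.p (nat_lit 0x146e107302) (nat_lit 0x140902) (nat_lit 5))
 (.p (nat_lit 0x1ff23d102) (nat_lit 0x400b23) (nat_lit 30))))
 (.n (.n (.p (nat_lit 0x1250124e124c1248124610b106) (nat_lit 0x200004c800) (nat_lit 52))
 (.p (nat_lit 0x1ada1ad81ad41ad21ad0016d1ad707) (nat_lit 0x340517) (nat_lit 7)))
 (.n (.p (nat_lit 0x17e4135102) (nat_lit 0x540b04) (nat_lit 4))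
 (.p (nat_lit 0x256a2568256625622560018b012c07) (nat_lit 0x214311) (nat_lit 25)))))
 (.n (.n (.n (.n (.p (nat_lit 0x2bb0a6302) (nat_lit 0x500) (nat_lit 15))
 (.p (nat_lit 0x1490284d02) (nat_lit 0x4a1a34344000400000600) (nat_lit 50)))
 (.p (nat_lit 0x1e0e1c5102) (nat_lit 0x340b11) (nat_lit 4)))
 (.n (.p (nat_lit 0x10aa10a810a610a410a00f1506) (nat_lit 0x10000d6603) (nat_lit 52))
 (.p (nat_lit 0x8ee0cbd02) (nat_lit 0x32a) (nat_lit 4))))
 (.n (.n (.p (nat_lit 0xe6915f502) (nat_lit 0x340b00) (nat_lit 15))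
 (.p (nat_lit 0x180917fd02) (nat_lit 0x10a11d) (nat_lit 16)))
 (.n (.p (nat_lit 0xc7e0c7c0c7a0c780c76120306) (nat_lit 0x1000008a806) (nat_lit 52))
 (.p (nat_lit 0x269127bb02) (nat_lit 0x220000000200) (nat_lit 36))))))

def c128_118 : Tr := .n c256_118 c256_246

def c64_54 : Tr := .n c128_54 c128_118

def c32_22 : Tr := .n c64_22 c64_54

def c16_6 : Tr := .n c32_6 c32_22

def c256_14 : Tr :=
 .n (.n (.n (.n (.n (.n (.p (nat_lit 0x2a0028003303) (nat_lit 0x6000500001) (nat_lit 17))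
 (.p (nat_lit 0x26e3066302) (nat_lit 0x20000200) (nat_lit 40)))
 (.p (nat_lit 0x12c8176502) (nat_lit 0x240806) (nat_lit 4)))
 (.n (.p (nat_lit 0x17cb15f702) (nat_lit 0x44eb00) (nat_lit 16))
 (.p (nat_lit 0x19761a4d02) (nat_lit 0x54001e) (nat_lit 4))))
 (.n (.n (.n (.p (nat_lit 0xb420c7702) (nat_lit 0x40500) (nat_lit 4))
 (.p (nat_lit 0xac0285102) (nat_lit 0x4a8876344000400040000) (nat_lit 50)))
 (.p (nat_lit 0x20161f4b02) (nat_lit 0x500413) (nat_lit 4)))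
 (.n (.p (nat_lit 0x1dca1dc81dc61dc41dc21dc0007207) (nat_lit 0x40a03) (nat_lit 8))
 (.p (nat_lit 0x9b00cc702) (nat_lit 0x4032a) (nat_lit 4)))))
 (.n (.n (.n (.n (.p (nat_lit 0x6a2069c069a06980515051306) (nat_lit 0xc00000a200) (nat_lit 52))
 (.p (nat_lit 0x2763280902) (nat_lit 0x100080000700) (nat_lit 37)))
 (.p (nat_lit 0x6e1ce502) (nat_lit 0x44030a) (nat_lit 1)))
 (.n (.p (nat_lit 0x162f147102) (nat_lit 0x240902) (nat_lit 15))
 (.p (nat_lit 0x17b223dd02) (nat_lit 0x440b23) (nat_lit 29))))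
 (.n (.n (.p (nat_lit 0x129b10b102) (nat_lit 0x242800) (nat_lit 16))
 (.p (nat_lit 0x1af01aec1aea1ae81ae6016f1aef07) (nat_lit 0x400a17) (nat_lit 7)))
 (.n (.p (nat_lit 0x56014ab02) (nat_lit 0x300105) (nat_lit 4))
 (.p (nat_lit 0x14e014c014801460167000706) (nat_lit 0x30e515) (nat_lit 26))))))
 (.n (.n (.n (.n (.n (.p (nat_lit 0x396039403920390000c00030001038f038d09) (nat_lit 0x840000) (nat_lit 10))
 (.p (nat_lit 0x26870baf02) (nat_lit 0x2c0000000500) (nat_lit 40)))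
 (.p (nat_lit 0x99c03bb02) (nat_lit 0x240307) (nat_lit 4)))
 (.n (.p (nat_lit 0x65e065c065806560654146706) (nat_lit 0x4000044901) (nat_lit 52))
 (.p (nat_lit 0x1ff237102) (nat_lit 0x440123) (nat_lit 30))))
 (.n (.n (.n (.p (nat_lit 0xfcd0ddd02) (nat_lit 0x200700) (nat_lit 15))
 (.p (nat_lit 0xbb50ba709e309cd082508170661065b0499048f02b102a328900d) (nat_lit 0x354221ca4000000000000) (nat_lit 33)))
 (.p (nat_lit 0xd12077f02) (nat_lit 0x440515) (nat_lit 4)))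
 (.n (.p (nat_lit 0xb920b900b8e0b8c0b8a00870b9507) (nat_lit 0x540404) (nat_lit 7))
 (.p (nat_lit 0xcd00ccc0cca0cc80cc620c306) (nat_lit 0x800008672f) (nat_lit 52)))))
 (.n (.n (.n (.n (.p (nat_lit 0x9a907b102) (nat_lit 0x242300) (nat_lit 16))
 (.p (nat_lit 0x2787282502) (nat_lit 0x1c00a0000900) (nat_lit 37)))
 (.p (nat_lit 0xd080d060d040d020cfe01070d0107) (nat_lit 0x14050e) (nat_lit 7)))
 (.n (.p (nat_lit 0x4641b8302) (nat_lit 0x440003) (nat_lit 29))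
 (.p (nat_lit 0x21c621a502) (nat_lit 0x200729) (nat_lit 4))))
 (.n (.n (.p (nat_lit 0x1571135d02) (nat_lit 0x510a00) (nat_lit 16))
 (.p (nat_lit 0x518084502) (nat_lit 0x11c) (nat_lit 5)))
 (.n (.p (nat_lit 0xd580d560d540d520d5010f106) (nat_lit 0x80004c705) (nat_lit 52))
 (.p (nat_lit 0x27122710270e270c270a2708270627042702270026fe26fc26fa26f826f626f426f226f026ee26ec26ea26e826e626e418) (nat_lit 0x40000000) (nat_lit 35))))))

def c256_142 : Tr :=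
 .n (.n (.n (.n (.n (.n (.p (nat_lit 0x1fa01f801f6020304) (nat_lit 0x3800400023) (nat_lit 17))
 (.p (nat_lit 0x2731082702) (nat_lit 0x120060000300) (nat_lit 40)))
 (.p (nat_lit 0x6fc039f02) (nat_lit 0x400207) (nat_lit 5)))
 (.n (.p (nat_lit 0x1090108e108c108a108811eb06) (nat_lit 0x10000094801) (nat_lit 52))
 (.p (nat_lit 0x21f4216902) (nat_lit 0x400822) (nat_lit 5))))
 (.n (.n (.n (.p (nat_lit 0xe6c0e6a0e680e660e6400010e6307) (nat_lit 0x40600) (nat_lit 7))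
 (.p (nat_lit 0x12d6287502) (nat_lit 0x588872b44000300000600) (nat_lit 49)))
 (.p (nat_lit 0x93c09380936093409320a8f06) (nat_lit 0x8000080415) (nat_lit 52)))
 (.n (.p (nat_lit 0x17d8128b02) (nat_lit 0x540b03) (nat_lit 4))
 (.p (nat_lit 0xcba0cb80cb60cb40cb0192506) (nat_lit 0x10000c492b) (nat_lit 52)))))
 (.n (.n (.n (.n (.p (nat_lit 0x824081806ed03) (nat_lit 0x200300) (nat_lit 6))
 (.p (nat_lit 0x276b111b02) (nat_lit 0x80080000800) (nat_lit 40)))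
 (.p (nat_lit 0xa80059d02) (nat_lit 0x30040e) (nat_lit 5)))
 (.n (.p (nat_lit 0xf4c0f480f460f440f42163306) (nat_lit 0x800004ea02) (nat_lit 51))
 (.p (nat_lit 0x1a141a5702) (nat_lit 0x540225) (nat_lit 5))))
 (.n (.n (.p (nat_lit 0x13fe13fa13f613f41295129106) (nat_lit 0xa00004c900) (nat_lit 51))
 (.p (nat_lit 0x35c092702) (nat_lit 0x1c) (nat_lit 5)))
 (.n (.p (nat_lit 0xf2a14d702) (nat_lit 0x40605) (nat_lit 4))
 (.p (nat_lit 0x20001fe01fa01f8024d000106) (nat_lit 0x1816123) (nat_lit 26))))))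
 (.n (.n (.n (.n (.n (.p (nat_lit 0x54d034b02) (nat_lit 0x310100) (nat_lit 16))
 (.p (nat_lit 0x26b50d5d02) (nat_lit 0x2e0020000600) (nat_lit 40)))
 (.p (nat_lit 0xfd803e902) (nat_lit 0x400707) (nat_lit 5)))
 (.n (.p (nat_lit 0x7e4104b02) (nat_lit 0x40202) (nat_lit 5))
 (.p (nat_lit 0xf04239702) (nat_lit 0x540623) (nat_lit 29))))
 (.n (.n (.n (.p (nat_lit 0x6a0fcd02) (nat_lit 0x200800) (nat_lit 1))
 (.p (nat_lit 0x12d228b102) (nat_lit 0x350521a82800300000600) (nat_lit 49)))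
 (.p (nat_lit 0x1e781e741e721e701e6e136306) (nat_lit 0x800008a915) (nat_lit 52)))
 (.n (.p (nat_lit 0xf310f2502) (nat_lit 0x356604) (nat_lit 16))
 (.p (nat_lit 0x25042502250024fc24fa023d00aa07) (nat_lit 0x20a305) (nat_lit 25)))))
 (.n (.n (.n (.n (.p (nat_lit 0xaf60af40af20af00aee0aec06) (nat_lit 0xc2400) (nat_lit 52))
 (.p (nat_lit 0x26e7165302) (nat_lit 0x2c0040000b00) (nat_lit 40)))
 (.p (nat_lit 0x1d201d1e1d1c1d1a1d1801211d1707) (nat_lit 0x411) (nat_lit 7)))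
 (.n (.p (nat_lit 0xb7e123d02) (nat_lit 0x40403) (nat_lit 5))
 (.p (nat_lit 0x38a0388038603840380070f06) (nat_lit 0x100008022a) (nat_lit 51))))
 (.n (.n (.p (nat_lit 0x16a816a616a416a2151d151b06) (nat_lit 0x18000092b00) (nat_lit 51))
 (.p (nat_lit 0x11d0232d02) (nat_lit 0x81c) (nat_lit 29)))
 (.n (.p (nat_lit 0x2480aa702) (nat_lit 0x100406) (nat_lit 1))
 (.p (nat_lit 0x2687049102) (nat_lit 0x2c0000000100) (nat_lit 40))))))

def c128_14 : Tr := .n c256_14 c256_142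

def c256_78 : Tr :=
 .n (.n (.n (.n (.n (.n (.p (nat_lit 0xc400bc00c903) (nat_lit 0x11000500006) (nat_lit 17))
 (.p (nat_lit 0x2757072d02) (nat_lit 0x1c0080000200) (nat_lit 39)))
 (.p (nat_lit 0xc1221f02) (nat_lit 0x300906) (nat_lit 30)))
 (.n (.p (nat_lit 0x7e00e8d02) (nat_lit 0x340201) (nat_lit 5))
 (.p (nat_lit 0x1f3a1fb102) (nat_lit 0x140021) (nat_lit 5))))
 (.n (.n (.n (.p (nat_lit 0xd5d0d5102) (nat_lit 0x100600) (nat_lit 34))
 (.p (nat_lit 0x736286502) (nat_lit 0x281d30346800200040000) (nat_lit 50)))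
 (.p (nat_lit 0x59e059c059a05980596035b06) (nat_lit 0x10000008015) (nat_lit 51)))
 (.n (.p (nat_lit 0x17061704170216fe0076007100691709170109) (nat_lit 0x2900b03) (nat_lit 10))
 (.p (nat_lit 0x154c154a15481542026c025902571547154509) (nat_lit 0x1100a2a) (nat_lit 10)))))
 (.n (.n (.n (.n (.p (nat_lit 0x75807560754075205f305f106) (nat_lit 0x18000048200) (nat_lit 51))
 (.p (nat_lit 0x26c7110902) (nat_lit 0x1c0020000800) (nat_lit 38)))
 (.p (nat_lit 0x8e604a102) (nat_lit 0x20030e) (nat_lit 4)))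
 (.n (.p (nat_lit 0x16f5155d02) (nat_lit 0x100a02) (nat_lit 15))
 (.p (nat_lit 0x18f423fd02) (nat_lit 0x240824) (nat_lit 29))))
 (.n (.n (.p (nat_lit 0x135911a902) (nat_lit 0x300900) (nat_lit 15))
 (.p (nat_lit 0x1ee01e3302) (nat_lit 0x400519) (nat_lit 4)))
 (.n (.p (nat_lit 0x20222020201e201c201a201800aa07) (nat_lit 0x40405) (nat_lit 8))
 (.p (nat_lit 0x14e25bf02) (nat_lit 0x50011c) (nat_lit 27))))))
 (.n (.n (.n (.n (.n (.p (nat_lit 0x348049502) (nat_lit 0x200100) (nat_lit 5))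
 (.p (nat_lit 0x27890bb902) (nat_lit 0x1a00a0000500) (nat_lit 40)))
 (.p (nat_lit 0xbe40be20be00bde0bdc0a7906) (nat_lit 0x10000084407) (nat_lit 51)))
 (.n (.p (nat_lit 0x1628162616221620161e002b162507) (nat_lit 0x340a01) (nat_lit 7))
 (.p (nat_lit 0x96c0968096609620709070306) (nat_lit 0x900008a223) (nat_lit 51))))
 (.n (.n (.n (.p (nat_lit 0x107a10781074107210700ee906) (nat_lit 0x40000d2700) (nat_lit 51))
 (.p (nat_lit 0x66028a102) (nat_lit 0x340a621b0000200000000) (nat_lit 50)))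
 (.p (nat_lit 0x1680fe502) (nat_lit 0x100715) (nat_lit 1)))
 (.n (.p (nat_lit 0x13c413c213c013bc13ba0e3706) (nat_lit 0x2000092604) (nat_lit 51))
 (.p (nat_lit 0x6924c902) (nat_lit 0x100103) (nat_lit 28)))))
 (.n (.n (.n (.n (.p (nat_lit 0xa560a540a520a5008d508cd06) (nat_lit 0x11000016400) (nat_lit 52))
 (.p (nat_lit 0x26f3283102) (nat_lit 0x200040000a00) (nat_lit 37)))
 (.p (nat_lit 0x129c05dd02) (nat_lit 0x34080e) (nat_lit 5)))
 (.n (.p (nat_lit 0x1c481c461c441c401c3e063506) (nat_lit 0x2000056103) (nat_lit 52))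
 (.p (nat_lit 0x53a243f02) (nat_lit 0x50012a) (nat_lit 29))))
 (.n (.n (.p (nat_lit 0x15ec15ea15e815e615e4143d06) (nat_lit 0x8000d0a00) (nat_lit 52))
 (.p (nat_lit 0xc56095902) (nat_lit 0x10051c) (nat_lit 5)))
 (.n (.p (nat_lit 0x143814361434143011f711ef06) (nat_lit 0x11000096805) (nat_lit 51))
 (.p (nat_lit 0x26e302b102) (nat_lit 0x20000000) (nat_lit 40))))))

def c256_206 : Tr :=
 .n (.n (.n (.n (.n (.n (.p (nat_lit 0x2d002ce02cc02ca02c802c606) (nat_lit 0x4000) (nat_lit 52))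
 (.p (nat_lit 0x26890ab102) (nat_lit 0x2a0000000400) (nat_lit 39)))
 (.p (nat_lit 0x8d802e102) (nat_lit 0x100307) (nat_lit 4)))
 (.n (.p (nat_lit 0x13940ebd02) (nat_lit 0x500901) (nat_lit 5))
 (.p (nat_lit 0x5260ae302) (nat_lit 0x100123) (nat_lit 5))))
 (.n (.n (.n (.p (nat_lit 0xeed0e6d02) (nat_lit 0x540600) (nat_lit 15))
 (.p (nat_lit 0x164a288102) (nat_lit 0x585a12b21000500000600) (nat_lit 49)))
 (.p (nat_lit 0xc5006a102) (nat_lit 0x400515) (nat_lit 4)))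
 (.n (.p (nat_lit 0x55813d502) (nat_lit 0x500104) (nat_lit 4))
 (.p (nat_lit 0x1c801c7e1c7a1c781c7602931c7d07) (nat_lit 0x30022d) (nat_lit 7)))))
 (.n (.n (.n (.n (.p (nat_lit 0x8ed06f302) (nat_lit 0x502300) (nat_lit 16))
 (.p (nat_lit 0x270712e102) (nat_lit 0xc0040000900) (nat_lit 40)))
 (.p (nat_lit 0x2b802b402b202b002ae0b6306) (nat_lit 0x800004040e) (nat_lit 51)))
 (.n (.p (nat_lit 0x170516f902) (nat_lit 0x312b02) (nat_lit 16))
 (.p (nat_lit 0xa060a040a0209fe09fc1df506) (nat_lit 0x2000002b26) (nat_lit 52))))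
 (.n (.n (.p (nat_lit 0x14a414a214a0149e149c135906) (nat_lit 0x4000080a00) (nat_lit 52))
 (.p (nat_lit 0x43e043c043a04380436019f043507) (nat_lit 0x4001c) (nat_lit 7)))
 (.n (.p (nat_lit 0xc8c0c880c860c840c82100d06) (nat_lit 0x800008a705) (nat_lit 51))
 (.p (nat_lit 0x24e024c02480246021500bf06) (nat_lit 0x2a0e129) (nat_lit 26))))))
 (.n (.n (.n (.n (.n (.p (nat_lit 0x62b042302) (nat_lit 0x34e100) (nat_lit 16))
 (.p (nat_lit 0x2800101f02) (nat_lit 0x20040700) (nat_lit 45)))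
 (.p (nat_lit 0x1788033d02) (nat_lit 0x240b07) (nat_lit 5)))
 (.n (.p (nat_lit 0xd380d340d320d300d2e00470d3707) (nat_lit 0x440502) (nat_lit 7))
 (.p (nat_lit 0x153623bd02) (nat_lit 0xa23) (nat_lit 29))))
 (.n (.n (.n (.p (nat_lit 0x11f70fd302) (nat_lit 0x514800) (nat_lit 16))
 (.p (nat_lit 0x2a628c102) (nat_lit 0x332a05d81000000000000) (nat_lit 49)))
 (.p (nat_lit 0x18a2184102) (nat_lit 0x500416) (nat_lit 4)))
 (.n (.p (nat_lit 0x170e1f1b02) (nat_lit 0x200b04) (nat_lit 29))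
 (.p (nat_lit 0xfc253d02) (nat_lit 0x300a0a) (nat_lit 27)))))
 (.n (.n (.n (.n (.p (nat_lit 0xa6a0bb702) (nat_lit 0x400500) (nat_lit 5))
 (.p (nat_lit 0x110e284502) (nat_lit 0x4a1a22344000200000600) (nat_lit 49)))
 (.p (nat_lit 0x1d9e1d9c1d9a1d981d96012b1da107) (nat_lit 0x540511) (nat_lit 7)))
 (.n (.p (nat_lit 0x108610821080107e107c0e2f06) (nat_lit 0x8000014603) (nat_lit 51))
 (.p (nat_lit 0x570056e056c0568056607d506) (nat_lit 0x20000c222a) (nat_lit 52))))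
 (.n (.n (.p (nat_lit 0x15f615f415f215f015ee000b15f907) (nat_lit 0x540b00) (nat_lit 7))
 (.p (nat_lit 0x1606097b02) (nat_lit 0x40a1c) (nat_lit 5)))
 (.n (.p (nat_lit 0xdce0dcc0dca0dc60dc410ff06) (nat_lit 0x20000d2706) (nat_lit 51))
 (.p (nat_lit 0x27b4220902) (nat_lit 0x60056100) (nat_lit 48))))))

def c128_78 : Tr := .n c256_78 c256_206

def c64_14 : Tr := .n c128_14 c128_78

def c256_46 : Tr :=
 .n (.n (.n (.n (.n (.n (.p (nat_lit 0x6e0066007503) (nat_lit 0x8800500003) (nat_lit 17))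
 (.p (nat_lit 0x26e527c102) (nat_lit 0x2e0040000200) (nat_lit 36)))
 (.p (nat_lit 0xc8a0c880c860c840c8212cf06) (nat_lit 0x100000ca806) (nat_lit 51)))
 (.n (.p (nat_lit 0x17f817f617f417f217f0053f06) (nat_lit 0x2000092101) (nat_lit 52))
 (.p (nat_lit 0x1e161e9b02) (nat_lit 0x100020) (nat_lit 5))))
 (.n (.n (.n (.p (nat_lit 0xcf00cee0cec0cea0b490b4706) (nat_lit 0x60000d4500) (nat_lit 52))
 (.p (nat_lit 0x1490285b02) (nat_lit 0x281d30344000400000600) (nat_lit 50)))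
 (.p (nat_lit 0x2208215502) (nat_lit 0x340814) (nat_lit 5)))
 (.n (.p (nat_lit 0x132c132813261324163f163906) (nat_lit 0x900004ea03) (nat_lit 51))
 (.p (nat_lit 0xf080cd502) (nat_lit 0x14062a) (nat_lit 5)))))
 (.n (.n (.n (.n (.p (nat_lit 0x71f050d02) (nat_lit 0x12200) (nat_lit 16))
 (.p (nat_lit 0x2691280d02) (nat_lit 0x220000000800) (nat_lit 36)))
 (.p (nat_lit 0x3cc03ca03c803c403c21e0106) (nat_lit 0x2000048b0a) (nat_lit 52)))
 (.n (.p (nat_lit 0x82a0828082408220820156106) (nat_lit 0x4000006a02) (nat_lit 51))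
 (.p (nat_lit 0x183818b902) (nat_lit 0x540124) (nat_lit 4))))
 (.n (.n (.p (nat_lit 0x11a812d702) (nat_lit 0x300900) (nat_lit 4))
 (.p (nat_lit 0x1bb01c9502) (nat_lit 0x440018) (nat_lit 4)))
 (.n (.p (nat_lit 0x9041f9902) (nat_lit 0x100305) (nat_lit 29))
 (.p (nat_lit 0x12625a702) (nat_lit 0x300018) (nat_lit 27))))))
 (.n (.n (.n (.n (.n (.p (nat_lit 0x435038d02) (nat_lit 0x46000) (nat_lit 16))
 (.p (nat_lit 0x27ea044502) (nat_lit 0x40046500) (nat_lit 48)))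
 (.p (nat_lit 0x172c172a17281722099d099b06) (nat_lit 0x30000d6307) (nat_lit 51)))
 (.n (.p (nat_lit 0x15500ecd02) (nat_lit 0x100a01) (nat_lit 4))
 (.p (nat_lit 0x13c213c013be13bc13ba060b06) (nat_lit 0x100000d2123) (nat_lit 51))))
 (.n (.n (.n (.p (nat_lit 0x400ee502) (nat_lit 0x140700) (nat_lit 1))
 (.p (nat_lit 0x1572289702) (nat_lit 0x344580ca4000400040600) (nat_lit 49)))
 (.p (nat_lit 0x120e120c120a120612040d0f06) (nat_lit 0x20000d0515) (nat_lit 52)))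
 (.n (.p (nat_lit 0xe3c0e380e340e320096008500810e3b0e3709) (nat_lit 0x2200604) (nat_lit 10))
 (.p (nat_lit 0x4800460040003e0007021d06) (nat_lit 0x1a14402) (nat_lit 26)))))
 (.n (.n (.n (.n (.p (nat_lit 0x8d408d008ce08cc08ca000908d307) (nat_lit 0x400400) (nat_lit 7))
 (.p (nat_lit 0x2828170b02) (nat_lit 0x10a00) (nat_lit 47)))
 (.p (nat_lit 0x10c204ed02) (nat_lit 0x24070e) (nat_lit 4)))
 (.n (.p (nat_lit 0x1bf7054902) (nat_lit 0x108103) (nat_lit 16))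
 (.p (nat_lit 0xa120a100a0e0a0c0a0821fb06) (nat_lit 0x1000082829) (nat_lit 51))))
 (.n (.n (.p (nat_lit 0x1590158e158c158a143f143d06) (nat_lit 0x18000c2a00) (nat_lit 51))
 (.p (nat_lit 0x5f4094b02) (nat_lit 0x4011c) (nat_lit 4)))
 (.n (.p (nat_lit 0xa120eb02) (nat_lit 0x100805) (nat_lit 30))
 (.p (nat_lit 0x2699037502) (nat_lit 0x1a0000000000) (nat_lit 39))))))

def c256_174 : Tr :=
 .n (.n (.n (.n (.n (.n (.p (nat_lit 0x2790273026203) (nat_lit 0xa190002a) (nat_lit 19))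
 (.p (nat_lit 0x27a3081f02) (nat_lit 0xa0000300) (nat_lit 38)))
 (.p (nat_lit 0x7c003a702) (nat_lit 0x440207) (nat_lit 5)))
 (.n (.p (nat_lit 0x106e106c106a106412b112af06) (nat_lit 0x3000052801) (nat_lit 51))
 (.p (nat_lit 0x44009f102) (nat_lit 0x40023) (nat_lit 4))))
 (.n (.n (.n (.p (nat_lit 0xea40ea20e9e0e9c0e9a0e6906) (nat_lit 0x4000050600) (nat_lit 51))
 (.p (nat_lit 0x488287b02) (nat_lit 0x5898b0b44000100000000) (nat_lit 49)))
 (.p (nat_lit 0xb70069702) (nat_lit 0x540415) (nat_lit 4)))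
 (.n (.p (nat_lit 0x111c111a11181114111217d306) (nat_lit 0x2000050b03) (nat_lit 51))
 (.p (nat_lit 0x1b061acd02) (nat_lit 0x400a2c) (nat_lit 4)))))
 (.n (.n (.n (.n (.p (nat_lit 0x84e084c0846084406ef06ed06) (nat_lit 0x6000002300) (nat_lit 51))
 (.p (nat_lit 0x2691281b02) (nat_lit 0x220000000900) (nat_lit 37)))
 (.p (nat_lit 0x13c413c213c013bc13ba0a7f06) (nat_lit 0x200009240e) (nat_lit 51)))
 (.n (.p (nat_lit 0x16f40fb302) (nat_lit 0x100b02) (nat_lit 5))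
 (.p (nat_lit 0x1c561d0102) (nat_lit 0x40126) (nat_lit 5))))
 (.n (.n (.p (nat_lit 0x1453129702) (nat_lit 0x544900) (nat_lit 16))
 (.p (nat_lit 0x102410221020101e101c036706) (nat_lit 0x1000008e01c) (nat_lit 52)))
 (.n (.p (nat_lit 0x100815c302) (nat_lit 0x200705) (nat_lit 5))
 (.p (nat_lit 0x2630262e262c262a2628023d020207) (nat_lit 0x212b23) (nat_lit 25))))))
 (.n (.n (.n (.n (.n (.p (nat_lit 0x5a0059c059a05980596042506) (nat_lit 0x8000048100) (nat_lit 51))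
 (.p (nat_lit 0x26ab102902) (nat_lit 0x80000000700) (nat_lit 41)))
 (.p (nat_lit 0x1604032f02) (nat_lit 0x540a07) (nat_lit 5)))
 (.n (.p (nat_lit 0x1a4c1a4a1a481a461a441a4206) (nat_lit 0xc0302) (nat_lit 52))
 (.p (nat_lit 0x12a423a902) (nat_lit 0x240823) (nat_lit 29))))
 (.n (.n (.n (.p (nat_lit 0x119411921190118e118c118a06) (nat_lit 0x16800) (nat_lit 52))
 (.p (nat_lit 0x56e28bb02) (nat_lit 0x352868d84000100040000) (nat_lit 49)))
 (.p (nat_lit 0x1524230302) (nat_lit 0x300a15) (nat_lit 29)))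
 (.n (.p (nat_lit 0x10ea141f02) (nat_lit 0x340704) (nat_lit 4))
 (.p (nat_lit 0xc000be00bc00ba0009019d06) (nat_lit 0x2510206) (nat_lit 26)))))
 (.n (.n (.n (.n (.p (nat_lit 0xb71099702) (nat_lit 0x544400) (nat_lit 16))
 (.p (nat_lit 0x278d172102) (nat_lit 0x1600a0000b00) (nat_lit 39)))
 (.p (nat_lit 0x1d601c2902) (nat_lit 0x540411) (nat_lit 4)))
 (.n (.p (nat_lit 0x1d721d701d6e1d6c1d6a0c6d06) (nat_lit 0x1000082503) (nat_lit 52))
 (.p (nat_lit 0x157c1578157615741572071506) (nat_lit 0x800009422a) (nat_lit 52))))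
 (.n (.n (.p (nat_lit 0x170f151702) (nat_lit 0x212b00) (nat_lit 16))
 (.p (nat_lit 0x1a1233b02) (nat_lit 0x100a1c) (nat_lit 30)))
 (.n (.p (nat_lit 0xe980e960e940e901019101306) (nat_lit 0x9000008706) (nat_lit 52))
 (.p (nat_lit 0x27b006f902) (nat_lit 0x4000a100) (nat_lit 47))))))

def c128_46 : Tr := .n c256_46 c256_174

def c256_110 : Tr :=
 .n (.n (.n (.n (.n (.n (.p (nat_lit 0x14a0148015303) (nat_lit 0x6000500015) (nat_lit 17))
 (.p (nat_lit 0x27ca07c702) (nat_lit 0x2004a300) (nat_lit 47)))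
 (.p (nat_lit 0x1480178102) (nat_lit 0x440906) (nat_lit 4)))
 (.n (.p (nat_lit 0x2f18d102) (nat_lit 0x500501) (nat_lit 30))
 (.p (nat_lit 0x8420840083e083a083820ab06) (nat_lit 0x2000080721) (nat_lit 51))))
 (.n (.n (.n (.p (nat_lit 0xde30d7102) (nat_lit 0x500600) (nat_lit 15))
 (.p (nat_lit 0x2a2286d02) (nat_lit 0x568bb0344000000000000) (nat_lit 49)))
 (.p (nat_lit 0x4bc04ba04b804b604b4043306) (nat_lit 0x10000048015) (nat_lit 52)))
 (.n (.p (nat_lit 0x121a1218121612141210170106) (nat_lit 0x1000090b03) (nat_lit 51))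
 (.p (nat_lit 0x16ee246d02) (nat_lit 0x400b2a) (nat_lit 29)))))
 (.n (.n (.n (.n (.p (nat_lit 0x7cf05f302) (nat_lit 0x548200) (nat_lit 16))
 (.p (nat_lit 0x26e9120902) (nat_lit 0x2a0040000800) (nat_lit 39)))
 (.p (nat_lit 0x9ae09ac09aa09a809a6010509a507) (nat_lit 0x4030e) (nat_lit 7)))
 (.n (.p (nat_lit 0x16341b1502) (nat_lit 0x540a02) (nat_lit 29))
 (.p (nat_lit 0x1946188f02) (nat_lit 0x300a24) (nat_lit 4))))
 (.n (.n (.p (nat_lit 0x1296129412921290128e0001128d07) (nat_lit 0x40900) (nat_lit 7))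
 (.p (nat_lit 0x1f0c1e4902) (nat_lit 0x500619) (nat_lit 5)))
 (.n (.p (nat_lit 0xe3e15b302) (nat_lit 0x605) (nat_lit 5))
 (.p (nat_lit 0x1e201e001de01da01a1019706) (nat_lit 0xd0e121) (nat_lit 26))))))
 (.n (.n (.n (.n (.n (.p (nat_lit 0x4c804c604c204c0034f034906) (nat_lit 0x12000088100) (nat_lit 51))
 (.p (nat_lit 0x26910e4b02) (nat_lit 0x220000000600) (nat_lit 39)))
 (.p (nat_lit 0xcba0cb60cb40cb20cb00b5706) (nat_lit 0x80000c4407) (nat_lit 52)))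
 (.n (.p (nat_lit 0x6260f5702) (nat_lit 0x140102) (nat_lit 5))
 (.p (nat_lit 0x7d307c702) (nat_lit 0x140223) (nat_lit 16))))
 (.n (.n (.n (.p (nat_lit 0x10bd0eeb02) (nat_lit 0x440700) (nat_lit 16))
 (.p (nat_lit 0x165428a902) (nat_lit 0x350521a84000500000600) (nat_lit 50)))
 (.p (nat_lit 0x11c422d902) (nat_lit 0x815) (nat_lit 29)))
 (.n (.p (nat_lit 0x49a0498049604900f230f2106) (nat_lit 0x3000042604) (nat_lit 51))
 (.p (nat_lit 0x6c006a00680066000b008506) (nat_lit 0x2c16a03) (nat_lit 26)))))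
 (.n (.n (.n (.n (.p (nat_lit 0x98c0abd02) (nat_lit 0x40400) (nat_lit 5))
 (.p (nat_lit 0x26ab164302) (nat_lit 0x80000000b00) (nat_lit 38)))
 (.p (nat_lit 0x5aa05a805a605a405a2190106) (nat_lit 0x1000008890f) (nat_lit 52)))
 (.n (.p (nat_lit 0x8fa112f02) (nat_lit 0x100303) (nat_lit 4))
 (.p (nat_lit 0x614244902) (nat_lit 0x44012a) (nat_lit 29))))
 (.n (.n (.p (nat_lit 0x1514165102) (nat_lit 0x100b00) (nat_lit 5))
 (.p (nat_lit 0xd1c086f02) (nat_lit 0x34051c) (nat_lit 4)))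
 (.n (.p (nat_lit 0xa7211102) (nat_lit 0x440805) (nat_lit 30))
 (.p (nat_lit 0x270102a702) (nat_lit 0x120040000000) (nat_lit 38))))))

def c256_238 : Tr :=
 .n (.n (.n (.n (.n (.n (.p (nat_lit 0x34902bf02) (nat_lit 0x200000) (nat_lit 15))
 (.p (nat_lit 0x27da08f302) (nat_lit 0x40000400) (nat_lit 48)))
 (.p (nat_lit 0x111c111a11181116111408d706) (nat_lit 0x800010307) (nat_lit 51)))
 (.n (.p (nat_lit 0x1907138f02) (nat_lit 0x204901) (nat_lit 16))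
 (.p (nat_lit 0x120e120a120812061204052d06) (nat_lit 0x8000090123) (nat_lit 52))))
 (.n (.n (.n (.p (nat_lit 0xde00f4b02) (nat_lit 0x400700) (nat_lit 5))
 (.p (nat_lit 0x72a288b02) (nat_lit 0x342221ca4000200040000) (nat_lit 49)))
 (.p (nat_lit 0x102610241020101e101c0c4f06) (nat_lit 0x400008e515) (nat_lit 52)))
 (.n (.p (nat_lit 0x851e5f02) (nat_lit 0x440204) (nat_lit 30))
 (.p (nat_lit 0x1f62204702) (nat_lit 0x22f) (nat_lit 4)))))
 (.n (.n (.n (.n (.p (nat_lit 0x930092c0928092607b507b106) (nat_lit 0xa000040300) (nat_lit 51))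
 (.p (nat_lit 0x273513c102) (nat_lit 0xe0060000900) (nat_lit 41)))
 (.p (nat_lit 0x1d5f0b6302) (nat_lit 0x45040e) (nat_lit 16)))
 (.n (.p (nat_lit 0x17cc17ca17c617c2005a0045004117c917c509) (nat_lit 0x1940b02) (nat_lit 10))
 (.p (nat_lit 0x2098242302) (nat_lit 0x300628) (nat_lit 29))))
 (.n (.n (.p (nat_lit 0x1510150e150a15081359135306) (nat_lit 0x4800090a00) (nat_lit 51))
 (.p (nat_lit 0xc7e0c7c0c780c76043f043906) (nat_lit 0x120000ca01c) (nat_lit 52)))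
 (.n (.p (nat_lit 0xa720cf02) (nat_lit 0x440705) (nat_lit 30))
 (.p (nat_lit 0x25e025c025602540291000706) (nat_lit 0x131022a) (nat_lit 26))))))
 (.n (.n (.n (.n (.n (.p (nat_lit 0x51605140510050e050c0007051307) (nat_lit 0x300200) (nat_lit 7))
 (.p (nat_lit 0x28040e2b02) (nat_lit 0x40012700) (nat_lit 48)))
 (.p (nat_lit 0x10aa10a610a410a210a01a3506) (nat_lit 0x8000096309) (nat_lit 52)))
 (.n (.p (nat_lit 0x128a1288128612821280139b06) (nat_lit 0x2000096902) (nat_lit 52))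
 (.p (nat_lit 0x16de23cd02) (nat_lit 0x200b23) (nat_lit 29))))
 (.n (.n (.n (.p (nat_lit 0x10b410b210b010ae10ac000b10b707) (nat_lit 0x540800) (nat_lit 7))
 (.p (nat_lit 0x12dc28c702) (nat_lit 0x3508a9d84000300000600) (nat_lit 50)))
 (.p (nat_lit 0xfae0faa0fa80fa60fa41aad06) (nat_lit 0x8000094517) (nat_lit 51)))
 (.n (.p (nat_lit 0xa217df02) (nat_lit 0x240b04) (nat_lit 1))
 (.p (nat_lit 0x123256302) (nat_lit 0x100311) (nat_lit 28)))))
 (.n (.n (.n (.n (.p (nat_lit 0xbf20bf00bea0be80a690a6706) (nat_lit 0x6000006500) (nat_lit 51))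
 (.p (nat_lit 0x172b1721157f157913bf13b1121b1205102f10210e590e4b284a0d) (nat_lit 0x4a1a34344000000040600) (nat_lit 33)))
 (.p (nat_lit 0x4e004de04dc04da04d81de706) (nat_lit 0x100008ab11) (nat_lit 51)))
 (.n (.p (nat_lit 0xf1a0f180f140f1200780071006b0f1d0f1709) (nat_lit 0x2a40603) (nat_lit 10))
 (.p (nat_lit 0x164c164a16481644164207d506) (nat_lit 0x200005622a) (nat_lit 52))))
 (.n (.n (.p (nat_lit 0x17821780177e177a177815f306) (nat_lit 0x20000d2b00) (nat_lit 52))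
 (.p (nat_lit 0x17fa185502) (nat_lit 0x11d) (nat_lit 4)))
 (.n (.p (nat_lit 0x81c081a081808160814120306) (nat_lit 0x10000006806) (nat_lit 52))
 (.p (nat_lit 0x26af066102) (nat_lit 0x40000000200) (nat_lit 40))))))

def c128_110 : Tr := .n c256_110 c256_238

def c64_46 : Tr := .n c128_46 c128_110

def c32_14 : Tr := .n c64_14 c64_46

def c256_30 : Tr :=
 .n (.n (.n (.n (.n (.n (.p (nat_lit 0x3e004f02) (nat_lit 0x800600002) (nat_lit 17))
 (.p (nat_lit 0x26c9072702) (nat_lit 0x1a0020000200) (nat_lit 39)))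
 (.p (nat_lit 0x65e065c065a0658065612c506) (nat_lit 0x800044806) (nat_lit 52)))
 (.n (.p (nat_lit 0x4520d7902) (nat_lit 0x440001) (nat_lit 5))
 (.p (nat_lit 0x1b741ccd02) (nat_lit 0x20001f) (nat_lit 5))))
 (.n (.n (.n (.p (nat_lit 0xc8d0c8102) (nat_lit 0x540500) (nat_lit 34))
 (.p (nat_lit 0x1108285902) (nat_lit 0x4a8874b44000200000600) (nat_lit 49)))
 (.p (nat_lit 0x21c0213702) (nat_lit 0x540414) (nat_lit 5)))
 (.n (.p (nat_lit 0x163c1dc702) (nat_lit 0x340a03) (nat_lit 29))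
 (.p (nat_lit 0xaf60af40af00aee0aec09b706) (nat_lit 0x40000c232a) (nat_lit 52)))))
 (.n (.n (.n (.n (.p (nat_lit 0x6f3051702) (nat_lit 0x500200) (nat_lit 15))
 (.p (nat_lit 0x26b3120502) (nat_lit 0x800) (nat_lit 39)))
 (.p (nat_lit 0x1dd81b6502) (nat_lit 0xb0a) (nat_lit 5)))
 (.n (.p (nat_lit 0x1564108702) (nat_lit 0x500a02) (nat_lit 5))
 (.p (nat_lit 0x181018ad02) (nat_lit 0x500124) (nat_lit 5))))
 (.n (.n (.p (nat_lit 0x12c310b702) (nat_lit 0x554800) (nat_lit 16))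
 (.p (nat_lit 0x1b2019b902) (nat_lit 0x540a17) (nat_lit 4)))
 (.n (.p (nat_lit 0x80e159902) (nat_lit 0x340205) (nat_lit 4))
 (.p (nat_lit 0x182259502) (nat_lit 0x500815) (nat_lit 27))))))
 (.n (.n (.n (.n (.n (.p (nat_lit 0x3ea03e803e603e4038f038d06) (nat_lit 0x180004e000) (nat_lit 51))
 (.p (nat_lit 0x27e820bf02) (nat_lit 0x20014500) (nat_lit 47)))
 (.p (nat_lit 0x570056e056c05680566099d06) (nat_lit 0x20000c2307) (nat_lit 52)))
 (.n (.p (nat_lit 0x13c213c013be13bc13ba146b06) (nat_lit 0x100000d2901) (nat_lit 51))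
 (.p (nat_lit 0x9e209e009de09dc09da060106) (nat_lit 0x800048123) (nat_lit 51))))
 (.n (.n (.n (.p (nat_lit 0x10010de102) (nat_lit 0x412700) (nat_lit 16))
 (.p (nat_lit 0x1108289502) (nat_lit 0x356068ca4000200000600) (nat_lit 49)))
 (.p (nat_lit 0x81e081c0818081608140d1106) (nat_lit 0x4000046515) (nat_lit 52)))
 (.n (.p (nat_lit 0xe36131102) (nat_lit 0x200604) (nat_lit 4))
 (.p (nat_lit 0x2490248e248c248a248802a1003007) (nat_lit 0x414501) (nat_lit 25)))))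
 (.n (.n (.n (.n (.p (nat_lit 0x9d909cd02) (nat_lit 0x400) (nat_lit 34))
 (.p (nat_lit 0x2693157f02) (nat_lit 0x200000000a00) (nat_lit 41)))
 (.p (nat_lit 0x1d9f0d0702) (nat_lit 0x45050e) (nat_lit 16)))
 (.n (.p (nat_lit 0x54c121f02) (nat_lit 0x300103) (nat_lit 4))
 (.p (nat_lit 0x21f821ad02) (nat_lit 0x829) (nat_lit 4))))
 (.n (.n (.p (nat_lit 0x144614441442143e143c0005144107) (nat_lit 0x240a00) (nat_lit 7))
 (.p (nat_lit 0x522094902) (nat_lit 0x50011c) (nat_lit 4)))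
 (.n (.p (nat_lit 0x12c310fb02) (nat_lit 0x540705) (nat_lit 15))
 (.p (nat_lit 0x26a9037502) (nat_lit 0xa0000000000) (nat_lit 39))))))

def c256_158 : Tr :=
 .n (.n (.n (.n (.n (.n (.p (nat_lit 0x24e024c0246025304) (nat_lit 0xc800400029) (nat_lit 17))
 (.p (nat_lit 0x271d091502) (nat_lit 0x260060000300) (nat_lit 39)))
 (.p (nat_lit 0x5b605b405b205b006ff06f506) (nat_lit 0x1080000a207) (nat_lit 52)))
 (.n (.p (nat_lit 0x12b00db102) (nat_lit 0x240801) (nat_lit 4))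
 (.p (nat_lit 0x1fd235702) (nat_lit 0x300023) (nat_lit 30))))
 (.n (.n (.n (.p (nat_lit 0xe5d0e5102) (nat_lit 0x340600) (nat_lit 34))
 (.p (nat_lit 0x1648287702) (nat_lit 0x568872b44000500000600) (nat_lit 49)))
 (.p (nat_lit 0xb68076102) (nat_lit 0x140415) (nat_lit 5)))
 (.n (.p (nat_lit 0x81c081a08180816081417d906) (nat_lit 0x10000046b03) (nat_lit 52))
 (.p (nat_lit 0x104810461044104210401a1706) (nat_lit 0x8000c222c) (nat_lit 52)))))
 (.n (.n (.n (.n (.p (nat_lit 0x6f006ee06ec06ea0014000b000106f306e909) (nat_lit 0x2800300) (nat_lit 10))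
 (.p (nat_lit 0x275b111b02) (nat_lit 0x180080000800) (nat_lit 40)))
 (.p (nat_lit 0x9220920091e091c091a0a8506) (nat_lit 0x1000008640e) (nat_lit 51)))
 (.n (.p (nat_lit 0x158815841580157e1633162f06) (nat_lit 0xa0000d4a02) (nat_lit 51))
 (.p (nat_lit 0x1bf41cf502) (nat_lit 0x126) (nat_lit 4))))
 (.n (.n (.p (nat_lit 0x142e142c142a14281426142406) (nat_lit 0x56900) (nat_lit 51))
 (.p (nat_lit 0x48e048c048a04860484036106) (nat_lit 0x200000201c) (nat_lit 52)))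
 (.n (.p (nat_lit 0xf3414e102) (nat_lit 0x540605) (nat_lit 4))
 (.p (nat_lit 0x1f9261f02) (nat_lit 0x100823) (nat_lit 28))))))
 (.n (.n (.n (.n (.n (.p (nat_lit 0x577056b02) (nat_lit 0x240100) (nat_lit 34))
 (.p (nat_lit 0x271d0e5d02) (nat_lit 0x260060000600) (nat_lit 41)))
 (.p (nat_lit 0x11b6032702) (nat_lit 0x500807) (nat_lit 4)))
 (.n (.p (nat_lit 0x17007ef02) (nat_lit 0x540202) (nat_lit 1))
 (.p (nat_lit 0x10e20b2102) (nat_lit 0x540723) (nat_lit 4))))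
 (.n (.n (.n (.p (nat_lit 0x112411221120111e0fcf0fc906) (nat_lit 0x4800002800) (nat_lit 51))
 (.p (nat_lit 0x164628b302) (nat_lit 0x352868d84000500000600) (nat_lit 49)))
 (.p (nat_lit 0x14521450144e144c015401470145144b144909) (nat_lit 0x840915) (nat_lit 10)))
 (.n (.p (nat_lit 0x10000ffe0ffc0ffa0ff80087100307) (nat_lit 0x500704) (nat_lit 7))
 (.p (nat_lit 0x250e250c250a25082506000700aa07) (nat_lit 0x310605) (nat_lit 25)))))
 (.n (.n (.n (.n (.p (nat_lit 0xb47099102) (nat_lit 0x240400) (nat_lit 15))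
 (.p (nat_lit 0x2755172b02) (nat_lit 0x1e0080000b00) (nat_lit 41)))
 (.p (nat_lit 0x128812861284128212801d2106) (nat_lit 0x10000096411) (nat_lit 52)))
 (.n (.p (nat_lit 0xb88124502) (nat_lit 0x540403) (nat_lit 5))
 (.p (nat_lit 0xe5e0e5c0e580e560717071106) (nat_lit 0x1200008c22a) (nat_lit 51))))
 (.n (.n (.p (nat_lit 0x16d7151b02) (nat_lit 0x406b00) (nat_lit 16))
 (.p (nat_lit 0x1370136a1368136601be01a701a5136f136d09) (nat_lit 0x230091c) (nat_lit 10)))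
 (.n (.p (nat_lit 0x1010166b02) (nat_lit 0x706) (nat_lit 4))
 (.p (nat_lit 0x2701048902) (nat_lit 0x120040000100) (nat_lit 38))))))

def c128_30 : Tr := .n c256_30 c256_158

def c256_94 : Tr :=
 .n (.n (.n (.n (.n (.n (.p (nat_lit 0x11b0119011203) (nat_lit 0x2220000e) (nat_lit 19))
 (.p (nat_lit 0x268927c902) (nat_lit 0x2a0000000300) (nat_lit 36)))
 (.p (nat_lit 0x147816a302) (nat_lit 0x40906) (nat_lit 5)))
 (.n (.p (nat_lit 0xa9c0a980a960a920038002d00270a9b0a9509) (nat_lit 0x2100401) (nat_lit 10))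
 (.p (nat_lit 0x20a61ffb02) (nat_lit 0x721) (nat_lit 4))))
 (.n (.n (.n (.p (nat_lit 0xdaa0da80da60da40d690d6706) (nat_lit 0x1800010600) (nat_lit 52))
 (.p (nat_lit 0x157e286702) (nat_lit 0x1a2274b50000400040600) (nat_lit 50)))
 (.p (nat_lit 0x10c043102) (nat_lit 0x440015) (nat_lit 1)))
 (.n (.p (nat_lit 0x8280826082408220820170906) (nat_lit 0x10000006b03) (nat_lit 51))
 (.p (nat_lit 0x204e204c204a20482046161506) (nat_lit 0x1000044a2a) (nat_lit 52)))))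
 (.n (.n (.n (.n (.p (nat_lit 0x7aa07a807a607a405f105e906) (nat_lit 0x88000d6200) (nat_lit 52))
 (.p (nat_lit 0x2703111702) (nat_lit 0x100040000800) (nat_lit 40)))
 (.p (nat_lit 0x67e067c0678067608ed08e706) (nat_lit 0x1200008030e) (nat_lit 51)))
 (.n (.p (nat_lit 0x162c0fa702) (nat_lit 0x140a02) (nat_lit 5))
 (.p (nat_lit 0x1916188702) (nat_lit 0x500924) (nat_lit 5))))
 (.n (.n (.p (nat_lit 0x138f11a702) (nat_lit 0x20c900) (nat_lit 16))
 (.p (nat_lit 0x1ef01e7302) (nat_lit 0x240519) (nat_lit 4)))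
 (.n (.p (nat_lit 0xd470b9b02) (nat_lit 0x240405) (nat_lit 15))
 (.p (nat_lit 0x19f25d702) (nat_lit 0xa1c) (nat_lit 28))))))
 (.n (.n (.n (.n (.n (.p (nat_lit 0x49b048f02) (nat_lit 0x500100) (nat_lit 34))
 (.p (nat_lit 0x26ab0e5702) (nat_lit 0x80000000600) (nat_lit 41)))
 (.p (nat_lit 0xb5203d302) (nat_lit 0x240407) (nat_lit 4)))
 (.n (.p (nat_lit 0x4560f4f02) (nat_lit 0x40002) (nat_lit 5))
 (.p (nat_lit 0x7cc0a2702) (nat_lit 0x440223) (nat_lit 5))))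
 (.n (.n (.n (.p (nat_lit 0x109e109c109a109810960ee306) (nat_lit 0x800056700) (nat_lit 52))
 (.p (nat_lit 0xac428a302) (nat_lit 0x350521a84000400040000) (nat_lit 50)))
 (.p (nat_lit 0x11cf0fed02) (nat_lit 0x500715) (nat_lit 15)))
 (.n (.p (nat_lit 0xf22140502) (nat_lit 0x240604) (nat_lit 4))
 (.p (nat_lit 0x4024d502) (nat_lit 0x100603) (nat_lit 27)))))
 (.n (.n (.n (.n (.p (nat_lit 0xa7f08cf02) (nat_lit 0x202400) (nat_lit 16))
 (.p (nat_lit 0x2723283302) (nat_lit 0x200060000a00) (nat_lit 37)))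
 (.p (nat_lit 0x179605e702) (nat_lit 0x540b0e) (nat_lit 4)))
 (.n (.p (nat_lit 0x7fa07f807f607f207f0006b07f507) (nat_lit 0x240203) (nat_lit 7))
 (.p (nat_lit 0x244a24482446244424422440026007) (nat_lit 0x4012a) (nat_lit 8))))
 (.n (.n (.p (nat_lit 0x1615143f02) (nat_lit 0x14aa00) (nat_lit 16))
 (.p (nat_lit 0xa040a020a0009fe09fc0c5f06) (nat_lit 0x1000000251c) (nat_lit 52)))
 (.n (.p (nat_lit 0x12ba210b02) (nat_lit 0x140805) (nat_lit 29))
 (.p (nat_lit 0x26bf038302) (nat_lit 0x240020000000) (nat_lit 41))))))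

def c256_222 : Tr :=
 .n (.n (.n (.n (.n (.n (.p (nat_lit 0x2f402f002ee02ec02ea02c306) (nat_lit 0x8000086000) (nat_lit 51))
 (.p (nat_lit 0x26d709cf02) (nat_lit 0xc0020000400) (nat_lit 38)))
 (.p (nat_lit 0x8e0223b02) (nat_lit 0x500307) (nat_lit 29)))
 (.n (.p (nat_lit 0x9d409d209d009ce09cc139506) (nat_lit 0x10000008901) (nat_lit 52))
 (.p (nat_lit 0x65e065c065a06580654052706) (nat_lit 0x1000004123) (nat_lit 52))))
 (.n (.n (.n (.p (nat_lit 0xf2d0e6502) (nat_lit 0x154600) (nat_lit 16))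
 (.p (nat_lit 0x1022288502) (nat_lit 0x344580a64000100040600) (nat_lit 49)))
 (.p (nat_lit 0x65e065c065a065806540c4b06) (nat_lit 0x1000004515) (nat_lit 52)))
 (.n (.p (nat_lit 0x1e601e5e1e5c1e5a1e581e56008807) (nat_lit 0x40204) (nat_lit 8))
 (.p (nat_lit 0x1e4c1ec502) (nat_lit 0x10022e) (nat_lit 4)))))
 (.n (.n (.n (.n (.p (nat_lit 0x1a207b102) (nat_lit 0x240300) (nat_lit 1))
 (.p (nat_lit 0x26f1282102) (nat_lit 0x220040000900) (nat_lit 37)))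
 (.p (nat_lit 0xd640d620d600d5e0d5a0b5d06) (nat_lit 0x100004c40e) (nat_lit 51)))
 (.n (.p (nat_lit 0x17c60fc102) (nat_lit 0x240b02) (nat_lit 5))
 (.p (nat_lit 0x202e202c2028202620241f2906) (nat_lit 0x4000082b27) (nat_lit 52))))
 (.n (.n (.p (nat_lit 0x14ec14e814e614e414e2135b06) (nat_lit 0x800000ea00) (nat_lit 52))
 (.p (nat_lit 0x43c231d02) (nat_lit 0x44001c) (nat_lit 29)))
 (.n (.p (nat_lit 0x10f014ef02) (nat_lit 0x40705) (nat_lit 5))
 (.p (nat_lit 0x2658265626542652265001df025207) (nat_lit 0x204929) (nat_lit 25))))))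
 (.n (.n (.n (.n (.n (.p (nat_lit 0x50c066102) (nat_lit 0x200) (nat_lit 5))
 (.p (nat_lit 0x26f3280502) (nat_lit 0x200040000700) (nat_lit 36)))
 (.p (nat_lit 0x212c212a212821262124178b06) (nat_lit 0x40000c6b07) (nat_lit 52)))
 (.n (.p (nat_lit 0x139c106b02) (nat_lit 0x300902) (nat_lit 5))
 (.p (nat_lit 0x154023c702) (nat_lit 0x500a23) (nat_lit 29))))
 (.n (.n (.n (.p (nat_lit 0x10b0120902) (nat_lit 0x240800) (nat_lit 4))
 (.p (nat_lit 0x72a28c302) (nat_lit 0x3508a9d84000200040000) (nat_lit 49)))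
 (.p (nat_lit 0x1ad51a8702) (nat_lit 0x240417) (nat_lit 15)))
 (.n (.p (nat_lit 0x15d415d015ce15cc15ca171306) (nat_lit 0x800008eb04) (nat_lit 52))
 (.p (nat_lit 0x255425522550254e254c0009011007) (nat_lit 0x40a30e) (nat_lit 25)))))
 (.n (.n (.n (.n (.p (nat_lit 0xbce0bcc0bc80bc60a690a6306) (nat_lit 0x4800082500) (nat_lit 52))
 (.p (nat_lit 0x148a284702) (nat_lit 0x4a1a36344000400000600) (nat_lit 49)))
 (.p (nat_lit 0x1de81be102) (nat_lit 0x200b11) (nat_lit 5)))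
 (.n (.p (nat_lit 0xf14116b02) (nat_lit 0x140603) (nat_lit 5))
 (.p (nat_lit 0x102610241022101e101c07d506) (nat_lit 0x20000ce22a) (nat_lit 52))))
 (.n (.n (.p (nat_lit 0x175c175a17581756175415f906) (nat_lit 0x10000050b00) (nat_lit 51))
 (.p (nat_lit 0x16ce098502) (nat_lit 0xb1c) (nat_lit 5)))
 (.n (.p (nat_lit 0x1202168b02) (nat_lit 0x500806) (nat_lit 4))
 (.p (nat_lit 0x279f049b02) (nat_lit 0x400a0000100) (nat_lit 40))))))

def c128_94 : Tr := .n c256_94 c256_222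

def c64_30 : Tr := .n c128_30 c128_94

def c256_62 : Tr :=
 .n (.n (.n (.n (.n (.n (.p (nat_lit 0xa800a200a000ab04) (nat_lit 0x13000400005) (nat_lit 17))
 (.p (nat_lit 0x276f066902) (nat_lit 0x40080000200) (nat_lit 40)))
 (.p (nat_lit 0x147f12cb02) (nat_lit 0x340806) (nat_lit 15)))
 (.n (.p (nat_lit 0x6200d8d02) (nat_lit 0x440101) (nat_lit 4))
 (.p (nat_lit 0x1f301fe702) (nat_lit 0x200021) (nat_lit 5))))
 (.n (.n (.n (.p (nat_lit 0xd1f0b4b02) (nat_lit 0x446500) (nat_lit 16))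
 (.p (nat_lit 0x374286302) (nat_lit 0x281d30344000000040000) (nat_lit 49)))
 (.p (nat_lit 0x356074102) (nat_lit 0x300015) (nat_lit 4)))
 (.n (.p (nat_lit 0x1702118f02) (nat_lit 0x200b03) (nat_lit 4))
 (.p (nat_lit 0x24622460245e245c245a2458026007) (nat_lit 0xa2a) (nat_lit 8)))))
 (.n (.n (.n (.n (.p (nat_lit 0x5f0073702) (nat_lit 0x440200) (nat_lit 5))
 (.p (nat_lit 0x280c1c7702) (nat_lit 0xa800) (nat_lit 48)))
 (.p (nat_lit 0x16ac16a816a616a416a2217306) (nat_lit 0x80000d230d) (nat_lit 51)))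
 (.n (.p (nat_lit 0x10321030102e102c1028155d06) (nat_lit 0x100008ea02) (nat_lit 51))
 (.p (nat_lit 0x1866186418621860185e185106) (nat_lit 0x4000054224) (nat_lit 51))))
 (.n (.n (.p (nat_lit 0x131413121310130e130c11ad06) (nat_lit 0x1000000c900) (nat_lit 52))
 (.p (nat_lit 0x1dac1daa1da61da41da2017f1da907) (nat_lit 0x340518) (nat_lit 7)))
 (.n (.p (nat_lit 0x9c414b902) (nat_lit 0x140305) (nat_lit 5))
 (.p (nat_lit 0x18e018c018a01860183007f06) (nat_lit 0x290e519) (nat_lit 26))))))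
 (.n (.n (.n (.n (.n (.p (nat_lit 0x46f039702) (nat_lit 0x552000) (nat_lit 16))
 (.p (nat_lit 0x27230c8902) (nat_lit 0x200060000500) (nat_lit 41)))
 (.p (nat_lit 0x25a0a7502) (nat_lit 0x300407) (nat_lit 1)))
 (.n (.p (nat_lit 0x193f155902) (nat_lit 0x506a01) (nat_lit 16))
 (.p (nat_lit 0x7040a1902) (nat_lit 0x200223) (nat_lit 5))))
 (.n (.n (.n (.p (nat_lit 0xeea103102) (nat_lit 0x440700) (nat_lit 5))
 (.p (nat_lit 0x374289f02) (nat_lit 0x354868ca4000000040000) (nat_lit 49)))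
 (.p (nat_lit 0x22be22bc22ba22b822b622b4015007) (nat_lit 0x615) (nat_lit 8)))
 (.n (.p (nat_lit 0x81e081a0818081608140e3b06) (nat_lit 0x8000006604) (nat_lit 52))
 (.p (nat_lit 0x4324b502) (nat_lit 0x200b02) (nat_lit 28)))))
 (.n (.n (.n (.n (.p (nat_lit 0xa040a020a0009fe09fc08d506) (nat_lit 0x10000002400) (nat_lit 52))
 (.p (nat_lit 0x26c9282d02) (nat_lit 0x1a0020000a00) (nat_lit 37)))
 (.p (nat_lit 0x11c204ff02) (nat_lit 0x50080e) (nat_lit 4)))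
 (.n (.p (nat_lit 0x6b1c0b02) (nat_lit 0x240103) (nat_lit 30))
 (.p (nat_lit 0x53a05380536053405300257053307) (nat_lit 0x10012a) (nat_lit 7))))
 (.n (.n (.p (nat_lit 0x15c415c215c015be1447144506) (nat_lit 0x1800004ea00) (nat_lit 51))
 (.p (nat_lit 0x5fe05fc05fa05f601b201a3019f05f905f509) (nat_lit 0x104011c) (nat_lit 10)))
 (.n (.p (nat_lit 0x11f620f302) (nat_lit 0x500805) (nat_lit 29))
 (.p (nat_lit 0x268b27a502) (nat_lit 0x280000000000) (nat_lit 37))))))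

def c256_190 : Tr :=
 .n (.n (.n (.n (.n (.n (.p (nat_lit 0xd802bf02) (nat_lit 0x200000) (nat_lit 1))
 (.p (nat_lit 0x26b127d502) (nat_lit 0x20000000400) (nat_lit 36)))
 (.p (nat_lit 0x5de05dc05da05d807c107b906) (nat_lit 0x88000d0207) (nat_lit 51)))
 (.n (.p (nat_lit 0x12c712af02) (nat_lit 0x154801) (nat_lit 16))
 (.p (nat_lit 0x1ff236502) (nat_lit 0x440023) (nat_lit 30))))
 (.n (.n (.n (.p (nat_lit 0xec80ec60ec40ec00ebe0e6706) (nat_lit 0x20000d2600) (nat_lit 52))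
 (.p (nat_lit 0x90e287d02) (nat_lit 0x585a12b21000300040000) (nat_lit 49)))
 (.p (nat_lit 0x203f0b6902) (nat_lit 0x154415) (nat_lit 16)))
 (.n (.p (nat_lit 0x1e0717d902) (nat_lit 0x540b03) (nat_lit 16))
 (.p (nat_lit 0x295247902) (nat_lit 0x40012d) (nat_lit 30)))))
 (.n (.n (.n (.n (.p (nat_lit 0x8b008ae08ac08aa06f306f106) (nat_lit 0x18000094300) (nat_lit 52))
 (.p (nat_lit 0x26c9281d02) (nat_lit 0x1a0020000900) (nat_lit 37)))
 (.p (nat_lit 0xb5a04c102) (nat_lit 0x4040e) (nat_lit 5)))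
 (.n (.p (nat_lit 0x16fc0fbb02) (nat_lit 0x500b02) (nat_lit 5))
 (.p (nat_lit 0x128812861284128212801c6106) (nat_lit 0x100000d6126) (nat_lit 52))))
 (.n (.n (.p (nat_lit 0x1354149302) (nat_lit 0x100a00) (nat_lit 5))
 (.p (nat_lit 0x1658165616521650164e036306) (nat_lit 0x400001601c) (nat_lit 51)))
 (.n (.p (nat_lit 0x57c057a057605740572100b06) (nat_lit 0x4000082705) (nat_lit 51))
 (.p (nat_lit 0x2140210020c020a024f01fb06) (nat_lit 0x2214924) (nat_lit 26))))))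
 (.n (.n (.n (.n (.n (.p (nat_lit 0x5f3042702) (nat_lit 0x540100) (nat_lit 15))
 (.p (nat_lit 0x27fe101d02) (nat_lit 0x40700) (nat_lit 45)))
 (.p (nat_lit 0x16b8033902) (nat_lit 0x500b07) (nat_lit 5)))
 (.n (.p (nat_lit 0xc661a8f02) (nat_lit 0x100502) (nat_lit 29))
 (.p (nat_lit 0x1fb23b502) (nat_lit 0x200923) (nat_lit 30))))
 (.n (.n (.n (.p (nat_lit 0x11bd0fcd02) (nat_lit 0x202800) (nat_lit 16))
 (.p (nat_lit 0x91a28bd02) (nat_lit 0x352868d64000300040000) (nat_lit 50)))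
 (.p (nat_lit 0x1533152702) (nat_lit 0x408a15) (nat_lit 16)))
 (.n (.p (nat_lit 0x10f310e702) (nat_lit 0x156704) (nat_lit 16))
 (.p (nat_lit 0xd7252702) (nat_lit 0x100407) (nat_lit 28)))))
 (.n (.n (.n (.n (.p (nat_lit 0xa640ba502) (nat_lit 0x100500) (nat_lit 4))
 (.p (nat_lit 0x56a283f02) (nat_lit 0x4a1a22344000100040000) (nat_lit 49)))
 (.p (nat_lit 0x1b5a1b581b561b541b521d8706) (nat_lit 0x4000086511) (nat_lit 51)))
 (.n (.p (nat_lit 0xe28115f02) (nat_lit 0x100603) (nat_lit 5))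
 (.p (nat_lit 0x7d40cb502) (nat_lit 0x24022a) (nat_lit 4))))
 (.n (.n (.p (nat_lit 0x15f2172702) (nat_lit 0x240b00) (nat_lit 5))
 (.p (nat_lit 0x15321530152e152a01b801a901a11535152d09) (nat_lit 0x2900a1c) (nat_lit 10)))
 (.n (.p (nat_lit 0x10fc174b02) (nat_lit 0x140706) (nat_lit 5))
 (.p (nat_lit 0x272927b502) (nat_lit 0x1a0060000100) (nat_lit 36))))))

def c128_62 : Tr := .n c256_62 c256_190

def c256_126 : Tr :=
 .n (.n (.n (.n (.n (.n (.p (nat_lit 0x1a601a4019e01ab04) (nat_lit 0xc80040001c) (nat_lit 17))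
 (.p (nat_lit 0x26ef27cd02) (nat_lit 0x240040000300) (nat_lit 36)))
 (.p (nat_lit 0x15bc15b615b415b21481147f06) (nat_lit 0xc00004c906) (nat_lit 51)))
 (.n (.p (nat_lit 0x11e20da302) (nat_lit 0x100801) (nat_lit 4))
 (.p (nat_lit 0x20da1fcd02) (nat_lit 0x440721) (nat_lit 5))))
 (.n (.n (.n (.p (nat_lit 0xe1b0d6702) (nat_lit 0xa600) (nat_lit 16))
 (.p (nat_lit 0x72e286f02) (nat_lit 0x588872b44000200040000) (nat_lit 49)))
 (.p (nat_lit 0xa8a075702) (nat_lit 0x200415) (nat_lit 5)))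
 (.n (.p (nat_lit 0x1def170902) (nat_lit 0x502b03) (nat_lit 16))
 (.p (nat_lit 0xf0f17bf02) (nat_lit 0x440b2a) (nat_lit 15)))))
 (.n (.n (.n (.n (.p (nat_lit 0x81105f102) (nat_lit 0x454200) (nat_lit 16))
 (.p (nat_lit 0x2727121702) (nat_lit 0x1c0060000800) (nat_lit 41)))
 (.p (nat_lit 0x9ae059502) (nat_lit 0x54030e) (nat_lit 5)))
 (.n (.p (nat_lit 0x72e072c072807260724163106) (nat_lit 0x40000c4a02) (nat_lit 52))
 (.p (nat_lit 0x195c241702) (nat_lit 0x300025) (nat_lit 29))))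
 (.n (.n (.p (nat_lit 0x129413b702) (nat_lit 0x440900) (nat_lit 4))
 (.p (nat_lit 0x1fb61fb41fb21fb01fae204106) (nat_lit 0x40000c041a) (nat_lit 51)))
 (.n (.p (nat_lit 0x168a16861684168216800e4706) (nat_lit 0x8000010605) (nat_lit 52))
 (.p (nat_lit 0x1f201f001ec01ea01db019906) (nat_lit 0x312122) (nat_lit 26))))))
 (.n (.n (.n (.n (.n (.p (nat_lit 0x51f034b02) (nat_lit 0x306100) (nat_lit 16))
 (.p (nat_lit 0x26dd0d5d02) (nat_lit 0x60020000600) (nat_lit 40)))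
 (.p (nat_lit 0xdee03e302) (nat_lit 0x500607) (nat_lit 5)))
 (.n (.p (nat_lit 0x631062502) (nat_lit 0x52102) (nat_lit 16))
 (.p (nat_lit 0xe16238902) (nat_lit 0x400623) (nat_lit 29))))
 (.n (.n (.n (.p (nat_lit 0x10f50ee702) (nat_lit 0x254700) (nat_lit 16))
 (.p (nat_lit 0x49228ad02) (nat_lit 0x354a621b0000100000000) (nat_lit 50)))
 (.p (nat_lit 0x210711cf02) (nat_lit 0x514815) (nat_lit 16)))
 (.n (.p (nat_lit 0xbac0baa0ba80ba20f230f2106) (nat_lit 0x300004a604) (nat_lit 52))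
 (.p (nat_lit 0x24ee24ec24ea24e824e60005008807) (nat_lit 0x20eb04) (nat_lit 25)))))
 (.n (.n (.n (.n (.p (nat_lit 0x200099702) (nat_lit 0x540400) (nat_lit 1))
 (.p (nat_lit 0x2836161f02) (nat_lit 0x4eb00) (nat_lit 47)))
 (.p (nat_lit 0x1a64198502) (nat_lit 0x200410) (nat_lit 5)))
 (.n (.p (nat_lit 0x9c2113d02) (nat_lit 0x540303) (nat_lit 4))
 (.p (nat_lit 0x70c0ca502) (nat_lit 0x22a) (nat_lit 5))))
 (.n (.n (.p (nat_lit 0x151c151a15141512001c000700051519151709) (nat_lit 0x1a00b00) (nat_lit 10))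
 (.p (nat_lit 0xb380b360b320b2e0d1d0d1906) (nat_lit 0x500005651c) (nat_lit 51)))
 (.n (.p (nat_lit 0x142e142a1428142612c112b906) (nat_lit 0x8800056805) (nat_lit 51))
 (.p (nat_lit 0x275302b702) (nat_lit 0x200080000000) (nat_lit 40))))))

def c256_254 : Tr :=
 .n (.n (.n (.n (.n (.n (.p (nat_lit 0x38c038102) (nat_lit 0x40000) (nat_lit 5))
 (.p (nat_lit 0x27e0220102) (nat_lit 0x80016400) (nat_lit 48)))
 (.p (nat_lit 0xa7308db02) (nat_lit 0x200307) (nat_lit 15)))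
 (.n (.p (nat_lit 0x146a1466146414621460002d146907) (nat_lit 0x440901) (nat_lit 7))
 (.p (nat_lit 0x600236902) (nat_lit 0x40123) (nat_lit 29))))
 (.n (.n (.n (.p (nat_lit 0xfa20fa00f9e0f9c0f9a0f9806) (nat_lit 0x14700) (nat_lit 52))
 (.p (nat_lit 0xab8288d02) (nat_lit 0x356221ca4000400040000) (nat_lit 49)))
 (.p (nat_lit 0x3590c5102) (nat_lit 0x400515) (nat_lit 15)))
 (.n (.p (nat_lit 0x1eac1eaa1ea81ea61ea41ea2008807) (nat_lit 0x40404) (nat_lit 8))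
 (.p (nat_lit 0x1f90206b02) (nat_lit 0x24022f) (nat_lit 4)))))
 (.n (.n (.n (.n (.p (nat_lit 0x96c096a0968096207b107af06) (nat_lit 0x30000ca300) (nat_lit 51))
 (.p (nat_lit 0x271f12d702) (nat_lit 0x240060000900) (nat_lit 38)))
 (.p (nat_lit 0xc4605b902) (nat_lit 0x50050e) (nat_lit 4)))
 (.n (.p (nat_lit 0xec60ec40ec20ec00ebe17cd06) (nat_lit 0x100000d2b02) (nat_lit 52))
 (.p (nat_lit 0x213e217d02) (nat_lit 0x300129) (nat_lit 4))))
 (.n (.n (.p (nat_lit 0x153f135b02) (nat_lit 0x408a00) (nat_lit 16))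
 (.p (nat_lit 0x148e148c148814861484043b06) (nat_lit 0x400005401c) (nat_lit 52)))
 (.n (.p (nat_lit 0x82a082808260824082210f106) (nat_lit 0x800046705) (nat_lit 51))
 (.p (nat_lit 0x286028402820280028d022306) (nat_lit 0x51232c) (nat_lit 26))))))
 (.n (.n (.n (.n (.n (.p (nat_lit 0x680067a067806760515051306) (nat_lit 0xc000080200) (nat_lit 51))
 (.p (nat_lit 0x27310f4902) (nat_lit 0x120060000700) (nat_lit 40)))
 (.p (nat_lit 0x1cae1b5102) (nat_lit 0x54020a) (nat_lit 4)))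
 (.n (.p (nat_lit 0x14740f9502) (nat_lit 0x440902) (nat_lit 4))
 (.p (nat_lit 0x1df916e302) (nat_lit 0x410b23) (nat_lit 16))))
 (.n (.n (.p (nat_lit 0x127e127c127a1278127410af06) (nat_lit 0x1000056800) (nat_lit 51))
 (.p (nat_lit 0xf960f940f900f8e0f8c1ad706) (nat_lit 0x40000d2517) (nat_lit 52)))
 (.n (.p (nat_lit 0x15041502150014fe17dd17db06) (nat_lit 0x1800050b04) (nat_lit 51))
 (.p (nat_lit 0x70257502) (nat_lit 0x500411) (nat_lit 27)))))
 (.n (.n (.n (.n (.p (nat_lit 0xc430a6902) (nat_lit 0x302500) (nat_lit 16))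
 (.p (nat_lit 0x662284f02) (nat_lit 0x4a0d84344000200000000) (nat_lit 50)))
 (.p (nat_lit 0x4a604a404a204a0049c1e0b06) (nat_lit 0x1000046b11) (nat_lit 52)))
 (.n (.p (nat_lit 0x156a117702) (nat_lit 0x200a03) (nat_lit 4))
 (.p (nat_lit 0x8f808f608f208f008ee025b08f507) (nat_lit 0x30032a) (nat_lit 7))))
 (.n (.n (.p (nat_lit 0x179d15f502) (nat_lit 0x344b00) (nat_lit 16))
 (.p (nat_lit 0x216a2168216621642162193906) (nat_lit 0x1000010a1d) (nat_lit 51)))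
 (.n (.p (nat_lit 0x157c1578157615741572120106) (nat_lit 0x8000094806) (nat_lit 52))
 (.p (nat_lit 0x268927bb02) (nat_lit 0x2a0000000200) (nat_lit 36))))))

def c128_126 : Tr := .n c256_126 c256_254

def c64_62 : Tr := .n c128_62 c128_126

def c32_30 : Tr := .n c64_30 c64_62

def c16_14 : Tr := .n c32_14 c32_30

def c8_6 : Tr := .n c16_6 c16_14

def c4_2 : Tr := .n c8_2 c8_6

def b2 : Tr := c4_2

theorem hb2_2 : allp (tst G49 true (getA DT)) b2 = true := by decide +kernel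

end Vale.Agent.P032.H437.Ev3
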