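import Vale.Agent.P032.H437.Ev3.T

namespace Vale.Agent.P032.H437.Ev3
open Vale.Agent.P032.H859.Rup Vale.Agent.P032.H437

def c256_3 : Tr :=
 .n (.n (.n (.n (.n (.n (.p (nat_lit 0x601) (nat_lit 0x300000) (nat_lit 0))
 (.p (nat_lit 0x27ba065502) (nat_lit 0x200) (nat_lit 45)))
 (.p (nat_lit 0x21e1120302) (nat_lit 0x500806) (nat_lit 16)))
 (.n (.p (nat_lit 0x17ad15f102) (nat_lit 0x148b00) (nat_lit 16))
 (.p (nat_lit 0x19501a3d02) (nat_lit 0x20001e) (nat_lit 5))))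
 (.n (.n (.n (.p (nat_lit 0xc530a6d02) (nat_lit 0x504500) (nat_lit 16))
 (.p (nat_lit 0xbac284f02) (nat_lit 0x4a0d84344000500000000) (nat_lit 49)))
 (.p (nat_lit 0x22822280227e227c227a2278013e07) (nat_lit 0x40512) (nat_lit 8)))
 (.n (.p (nat_lit 0x156e117b02) (nat_lit 0x400a03) (nat_lit 4))
 (.p (nat_lit 0x8f608f408f208f008ee025f08f907) (nat_lit 0x50032a) (nat_lit 7)))))
 (.n (.n (.n (.n (.p (nat_lit 0x696069406920690050f050d06) (nat_lit 0x1800088200) (nat_lit 52))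
 (.p (nat_lit 0x2723280702) (nat_lit 0x200060000700) (nat_lit 36)))
 (.p (nat_lit 0x1bda1bd81bd61bd41bd21cab06) (nat_lit 0x40000c820a) (nat_lit 51)))
 (.n (.p (nat_lit 0x1476107b02) (nat_lit 0x540902) (nat_lit 5))
 (.p (nat_lit 0x17aa0b3b02) (nat_lit 0x40b23) (nat_lit 5))))
 (.n (.n (.p (nat_lit 0x128a128812861284128210ad06) (nat_lit 0x8000d6800) (nat_lit 52))
 (.p (nat_lit 0x1ade19ef02) (nat_lit 0x100917) (nat_lit 5)))
 (.n (.p (nat_lit 0xf2717e302) (nat_lit 0x440b04) (nat_lit 15))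
 (.p (nat_lit 0x14e014a014801460009010506) (nat_lit 0x200a015) (nat_lit 26))))))
 (.n (.n (.n (.n (.n (.p (nat_lit 0xd8039102) (nat_lit 0x240000) (nat_lit 1))
 (.p (nat_lit 0x26ab27e302) (nat_lit 0x80000000500) (nat_lit 36)))
 (.p (nat_lit 0x8eb08df02) (nat_lit 0x404307) (nat_lit 16)))
 (.n (.p (nat_lit 0x2b802b602b402b202ae146306) (nat_lit 0x1000040901) (nat_lit 51))
 (.p (nat_lit 0x204020902070a0b0aef05) (nat_lit 0xae140123) (nat_lit 9))))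
 (.n (.n (.n (.p (nat_lit 0xf9e0f9c0f9a0f980de30de106) (nat_lit 0x18000014700) (nat_lit 52))
 (.p (nat_lit 0xd5c288f02) (nat_lit 0x356221ca4000000000600) (nat_lit 50)))
 (.p (nat_lit 0x1aa70c4b02) (nat_lit 0x10e515) (nat_lit 16)))
 (.n (.p (nat_lit 0x7f1ea502) (nat_lit 0x140404) (nat_lit 30))
 (.p (nat_lit 0x1fd0207102) (nat_lit 0x10032f) (nat_lit 4)))))
 (.n (.n (.n (.n (.p (nat_lit 0x98f07af02) (nat_lit 0x140300) (nat_lit 15))
 (.p (nat_lit 0x271912d702) (nat_lit 0x2a0060000900) (nat_lit 38)))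
 (.p (nat_lit 0x3b203b003ae03ac03aa0c4706) (nat_lit 0x1000000650e) (nat_lit 51)))
 (.n (.p (nat_lit 0x17d317c702) (nat_lit 0x252b02) (nat_lit 16))
 (.p (nat_lit 0x168a1688168616821680213d06) (nat_lit 0x2000010129) (nat_lit 52))))
 (.n (.n (.p (nat_lit 0x1553135702) (nat_lit 0x20ca00) (nat_lit 16))
 (.p (nat_lit 0x5fb043b02) (nat_lit 0x34001c) (nat_lit 15)))
 (.n (.p (nat_lit 0x9e209e009de09dc09da10f106) (nat_lit 0x800048705) (nat_lit 51))
 (.p (nat_lit 0x281267d02) (nat_lit 0x10092c) (nat_lit 28))))))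

def c256_131 : Tr :=
 .n (.n (.n (.n (.n (.n (.p (nat_lit 0x1a601a401ad03) (nat_lit 0xc00050001c) (nat_lit 17))
 (.p (nat_lit 0x26e527cd02) (nat_lit 0x2e0040000300) (nat_lit 36)))
 (.p (nat_lit 0x6f402c702) (nat_lit 0x207) (nat_lit 4)))
 (.n (.p (nat_lit 0x11e60ea102) (nat_lit 0x300801) (nat_lit 5))
 (.p (nat_lit 0x93c093a09380934093220d706) (nat_lit 0x20000c0721) (nat_lit 52))))
 (.n (.n (.n (.p (nat_lit 0xe2b0d6b02) (nat_lit 0x210600) (nat_lit 16))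
 (.p (nat_lit 0xac0286f02) (nat_lit 0x588872b44000400040000) (nat_lit 50)))
 (.p (nat_lit 0xa8c229702) (nat_lit 0x300415) (nat_lit 29)))
 (.n (.p (nat_lit 0x17ce119702) (nat_lit 0x40b03) (nat_lit 5))
 (.p (nat_lit 0x192618e302) (nat_lit 0x24092b) (nat_lit 4)))))
 (.n (.n (.n (.n (.p (nat_lit 0x6f206f006ee06ec06ea000106e907) (nat_lit 0x300) (nat_lit 7))
 (.p (nat_lit 0x2721110d02) (nat_lit 0x220060000800) (nat_lit 38)))
 (.p (nat_lit 0x77407720770076e076a09a706) (nat_lit 0x100004a30e) (nat_lit 51)))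
 (.n (.p (nat_lit 0x9d609d409d209d009cc162d06) (nat_lit 0x1000048a02) (nat_lit 52))
 (.p (nat_lit 0x195e195c195a1958022a022302191961195709) (nat_lit 0x2800025) (nat_lit 10))))
 (.n (.n (.p (nat_lit 0x129613c502) (nat_lit 0x540900) (nat_lit 5))
 (.p (nat_lit 0x20901f7f02) (nat_lit 0x44051a) (nat_lit 4)))
 (.n (.p (nat_lit 0x176817661764176217600e4906) (nat_lit 0x10000090605) (nat_lit 52))
 (.p (nat_lit 0x1fd260502) (nat_lit 0x300023) (nat_lit 28))))))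
 (.n (.n (.n (.n (.n (.p (nat_lit 0x52b034b02) (nat_lit 0x308100) (nat_lit 16))
 (.p (nat_lit 0x26cd27f702) (nat_lit 0x160020000600) (nat_lit 36)))
 (.p (nat_lit 0xeee031702) (nat_lit 0x40607) (nat_lit 4)))
 (.n (.p (nat_lit 0x43199102) (nat_lit 0x200202) (nat_lit 30))
 (.p (nat_lit 0xff50e1702) (nat_lit 0x400623) (nat_lit 15))))
 (.n (.n (.n (.p (nat_lit 0x10ff0ee702) (nat_lit 0x256700) (nat_lit 16))
 (.p (nat_lit 0x9ce28ad02) (nat_lit 0x354a621b0000400000000) (nat_lit 49)))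
 (.p (nat_lit 0x135e22e702) (nat_lit 0x100915) (nat_lit 29)))
 (.n (.p (nat_lit 0xf4c0f480f460f440f420f2706) (nat_lit 0x800004e604) (nat_lit 51))
 (.p (nat_lit 0xa524f702) (nat_lit 0x300205) (nat_lit 28)))))
 (.n (.n (.n (.n (.p (nat_lit 0x99609920990098c001a000900030995098f09) (nat_lit 0x2140400) (nat_lit 10))
 (.p (nat_lit 0x26d3171902) (nat_lit 0x100020000b00) (nat_lit 39)))
 (.p (nat_lit 0x1d1b1a6502) (nat_lit 0x212410) (nat_lit 16)))
 (.n (.p (nat_lit 0xa9e1ceb02) (nat_lit 0x100403) (nat_lit 29))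
 (.p (nat_lit 0x71607140712070e070c0259071107) (nat_lit 0x20022a) (nat_lit 7))))
 (.n (.n (.p (nat_lit 0x16741670166c166a151b151706) (nat_lit 0xa00000eb00) (nat_lit 52))
 (.p (nat_lit 0xe08087502) (nat_lit 0x61c) (nat_lit 5)))
 (.n (.p (nat_lit 0x47c165b02) (nat_lit 0x40006) (nat_lit 4))
 (.p (nat_lit 0x274902b702) (nat_lit 0x2a0080000000) (nat_lit 40))))))

def c128_3 : Tr := .n c256_3 c256_131

def c256_67 : Tr :=
 .n (.n (.n (.n (.n (.n (.p (nat_lit 0xa800a600a200ab04) (nat_lit 0x1a000400005) (nat_lit 17))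
 (.p (nat_lit 0x2765066902) (nat_lit 0xe0080000200) (nat_lit 40)))
 (.p (nat_lit 0x13ac13aa13a813a613a400bb13a307) (nat_lit 0x906) (nat_lit 7)))
 (.n (.p (nat_lit 0x182c182a18281826061b061906) (nat_lit 0x1800054101) (nat_lit 52))
 (.p (nat_lit 0x1f361fad02) (nat_lit 0x500021) (nat_lit 4))))
 (.n (.n (.n (.p (nat_lit 0xd350b4902) (nat_lit 0x34e500) (nat_lit 16))
 (.p (nat_lit 0x736286302) (nat_lit 0x281d30344000200040000) (nat_lit 50)))
 (.p (nat_lit 0x358067302) (nat_lit 0x400015) (nat_lit 5)))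
 (.n (.p (nat_lit 0x170817061702170016fe006d170507) (nat_lit 0x300b03) (nat_lit 7))
 (.p (nat_lit 0x257245b02) (nat_lit 0x100a2a) (nat_lit 30)))))
 (.n (.n (.n (.n (.p (nat_lit 0x5f205f005ec05ea00100007000105ef05e909) (nat_lit 0x1840200) (nat_lit 10))
 (.p (nat_lit 0x280c1d5702) (nat_lit 0x42800) (nat_lit 48)))
 (.p (nat_lit 0x3d803d603d203d003ce21df06) (nat_lit 0x400008880d) (nat_lit 52)))
 (.n (.p (nat_lit 0x111c1118111611141112156306) (nat_lit 0x8000010a02) (nat_lit 51))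
 (.p (nat_lit 0x21c18ef02) (nat_lit 0x200824) (nat_lit 1))))
 (.n (.n (.p (nat_lit 0x133813361332133011a911a306) (nat_lit 0x480008e900) (nat_lit 51))
 (.p (nat_lit 0x127e127c127a127812741da506) (nat_lit 0x1000056518) (nat_lit 51)))
 (.n (.p (nat_lit 0xa51fdf02) (nat_lit 0x340305) (nat_lit 30))
 (.p (nat_lit 0x1a601a401a2019e01c3000b06) (nat_lit 0xd0c01c) (nat_lit 26))))))
 (.n (.n (.n (.n (.n (.p (nat_lit 0x47f038f02) (nat_lit 0x156000) (nat_lit 16))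
 (.p (nat_lit 0x275727ef02) (nat_lit 0x1c0080000500) (nat_lit 37)))
 (.p (nat_lit 0xa780a740a720a700a6e00dd0a7707) (nat_lit 0x400407) (nat_lit 7)))
 (.n (.p (nat_lit 0x1563155702) (nat_lit 0x410a01) (nat_lit 16))
 (.p (nat_lit 0x204020702090a1b0aff05) (nat_lit 0x86b00223) (nat_lit 9))))
 (.n (.n (.n (.p (nat_lit 0xeec103302) (nat_lit 0x540700) (nat_lit 5))
 (.p (nat_lit 0x914289f02) (nat_lit 0x354868ca4000300040000) (nat_lit 49)))
 (.p (nat_lit 0xe060e040e020dfe0dfc01490e0107) (nat_lit 0x200615) (nat_lit 7)))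
 (.n (.p (nat_lit 0x916091409120910090e0e3d06) (nat_lit 0x10000086604) (nat_lit 52))
 (.p (nat_lit 0x24ba24b824b624b424b00003004a07) (nat_lit 0x112b02) (nat_lit 25)))))
 (.n (.n (.n (.n (.p (nat_lit 0xa100a0e0a0c0a0808d508cd06) (nat_lit 0x11000082400) (nat_lit 51))
 (.p (nat_lit 0x26c3282d02) (nat_lit 0x200020000a00) (nat_lit 37)))
 (.p (nat_lit 0x1c281c261c241c221c1e11bb06) (nat_lit 0x100008880e) (nat_lit 52)))
 (.n (.p (nat_lit 0x6381c0f02) (nat_lit 0x440103) (nat_lit 29))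
 (.p (nat_lit 0x259243902) (nat_lit 0x20012a) (nat_lit 30))))
 (.n (.n (.p (nat_lit 0x15d415d015ce15cc1445143d06) (nat_lit 0x88000cea00) (nat_lit 52))
 (.p (nat_lit 0x6a2069e069c069a069805fd06) (nat_lit 0x800004a11c) (nat_lit 52)))
 (.n (.p (nat_lit 0x13fe13fc13fa13f613f411f106) (nat_lit 0x200000c805) (nat_lit 51))
 (.p (nat_lit 0x2689038102) (nat_lit 0x2a0000000000) (nat_lit 41))))))

def c256_195 : Tr :=
 .n (.n (.n (.n (.n (.n (.p (nat_lit 0x2c002a902) (nat_lit 0x300000) (nat_lit 4))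
 (.p (nat_lit 0x26ab0ab102) (nat_lit 0x80000000400) (nat_lit 39)))
 (.p (nat_lit 0x7d307bb02) (nat_lit 0x148207) (nat_lit 16)))
 (.n (.p (nat_lit 0x138c0eb502) (nat_lit 0x100901) (nat_lit 5))
 (.p (nat_lit 0xcac0caa0ca80ca60ca4044b06) (nat_lit 0x10000044023) (nat_lit 51))))
 (.n (.n (.n (.p (nat_lit 0xed20ed00ece0ecc0eca0e6d06) (nat_lit 0x10000054600) (nat_lit 52))
 (.p (nat_lit 0x172d171f1581157913bf13af1219120f102f101f0e570e4f287e0d) (nat_lit 0x585a12b21000000040600) (nat_lit 33)))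
 (.p (nat_lit 0x14522a902) (nat_lit 0x515) (nat_lit 30)))
 (.n (.p (nat_lit 0x17e317d702) (nat_lit 0x454b03) (nat_lit 16))
 (.p (nat_lit 0x1c681d6f02) (nat_lit 0x34012d) (nat_lit 4)))))
 (.n (.n (.n (.n (.p (nat_lit 0x8d106ef02) (nat_lit 0x300300) (nat_lit 15))
 (.p (nat_lit 0x281c12df02) (nat_lit 0x20000900) (nat_lit 46)))
 (.p (nat_lit 0xb5e04c502) (nat_lit 0x24040e) (nat_lit 5)))
 (.n (.p (nat_lit 0x16fa16f816f616f400560049003f16fd16f309) (nat_lit 0x2800b02) (nat_lit 10))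
 (.p (nat_lit 0x1df21d4702) (nat_lit 0x100b26) (nat_lit 5))))
 (.n (.n (.p (nat_lit 0x1358148b02) (nat_lit 0x300a00) (nat_lit 4))
 (.p (nat_lit 0x521036502) (nat_lit 0x40001c) (nat_lit 15)))
 (.n (.p (nat_lit 0x81e081c081a08180816100506) (nat_lit 0x800006705) (nat_lit 52))
 (.p (nat_lit 0x250264502) (nat_lit 0x500a24) (nat_lit 27))))))
 (.n (.n (.n (.n (.n (.p (nat_lit 0x603041f02) (nat_lit 0x148100) (nat_lit 16))
 (.p (nat_lit 0x27fc0f1302) (nat_lit 0x52700) (nat_lit 47)))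
 (.p (nat_lit 0x16ef16b702) (nat_lit 0x408b07) (nat_lit 16)))
 (.n (.p (nat_lit 0xc6a1a9702) (nat_lit 0x500502) (nat_lit 29))
 (.p (nat_lit 0x1ff23b902) (nat_lit 0x400923) (nat_lit 30))))
 (.n (.n (.n (.p (nat_lit 0x11d50fcf02) (nat_lit 0x306800) (nat_lit 16))
 (.p (nat_lit 0xe4a28bf02) (nat_lit 0x3503a8d84000000040600) (nat_lit 49)))
 (.p (nat_lit 0x16cc06e702) (nat_lit 0x500b15) (nat_lit 5)))
 (.n (.p (nat_lit 0x170a142502) (nat_lit 0xb04) (nat_lit 5))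
 (.p (nat_lit 0x120252f02) (nat_lit 0x20a) (nat_lit 27)))))
 (.n (.n (.n (.n (.p (nat_lit 0xa660bb302) (nat_lit 0x200500) (nat_lit 5))
 (.p (nat_lit 0x91e283f02) (nat_lit 0x4a1a22344000300040000) (nat_lit 50)))
 (.p (nat_lit 0x1da01d9e1d9c1d9a1d9801211d9707) (nat_lit 0x40511) (nat_lit 7)))
 (.n (.p (nat_lit 0x440e2d02) (nat_lit 0x300603) (nat_lit 1))
 (.p (nat_lit 0x7d80be502) (nat_lit 0x44022a) (nat_lit 5))))
 (.n (.n (.p (nat_lit 0x15f4171d02) (nat_lit 0x340b00) (nat_lit 4))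
 (.p (nat_lit 0x200220001ffe1ffa1535152d06) (nat_lit 0x1100000ea1c) (nat_lit 52)))
 (.n (.p (nat_lit 0x1100167b02) (nat_lit 0x340706) (nat_lit 4))
 (.p (nat_lit 0x271f27b502) (nat_lit 0x240060000100) (nat_lit 36))))))

def c128_67 : Tr := .n c256_67 c256_195

def c64_3 : Tr := .n c128_3 c128_67

def c256_35 : Tr :=
 .n (.n (.n (.n (.n (.n (.p (nat_lit 0x5b0053004c03) (nat_lit 0x60800002) (nat_lit 19))
 (.p (nat_lit 0x2711073302) (nat_lit 0x20040000200) (nat_lit 41)))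
 (.p (nat_lit 0x82a082808260824082212c506) (nat_lit 0x800046806) (nat_lit 51)))
 (.n (.p (nat_lit 0x53c0d7d02) (nat_lit 0x100101) (nat_lit 4))
 (.p (nat_lit 0x1d8c1cd302) (nat_lit 0x51f) (nat_lit 5))))
 (.n (.n (.n (.p (nat_lit 0xcaa0ca80ca60ca40b4d0b4b06) (nat_lit 0x18000044500) (nat_lit 51))
 (.p (nat_lit 0x1494285902) (nat_lit 0x4a8874b44000400000600) (nat_lit 50)))
 (.p (nat_lit 0x21e6214902) (nat_lit 0x200814) (nat_lit 5)))
 (.n (.p (nat_lit 0x6f1dc902) (nat_lit 0x440a03) (nat_lit 30))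
 (.p (nat_lit 0xe1c244f02) (nat_lit 0x10062a) (nat_lit 29)))))
 (.n (.n (.n (.n (.p (nat_lit 0x6fd051502) (nat_lit 0x400200) (nat_lit 16))
 (.p (nat_lit 0x26ad280f02) (nat_lit 0x60000000800) (nat_lit 37)))
 (.p (nat_lit 0x1de01b6d02) (nat_lit 0x400b0a) (nat_lit 5)))
 (.n (.p (nat_lit 0x2ac02aa02a802a602a2155d06) (nat_lit 0x1000000a02) (nat_lit 52))
 (.p (nat_lit 0x182e187302) (nat_lit 0x40124) (nat_lit 5))))
 (.n (.n (.p (nat_lit 0x11a212d102) (nat_lit 0x900) (nat_lit 4))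
 (.p (nat_lit 0x77407720770076e076a1b1906) (nat_lit 0x100004aa17) (nat_lit 51)))
 (.n (.p (nat_lit 0x810080e080c080a080800a9081307) (nat_lit 0x540205) (nat_lit 7))
 (.p (nat_lit 0x147259902) (nat_lit 0x100915) (nat_lit 28))))))
 (.n (.n (.n (.n (.n (.p (nat_lit 0x40e040c040a04060397038f06) (nat_lit 0x11000056000) (nat_lit 52))
 (.p (nat_lit 0x270d27eb02) (nat_lit 0x60040000500) (nat_lit 36)))
 (.p (nat_lit 0x81c081a08180816081409a306) (nat_lit 0x10000046307) (nat_lit 52)))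
 (.n (.p (nat_lit 0x1623146502) (nat_lit 0x240901) (nat_lit 15))
 (.p (nat_lit 0xd580d560d540d520d50060106) (nat_lit 0x80004c123) (nat_lit 52))))
 (.n (.n (.n (.p (nat_lit 0x100f0de302) (nat_lit 0x514700) (nat_lit 16))
 (.p (nat_lit 0x149a289502) (nat_lit 0x356068ca4000400000600) (nat_lit 50)))
 (.p (nat_lit 0xbac0baa0ba80ba40ba20d0f06) (nat_lit 0x200004a515) (nat_lit 52)))
 (.n (.p (nat_lit 0xe3813fb02) (nat_lit 0x300604) (nat_lit 5))
 (.p (nat_lit 0x48249b02) (nat_lit 0x500801) (nat_lit 27)))))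
 (.n (.n (.n (.n (.p (nat_lit 0x1fa08cf02) (nat_lit 0x200400) (nat_lit 1))
 (.p (nat_lit 0x268f157f02) (nat_lit 0x240000000a00) (nat_lit 41)))
 (.p (nat_lit 0xdf605cb02) (nat_lit 0x30060e) (nat_lit 4)))
 (.n (.p (nat_lit 0x54e112302) (nat_lit 0x400103) (nat_lit 5))
 (.p (nat_lit 0x21fc219102) (nat_lit 0x200829) (nat_lit 5))))
 (.n (.n (.p (nat_lit 0x144614441440143e143c0007144307) (nat_lit 0x340a00) (nat_lit 7))
 (.p (nat_lit 0x680067e067a06780676051f06) (nat_lit 0x400008011c) (nat_lit 51)))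
 (.n (.p (nat_lit 0x110310f902) (nat_lit 0x44c705) (nat_lit 16))
 (.p (nat_lit 0x26a302a302) (nat_lit 0x100000000000) (nat_lit 38))))))

def c256_163 : Tr :=
 .n (.n (.n (.n (.n (.n (.p (nat_lit 0x25c0254026303) (nat_lit 0x880050002a) (nat_lit 17))
 (.p (nat_lit 0x2771081d02) (nat_lit 0x20080000300) (nat_lit 38)))
 (.p (nat_lit 0x71106f902) (nat_lit 0x208207) (nat_lit 16)))
 (.n (.p (nat_lit 0x4612b502) (nat_lit 0x440801) (nat_lit 1))
 (.p (nat_lit 0x3720ad302) (nat_lit 0x500023) (nat_lit 5))))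
 (.n (.n (.n (.p (nat_lit 0xe5f0e5302) (nat_lit 0x440600) (nat_lit 34))
 (.p (nat_lit 0x496287902) (nat_lit 0x588bb0344000100000000) (nat_lit 50)))
 (.p (nat_lit 0xb6a076302) (nat_lit 0x240415) (nat_lit 5)))
 (.n (.p (nat_lit 0xbac0baa0ba80ba40ba217d306) (nat_lit 0x200004ab03) (nat_lit 52))
 (.p (nat_lit 0x10aa10a610a410a210a01a1f06) (nat_lit 0x80000d622c) (nat_lit 52)))))
 (.n (.n (.n (.n (.p (nat_lit 0x8340830082e082c06f306ef06) (nat_lit 0x14000000300) (nat_lit 52))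
 (.p (nat_lit 0x26b313af02) (nat_lit 0x900) (nat_lit 39)))
 (.p (nat_lit 0xd580d560d540d520d500a7b06) (nat_lit 0x80000c40e) (nat_lit 52)))
 (.n (.p (nat_lit 0x1b1b162f02) (nat_lit 0x244a02) (nat_lit 16))
 (.p (nat_lit 0x1bf81d3302) (nat_lit 0x200126) (nat_lit 5))))
 (.n (.n (.p (nat_lit 0x143a143814361434128f128d06) (nat_lit 0x18000d6900) (nat_lit 51))
 (.p (nat_lit 0x81e081c081808160814036306) (nat_lit 0x400000601c) (nat_lit 52)))
 (.n (.p (nat_lit 0x175c175a1758175617540f3506) (nat_lit 0x10000050605) (nat_lit 51))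
 (.p (nat_lit 0x1ff262502) (nat_lit 0x400823) (nat_lit 28))))))
 (.n (.n (.n (.n (.n (.p (nat_lit 0x424056f02) (nat_lit 0x440100) (nat_lit 4))
 (.p (nat_lit 0x274d0e5f02) (nat_lit 0x260080000600) (nat_lit 41)))
 (.p (nat_lit 0x15fc03fd02) (nat_lit 0x140a07) (nat_lit 4)))
 (.n (.p (nat_lit 0x7ec07ea07e807e4005e0049004107ef07e709) (nat_lit 0x2940202) (nat_lit 10))
 (.p (nat_lit 0x1fb239d02) (nat_lit 0x200823) (nat_lit 30))))
 (.n (.n (.n (.p (nat_lit 0x116611641160115e115c0fcf06) (nat_lit 0x400000c800) (nat_lit 51))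
 (.p (nat_lit 0x103228b502) (nat_lit 0x3503a8d64000100040600) (nat_lit 50)))
 (.p (nat_lit 0x151e079b02) (nat_lit 0xa15) (nat_lit 5)))
 (.n (.p (nat_lit 0x100f100302) (nat_lit 0x516704) (nat_lit 16))
 (.p (nat_lit 0xa800a600a200a0007d000706) (nat_lit 0x310705) (nat_lit 26)))))
 (.n (.n (.n (.n (.p (nat_lit 0xb51098f02) (nat_lit 0x140400) (nat_lit 16))
 (.p (nat_lit 0x274b172b02) (nat_lit 0x280080000b00) (nat_lit 41)))
 (.p (nat_lit 0x1d581c2102) (nat_lit 0x140411) (nat_lit 4)))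
 (.n (.p (nat_lit 0xd3b0b8102) (nat_lit 0x140403) (nat_lit 15))
 (.p (nat_lit 0x1030102e102c102a1028071706) (nat_lit 0x1000008e22a) (nat_lit 51))))
 (.n (.n (.p (nat_lit 0x16e5151d02) (nat_lit 0x508b00) (nat_lit 16))
 (.p (nat_lit 0x1458089b02) (nat_lit 0x24091c) (nat_lit 4)))
 (.n (.p (nat_lit 0x101a101810161014101000bd101307) (nat_lit 0x100706) (nat_lit 7))
 (.p (nat_lit 0x26f7048902) (nat_lit 0x1c0040000100) (nat_lit 38))))))

def c128_35 : Tr := .n c256_35 c256_163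

def c256_99 : Tr :=
 .n (.n (.n (.n (.n (.n (.p (nat_lit 0x12a0126012f03) (nat_lit 0x14000500011) (nat_lit 17))
 (.p (nat_lit 0x27c820a702) (nat_lit 0x14300) (nat_lit 48)))
 (.p (nat_lit 0x147a222702) (nat_lit 0x140906) (nat_lit 29)))
 (.n (.p (nat_lit 0x18a10a9b02) (nat_lit 0x404401) (nat_lit 16))
 (.p (nat_lit 0x20aa1fff02) (nat_lit 0x200721) (nat_lit 4))))
 (.n (.n (.n (.p (nat_lit 0xdc20dc00dbe0dbc0dba0d6706) (nat_lit 0x800012600) (nat_lit 52))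
 (.p (nat_lit 0x380286b02) (nat_lit 0x281d30342800000040000) (nat_lit 50)))
 (.p (nat_lit 0x432068102) (nat_lit 0x540015) (nat_lit 5)))
 (.n (.p (nat_lit 0x9e009de09dc09da09d8170906) (nat_lit 0x10000008b03) (nat_lit 51))
 (.p (nat_lit 0x246e246c246a246824662464026007) (nat_lit 0xb2a) (nat_lit 8)))))
 (.n (.n (.n (.n (.p (nat_lit 0x7b505f102) (nat_lit 0x440200) (nat_lit 15))
 (.p (nat_lit 0x26f9111702) (nat_lit 0x1a0040000800) (nat_lit 40)))
 (.p (nat_lit 0x6a0069e069c069a069808ed06) (nat_lit 0x1000000a30e) (nat_lit 52)))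
 (.n (.p (nat_lit 0x431b0f02) (nat_lit 0x240a02) (nat_lit 30))
 (.p (nat_lit 0x246194102) (nat_lit 0xa24) (nat_lit 1))))
 (.n (.n (.p (nat_lit 0x139b11a702) (nat_lit 0x20e900) (nat_lit 16))
 (.p (nat_lit 0x1ef61ef21ef01eee1eec018f1ef507) (nat_lit 0x440519) (nat_lit 7)))
 (.n (.p (nat_lit 0xd44205302) (nat_lit 0x140505) (nat_lit 29))
 (.p (nat_lit 0x25de25dc25da25d825d6023f01aa07) (nat_lit 0x30aa1c) (nat_lit 25))))))
 (.n (.n (.n (.n (.n (.p (nat_lit 0x4b204b004ae04ac04aa034506) (nat_lit 0x800086100) (nat_lit 52))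
 (.p (nat_lit 0x26a10d4f02) (nat_lit 0x120000000600) (nat_lit 38)))
 (.p (nat_lit 0xb5603d702) (nat_lit 0x440407) (nat_lit 4)))
 (.n (.p (nat_lit 0x45c103b02) (nat_lit 0x440002) (nat_lit 4))
 (.p (nat_lit 0x237e237c237a237823762374020407c907c707c50a) (nat_lit 0x8840223) (nat_lit 31))))
 (.n (.n (.n (.p (nat_lit 0x10aa10a810a610a410a00ee506) (nat_lit 0x10000d6700) (nat_lit 52))
 (.p (nat_lit 0xd4e28a902) (nat_lit 0x350521a84000000000600) (nat_lit 49)))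
 (.p (nat_lit 0x10cc078d02) (nat_lit 0x240715) (nat_lit 4)))
 (.n (.p (nat_lit 0xf26140902) (nat_lit 0x440604) (nat_lit 4))
 (.p (nat_lit 0x70006e006a00680007003f06) (nat_lit 0x1816603) (nat_lit 26)))))
 (.n (.n (.n (.n (.p (nat_lit 0xa8908cd02) (nat_lit 0x104400) (nat_lit 16))
 (.p (nat_lit 0x2769283502) (nat_lit 0xa0080000a00) (nat_lit 36)))
 (.p (nat_lit 0x189a182502) (nat_lit 0x30040f) (nat_lit 5)))
 (.n (.p (nat_lit 0x7f8123902) (nat_lit 0x440203) (nat_lit 4))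
 (.p (nat_lit 0x60e0c9d02) (nat_lit 0x14012a) (nat_lit 5))))
 (.n (.n (.p (nat_lit 0x162b143d02) (nat_lit 0x4ea00) (nat_lit 16))
 (.p (nat_lit 0x35f0c5702) (nat_lit 0x10051c) (nat_lit 15)))
 (.n (.p (nat_lit 0x12c212c012be12ba12b800a312bd07) (nat_lit 0x240805) (nat_lit 7))
 (.p (nat_lit 0x26b902b102) (nat_lit 0x2a0020000000) (nat_lit 40))))))

def c256_227 : Tr :=
 .n (.n (.n (.n (.n (.n (.p (nat_lit 0x30002fe02fc02f602bf02bd06) (nat_lit 0x3000008000) (nat_lit 51))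
 (.p (nat_lit 0x26cf09db02) (nat_lit 0x140020000400) (nat_lit 40)))
 (.p (nat_lit 0x828082608240822082008e106) (nat_lit 0x10000006307) (nat_lit 51)))
 (.n (.p (nat_lit 0xe600e5e0e5c0e5a0e56138d06) (nat_lit 0x100008c901) (nat_lit 51))
 (.p (nat_lit 0x81c081a081808160814052f06) (nat_lit 0x10000006123) (nat_lit 52))))
 (.n (.n (.n (.p (nat_lit 0x400ddb02) (nat_lit 0x100700) (nat_lit 1))
 (.p (nat_lit 0x13c4288502) (nat_lit 0x344580a64000300040600) (nat_lit 50)))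
 (.p (nat_lit 0x92409220920091e091c0c4906) (nat_lit 0x800086515) (nat_lit 51)))
 (.n (.p (nat_lit 0x7f1e5902) (nat_lit 0x140204) (nat_lit 30))
 (.p (nat_lit 0x13fe13fc13f813f613f41e5106) (nat_lit 0x400000c22e) (nat_lit 51)))))
 (.n (.n (.n (.n (.p (nat_lit 0x7b2092102) (nat_lit 0x340300) (nat_lit 5))
 (.p (nat_lit 0x281e11f102) (nat_lit 0x40016900) (nat_lit 48)))
 (.p (nat_lit 0x1110110e110a110811060b6106) (nat_lit 0x400005040e) (nat_lit 52)))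
 (.n (.p (nat_lit 0x17c80fc302) (nat_lit 0x340b02) (nat_lit 5))
 (.p (nat_lit 0x1f5c202b02) (nat_lit 0x340128) (nat_lit 4))))
 (.n (.n (.p (nat_lit 0x14f414f214f014ee135d135b06) (nat_lit 0x1800008ea00) (nat_lit 51))
 (.p (nat_lit 0x43e043c043a043601b201a3019f0439043509) (nat_lit 0x104001c) (nat_lit 10)))
 (.n (.p (nat_lit 0xa120c902) (nat_lit 0x140705) (nat_lit 30))
 (.p (nat_lit 0xdc266302) (nat_lit 0x40012a) (nat_lit 27))))))
 (.n (.n (.n (.n (.n (.p (nat_lit 0x50e066302) (nat_lit 0x100200) (nat_lit 5))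
 (.p (nat_lit 0x26ef0f3b02) (nat_lit 0x240040000700) (nat_lit 38)))
 (.p (nat_lit 0x17b9178702) (nat_lit 0x148b07) (nat_lit 16)))
 (.n (.p (nat_lit 0x13a00f8b02) (nat_lit 0x500902) (nat_lit 4))
 (.p (nat_lit 0x1945153b02) (nat_lit 0x20ca23) (nat_lit 16))))
 (.n (.n (.n (.p (nat_lit 0x10b2121702) (nat_lit 0x340800) (nat_lit 5))
 (.p (nat_lit 0xac428c302) (nat_lit 0x3508a9d84000400040000) (nat_lit 50)))
 (.p (nat_lit 0x1aa619db02) (nat_lit 0x100517) (nat_lit 5)))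
 (.n (.p (nat_lit 0xe37170f02) (nat_lit 0x200b04) (nat_lit 15))
 (.p (nat_lit 0x10a010801060104012b000906) (nat_lit 0x2c1040e) (nat_lit 26)))))
 (.n (.n (.n (.n (.p (nat_lit 0xbd80bd60bd20bd00a6d0a6706) (nat_lit 0x12000004500) (nat_lit 52))
 (.p (nat_lit 0x382284902) (nat_lit 0x4a1a36344000000040000) (nat_lit 50)))
 (.p (nat_lit 0x1dee1dea1de81de61de401291ded07) (nat_lit 0x400b11) (nat_lit 7)))
 (.n (.p (nat_lit 0x6b1db902) (nat_lit 0x240603) (nat_lit 30))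
 (.p (nat_lit 0x121a121812161214121007d306) (nat_lit 0x10000d022a) (nat_lit 51))))
 (.n (.n (.p (nat_lit 0x176a176817641762176015f506) (nat_lit 0x40000d0b00) (nat_lit 52))
 (.p (nat_lit 0x16d608bd02) (nat_lit 0x400b1c) (nat_lit 4)))
 (.n (.p (nat_lit 0x2b802b402b202b002ae120106) (nat_lit 0x8000000806) (nat_lit 51))
 (.p (nat_lit 0x2795049b02) (nat_lit 0xe00a0000100) (nat_lit 40))))))

def c128_99 : Tr := .n c256_99 c256_227

def c64_35 : Tr := .n c128_35 c128_99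

def c32_3 : Tr := .n c64_3 c64_35

def c256_19 : Tr :=
 .n (.n (.n (.n (.n (.n (.p (nat_lit 0x480040003e004b04) (nat_lit 0x11800400002) (nat_lit 17))
 (.p (nat_lit 0x26d9066302) (nat_lit 0xa0020000200) (nat_lit 40)))
 (.p (nat_lit 0x12cc176902) (nat_lit 0x440806) (nat_lit 4)))
 (.n (.p (nat_lit 0x17df15f302) (nat_lit 0x252b00) (nat_lit 16))
 (.p (nat_lit 0x1af21a2302) (nat_lit 0xa1e) (nat_lit 4))))
 (.n (.n (.n (.p (nat_lit 0xb460c7b02) (nat_lit 0x240500) (nat_lit 4))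
 (.p (nat_lit 0xf3a285702) (nat_lit 0x4a8876344000100000600) (nat_lit 49)))
 (.p (nat_lit 0x20f61f4f02) (nat_lit 0x100813) (nat_lit 5)))
 (.n (.p (nat_lit 0x7e163902) (nat_lit 0x140a03) (nat_lit 1))
 (.p (nat_lit 0x9b40bf902) (nat_lit 0x24032a) (nat_lit 5)))))
 (.n (.n (.n (.n (.p (nat_lit 0x6ac06aa06a806a606a4051706) (nat_lit 0x1000008a200) (nat_lit 51))
 (.p (nat_lit 0x27910f4d02) (nat_lit 0x1200a0000700) (nat_lit 40)))
 (.p (nat_lit 0x1ce61b5b02) (nat_lit 0x54030a) (nat_lit 5)))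
 (.n (.p (nat_lit 0x155c107f02) (nat_lit 0x100a02) (nat_lit 5))
 (.p (nat_lit 0x17bd17b102) (nat_lit 0x340b23) (nat_lit 16))))
 (.n (.n (.p (nat_lit 0x12ab10b702) (nat_lit 0x548800) (nat_lit 16))
 (.p (nat_lit 0x1b1619af02) (nat_lit 0x40a17) (nat_lit 4)))
 (.n (.p (nat_lit 0x648158f02) (nat_lit 0x440105) (nat_lit 5))
 (.p (nat_lit 0x145258102) (nat_lit 0x715) (nat_lit 28))))))
 (.n (.n (.n (.n (.n (.p (nat_lit 0x3b403b203b003ae038f038d06) (nat_lit 0x1800046000) (nat_lit 51))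
 (.p (nat_lit 0x27e40b4f02) (nat_lit 0x42500) (nat_lit 47)))
 (.p (nat_lit 0x99e224302) (nat_lit 0x340307) (nat_lit 29)))
 (.n (.p (nat_lit 0x918091609120910090e146706) (nat_lit 0x40000c6901) (nat_lit 52))
 (.p (nat_lit 0x2ac02aa02a802a602a4060106) (nat_lit 0x800040123) (nat_lit 52))))
 (.n (.n (.n (.p (nat_lit 0xfd90de102) (nat_lit 0x400700) (nat_lit 16))
 (.p (nat_lit 0x72a289302) (nat_lit 0x354221ca4000200040000) (nat_lit 49)))
 (.p (nat_lit 0xd120d100d0e0d0c0d0a014f0d1507) (nat_lit 0x540515) (nat_lit 7)))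
 (.n (.p (nat_lit 0x1eb61eb41eb21eae0b8f0b8d06) (nat_lit 0x3000042404) (nat_lit 51))
 (.p (nat_lit 0x25a20e502) (nat_lit 0x34072f) (nat_lit 1)))))
 (.n (.n (.n (.n (.p (nat_lit 0x9bd07af02) (nat_lit 0x150300) (nat_lit 16))
 (.p (nat_lit 0x282412c302) (nat_lit 0xa0056900) (nat_lit 47)))
 (.p (nat_lit 0xd0605c302) (nat_lit 0x44050e) (nat_lit 4)))
 (.n (.p (nat_lit 0x1bbe1bbc1bba1bb81bb61bb4007207) (nat_lit 0x103) (nat_lit 8))
 (.p (nat_lit 0x21c8218902) (nat_lit 0x300729) (nat_lit 5))))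
 (.n (.n (.p (nat_lit 0x157e1572143d03) (nat_lit 0x40a00) (nat_lit 6))
 (.p (nat_lit 0x1a1232302) (nat_lit 0x10011c) (nat_lit 30)))
 (.n (.p (nat_lit 0x111c111811161114111210f906) (nat_lit 0x8000050705) (nat_lit 51))
 (.p (nat_lit 0x26b3038102) (nat_lit 0x0) (nat_lit 41))))))

def c256_147 : Tr :=
 .n (.n (.n (.n (.n (.n (.p (nat_lit 0x20001fe01fa020304) (nat_lit 0x1a000400023) (nat_lit 17))
 (.p (nat_lit 0x272b27d302) (nat_lit 0x180060000300) (nat_lit 37)))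
 (.p (nat_lit 0x4a604a404a2049e049c06f906) (nat_lit 0x2000006207) (nat_lit 52)))
 (.n (.p (nat_lit 0x18f111e702) (nat_lit 0x308801) (nat_lit 16))
 (.p (nat_lit 0x36809e502) (nat_lit 0x23) (nat_lit 4))))
 (.n (.n (.n (.p (nat_lit 0xe6c0e6a0e680e660e6200030e6507) (nat_lit 0x140600) (nat_lit 7))
 (.p (nat_lit 0x1658287502) (nat_lit 0x588872b44000500000600) (nat_lit 50)))
 (.p (nat_lit 0x86408620860085e085c0a9106) (nat_lit 0x1000000a415) (nat_lit 52)))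
 (.n (.p (nat_lit 0x2b802b602b402b017d317cf06) (nat_lit 0x2800040b03) (nat_lit 51))
 (.p (nat_lit 0x19c01ab702) (nat_lit 0x40022c) (nat_lit 5)))))
 (.n (.n (.n (.n (.p (nat_lit 0x827081b02) (nat_lit 0x300300) (nat_lit 34))
 (.p (nat_lit 0x2767121902) (nat_lit 0xc0080000800) (nat_lit 41)))
 (.p (nat_lit 0xa8405a102) (nat_lit 0x50040e) (nat_lit 5)))
 (.n (.p (nat_lit 0x1110110e110c110a1108162b06) (nat_lit 0x800050a02) (nat_lit 52))
 (.p (nat_lit 0x1b241a7b02) (nat_lit 0x140a25) (nat_lit 5))))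
 (.n (.n (.p (nat_lit 0x140a1408140214001293129106) (nat_lit 0x60000cc900) (nat_lit 52))
 (.p (nat_lit 0x360092b02) (nat_lit 0x20001c) (nat_lit 5)))
 (.n (.p (nat_lit 0xa1209d02) (nat_lit 0x140605) (nat_lit 30))
 (.p (nat_lit 0x1a6260f02) (nat_lit 0x400223) (nat_lit 27))))))
 (.n (.n (.n (.n (.n (.p (nat_lit 0x55d034702) (nat_lit 0x114100) (nat_lit 16))
 (.p (nat_lit 0x271127f902) (nat_lit 0x20040000600) (nat_lit 37)))
 (.p (nat_lit 0x10ba03ef02) (nat_lit 0x340707) (nat_lit 5)))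
 (.n (.p (nat_lit 0x4119c502) (nat_lit 0x140202) (nat_lit 30))
 (.p (nat_lit 0xfee0b1102) (nat_lit 0x100723) (nat_lit 4))))
 (.n (.n (.n (.p (nat_lit 0xfce110d02) (nat_lit 0x300800) (nat_lit 4))
 (.p (nat_lit 0x165428b102) (nat_lit 0x350521a82800500000600) (nat_lit 50)))
 (.p (nat_lit 0x144a06cf02) (nat_lit 0x140915) (nat_lit 4)))
 (.n (.p (nat_lit 0xffa140f02) (nat_lit 0x100704) (nat_lit 4))
 (.p (nat_lit 0xa800a400a2009e000301e306) (nat_lit 0xc0e305) (nat_lit 26)))))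
 (.n (.n (.n (.n (.p (nat_lit 0xb020afe0afc0afa0af8099506) (nat_lit 0x8000044400) (nat_lit 52))
 (.p (nat_lit 0x283821bd02) (nat_lit 0x40042b00) (nat_lit 47)))
 (.p (nat_lit 0x1d1c1bcd02) (nat_lit 0x300411) (nat_lit 4)))
 (.n (.p (nat_lit 0xb880b860b840b800b7e006b0b8307) (nat_lit 0x240403) (nat_lit 7))
 (.p (nat_lit 0x81e081c081808160814071306) (nat_lit 0x400000622a) (nat_lit 52))))
 (.n (.n (.p (nat_lit 0xd6f151b02) (nat_lit 0x400b00) (nat_lit 15))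
 (.p (nat_lit 0x11d4233302) (nat_lit 0x30081c) (nat_lit 29)))
 (.n (.p (nat_lit 0xaaa173b02) (nat_lit 0x300406) (nat_lit 4))
 (.p (nat_lit 0x27ac042902) (nat_lit 0x46100) (nat_lit 47))))))

def c128_19 : Tr := .n c256_19 c256_147

def c256_83 : Tr :=
 .n (.n (.n (.n (.n (.n (.p (nat_lit 0xde00dc00e303) (nat_lit 0x18000500007) (nat_lit 17))
 (.p (nat_lit 0x275127c702) (nat_lit 0x220080000200) (nat_lit 36)))
 (.p (nat_lit 0x13ac16a102) (nat_lit 0x500906) (nat_lit 5)))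
 (.n (.p (nat_lit 0xa920e9102) (nat_lit 0x401) (nat_lit 4))
 (.p (nat_lit 0x1f3e1ff502) (nat_lit 0x340021) (nat_lit 4))))
 (.n (.n (.n (.p (nat_lit 0xd6e0d5702) (nat_lit 0x400600) (nat_lit 4))
 (.p (nat_lit 0xc7e286502) (nat_lit 0x281d30346800500040000) (nat_lit 49)))
 (.p (nat_lit 0x365035902) (nat_lit 0x408015) (nat_lit 16)))
 (.n (.p (nat_lit 0x48e048a048804860484170706) (nat_lit 0x8000002b03) (nat_lit 52))
 (.p (nat_lit 0x16140c1f02) (nat_lit 0x140a2a) (nat_lit 5)))))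
 (.n (.n (.n (.n (.p (nat_lit 0x76407620760075e05f305f106) (nat_lit 0x180000c8200) (nat_lit 51))
 (.p (nat_lit 0x26c3281102) (nat_lit 0x200020000800) (nat_lit 36)))
 (.p (nat_lit 0x8e8058502) (nat_lit 0x30030e) (nat_lit 5)))
 (.n (.p (nat_lit 0x1b01155d02) (nat_lit 0x10aa02) (nat_lit 16))
 (.p (nat_lit 0x190c18bb02) (nat_lit 0x924) (nat_lit 4))))
 (.n (.n (.p (nat_lit 0x136511ad02) (nat_lit 0x504900) (nat_lit 16))
 (.p (nat_lit 0x13dc13da13d813d61edd1edb06) (nat_lit 0x3000004519) (nat_lit 52)))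
 (.n (.p (nat_lit 0xb98201b02) (nat_lit 0x140405) (nat_lit 29))
 (.p (nat_lit 0x1a525c702) (nat_lit 0x30051c) (nat_lit 28))))))
 (.n (.n (.n (.n (.n (.p (nat_lit 0x34a049702) (nat_lit 0x300100) (nat_lit 5))
 (.p (nat_lit 0x278327f102) (nat_lit 0x2000a0000500) (nat_lit 37)))
 (.p (nat_lit 0xc300c2e0c2c0c280a730a6f06) (nat_lit 0x2800016407) (nat_lit 52)))
 (.n (.p (nat_lit 0x16280dd702) (nat_lit 0x540a01) (nat_lit 5))
 (.p (nat_lit 0x7c60b0702) (nat_lit 0x140223) (nat_lit 4))))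
 (.n (.n (.n (.p (nat_lit 0x108610841080107e107c0ee906) (nat_lit 0x4000054700) (nat_lit 51))
 (.p (nat_lit 0xba628a102) (nat_lit 0x340a621b0000500000000) (nat_lit 49)))
 (.p (nat_lit 0x14922c502) (nat_lit 0x200715) (nat_lit 30)))
 (.n (.p (nat_lit 0x10010e3b02) (nat_lit 0x400604) (nat_lit 15))
 (.p (nat_lit 0x24d024ce24cc24c824c6017d007207) (nat_lit 0x206103) (nat_lit 25)))))
 (.n (.n (.n (.n (.p (nat_lit 0xa6908d102) (nat_lit 0x300400) (nat_lit 15))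
 (.p (nat_lit 0x26e7158302) (nat_lit 0x2c0040000a00) (nat_lit 41)))
 (.p (nat_lit 0x16bc050302) (nat_lit 0x100b0e) (nat_lit 5)))
 (.n (.p (nat_lit 0x1c61063b02) (nat_lit 0x548103) (nat_lit 16))
 (.p (nat_lit 0x2d002ce02ca02c802c6053706) (nat_lit 0x400000412a) (nat_lit 52))))
 (.n (.n (.p (nat_lit 0x15ef143d02) (nat_lit 0x40a00) (nat_lit 15))
 (.p (nat_lit 0xc5a086302) (nat_lit 0x30051c) (nat_lit 4)))
 (.n (.p (nat_lit 0x11fd11f102) (nat_lit 0x20c805) (nat_lit 16))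
 (.p (nat_lit 0x26d327a702) (nat_lit 0x100020000000) (nat_lit 36))))))

def c256_211 : Tr :=
 .n (.n (.n (.n (.n (.n (.p (nat_lit 0x2ce02cc02ca02c802c602c506) (nat_lit 0x10000004000) (nat_lit 52))
 (.p (nat_lit 0x27d409cd02) (nat_lit 0x400) (nat_lit 45)))
 (.p (nat_lit 0xd9223502) (nat_lit 0x200307) (nat_lit 30)))
 (.n (.p (nat_lit 0x49a0496049404920490139306) (nat_lit 0x8000002901) (nat_lit 51))
 (.p (nat_lit 0x52a0ae702) (nat_lit 0x300123) (nat_lit 5))))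
 (.n (.n (.n (.p (nat_lit 0xf030e6b02) (nat_lit 0x448600) (nat_lit 16))
 (.p (nat_lit 0xf4a288302) (nat_lit 0x342221ca4000100000600) (nat_lit 50)))
 (.p (nat_lit 0xc52077502) (nat_lit 0x500515) (nat_lit 5)))
 (.n (.p (nat_lit 0x64012ed02) (nat_lit 0x340104) (nat_lit 5))
 (.p (nat_lit 0x119e119c119a119811961c8106) (nat_lit 0x1000009622d) (nat_lit 51)))))
 (.n (.n (.n (.n (.p (nat_lit 0x8fd06ed02) (nat_lit 0x210300) (nat_lit 16))
 (.p (nat_lit 0x270112e102) (nat_lit 0x120040000900) (nat_lit 40)))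
 (.p (nat_lit 0x65e065c065a065806560b5b06) (nat_lit 0x80004440e) (nat_lit 52)))
 (.n (.p (nat_lit 0x17c20fbd02) (nat_lit 0x40b02) (nat_lit 5))
 (.p (nat_lit 0x1e281eb702) (nat_lit 0x500127) (nat_lit 5))))
 (.n (.n (.p (nat_lit 0x14c814c614c414c214c0135306) (nat_lit 0x80008aa00) (nat_lit 52))
 (.p (nat_lit 0x438093702) (nat_lit 0x24001c) (nat_lit 4)))
 (.n (.p (nat_lit 0x1110110e110a11081106100b06) (nat_lit 0x4000010705) (nat_lit 52))
 (.p (nat_lit 0x20e264902) (nat_lit 0x200729) (nat_lit 27))))))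
 (.n (.n (.n (.n (.n (.p (nat_lit 0x639042502) (nat_lit 0x450100) (nat_lit 16))
 (.p (nat_lit 0x2711280302) (nat_lit 0x20040000700) (nat_lit 37)))
 (.p (nat_lit 0xe200e900e5033f041705) (nat_lit 0x44340b07) (nat_lit 9)))
 (.n (.p (nat_lit 0x1ac21ac01abe1abc1aba1ab806) (nat_lit 0xc4502) (nat_lit 52))
 (.p (nat_lit 0x153a0a4902) (nat_lit 0x200a23) (nat_lit 4))))
 (.n (.n (.n (.p (nat_lit 0x12010fd102) (nat_lit 0x416800) (nat_lit 16))
 (.p (nat_lit 0x66228c102) (nat_lit 0x332a05d81000200000000) (nat_lit 50)))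
 (.p (nat_lit 0x190a184b02) (nat_lit 0x500916) (nat_lit 4)))
 (.n (.p (nat_lit 0x1712142d02) (nat_lit 0x400b04) (nat_lit 5))
 (.p (nat_lit 0xd8254502) (nat_lit 0x200b0a) (nat_lit 27)))))
 (.n (.n (.n (.n (.p (nat_lit 0xa6c0bb902) (nat_lit 0x500500) (nat_lit 5))
 (.p (nat_lit 0x1490284502) (nat_lit 0x4a1a22344000400000600) (nat_lit 50)))
 (.p (nat_lit 0x1b9c1b9a1b961b941b921d9d06) (nat_lit 0x40000c6511) (nat_lit 52)))
 (.n (.p (nat_lit 0xe370e2b02) (nat_lit 0x214603) (nat_lit 16))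
 (.p (nat_lit 0x82a082808240822082007d706) (nat_lit 0x400004622a) (nat_lit 51))))
 (.n (.n (.p (nat_lit 0x173417321730172e15f915f106) (nat_lit 0x110000c2b00) (nat_lit 51))
 (.p (nat_lit 0x160c097f02) (nat_lit 0x340a1c) (nat_lit 5)))
 (.n (.p (nat_lit 0x11f8175502) (nat_lit 0x806) (nat_lit 5))
 (.p (nat_lit 0x275527b702) (nat_lit 0x1e0080000100) (nat_lit 36))))))

def c128_83 : Tr := .n c256_83 c256_211

def c64_19 : Tr := .n c128_19 c128_83

def c256_51 : Tr :=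
 .n (.n (.n (.n (.n (.n (.p (nat_lit 0x8600840080008904) (nat_lit 0x1a000400004) (nat_lit 17))
 (.p (nat_lit 0x27be073302) (nat_lit 0x40040200) (nat_lit 46)))
 (.p (nat_lit 0x121a121812141212121012cb06) (nat_lit 0x40000d0806) (nat_lit 51)))
 (.n (.p (nat_lit 0x6180d8502) (nat_lit 0x40101) (nat_lit 4))
 (.p (nat_lit 0x1e1c1e9f02) (nat_lit 0x400020) (nat_lit 5))))
 (.n (.n (.n (.p (nat_lit 0x3930b4902) (nat_lit 0x340500) (nat_lit 15))
 (.p (nat_lit 0x102e285d02) (nat_lit 0x1a2260b50000100040600) (nat_lit 50)))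
 (.p (nat_lit 0x4c804c604c404c204c0220d06) (nat_lit 0x100000c8814) (nat_lit 51)))
 (.n (.p (nat_lit 0x17d5163d02) (nat_lit 0x340a03) (nat_lit 15))
 (.p (nat_lit 0x137e0cdb02) (nat_lit 0x92a) (nat_lit 4)))))
 (.n (.n (.n (.n (.p (nat_lit 0x731072502) (nat_lit 0x40200) (nat_lit 34))
 (.p (nat_lit 0x268b280d02) (nat_lit 0x280000000800) (nat_lit 36)))
 (.p (nat_lit 0x215c211702) (nat_lit 0x34020d) (nat_lit 4)))
 (.n (.p (nat_lit 0x9e209e009de09dc09d8155d06) (nat_lit 0x1000008a02) (nat_lit 51))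
 (.p (nat_lit 0xdca0dc80dc60dc41839183706) (nat_lit 0x180000d2124) (nat_lit 51))))
 (.n (.n (.p (nat_lit 0x8611ad02) (nat_lit 0x500900) (nat_lit 1))
 (.p (nat_lit 0x1c281c261c221c201c1e1baf06) (nat_lit 0x40000c8018) (nat_lit 52)))
 (.n (.p (nat_lit 0x90a1f9f02) (nat_lit 0x400305) (nat_lit 29))
 (.p (nat_lit 0x25aa25a825a625a425a20107018407) (nat_lit 0x116018) (nat_lit 25))))))
 (.n (.n (.n (.n (.n (.p (nat_lit 0x44d038d02) (nat_lit 0x4c000) (nat_lit 16))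
 (.p (nat_lit 0x273727ed02) (nat_lit 0xc0060000500) (nat_lit 36)))
 (.p (nat_lit 0x9b3099b02) (nat_lit 0x148307) (nat_lit 16)))
 (.n (.p (nat_lit 0x1556155415521550154e002f155907) (nat_lit 0x500a01) (nat_lit 7))
 (.p (nat_lit 0x1831060302) (nat_lit 0x14c123) (nat_lit 16))))
 (.n (.n (.n (.p (nat_lit 0x420ee702) (nat_lit 0x240700) (nat_lit 1))
 (.p (nat_lit 0xbb50ba709e309cf0821081b066506570499048f02b102a3289a0d) (nat_lit 0x354868ca4000000000000) (nat_lit 33)))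
 (.p (nat_lit 0x157c157a1578157615740d0b06) (nat_lit 0x8000d4515) (nat_lit 52)))
 (.n (.p (nat_lit 0x38a03880386038403800e3506) (nat_lit 0x1000080604) (nat_lit 51))
 (.p (nat_lit 0x4324ab02) (nat_lit 0x200902) (nat_lit 28)))))
 (.n (.n (.n (.n (.p (nat_lit 0x9e309d702) (nat_lit 0x500400) (nat_lit 34))
 (.p (nat_lit 0x2828147902) (nat_lit 0x4ca00) (nat_lit 47)))
 (.p (nat_lit 0x10cd10c302) (nat_lit 0x24670e) (nat_lit 16)))
 (.n (.p (nat_lit 0x6301c0702) (nat_lit 0x40103) (nat_lit 29))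
 (.p (nat_lit 0x2216219f02) (nat_lit 0x540829) (nat_lit 5))))
 (.n (.n (.p (nat_lit 0x15b015ae15ac15aa15a8144106) (nat_lit 0x20000c8a00) (nat_lit 52))
 (.p (nat_lit 0x5f6085302) (nat_lit 0x14011c) (nat_lit 5)))
 (.n (.p (nat_lit 0xa320ed02) (nat_lit 0x200805) (nat_lit 30))
 (.p (nat_lit 0x2693037502) (nat_lit 0x200000000000) (nat_lit 39))))))

def c256_179 : Tr :=
 .n (.n (.n (.n (.n (.n (.p (nat_lit 0xd402bb02) (nat_lit 0x0) (nat_lit 1))
 (.p (nat_lit 0x2781081f02) (nat_lit 0x2200a0000300) (nat_lit 38)))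
 (.p (nat_lit 0x7c007be07bc07ba07b800df07c307) (nat_lit 0x540207) (nat_lit 7)))
 (.n (.p (nat_lit 0xfac0faa0fa80fa60fa412b706) (nat_lit 0x100000d4801) (nat_lit 51))
 (.p (nat_lit 0x442235f02) (nat_lit 0x140023) (nat_lit 29))))
 (.n (.n (.n (.p (nat_lit 0xeb00eae0eac0ea80ea60e6706) (nat_lit 0x20000d0600) (nat_lit 51))
 (.p (nat_lit 0x820287b02) (nat_lit 0x5898b0b44000300000000) (nat_lit 50)))
 (.p (nat_lit 0x8420840083e083a08380b6b06) (nat_lit 0x20000c0415) (nat_lit 51)))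
 (.n (.p (nat_lit 0x12da12d812d412d212d017d506) (nat_lit 0x4000052b03) (nat_lit 52))
 (.p (nat_lit 0xbc40bc00bbe0bbc0bba1b0706) (nat_lit 0x8000002a2c) (nat_lit 52)))))
 (.n (.n (.n (.n (.p (nat_lit 0x8720870086e086c086806eb06) (nat_lit 0x100008a300) (nat_lit 52))
 (.p (nat_lit 0x28181e2102) (nat_lit 0x8900) (nat_lit 48)))
 (.p (nat_lit 0x157c1576157415720a830a8106) (nat_lit 0xc00009440e) (nat_lit 52)))
 (.n (.p (nat_lit 0x16f61b3302) (nat_lit 0x200b02) (nat_lit 29))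
 (.p (nat_lit 0x1c5c1d3f02) (nat_lit 0x340126) (nat_lit 4))))
 (.n (.n (.p (nat_lit 0x1467129302) (nat_lit 0x34c900) (nat_lit 16))
 (.p (nat_lit 0x120e120c120a12040361035f06) (nat_lit 0x300009001c) (nat_lit 52)))
 (.n (.p (nat_lit 0x100c15c702) (nat_lit 0x400705) (nat_lit 5))
 (.p (nat_lit 0x2120210020e020a0249002f06) (nat_lit 0xd14124) (nat_lit 26))))))
 (.n (.n (.n (.n (.n (.p (nat_lit 0x5ac05aa05a805a405a2042106) (nat_lit 0x20000c8100) (nat_lit 52))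
 (.p (nat_lit 0x268f101d02) (nat_lit 0x240000000700) (nat_lit 39)))
 (.p (nat_lit 0x161d160502) (nat_lit 0x548a07) (nat_lit 16)))
 (.n (.p (nat_lit 0xb74105702) (nat_lit 0x140402) (nat_lit 5))
 (.p (nat_lit 0x1ff23ad02) (nat_lit 0x440823) (nat_lit 30))))
 (.n (.n (.n (.p (nat_lit 0x11a0119e119a119811960fcf06) (nat_lit 0x4000096800) (nat_lit 51))
 (.p (nat_lit 0x91a28bb02) (nat_lit 0x352868d84000300040000) (nat_lit 50)))
 (.p (nat_lit 0x1526152415221520151e014f152907) (nat_lit 0x500a15) (nat_lit 7)))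
 (.n (.p (nat_lit 0x10ee142302) (nat_lit 0x540704) (nat_lit 4))
 (.p (nat_lit 0xc400c200bc00ba0005002b06) (nat_lit 0x1310706) (nat_lit 26)))))
 (.n (.n (.n (.n (.p (nat_lit 0xb8b098d02) (nat_lit 0x52400) (nat_lit 16))
 (.p (nat_lit 0x496283d02) (nat_lit 0x260d84344000100000000) (nat_lit 50)))
 (.p (nat_lit 0x1266126412621260125e1d5706) (nat_lit 0x800054411) (nat_lit 51)))
 (.n (.p (nat_lit 0xd3a115302) (nat_lit 0x140503) (nat_lit 4))
 (.p (nat_lit 0x8f9071702) (nat_lit 0x50022a) (nat_lit 15))))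
 (.n (.n (.p (nat_lit 0xba15ef02) (nat_lit 0x40b00) (nat_lit 1))
 (.p (nat_lit 0x1a3233d02) (nat_lit 0x200a1c) (nat_lit 30)))
 (.n (.p (nat_lit 0xec80ec40ec20ec00ebe101906) (nat_lit 0x8000092706) (nat_lit 52))
 (.p (nat_lit 0x2741049702) (nat_lit 0x20060000100) (nat_lit 40))))))

def c128_51 : Tr := .n c256_51 c256_179

def c256_115 : Tr :=
 .n (.n (.n (.n (.n (.n (.p (nat_lit 0x1590155015203) (nat_lit 0x21000015) (nat_lit 19))
 (.p (nat_lit 0x270527cf02) (nat_lit 0xe0040000300) (nat_lit 37)))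
 (.p (nat_lit 0xc800cb00d316ab178105) (nat_lit 0x41c40906) (nat_lit 9)))
 (.n (.p (nat_lit 0xd2a0d9d02) (nat_lit 0x440501) (nat_lit 5))
 (.p (nat_lit 0x19e20d302) (nat_lit 0x40721) (nat_lit 1))))
 (.n (.n (.n (.p (nat_lit 0xdf30d6902) (nat_lit 0x102600) (nat_lit 16))
 (.p (nat_lit 0x668286d02) (nat_lit 0x568bb0344000200000000) (nat_lit 50)))
 (.p (nat_lit 0x43f043302) (nat_lit 0x548015) (nat_lit 16)))
 (.n (.p (nat_lit 0x1588158615841582157e170106) (nat_lit 0x1000094b03) (nat_lit 51))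
 (.p (nat_lit 0x17b60cf302) (nat_lit 0x40b2a) (nat_lit 5)))))
 (.n (.n (.n (.n (.p (nat_lit 0x7e105ef02) (nat_lit 0x34c200) (nat_lit 16))
 (.p (nat_lit 0x28141c7b02) (nat_lit 0x4000a800) (nat_lit 48)))
 (.p (nat_lit 0x9a804ad02) (nat_lit 0x24030e) (nat_lit 4)))
 (.n (.p (nat_lit 0x2b602b402b002ae1635162f06) (nat_lit 0x12000040a02) (nat_lit 51))
 (.p (nat_lit 0x194a240f02) (nat_lit 0x500a24) (nat_lit 29))))
 (.n (.n (.p (nat_lit 0x13bd13b102) (nat_lit 0x140900) (nat_lit 34))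
 (.p (nat_lit 0x1f121e7f02) (nat_lit 0x440619) (nat_lit 4)))
 (.n (.p (nat_lit 0xe480e460e440e400e3e00a30e4307) (nat_lit 0x200605) (nat_lit 7))
 (.p (nat_lit 0x1df25ef02) (nat_lit 0x200721) (nat_lit 28))))))
 (.n (.n (.n (.n (.n (.p (nat_lit 0x4fe04fc04fa04f804f4034706) (nat_lit 0x1000010100) (nat_lit 52))
 (.p (nat_lit 0x268b27f302) (nat_lit 0x280000000600) (nat_lit 37)))
 (.p (nat_lit 0xb650b5902) (nat_lit 0x544407) (nat_lit 16)))
 (.n (.p (nat_lit 0x62a104502) (nat_lit 0x340102) (nat_lit 4))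
 (.p (nat_lit 0x1a1507cf02) (nat_lit 0x54e223) (nat_lit 16))))
 (.n (.n (.n (.p (nat_lit 0x10cf0ee902) (nat_lit 0x344700) (nat_lit 16))
 (.p (nat_lit 0x110c28ab02) (nat_lit 0x350521a86800200000600) (nat_lit 49)))
 (.p (nat_lit 0x14922dd02) (nat_lit 0x200815) (nat_lit 30)))
 (.n (.p (nat_lit 0x66a0668066606600f230f2106) (nat_lit 0x3000044604) (nat_lit 51))
 (.p (nat_lit 0x8400820080007c000b018906) (nat_lit 0x290c204) (nat_lit 26)))))
 (.n (.n (.n (.n (.p (nat_lit 0x1fa099102) (nat_lit 0x240400) (nat_lit 1))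
 (.p (nat_lit 0x2691172302) (nat_lit 0x220000000b00) (nat_lit 41)))
 (.p (nat_lit 0x192017f902) (nat_lit 0x54090f) (nat_lit 4)))
 (.n (.p (nat_lit 0x1cb308fb02) (nat_lit 0x102303) (nat_lit 16))
 (.p (nat_lit 0x61606140610060e026a025b02550613060d09) (nat_lit 0x184012a) (nat_lit 10))))
 (.n (.n (.p (nat_lit 0xc0151902) (nat_lit 0x300b00) (nat_lit 1))
 (.p (nat_lit 0xd200d1c0d1a0d180d1601a70d1f07) (nat_lit 0x44051c) (nat_lit 7)))
 (.n (.p (nat_lit 0x21122110210e210c210a210800ac12bf12bd12b90a) (nat_lit 0xd040805) (nat_lit 31))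
 (.p (nat_lit 0x26f702a702) (nat_lit 0x1c0040000000) (nat_lit 38))))))

def c256_243 : Tr :=
 .n (.n (.n (.n (.n (.n (.p (nat_lit 0x35302bd02) (nat_lit 0x104000) (nat_lit 16))
 (.p (nat_lit 0x273727dd02) (nat_lit 0xc0060000400) (nat_lit 36)))
 (.p (nat_lit 0x12da12d812d412d212d008dd06) (nat_lit 0x4000012307) (nat_lit 52)))
 (.n (.p (nat_lit 0x14600ebf02) (nat_lit 0x40901) (nat_lit 4))
 (.p (nat_lit 0x172c1728172617241722052d06) (nat_lit 0x8000096123) (nat_lit 51))))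
 (.n (.n (.n (.p (nat_lit 0xf4d0f4102) (nat_lit 0x500700) (nat_lit 34))
 (.p (nat_lit 0xabc288b02) (nat_lit 0x342221ca4000400040000) (nat_lit 50)))
 (.p (nat_lit 0x12e412e212e012de12dc0c5306) (nat_lit 0x10000012515) (nat_lit 51)))
 (.n (.p (nat_lit 0x8a00970095130313e905) (nat_lit 0x88d40204) (nat_lit 9))
 (.p (nat_lit 0x1f68204b02) (nat_lit 0x30022f) (nat_lit 4)))))
 (.n (.n (.n (.n (.p (nat_lit 0x93a093809360934093207b706) (nat_lit 0x100000c0300) (nat_lit 52))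
 (.p (nat_lit 0x272f282302) (nat_lit 0x140060000900) (nat_lit 37)))
 (.p (nat_lit 0xc460c440c420c400c3e01050c3d07) (nat_lit 0x50e) (nat_lit 7)))
 (.n (.p (nat_lit 0xea40ea20e9e0e9c0e9a17c906) (nat_lit 0x4000050b02) (nat_lit 51))
 (.p (nat_lit 0x20b4203302) (nat_lit 0x100728) (nat_lit 4))))
 (.n (.n (.p (nat_lit 0x1519135902) (nat_lit 0x300a00) (nat_lit 15))
 (.p (nat_lit 0x1032102e102c102a1028043d06) (nat_lit 0x80000ce01c) (nat_lit 51)))
 (.n (.p (nat_lit 0x10fa10f610f410f000b600a700a110f910f309) (nat_lit 0x2140705) (nat_lit 10))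
 (.p (nat_lit 0x200266f02) (nat_lit 0x50032a) (nat_lit 27))))))
 (.n (.n (.n (.n (.n (.p (nat_lit 0x51605120510050e050c0009051507) (nat_lit 0x400200) (nat_lit 7))
 (.p (nat_lit 0x280412b102) (nat_lit 0x40056700) (nat_lit 48)))
 (.p (nat_lit 0x1221ca702) (nat_lit 0x14020a) (nat_lit 1)))
 (.n (.p (nat_lit 0x146c0f8d02) (nat_lit 0x40902) (nat_lit 4))
 (.p (nat_lit 0x16e20a5702) (nat_lit 0x400b23) (nat_lit 4))))
 (.n (.n (.p (nat_lit 0x123a123812361234123010af06) (nat_lit 0x10000c4800) (nat_lit 52))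
 (.p (nat_lit 0x1ad419e502) (nat_lit 0x240517) (nat_lit 4)))
 (.n (.p (nat_lit 0x17e417e217de17dc17da008317e107) (nat_lit 0x340b04) (nat_lit 7))
 (.p (nat_lit 0x12a012801220120006d017d06) (nat_lit 0x1a08311) (nat_lit 26)))))
 (.n (.n (.n (.n (.p (nat_lit 0xc1c0c1a0c180c160a6b0a6506) (nat_lit 0x9000014500) (nat_lit 51))
 (.p (nat_lit 0x12d2284d02) (nat_lit 0x4a1a34344000300000600) (nat_lit 49)))
 (.p (nat_lit 0x1e0a1beb02) (nat_lit 0x140b11) (nat_lit 5)))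
 (.n (.p (nat_lit 0xfa00f9c0f9a0f980f1d0f1906) (nat_lit 0x14000054603) (nat_lit 52))
 (.p (nat_lit 0x1a2107db02) (nat_lit 0x54e22a) (nat_lit 16))))
 (.n (.n (.p (nat_lit 0xe6315ef02) (nat_lit 0x40b00) (nat_lit 15))
 (.p (nat_lit 0x1804185d02) (nat_lit 0x50011d) (nat_lit 4)))
 (.n (.p (nat_lit 0xbac0baa0ba80ba40ba211fd06) (nat_lit 0x200000a806) (nat_lit 52))
 (.p (nat_lit 0x26ab27b902) (nat_lit 0x80000000200) (nat_lit 37))))))

def c128_115 : Tr := .n c256_115 c256_243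

def c64_51 : Tr := .n c128_51 c128_115

def c32_19 : Tr := .n c64_19 c64_51

def c16_3 : Tr := .n c32_3 c32_19

def c256_11 : Tr :=
 .n (.n (.n (.n (.n (.n (.p (nat_lit 0x2300210015001b0019000d06) (nat_lit 0x531800000) (nat_lit 22))
 (.p (nat_lit 0x27ba09a502) (nat_lit 0x40200) (nat_lit 48)))
 (.p (nat_lit 0x12c6176302) (nat_lit 0x140806) (nat_lit 4)))
 (.n (.p (nat_lit 0x17c515f102) (nat_lit 0x14eb00) (nat_lit 16))
 (.p (nat_lit 0x19721a4902) (nat_lit 0x34001e) (nat_lit 4))))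
 (.n (.n (.n (.p (nat_lit 0xc670a6502) (nat_lit 0x10e500) (nat_lit 16))
 (.p (nat_lit 0x914285102) (nat_lit 0x4a8876344000300040000) (nat_lit 49)))
 (.p (nat_lit 0x20101f4502) (nat_lit 0x100413) (nat_lit 4)))
 (.n (.p (nat_lit 0x1416141414121410140e156706) (nat_lit 0x80000ea03) (nat_lit 52))
 (.p (nat_lit 0xa280a260a240a220a2008ef06) (nat_lit 0x80008432a) (nat_lit 51)))))
 (.n (.n (.n (.n (.p (nat_lit 0x6a2069e069c069a0698051506) (nat_lit 0x800000a200) (nat_lit 52))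
 (.p (nat_lit 0x2769280902) (nat_lit 0xa0080000700) (nat_lit 37)))
 (.p (nat_lit 0x1ce01b5702) (nat_lit 0x24030a) (nat_lit 5)))
 (.n (.p (nat_lit 0x1266126412621260125e146d06) (nat_lit 0x800054902) (nat_lit 51))
 (.p (nat_lit 0x1fd23db02) (nat_lit 0x340b23) (nat_lit 30))))
 (.n (.n (.p (nat_lit 0x129510b502) (nat_lit 0x440800) (nat_lit 15))
 (.p (nat_lit 0x1aea19f902) (nat_lit 0x200a17) (nat_lit 5)))
 (.n (.p (nat_lit 0x55c14a702) (nat_lit 0x100105) (nat_lit 4))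
 (.p (nat_lit 0x14e014c014801460007019f06) (nat_lit 0x180a415) (nat_lit 26))))))
 (.n (.n (.n (.n (.n (.p (nat_lit 0xde039702) (nat_lit 0x540000) (nat_lit 1))
 (.p (nat_lit 0x268b0baf02) (nat_lit 0x280000000500) (nat_lit 40)))
 (.p (nat_lit 0x99a03b902) (nat_lit 0x140307) (nat_lit 4)))
 (.n (.p (nat_lit 0x570056e056c05680566146506) (nat_lit 0x20000c2901) (nat_lit 52))
 (.p (nat_lit 0x6080af502) (nat_lit 0x440123) (nat_lit 4))))
 (.n (.n (.n (.p (nat_lit 0xfc60fc40fbe0fbc0ddf0ddd06) (nat_lit 0x6000096700) (nat_lit 51))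
 (.p (nat_lit 0x149a288f02) (nat_lit 0x356221ca4000400000600) (nat_lit 50)))
 (.p (nat_lit 0xd0e06a902) (nat_lit 0x240515) (nat_lit 5)))
 (.n (.p (nat_lit 0xb9213f302) (nat_lit 0x440404) (nat_lit 5))
 (.p (nat_lit 0x20c2207d02) (nat_lit 0x40072f) (nat_lit 5)))))
 (.n (.n (.n (.n (.p (nat_lit 0x9a307b702) (nat_lit 0x540300) (nat_lit 16))
 (.p (nat_lit 0x278d282502) (nat_lit 0x1600a0000900) (nat_lit 37)))
 (.p (nat_lit 0xcfe05bb02) (nat_lit 0x4050e) (nat_lit 4)))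
 (.n (.p (nat_lit 0x6b1b7f02) (nat_lit 0x240003) (nat_lit 30))
 (.p (nat_lit 0x21c4218502) (nat_lit 0x100729) (nat_lit 5))))
 (.n (.n (.p (nat_lit 0x1569135502) (nat_lit 0x110a00) (nat_lit 16))
 (.p (nat_lit 0x1f41043d02) (nat_lit 0x45401c) (nat_lit 16)))
 (.n (.p (nat_lit 0xbac0ba80ba60ba210f910f306) (nat_lit 0x900004a705) (nat_lit 52))
 (.p (nat_lit 0x2920290028e028c025f029b06) (nat_lit 0x2c16a2d) (nat_lit 26))))))

def c256_139 : Tr :=
 .n (.n (.n (.n (.n (.n (.p (nat_lit 0x1e201de01da01e704) (nat_lit 0xa800400021) (nat_lit 17))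
 (.p (nat_lit 0x273327d302) (nat_lit 0x100060000300) (nat_lit 37)))
 (.p (nat_lit 0x6fa039d02) (nat_lit 0x300207) (nat_lit 5)))
 (.n (.p (nat_lit 0x10521050104e104c104a11e506) (nat_lit 0x2000084801) (nat_lit 51))
 (.p (nat_lit 0x21ee216302) (nat_lit 0x822) (nat_lit 5))))
 (.n (.n (.n (.p (nat_lit 0x240e6302) (nat_lit 0x40600) (nat_lit 1))
 (.p (nat_lit 0xf48287502) (nat_lit 0x588872b44000100000600) (nat_lit 50)))
 (.p (nat_lit 0xa900a8e0a8c0a880156014901450a8b0a8709) (nat_lit 0x1000415) (nat_lit 10)))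
 (.n (.p (nat_lit 0x17d6128902) (nat_lit 0x440b03) (nat_lit 4))
 (.p (nat_lit 0x192c18dd02) (nat_lit 0x54092b) (nat_lit 5)))))
 (.n (.n (.n (.n (.p (nat_lit 0x1a206ed02) (nat_lit 0x200300) (nat_lit 1))
 (.p (nat_lit 0x2816147302) (nat_lit 0x6004c800) (nat_lit 48)))
 (.p (nat_lit 0xa7e04b902) (nat_lit 0x20040e) (nat_lit 4)))
 (.n (.p (nat_lit 0xc8c0c880c860c840c82163306) (nat_lit 0x80000caa02) (nat_lit 51))
 (.p (nat_lit 0x1a101a5302) (nat_lit 0x340225) (nat_lit 5))))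
 (.n (.n (.p (nat_lit 0x13f213f013ee13ea1297128f06) (nat_lit 0x110000c8900) (nat_lit 51))
 (.p (nat_lit 0x21061f8b02) (nat_lit 0x50081a) (nat_lit 5)))
 (.n (.p (nat_lit 0x100f0e4902) (nat_lit 0x500605) (nat_lit 15))
 (.p (nat_lit 0x20001fe01fa01f80219000706) (nat_lit 0x30e123) (nat_lit 26))))))
 (.n (.n (.n (.n (.n (.p (nat_lit 0x541034b02) (nat_lit 0x30c100) (nat_lit 16))
 (.p (nat_lit 0x26bb0d5d02) (nat_lit 0x280020000600) (nat_lit 40)))
 (.p (nat_lit 0xf110ef902) (nat_lit 0x548607) (nat_lit 16)))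
 (.n (.p (nat_lit 0x19cc19ca19c819c619c419c2004a07) (nat_lit 0x40202) (nat_lit 8))
 (.p (nat_lit 0xf000a3b02) (nat_lit 0x340623) (nat_lit 4))))
 (.n (.n (.n (.p (nat_lit 0xfca110902) (nat_lit 0x100800) (nat_lit 4))
 (.p (nat_lit 0xf4628b102) (nat_lit 0x350521a82800100000600) (nat_lit 50)))
 (.p (nat_lit 0x136406cd02) (nat_lit 0x500915) (nat_lit 4)))
 (.n (.p (nat_lit 0x10eb0f2502) (nat_lit 0x340604) (nat_lit 15))
 (.p (nat_lit 0x1e2250302) (nat_lit 0x400305) (nat_lit 27)))))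
 (.n (.n (.n (.n (.p (nat_lit 0xaea0ae80ae60ae40ae0098f06) (nat_lit 0x1000042400) (nat_lit 51))
 (.p (nat_lit 0x26ef283902) (nat_lit 0x240040000b00) (nat_lit 37)))
 (.p (nat_lit 0x1d1b1cb502) (nat_lit 0x200311) (nat_lit 15)))
 (.n (.p (nat_lit 0xc730aa102) (nat_lit 0x400403) (nat_lit 15))
 (.p (nat_lit 0x71407120710070e070c025f071707) (nat_lit 0x50022a) (nat_lit 7))))
 (.n (.n (.p (nat_lit 0x16a0169e169c169a1698151906) (nat_lit 0x4000012b00) (nat_lit 51))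
 (.p (nat_lit 0x10e110d702) (nat_lit 0x34a71c) (nat_lit 16)))
 (.n (.p (nat_lit 0x2460aa502) (nat_lit 0x406) (nat_lit 1))
 (.p (nat_lit 0x26a9049102) (nat_lit 0xa0000000100) (nat_lit 40))))))

def c128_11 : Tr := .n c256_11 c256_139

def c256_75 : Tr :=
 .n (.n (.n (.n (.n (.n (.p (nat_lit 0xc400bc00ba00c704) (nat_lit 0x11800400006) (nat_lit 17))
 (.p (nat_lit 0x2759072d02) (nat_lit 0x1a0080000200) (nat_lit 39)))
 (.p (nat_lit 0xbf221d02) (nat_lit 0x200906) (nat_lit 30)))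
 (.n (.p (nat_lit 0x653062102) (nat_lit 0x454101) (nat_lit 16))
 (.p (nat_lit 0x1f38234502) (nat_lit 0x40021) (nat_lit 29))))
 (.n (.n (.n (.p (nat_lit 0xd5b0d4f02) (nat_lit 0x600) (nat_lit 34))
 (.p (nat_lit 0x56a286502) (nat_lit 0x281d30346800100040000) (nat_lit 49)))
 (.p (nat_lit 0x5920590058c058a035b035506) (nat_lit 0x12000086015) (nat_lit 51)))
 (.n (.p (nat_lit 0x1708127f02) (nat_lit 0x500b03) (nat_lit 5))
 (.p (nat_lit 0x154c0ce902) (nat_lit 0x500a2a) (nat_lit 4)))))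
 (.n (.n (.n (.n (.p (nat_lit 0x74c074a0748074605f305f106) (nat_lit 0x180000c0200) (nat_lit 52))
 (.p (nat_lit 0x26cf281302) (nat_lit 0x140020000800) (nat_lit 37)))
 (.p (nat_lit 0x8e4058102) (nat_lit 0x10030e) (nat_lit 5)))
 (.n (.p (nat_lit 0x157c157a157815761572155d06) (nat_lit 0x1000094a02) (nat_lit 52))
 (.p (nat_lit 0x21818f302) (nat_lit 0x40824) (nat_lit 1))))
 (.n (.n (.p (nat_lit 0x134e134c134a1348134611ad06) (nat_lit 0x10000096900) (nat_lit 52))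
 (.p (nat_lit 0x1ee21ee01ede1eda1ed8018b1edd07) (nat_lit 0x200519) (nat_lit 7)))
 (.n (.p (nat_lit 0x200420001ffe1ffc1ffa09c906) (nat_lit 0x800004e305) (nat_lit 52))
 (.p (nat_lit 0x1a125b902) (nat_lit 0x10011c) (nat_lit 28))))))
 (.n (.n (.n (.n (.n (.p (nat_lit 0x493048702) (nat_lit 0x100100) (nat_lit 34))
 (.p (nat_lit 0x27ee037102) (nat_lit 0x80006500) (nat_lit 47)))
 (.p (nat_lit 0xca20ca00c9e0c9a0a730a7106) (nat_lit 0x3000082407) (nat_lit 51)))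
 (.n (.p (nat_lit 0x16220dd102) (nat_lit 0x240a01) (nat_lit 5))
 (.p (nat_lit 0x840083e083c083a0838070b06) (nat_lit 0x10000080223) (nat_lit 51))))
 (.n (.n (.n (.p (nat_lit 0x106e106a1068106610640eeb06) (nat_lit 0x8000052700) (nat_lit 51))
 (.p (nat_lit 0x48e28a102) (nat_lit 0x340a621b0000100000000) (nat_lit 49)))
 (.p (nat_lit 0xe0d0e0502) (nat_lit 0x408615) (nat_lit 16)))
 (.n (.p (nat_lit 0x10241022101e101c0e3d0e3706) (nat_lit 0x1200008e604) (nat_lit 52))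
 (.p (nat_lit 0x70006e00680066000700f106) (nat_lit 0x1a16003) (nat_lit 26)))))
 (.n (.n (.n (.n (.p (nat_lit 0xa4e0a4c0a4a0a480a4608cb06) (nat_lit 0x800014400) (nat_lit 52))
 (.p (nat_lit 0x270f282f02) (nat_lit 0x40040000a00) (nat_lit 36)))
 (.p (nat_lit 0x129805d902) (nat_lit 0x14080e) (nat_lit 5)))
 (.n (.p (nat_lit 0x1c3a1c381c361c341c32063b06) (nat_lit 0x100000ca103) (nat_lit 52))
 (.p (nat_lit 0x538243d02) (nat_lit 0x40012a) (nat_lit 29))))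
 (.n (.n (.p (nat_lit 0x15e015de15d815d61443144106) (nat_lit 0x6000050a00) (nat_lit 52))
 (.p (nat_lit 0xc5e0c5c0c5a0c580c56019f0c5507) (nat_lit 0x51c) (nat_lit 7)))
 (.n (.p (nat_lit 0x143a143814341432143011f306) (nat_lit 0x4000096805) (nat_lit 51))
 (.p (nat_lit 0x27a421db02) (nat_lit 0x16000) (nat_lit 47))))))

def c256_203 : Tr :=
 .n (.n (.n (.n (.n (.n (.p (nat_lit 0x2b902ad02) (nat_lit 0x500000) (nat_lit 34))
 (.p (nat_lit 0x268d0abd02) (nat_lit 0x260000000400) (nat_lit 41)))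
 (.p (nat_lit 0x8d602df02) (nat_lit 0x307) (nat_lit 4)))
 (.n (.p (nat_lit 0x13920ebb02) (nat_lit 0x400901) (nat_lit 5))
 (.p (nat_lit 0x52409fd02) (nat_lit 0x123) (nat_lit 4))))
 (.n (.n (.n (.p (nat_lit 0xee70e6702) (nat_lit 0x240600) (nat_lit 15))
 (.p (nat_lit 0x12e0288102) (nat_lit 0x585a12b21000300000600) (nat_lit 50)))
 (.p (nat_lit 0xc4e069f02) (nat_lit 0x300515) (nat_lit 4)))
 (.n (.p (nat_lit 0x55213cf02) (nat_lit 0x200104) (nat_lit 4))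
 (.p (nat_lit 0x1c781d7702) (nat_lit 0x10022d) (nat_lit 4)))))
 (.n (.n (.n (.n (.p (nat_lit 0x8e306e902) (nat_lit 0x2300) (nat_lit 16))
 (.p (nat_lit 0x270f281f02) (nat_lit 0x40040000900) (nat_lit 36)))
 (.p (nat_lit 0xb620b600b5e0b5c0b5a010f0b6507) (nat_lit 0x54040e) (nat_lit 7)))
 (.n (.p (nat_lit 0xdce0dca0dc80dc60dc416fb06) (nat_lit 0x8000092b02) (nat_lit 51))
 (.p (nat_lit 0x1df81df61df41df21df002351dfb07) (nat_lit 0x500b26) (nat_lit 7))))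
 (.n (.n (.p (nat_lit 0x135c149b02) (nat_lit 0x500a00) (nat_lit 5))
 (.p (nat_lit 0x231e231c231a23182316231401aa07) (nat_lit 0x4001c) (nat_lit 8)))
 (.n (.p (nat_lit 0xaba0ab80ab40ab20ab0100b06) (nat_lit 0x4000088705) (nat_lit 52))
 (.p (nat_lit 0x242023e023c0238024900a706) (nat_lit 0xc0c128) (nat_lit 26))))))
 (.n (.n (.n (.n (.n (.p (nat_lit 0x61f042302) (nat_lit 0x34c100) (nat_lit 16))
 (.p (nat_lit 0x26c3280102) (nat_lit 0x200020000700) (nat_lit 36)))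
 (.p (nat_lit 0xd7224b02) (nat_lit 0x140b07) (nat_lit 30)))
 (.n (.p (nat_lit 0xd340f7d02) (nat_lit 0x340502) (nat_lit 5))
 (.p (nat_lit 0x23c623c423c223c023be23bc020207) (nat_lit 0xa23) (nat_lit 8))))
 (.n (.n (.n (.p (nat_lit 0x11ed0fc902) (nat_lit 0x14800) (nat_lit 16))
 (.p (nat_lit 0x157228bf02) (nat_lit 0x3503a8d84000400040600) (nat_lit 49)))
 (.p (nat_lit 0x1c2189f02) (nat_lit 0x100416) (nat_lit 1)))
 (.n (.p (nat_lit 0x170e133f02) (nat_lit 0x200b04) (nat_lit 4))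
 (.p (nat_lit 0xf200f000ee00ec00df012906) (nat_lit 0x2c1620a) (nat_lit 26)))))
 (.n (.n (.n (.n (.p (nat_lit 0xa6c0a6a0a660a640a6200070a6907) (nat_lit 0x300500) (nat_lit 7))
 (.p (nat_lit 0xd5c284502) (nat_lit 0x4a1a22344000000000600) (nat_lit 50)))
 (.p (nat_lit 0x1d9e1c3b02) (nat_lit 0x440511) (nat_lit 4)))
 (.n (.p (nat_lit 0xf8a0f860f840f800e2f0e2906) (nat_lit 0x9000012603) (nat_lit 52))
 (.p (nat_lit 0x2ac02aa02a802a402a207d506) (nat_lit 0x200004022a) (nat_lit 52))))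
 (.n (.n (.p (nat_lit 0x15f8172102) (nat_lit 0x540b00) (nat_lit 4))
 (.p (nat_lit 0x193d153302) (nat_lit 0x40ca1c) (nat_lit 16)))
 (.n (.p (nat_lit 0x110421d902) (nat_lit 0x540706) (nat_lit 29))
 (.p (nat_lit 0x27b2042f02) (nat_lit 0x60046100) (nat_lit 47))))))

def c128_75 : Tr := .n c256_75 c256_203

def c64_11 : Tr := .n c128_11 c128_75

def c256_43 : Tr :=
 .n (.n (.n (.n (.n (.n (.p (nat_lit 0x70006e0066007304) (nat_lit 0x18800400003) (nat_lit 17))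
 (.p (nat_lit 0x26eb27c102) (nat_lit 0x280040000200) (nat_lit 36)))
 (.p (nat_lit 0xbb80bb60bb20bb00bae12cb06) (nat_lit 0x400004a806) (nat_lit 51)))
 (.n (.p (nat_lit 0x5420d8302) (nat_lit 0x400101) (nat_lit 4))
 (.p (nat_lit 0x1e141e8d02) (nat_lit 0x20) (nat_lit 4))))
 (.n (.n (.n (.p (nat_lit 0xcd80cd60cd40cd20b490b4706) (nat_lit 0x60000cc500) (nat_lit 51))
 (.p (nat_lit 0x12d2285b02) (nat_lit 0x281d30344000300000600) (nat_lit 49)))
 (.p (nat_lit 0x5ac05aa05a805a405a221e706) (nat_lit 0x2000088814) (nat_lit 52)))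
 (.n (.p (nat_lit 0x13fe13fc13f813f613f4163d06) (nat_lit 0x400004ca03) (nat_lit 51))
 (.p (nat_lit 0xe24245702) (nat_lit 0x50062a) (nat_lit 29)))))
 (.n (.n (.n (.n (.p (nat_lit 0x717051702) (nat_lit 0x50a200) (nat_lit 16))
 (.p (nat_lit 0x26a9121102) (nat_lit 0xa0000000800) (nat_lit 41)))
 (.p (nat_lit 0x1e021ba502) (nat_lit 0x340b0a) (nat_lit 4)))
 (.n (.p (nat_lit 0x66a0666066406620660156306) (nat_lit 0x8000004a02) (nat_lit 51))
 (.p (nat_lit 0x183618b702) (nat_lit 0x440124) (nat_lit 4))))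
 (.n (.n (.p (nat_lit 0x11a612d502) (nat_lit 0x200900) (nat_lit 4))
 (.p (nat_lit 0x1bac230d02) (nat_lit 0x240018) (nat_lit 29)))
 (.n (.p (nat_lit 0x9f1f9702) (nat_lit 0x305) (nat_lit 30))
 (.p (nat_lit 0x25a0259e259c25982596017d015007) (nat_lit 0x20e915) (nat_lit 25))))))
 (.n (.n (.n (.n (.n (.p (nat_lit 0x427039702) (nat_lit 0x540000) (nat_lit 15))
 (.p (nat_lit 0x27ea0ba702) (nat_lit 0x40000500) (nat_lit 45)))
 (.p (nat_lit 0x12e612e412e212de12dc099d06) (nat_lit 0x2000052307) (nat_lit 51)))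
 (.n (.p (nat_lit 0x1481146902) (nat_lit 0x454901) (nat_lit 16))
 (.p (nat_lit 0x12e412e212e012de12dc060b06) (nat_lit 0x10000052123) (nat_lit 51))))
 (.n (.n (.n (.p (nat_lit 0xee2101d02) (nat_lit 0x40700) (nat_lit 4))
 (.p (nat_lit 0x1210289702) (nat_lit 0x344580ca4000200040600) (nat_lit 50)))
 (.p (nat_lit 0x1030102e102c102a10280d1506) (nat_lit 0x100000ce515) (nat_lit 51)))
 (.n (.p (nat_lit 0xe3c131702) (nat_lit 0x500604) (nat_lit 4))
 (.p (nat_lit 0x4724a302) (nat_lit 0x400402) (nat_lit 28)))))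
 (.n (.n (.n (.n (.p (nat_lit 0x1fe08d302) (nat_lit 0x400400) (nat_lit 1))
 (.p (nat_lit 0x2685157302) (nat_lit 0x2e0000000a00) (nat_lit 39)))
 (.p (nat_lit 0xfe004e702) (nat_lit 0x30070e) (nat_lit 4)))
 (.n (.p (nat_lit 0x1be61be41be21be01bde054706) (nat_lit 0x800016103) (nat_lit 51))
 (.p (nat_lit 0xade0adc0ada0ad60ad421fd06) (nat_lit 0x2000080829) (nat_lit 51))))
 (.n (.n (.p (nat_lit 0x1446157d02) (nat_lit 0x540a00) (nat_lit 4))
 (.p (nat_lit 0x6c406c006be06bc06ba052106) (nat_lit 0x800001011c) (nat_lit 52)))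
 (.n (.p (nat_lit 0x11ee15d902) (nat_lit 0x100805) (nat_lit 4))
 (.p (nat_lit 0x269b02a302) (nat_lit 0x180000000000) (nat_lit 38))))))

def c256_171 : Tr :=
 .n (.n (.n (.n (.n (.n (.p (nat_lit 0x26f026b026203) (nat_lit 0x6080002a) (nat_lit 19))
 (.p (nat_lit 0x2749081d02) (nat_lit 0x2a0080000300) (nat_lit 38)))
 (.p (nat_lit 0x7be02d902) (nat_lit 0x340207) (nat_lit 4)))
 (.n (.p (nat_lit 0x1048104610441042104012ad06) (nat_lit 0x8000c2801) (nat_lit 52))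
 (.p (nat_lit 0x529036d02) (nat_lit 0x200023) (nat_lit 15))))
 (.n (.n (.n (.p (nat_lit 0xe6a0e660e640e620020000b00070e6d0e6909) (nat_lit 0x2b40600) (nat_lit 10))
 (.p (nat_lit 0xbb8287902) (nat_lit 0x588bb0344000500000000) (nat_lit 50)))
 (.p (nat_lit 0xb6e069502) (nat_lit 0x440415) (nat_lit 4)))
 (.n (.p (nat_lit 0x1032102e102c102a102817d706) (nat_lit 0x80000ceb03) (nat_lit 51))
 (.p (nat_lit 0x25a1b0502) (nat_lit 0x300a2c) (nat_lit 1)))))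
 (.n (.n (.n (.n (.p (nat_lit 0x84e084c084a084806eb06e906) (nat_lit 0x1800002300) (nat_lit 51))
 (.p (nat_lit 0x26ab13af02) (nat_lit 0x80000000900) (nat_lit 39)))
 (.p (nat_lit 0x121a12181214121212100a8106) (nat_lit 0x400009040e) (nat_lit 51)))
 (.n (.p (nat_lit 0x16fc16fa16f816f616f4003f16f307) (nat_lit 0xb02) (nat_lit 7))
 (.p (nat_lit 0x127e127a1278127612741bfd06) (nat_lit 0x8000016126) (nat_lit 51))))
 (.n (.n (.p (nat_lit 0x1447129702) (nat_lit 0x540900) (nat_lit 15))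
 (.p (nat_lit 0xe540e520e4e0e4c0e4a036306) (nat_lit 0x400008c01c) (nat_lit 52)))
 (.n (.p (nat_lit 0x100614e502) (nat_lit 0x100705) (nat_lit 4))
 (.p (nat_lit 0x24e262f02) (nat_lit 0x400b23) (nat_lit 27))))))
 (.n (.n (.n (.n (.n (.p (nat_lit 0x588058405820580057e042506) (nat_lit 0x8000046100) (nat_lit 51))
 (.p (nat_lit 0x26af27fd02) (nat_lit 0x40000000700) (nat_lit 37)))
 (.p (nat_lit 0x1602040302) (nat_lit 0x440a07) (nat_lit 4)))
 (.n (.p (nat_lit 0x7f907ed02) (nat_lit 0x452202) (nat_lit 16))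
 (.p (nat_lit 0x1f723a502) (nat_lit 0x40823) (nat_lit 30))))
 (.n (.n (.n (.p (nat_lit 0x117a11781176117411720fd306) (nat_lit 0x10000014800) (nat_lit 52))
 (.p (nat_lit 0xbb50ba709e109d70821081b06650657049b048b02b102a328b80d) (nat_lit 0x352868d64000000000000) (nat_lit 33)))
 (.p (nat_lit 0x1522230102) (nat_lit 0x200a15) (nat_lit 29)))
 (.n (.p (nat_lit 0x10e8141d02) (nat_lit 0x240704) (nat_lit 4))
 (.p (nat_lit 0xc400c200bc00ba0007010306) (nat_lit 0x1a10006) (nat_lit 26)))))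
 (.n (.n (.n (.n (.p (nat_lit 0xb67098d02) (nat_lit 0x44400) (nat_lit 16))
 (.p (nat_lit 0x2793172102) (nat_lit 0x1000a0000b00) (nat_lit 39)))
 (.p (nat_lit 0x1d5e1c2702) (nat_lit 0x440411) (nat_lit 4)))
 (.n (.p (nat_lit 0xc70114d02) (nat_lit 0x300503) (nat_lit 4))
 (.p (nat_lit 0x13b613b413b013ae0717071106) (nat_lit 0x1200009222a) (nat_lit 52))))
 (.n (.n (.p (nat_lit 0x1705151902) (nat_lit 0x310b00) (nat_lit 16))
 (.p (nat_lit 0x152a233902) (nat_lit 0xa1c) (nat_lit 29)))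
 (.n (.p (nat_lit 0x101a174902) (nat_lit 0x500706) (nat_lit 5))
 (.p (nat_lit 0x26e7057702) (nat_lit 0x2c0040000100) (nat_lit 41))))))

def c128_43 : Tr := .n c256_43 c256_171

def c256_107 : Tr :=
 .n (.n (.n (.n (.n (.n (.p (nat_lit 0x14e014c0146015104) (nat_lit 0x19000400015) (nat_lit 17))
 (.p (nat_lit 0x27ca082302) (nat_lit 0x20000300) (nat_lit 46)))
 (.p (nat_lit 0x147e16a902) (nat_lit 0x340906) (nat_lit 5)))
 (.n (.p (nat_lit 0xc6018cb02) (nat_lit 0x200501) (nat_lit 29))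
 (.p (nat_lit 0x20b0200502) (nat_lit 0x500721) (nat_lit 4))))
 (.n (.n (.n (.p (nat_lit 0xddd0d6b02) (nat_lit 0x200600) (nat_lit 15))
 (.p (nat_lit 0xabc286b02) (nat_lit 0x281d30342800400040000) (nat_lit 50)))
 (.p (nat_lit 0x58605840580057e0433042d06) (nat_lit 0x12000046015) (nat_lit 51)))
 (.n (.p (nat_lit 0x102410221020101e101c170906) (nat_lit 0x1000008eb03) (nat_lit 52))
 (.p (nat_lit 0x25b246b02) (nat_lit 0x300b2a) (nat_lit 30)))))
 (.n (.n (.n (.n (.p (nat_lit 0x7c905ed02) (nat_lit 0x248200) (nat_lit 16))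
 (.p (nat_lit 0x26ed120902) (nat_lit 0x260040000800) (nat_lit 39)))
 (.p (nat_lit 0x226a22682266226422622260011007) (nat_lit 0x4030e) (nat_lit 8)))
 (.n (.p (nat_lit 0x1634109302) (nat_lit 0x540a02) (nat_lit 4))
 (.p (nat_lit 0x194a1948194619421940020f194507) (nat_lit 0x200a24) (nat_lit 7))))
 (.n (.n (.p (nat_lit 0x128c13af02) (nat_lit 0x40900) (nat_lit 4))
 (.p (nat_lit 0x1f061e4302) (nat_lit 0x100619) (nat_lit 5)))
 (.n (.p (nat_lit 0xd4c205b02) (nat_lit 0x540505) (nat_lit 29))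
 (.p (nat_lit 0x1d401d001ce01cc01c7021906) (nat_lit 0x201651e) (nat_lit 26))))))
 (.n (.n (.n (.n (.n (.p (nat_lit 0x4ca04c804c204c0034b034906) (nat_lit 0x6000088100) (nat_lit 51))
 (.p (nat_lit 0x26930d4f02) (nat_lit 0x200000000600) (nat_lit 38)))
 (.p (nat_lit 0xbda0bd80bd60bd20bd00b5306) (nat_lit 0x2000044407) (nat_lit 52)))
 (.n (.p (nat_lit 0x62e062c062a06280626003f062507) (nat_lit 0x40102) (nat_lit 7))
 (.p (nat_lit 0x8720870086c086a086807cb06) (nat_lit 0x40000ca223) (nat_lit 52))))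
 (.n (.n (.n (.p (nat_lit 0x10b30ee902) (nat_lit 0x340700) (nat_lit 15))
 (.p (nat_lit 0x148428a902) (nat_lit 0x350521a84000400000600) (nat_lit 49)))
 (.p (nat_lit 0x10d510cb02) (nat_lit 0x148715) (nat_lit 16)))
 (.n (.p (nat_lit 0x2ac02aa02a802a402a20f2306) (nat_lit 0x2000040604) (nat_lit 52))
 (.p (nat_lit 0x24e424e224e024de24dc0005007207) (nat_lit 0x20ca03) (nat_lit 25)))))
 (.n (.n (.n (.n (.p (nat_lit 0xaa908cf02) (nat_lit 0x216400) (nat_lit 16))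
 (.p (nat_lit 0x26b3172302) (nat_lit 0xb00) (nat_lit 41)))
 (.p (nat_lit 0x190017ef02) (nat_lit 0x50090f) (nat_lit 4)))
 (.n (.p (nat_lit 0x1ca907f502) (nat_lit 0x240203) (nat_lit 16))
 (.p (nat_lit 0x25b244702) (nat_lit 0x34012a) (nat_lit 30))))
 (.n (.n (.p (nat_lit 0x1512164302) (nat_lit 0xb00) (nat_lit 4))
 (.p (nat_lit 0xd18096502) (nat_lit 0x14051c) (nat_lit 5)))
 (.n (.p (nat_lit 0x12c015eb02) (nat_lit 0x440805) (nat_lit 4))
 (.p (nat_lit 0x27a6060f02) (nat_lit 0x20048000) (nat_lit 48))))))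

def c256_235 : Tr :=
 .n (.n (.n (.n (.n (.n (.p (nat_lit 0x3420340033e033a02bf02bb06) (nat_lit 0x2800096000) (nat_lit 51))
 (.p (nat_lit 0x270b27db02) (nat_lit 0x80040000400) (nat_lit 36)))
 (.p (nat_lit 0x10321030102e102808db08d906) (nat_lit 0x300008e307) (nat_lit 51)))
 (.n (.p (nat_lit 0x1553138f02) (nat_lit 0x200901) (nat_lit 15))
 (.p (nat_lit 0x102410221020101e101c052f06) (nat_lit 0x1000008e123) (nat_lit 52))))
 (.n (.n (.n (.p (nat_lit 0xdde0f4902) (nat_lit 0x300700) (nat_lit 5))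
 (.p (nat_lit 0x382288b02) (nat_lit 0x342221ca4000000040000) (nat_lit 50)))
 (.p (nat_lit 0xf3e0f3c0f3a0f380f360c5306) (nat_lit 0x1000000e515) (nat_lit 52)))
 (.n (.p (nat_lit 0x80413e702) (nat_lit 0x440204) (nat_lit 4))
 (.p (nat_lit 0x131613141312130e130c1e8706) (nat_lit 0x200004c22e) (nat_lit 52)))))
 (.n (.n (.n (.n (.p (nat_lit 0x7b607b407b007ae00100007000107b307ad09) (nat_lit 0x1840300) (nat_lit 10))
 (.p (nat_lit 0x273b12d702) (nat_lit 0x80060000900) (nat_lit 38)))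
 (.p (nat_lit 0xb6b0b5f02) (nat_lit 0x24640e) (nat_lit 16)))
 (.n (.p (nat_lit 0x17cc1b4502) (nat_lit 0x540b02) (nat_lit 29))
 (.p (nat_lit 0x23b241f02) (nat_lit 0x100628) (nat_lit 30))))
 (.n (.n (.p (nat_lit 0x150014fe14fc14fa135d135b06) (nat_lit 0x18000010a00) (nat_lit 51))
 (.p (nat_lit 0x828082608220820043f043906) (nat_lit 0x1200004601c) (nat_lit 51)))
 (.n (.p (nat_lit 0x10f815d302) (nat_lit 0x440705) (nat_lit 4))
 (.p (nat_lit 0x25e025c02560254027b000706) (nat_lit 0x130c22a) (nat_lit 26))))))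
 (.n (.n (.n (.n (.n (.p (nat_lit 0x14a051302) (nat_lit 0x300200) (nat_lit 1))
 (.p (nat_lit 0x26e5102d02) (nat_lit 0x2e0040000700) (nat_lit 41)))
 (.p (nat_lit 0x1a36196b02) (nat_lit 0x500309) (nat_lit 5)))
 (.n (.p (nat_lit 0x11941192118e118c118a139d06) (nat_lit 0x4000016902) (nat_lit 52))
 (.p (nat_lit 0x1f923cb02) (nat_lit 0x100b23) (nat_lit 30))))
 (.n (.n (.n (.p (nat_lit 0x7010b702) (nat_lit 0x540800) (nat_lit 1))
 (.p (nat_lit 0x110c28c702) (nat_lit 0x3508a9d84000200000600) (nat_lit 49)))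
 (.p (nat_lit 0x1aae19e102) (nat_lit 0x500517) (nat_lit 5)))
 (.n (.p (nat_lit 0x17dc134902) (nat_lit 0x140b04) (nat_lit 4))
 (.p (nat_lit 0x10f255f02) (nat_lit 0x50080e) (nat_lit 28)))))
 (.n (.n (.n (.n (.p (nat_lit 0xbf20bf00bee0be80a670a6506) (nat_lit 0x3000006500) (nat_lit 51))
 (.p (nat_lit 0xabc284902) (nat_lit 0x4a1a36344000400040000) (nat_lit 50)))
 (.p (nat_lit 0x5a0059e059a059805961deb06) (nat_lit 0x4000008b11) (nat_lit 51)))
 (.n (.p (nat_lit 0xf1a0f180f160f140f1200710f1d07) (nat_lit 0x540603) (nat_lit 7))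
 (.p (nat_lit 0x1588158615841582157e07d306) (nat_lit 0x10000d422a) (nat_lit 51))))
 (.n (.n (.p (nat_lit 0x177617741770176e176c15f506) (nat_lit 0x4000052b00) (nat_lit 52))
 (.p (nat_lit 0x17a608c702) (nat_lit 0x440b1c) (nat_lit 4)))
 (.n (.p (nat_lit 0x66a0666066406620660120106) (nat_lit 0x8000004806) (nat_lit 51))
 (.p (nat_lit 0x26b1066102) (nat_lit 0x20000000200) (nat_lit 40))))))

def c128_107 : Tr := .n c256_107 c256_235

def c64_43 : Tr := .n c128_43 c128_107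

def c32_11 : Tr := .n c64_11 c64_43

def c256_27 : Tr :=
 .n (.n (.n (.n (.n (.n (.p (nat_lit 0x48003e004d03) (nat_lit 0x10800500002) (nat_lit 17))
 (.p (nat_lit 0x26cd066302) (nat_lit 0x160020000200) (nat_lit 40)))
 (.p (nat_lit 0x37e037c037a0378037612c506) (nat_lit 0x8000c0806) (nat_lit 52)))
 (.n (.p (nat_lit 0x4500e7302) (nat_lit 0x340001) (nat_lit 4))
 (.p (nat_lit 0x8720870086c086a08681af906) (nat_lit 0x400008aa1e) (nat_lit 52))))
 (.n (.n (.n (.p (nat_lit 0xc8b0c7f02) (nat_lit 0x440500) (nat_lit 34))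
 (.p (nat_lit 0xd5c285902) (nat_lit 0x4a8874b44000000000600) (nat_lit 50)))
 (.p (nat_lit 0x21ba213102) (nat_lit 0x140414) (nat_lit 5)))
 (.n (.p (nat_lit 0x6b1dc502) (nat_lit 0x240a03) (nat_lit 30))
 (.p (nat_lit 0x9fa09f809f609f209f009b506) (nat_lit 0x20000c032a) (nat_lit 52)))))
 (.n (.n (.n (.n (.p (nat_lit 0x6ed051102) (nat_lit 0x200200) (nat_lit 15))
 (.p (nat_lit 0x280a12b702) (nat_lit 0xa0056700) (nat_lit 48)))
 (.p (nat_lit 0x2901d5302) (nat_lit 0x24040a) (nat_lit 1)))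
 (.n (.p (nat_lit 0x1562108502) (nat_lit 0x400a02) (nat_lit 5))
 (.p (nat_lit 0x180c18a902) (nat_lit 0x300124) (nat_lit 5))))
 (.n (.n (.p (nat_lit 0x12bd10b102) (nat_lit 0x254800) (nat_lit 16))
 (.p (nat_lit 0x1b201b1e1b1a1b181b16016d1b1d07) (nat_lit 0x340a17) (nat_lit 7)))
 (.n (.p (nat_lit 0x80a14b102) (nat_lit 0x140205) (nat_lit 5))
 (.p (nat_lit 0x17c258f02) (nat_lit 0x200815) (nat_lit 27))))))
 (.n (.n (.n (.n (.n (.p (nat_lit 0x3d803d603d403d203d0038d06) (nat_lit 0x8000c8000) (nat_lit 52))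
 (.p (nat_lit 0x26c327e902) (nat_lit 0x200020000500) (nat_lit 37)))
 (.p (nat_lit 0x9a209a0099e099800e800d900d7099d099b09) (nat_lit 0x1140307) (nat_lit 10)))
 (.n (.p (nat_lit 0x1110110e110a11081106146706) (nat_lit 0x4000050901) (nat_lit 52))
 (.p (nat_lit 0x82a0828082608220820060506) (nat_lit 0x2000046123) (nat_lit 51))))
 (.n (.n (.n (.p (nat_lit 0xff30ddf02) (nat_lit 0x308700) (nat_lit 16))
 (.p (nat_lit 0xd5c289502) (nat_lit 0x356068ca4000000000600) (nat_lit 50)))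
 (.p (nat_lit 0x66a06680666066406620d0b06) (nat_lit 0x800044515) (nat_lit 51)))
 (.n (.p (nat_lit 0xe34130f02) (nat_lit 0x100604) (nat_lit 4))
 (.p (nat_lit 0x27a248d02) (nat_lit 0x200501) (nat_lit 27)))))
 (.n (.n (.n (.n (.p (nat_lit 0x8ca09cd02) (nat_lit 0x400) (nat_lit 4))
 (.p (nat_lit 0x26ab157302) (nat_lit 0x80000000a00) (nat_lit 39)))
 (.p (nat_lit 0x3380336033403300d070d0106) (nat_lit 0x900005650e) (nat_lit 51)))
 (.n (.p (nat_lit 0x54a112102) (nat_lit 0x200103) (nat_lit 5))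
 (.p (nat_lit 0x187c187a18781876187421c306) (nat_lit 0x800082729) (nat_lit 51))))
 (.n (.n (.p (nat_lit 0xa2144102) (nat_lit 0x240a00) (nat_lit 1))
 (.p (nat_lit 0x520094702) (nat_lit 0x40011c) (nat_lit 4)))
 (.n (.p (nat_lit 0x164c164a16481644164210f506) (nat_lit 0x2000056705) (nat_lit 52))
 (.p (nat_lit 0x26ab02a302) (nat_lit 0x80000000000) (nat_lit 38))))))

def c256_155 : Tr :=
 .n (.n (.n (.n (.n (.n (.p (nat_lit 0x23e023c0238024504) (nat_lit 0x6800400028) (nat_lit 17))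
 (.p (nat_lit 0x2721091502) (nat_lit 0x220060000300) (nat_lit 39)))
 (.p (nat_lit 0x5aa05a805a605a405a206ff06) (nat_lit 0x10000088207) (nat_lit 52)))
 (.n (.p (nat_lit 0x4012af02) (nat_lit 0x140801) (nat_lit 1))
 (.p (nat_lit 0x1fb235502) (nat_lit 0x200023) (nat_lit 30))))
 (.n (.n (.n (.p (nat_lit 0xe680e5102) (nat_lit 0x340600) (nat_lit 4))
 (.p (nat_lit 0x12dc287702) (nat_lit 0x568872b44000300000600) (nat_lit 50)))
 (.p (nat_lit 0xb66075f02) (nat_lit 0x40415) (nat_lit 5)))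
 (.n (.p (nat_lit 0x66a066606640662066017d706) (nat_lit 0x8000044b03) (nat_lit 51))
 (.p (nat_lit 0x1a1e1ac102) (nat_lit 0x44022c) (nat_lit 4)))))
 (.n (.n (.n (.n (.p (nat_lit 0x6f006ee06ec06ea06e8000b06f307) (nat_lit 0x500300) (nat_lit 7))
 (.p (nat_lit 0x275f121902) (nat_lit 0x140080000800) (nat_lit 41)))
 (.p (nat_lit 0x82a08280826082208200a7f06) (nat_lit 0x200000640e) (nat_lit 51)))
 (.n (.p (nat_lit 0x13b813b413b213b013ae163306) (nat_lit 0x80000d2a02) (nat_lit 52))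
 (.p (nat_lit 0x1b2c1a8102) (nat_lit 0x540a25) (nat_lit 5))))
 (.n (.n (.p (nat_lit 0x141414121410140e140c129706) (nat_lit 0x1000004e900) (nat_lit 52))
 (.p (nat_lit 0x366083702) (nat_lit 0x50001c) (nat_lit 4)))
 (.n (.p (nat_lit 0xf3214df02) (nat_lit 0x440605) (nat_lit 4))
 (.p (nat_lit 0x261a2618261626142612024f020207) (nat_lit 0x414623) (nat_lit 25))))))
 (.n (.n (.n (.n (.n (.p (nat_lit 0x108042102) (nat_lit 0x240100) (nat_lit 1))
 (.p (nat_lit 0x272327fb02) (nat_lit 0x200060000600) (nat_lit 36)))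
 (.p (nat_lit 0x11b2032502) (nat_lit 0x300807) (nat_lit 4)))
 (.n (.p (nat_lit 0x7ec105102) (nat_lit 0x440202) (nat_lit 5))
 (.p (nat_lit 0x10dc0b1b02) (nat_lit 0x40723) (nat_lit 4))))
 (.n (.n (.n (.p (nat_lit 0xfd2111102) (nat_lit 0x500800) (nat_lit 4))
 (.p (nat_lit 0x12dc28b302) (nat_lit 0x352868d84000300000600) (nat_lit 50)))
 (.p (nat_lit 0x14d22f902) (nat_lit 0x440915) (nat_lit 30)))
 (.n (.p (nat_lit 0x10020ffe0ffc0ffa0ff80085100107) (nat_lit 0x400704) (nat_lit 7))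
 (.p (nat_lit 0xa800a600a200a0000700bb06) (nat_lit 0x180e605) (nat_lit 26)))))
 (.n (.n (.n (.n (.p (nat_lit 0xb2a0b280b260b240b22099706) (nat_lit 0x10000054400) (nat_lit 51))
 (.p (nat_lit 0x2721165502) (nat_lit 0x220060000b00) (nat_lit 40)))
 (.p (nat_lit 0x1d201d1e1d1c1d160132012501231d1b1d1909) (nat_lit 0x1100411) (nat_lit 10)))
 (.n (.p (nat_lit 0xb861d2b02) (nat_lit 0x440403) (nat_lit 29))
 (.p (nat_lit 0xd640d620d600d5e0d5a070f06) (nat_lit 0x100000c22a) (nat_lit 51))))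
 (.n (.n (.p (nat_lit 0x16cd151d02) (nat_lit 0x504b00) (nat_lit 16))
 (.p (nat_lit 0x136c089302) (nat_lit 0x30091c) (nat_lit 4)))
 (.n (.p (nat_lit 0x219421922190218e218c0aab06) (nat_lit 0x4000010406) (nat_lit 51))
 (.p (nat_lit 0x270927b102) (nat_lit 0xa0040000100) (nat_lit 37))))))

def c128_27 : Tr := .n c256_27 c256_155

def c256_91 : Tr :=
 .n (.n (.n (.n (.n (.n (.p (nat_lit 0x10a0104011303) (nat_lit 0x480050000e) (nat_lit 17))
 (.p (nat_lit 0x26ab082102) (nat_lit 0x80000000300) (nat_lit 40)))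
 (.p (nat_lit 0x14f814f414f214f014ee13ab06) (nat_lit 0x800008e906) (nat_lit 51)))
 (.n (.p (nat_lit 0xa9a0d9502) (nat_lit 0x400401) (nat_lit 5))
 (.p (nat_lit 0x1f42234f02) (nat_lit 0x540021) (nat_lit 29))))
 (.n (.n (.n (.p (nat_lit 0xd8c0d8a0d880d840d710d6906) (nat_lit 0x11000082600) (nat_lit 52))
 (.p (nat_lit 0x13b4286702) (nat_lit 0x1a2274b50000300040600) (nat_lit 49)))
 (.p (nat_lit 0x42e074d02) (nat_lit 0x340015) (nat_lit 4)))
 (.n (.p (nat_lit 0x82a0828082608220820170306) (nat_lit 0x2000006b03) (nat_lit 51))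
 (.p (nat_lit 0x161c161a161816140268025902551617161309) (nat_lit 0x1040a2a) (nat_lit 10)))))
 (.n (.n (.n (.n (.p (nat_lit 0x78807860784078205ef05e906) (nat_lit 0x480004e200) (nat_lit 52))
 (.p (nat_lit 0x281210e702) (nat_lit 0x20054800) (nat_lit 47)))
 (.p (nat_lit 0x8ec058902) (nat_lit 0x50030e) (nat_lit 5)))
 (.n (.p (nat_lit 0x162a0fa502) (nat_lit 0x40a02) (nat_lit 5))
 (.p (nat_lit 0x191418c302) (nat_lit 0x400924) (nat_lit 4))))
 (.n (.n (.p (nat_lit 0x138911ad02) (nat_lit 0x50a900) (nat_lit 16))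
 (.p (nat_lit 0x1eec1e3702) (nat_lit 0x40519) (nat_lit 5)))
 (.n (.p (nat_lit 0x202e202c202a20282026202406) (nat_lit 0xc2405) (nat_lit 52))
 (.p (nat_lit 0x1a925d502) (nat_lit 0x50071c) (nat_lit 28))))))
 (.n (.n (.n (.n (.n (.p (nat_lit 0x10e034f02) (nat_lit 0x500100) (nat_lit 1))
 (.p (nat_lit 0x26ad27f302) (nat_lit 0x60000000600) (nat_lit 37)))
 (.p (nat_lit 0x2560b5102) (nat_lit 0x140407) (nat_lit 1)))
 (.n (.p (nat_lit 0x1782177e177c177a1778162706) (nat_lit 0x80000d2a01) (nat_lit 52))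
 (.p (nat_lit 0x7ca0a2502) (nat_lit 0x340223) (nat_lit 5))))
 (.n (.n (.n (.p (nat_lit 0x1090108e108c108a10880eed06) (nat_lit 0x100000d4700) (nat_lit 52))
 (.p (nat_lit 0x91028a302) (nat_lit 0x350521a84000300040000) (nat_lit 49)))
 (.p (nat_lit 0x14f22cb02) (nat_lit 0x500715) (nat_lit 30)))
 (.n (.p (nat_lit 0xf1e131902) (nat_lit 0x40604) (nat_lit 5))
 (.p (nat_lit 0x70006e006800660007029106) (nat_lit 0x1a16503) (nat_lit 26)))))
 (.n (.n (.n (.n (.p (nat_lit 0xa7908d502) (nat_lit 0x500400) (nat_lit 16))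
 (.p (nat_lit 0x2830147d02) (nat_lit 0x4004ca00) (nat_lit 47)))
 (.p (nat_lit 0x179005e102) (nat_lit 0x140b0e) (nat_lit 4)))
 (.n (.p (nat_lit 0x7f21c8502) (nat_lit 0x140203) (nat_lit 29))
 (.p (nat_lit 0x3420340033c033a0537053106) (nat_lit 0x480009612a) (nat_lit 51))))
 (.n (.n (.p (nat_lit 0x1607143d02) (nat_lit 0x46a00) (nat_lit 16))
 (.p (nat_lit 0x9ee09ec09e809e609e40c5b06) (nat_lit 0x400000051c) (nat_lit 52)))
 (.n (.p (nat_lit 0x9f210902) (nat_lit 0x40805) (nat_lit 30))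
 (.p (nat_lit 0x26c102b102) (nat_lit 0x220020000000) (nat_lit 40))))))

def c256_219 : Tr :=
 .n (.n (.n (.n (.n (.n (.p (nat_lit 0x2e802e402e202e002de02c306) (nat_lit 0x8000006000) (nat_lit 52))
 (.p (nat_lit 0x27d41b2302) (nat_lit 0x4e400) (nat_lit 48)))
 (.p (nat_lit 0x8e002e902) (nat_lit 0x500307) (nat_lit 4)))
 (.n (.p (nat_lit 0x92409220920091e091c138b06) (nat_lit 0x800086901) (nat_lit 51))
 (.p (nat_lit 0x38a0388038603840382052506) (nat_lit 0x800080123) (nat_lit 51))))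
 (.n (.n (.n (.p (nat_lit 0xf210e6502) (nat_lit 0x152600) (nat_lit 16))
 (.p (nat_lit 0x1654288302) (nat_lit 0x342221ca4000500000600) (nat_lit 50)))
 (.p (nat_lit 0x48e048a0488048604840c5106) (nat_lit 0x8000002515) (nat_lit 52)))
 (.n (.p (nat_lit 0x8a0097009512f713dd05) (nat_lit 0x88d00204) (nat_lit 9))
 (.p (nat_lit 0x297248702) (nat_lit 0x50062d) (nat_lit 30)))))
 (.n (.n (.n (.n (.p (nat_lit 0x7ae091102) (nat_lit 0x140300) (nat_lit 4))
 (.p (nat_lit 0x26f512e102) (nat_lit 0x1e0040000900) (nat_lit 40)))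
 (.p (nat_lit 0x918091609120910090e0b6106) (nat_lit 0x40000c640e) (nat_lit 52)))
 (.n (.p (nat_lit 0x4c005300590fbf10a305) (nat_lit 0x61140b02) (nat_lit 9))
 (.p (nat_lit 0x1f281ebf02) (nat_lit 0x300b27) (nat_lit 5))))
 (.n (.n (.p (nat_lit 0x14dc14da14d814d6135d135b06) (nat_lit 0x1800008ca00) (nat_lit 52))
 (.p (nat_lit 0x43c093b02) (nat_lit 0x44001c) (nat_lit 4)))
 (.n (.p (nat_lit 0x101b100f02) (nat_lit 0x50c705) (nat_lit 16))
 (.p (nat_lit 0x24f265702) (nat_lit 0x400929) (nat_lit 28))))))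
 (.n (.n (.n (.n (.n (.p (nat_lit 0x65e065c065a06580656065406) (nat_lit 0x200) (nat_lit 2))
 (.p (nat_lit 0x26f90f3b02) (nat_lit 0x1a0040000700) (nat_lit 38)))
 (.p (nat_lit 0x178e178c1788178600e400db00d5178b178509) (nat_lit 0x1840b07) (nat_lit 10)))
 (.n (.p (nat_lit 0x139a0f8502) (nat_lit 0x200902) (nat_lit 4))
 (.p (nat_lit 0x153e23c502) (nat_lit 0x400a23) (nat_lit 29))))
 (.n (.n (.n (.p (nat_lit 0x10ae121302) (nat_lit 0x140800) (nat_lit 5))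
 (.p (nat_lit 0x38228c302) (nat_lit 0x3508a9d84000000040000) (nat_lit 50)))
 (.p (nat_lit 0x1a8819d502) (nat_lit 0x340417) (nat_lit 5)))
 (.n (.p (nat_lit 0x17141710170e170c00900085007d1713170b09) (nat_lit 0x2000b04) (nat_lit 10))
 (.p (nat_lit 0x10b255302) (nat_lit 0x30030e) (nat_lit 28)))))
 (.n (.n (.n (.n (.p (nat_lit 0xbc40bc00bbe0bba0a6b0a6506) (nat_lit 0x9000002500) (nat_lit 52))
 (.p (nat_lit 0x111c284702) (nat_lit 0x4a1a36344000200000600) (nat_lit 50)))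
 (.p (nat_lit 0x1de61c4102) (nat_lit 0x100b11) (nat_lit 4)))
 (.n (.p (nat_lit 0x671db502) (nat_lit 0x40603) (nat_lit 30))
 (.p (nat_lit 0xd580d560d540d520d5007d106) (nat_lit 0x80004c22a) (nat_lit 52))))
 (.n (.n (.p (nat_lit 0x17521750174e174a15f315ef06) (nat_lit 0x28000ceb00) (nat_lit 51))
 (.p (nat_lit 0x1fc21fbe1fbc1fba1fb8160f06) (nat_lit 0x800004ea1c) (nat_lit 51)))
 (.n (.p (nat_lit 0x1200168902) (nat_lit 0x400806) (nat_lit 4))
 (.p (nat_lit 0x27b6220b02) (nat_lit 0x80056100) (nat_lit 48))))))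

def c128_91 : Tr := .n c256_91 c256_219

def c64_27 : Tr := .n c128_27 c128_91

def c256_59 : Tr :=
 .n (.n (.n (.n (.n (.n (.p (nat_lit 0x990093008a03) (nat_lit 0xa1000004) (nat_lit 19))
 (.p (nat_lit 0x27c41b1d02) (nat_lit 0x6004e200) (nat_lit 48)))
 (.p (nat_lit 0x1658165616541650164e12c906) (nat_lit 0x2000056806) (nat_lit 51)))
 (.n (.p (nat_lit 0x61e0d8b02) (nat_lit 0x340101) (nat_lit 4))
 (.p (nat_lit 0x1f2e1fa502) (nat_lit 0x100021) (nat_lit 4))))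
 (.n (.n (.n (.p (nat_lit 0xd150b4d02) (nat_lit 0x544500) (nat_lit 16))
 (.p (nat_lit 0x1724285d02) (nat_lit 0x1a2260b50000500040600) (nat_lit 50)))
 (.p (nat_lit 0x354073f02) (nat_lit 0x200015) (nat_lit 4)))
 (.n (.p (nat_lit 0x1700127702) (nat_lit 0x100b03) (nat_lit 5))
 (.p (nat_lit 0x13880ce102) (nat_lit 0x50092a) (nat_lit 4)))))
 (.n (.n (.n (.n (.p (nat_lit 0x5ee073502) (nat_lit 0x340200) (nat_lit 5))
 (.p (nat_lit 0x280e1d1702) (nat_lit 0x2800) (nat_lit 47)))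
 (.p (nat_lit 0x2174212d02) (nat_lit 0x54030d) (nat_lit 4)))
 (.n (.p (nat_lit 0xe540e500e4e0e4c0e4a156306) (nat_lit 0x800008ca02) (nat_lit 52))
 (.p (nat_lit 0x21323e902) (nat_lit 0x440224) (nat_lit 30))))
 (.n (.n (.p (nat_lit 0x130a13081306130411a711a506) (nat_lit 0x3000088900) (nat_lit 52))
 (.p (nat_lit 0x1da41c9b02) (nat_lit 0x140518) (nat_lit 4)))
 (.n (.p (nat_lit 0x1fce1fcc1fca1fc61fc4090706) (nat_lit 0x200008e305) (nat_lit 51))
 (.p (nat_lit 0x18325b502) (nat_lit 0x500618) (nat_lit 28))))))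
 (.n (.n (.n (.n (.n (.p (nat_lit 0x467039702) (nat_lit 0x550000) (nat_lit 16))
 (.p (nat_lit 0x272f0ba902) (nat_lit 0x140060000500) (nat_lit 38)))
 (.p (nat_lit 0xa7203c702) (nat_lit 0x200407) (nat_lit 4)))
 (.n (.p (nat_lit 0x1933155702) (nat_lit 0x402a01) (nat_lit 16))
 (.p (nat_lit 0x7020a1702) (nat_lit 0x100223) (nat_lit 5))))
 (.n (.n (.n (.p (nat_lit 0xeec0eea0ee60ee40ee200070ee907) (nat_lit 0x340700) (nat_lit 7))
 (.p (nat_lit 0xab8289d02) (nat_lit 0x356068ca4000400040000) (nat_lit 49)))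
 (.p (nat_lit 0x1ad50d0f02) (nat_lit 0x24e515) (nat_lit 16)))
 (.n (.p (nat_lit 0x65e065a0658065606540e3b06) (nat_lit 0x8000004604) (nat_lit 52))
 (.p (nat_lit 0x4800460040003e0029000706) (nat_lit 0x1316a02) (nat_lit 26)))))
 (.n (.n (.n (.n (.p (nat_lit 0xa060a040a020a0009fe09fc06) (nat_lit 0x2400) (nat_lit 52))
 (.p (nat_lit 0x26cd158102) (nat_lit 0x160020000a00) (nat_lit 41)))
 (.p (nat_lit 0x11be04fb02) (nat_lit 0x30080e) (nat_lit 4)))
 (.n (.p (nat_lit 0x634122902) (nat_lit 0x240103) (nat_lit 4))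
 (.p (nat_lit 0x530243502) (nat_lit 0x12a) (nat_lit 29))))
 (.n (.n (.p (nat_lit 0x15c815c415c215c015be144506) (nat_lit 0x800004ea00) (nat_lit 51))
 (.p (nat_lit 0x5fe05fa05f805f605f401a705fd07) (nat_lit 0x44011c) (nat_lit 7)))
 (.n (.p (nat_lit 0x11f615e102) (nat_lit 0x500805) (nat_lit 4))
 (.p (nat_lit 0x268d27a502) (nat_lit 0x260000000000) (nat_lit 37))))))

def c256_187 : Tr :=
 .n (.n (.n (.n (.n (.n (.p (nat_lit 0x2bc02b102) (nat_lit 0x100000) (nat_lit 5))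
 (.p (nat_lit 0x2777081f02) (nat_lit 0x2c00a0000300) (nat_lit 38)))
 (.p (nat_lit 0x4f204f004ee04ec04ea07b906) (nat_lit 0x8000ce207) (nat_lit 52)))
 (.n (.p (nat_lit 0x146912b502) (nat_lit 0x440801) (nat_lit 15))
 (.p (nat_lit 0x44809f902) (nat_lit 0x440023) (nat_lit 4))))
 (.n (.n (.n (.p (nat_lit 0xeba0eb80eb60eb40eb20e6d06) (nat_lit 0x10000052600) (nat_lit 51))
 (.p (nat_lit 0x578287d02) (nat_lit 0x585a12b21000100040000) (nat_lit 50)))
 (.p (nat_lit 0xd150b7102) (nat_lit 0x540415) (nat_lit 15)))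
 (.n (.p (nat_lit 0xf1717d302) (nat_lit 0x240b03) (nat_lit 15))
 (.p (nat_lit 0xf01c0302) (nat_lit 0x20012d) (nat_lit 1)))))
 (.n (.n (.n (.n (.p (nat_lit 0x89c089a0898089606f306f106) (nat_lit 0x18000092300) (nat_lit 52))
 (.p (nat_lit 0x26d1281d02) (nat_lit 0x120020000900) (nat_lit 37)))
 (.p (nat_lit 0x20130a8102) (nat_lit 0x31440e) (nat_lit 16)))
 (.n (.p (nat_lit 0x16fa1b3702) (nat_lit 0x400b02) (nat_lit 29))
 (.p (nat_lit 0x125c125a1256125412521c5d06) (nat_lit 0x40000cc126) (nat_lit 52))))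
 (.n (.n (.p (nat_lit 0x1491148502) (nat_lit 0xa00) (nat_lit 34))
 (.p (nat_lit 0x1588158615841582157e035f06) (nat_lit 0x100009401c) (nat_lit 51)))
 (.n (.p (nat_lit 0x38a0388038603840380100706) (nat_lit 0x1000080705) (nat_lit 51))
 (.p (nat_lit 0x263a263826362634263201cd021607) (nat_lit 0x104824) (nat_lit 25))))))
 (.n (.n (.n (.n (.n (.p (nat_lit 0x5ed042102) (nat_lit 0x240100) (nat_lit 15))
 (.p (nat_lit 0x27fc19bb02) (nat_lit 0xa700) (nat_lit 47)))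
 (.p (nat_lit 0x16b4033702) (nat_lit 0x300b07) (nat_lit 5)))
 (.n (.p (nat_lit 0xb830b7702) (nat_lit 0x252402) (nat_lit 16))
 (.p (nat_lit 0x137423b302) (nat_lit 0x100923) (nat_lit 29))))
 (.n (.n (.n (.p (nat_lit 0x11af0fc902) (nat_lit 0x800) (nat_lit 16))
 (.p (nat_lit 0x72628bd02) (nat_lit 0x352868d64000200040000) (nat_lit 49)))
 (.p (nat_lit 0x152d152102) (nat_lit 0x108a15) (nat_lit 16)))
 (.n (.p (nat_lit 0x11941192118e118c118a10eb06) (nat_lit 0x4000056704) (nat_lit 52))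
 (.p (nat_lit 0x25222520251e251c251a000900c607) (nat_lit 0x40e906) (nat_lit 25)))))
 (.n (.n (.n (.n (.p (nat_lit 0xa620baf02) (nat_lit 0x500) (nat_lit 5))
 (.p (nat_lit 0xbb2283d02) (nat_lit 0x260d84344000500000000) (nat_lit 50)))
 (.p (nat_lit 0x1d861c2f02) (nat_lit 0x300511) (nat_lit 4)))
 (.n (.p (nat_lit 0xe26124702) (nat_lit 0x603) (nat_lit 4))
 (.p (nat_lit 0x7d20cb302) (nat_lit 0x14022a) (nat_lit 4))))
 (.n (.n (.p (nat_lit 0x1725171902) (nat_lit 0x140b00) (nat_lit 34))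
 (.p (nat_lit 0x1534097902) (nat_lit 0x500a1c) (nat_lit 5)))
 (.n (.p (nat_lit 0x21d821d621d421d221d021ce00c607) (nat_lit 0x40706) (nat_lit 8))
 (.p (nat_lit 0x2733057902) (nat_lit 0x100060000100) (nat_lit 41))))))

def c128_59 : Tr := .n c256_59 c256_187

def c256_123 : Tr :=
 .n (.n (.n (.n (.n (.n (.p (nat_lit 0x17e017a0178018504) (nat_lit 0x5800400018) (nat_lit 17))
 (.p (nat_lit 0x26f9082502) (nat_lit 0x1a0040000300) (nat_lit 40)))
 (.p (nat_lit 0x222e222c222a22282226222400c814831481147b0a) (nat_lit 0x16140906) (nat_lit 31)))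
 (.n (.p (nat_lit 0xd390d2d02) (nat_lit 0x550501) (nat_lit 16))
 (.p (nat_lit 0x20d8200b02) (nat_lit 0x340721) (nat_lit 4))))
 (.n (.n (.n (.p (nat_lit 0xe110d6702) (nat_lit 0x8600) (nat_lit 16))
 (.p (nat_lit 0x382286f02) (nat_lit 0x588872b44000000040000) (nat_lit 50)))
 (.p (nat_lit 0xa88229302) (nat_lit 0x100415) (nat_lit 29)))
 (.n (.p (nat_lit 0x1ddb170102) (nat_lit 0x100b03) (nat_lit 16))
 (.p (nat_lit 0x17be0cfb02) (nat_lit 0x440b2a) (nat_lit 5)))))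
 (.n (.n (.n (.n (.p (nat_lit 0x80305ef02) (nat_lit 0x352200) (nat_lit 16))
 (.p (nat_lit 0x272b121702) (nat_lit 0x180060000800) (nat_lit 41)))
 (.p (nat_lit 0x9ac059302) (nat_lit 0x44030e) (nat_lit 5)))
 (.n (.p (nat_lit 0x65e065c065a06580656162b06) (nat_lit 0x800044a02) (nat_lit 52))
 (.p (nat_lit 0x195a241502) (nat_lit 0x200025) (nat_lit 29))))
 (.n (.n (.p (nat_lit 0x13c013b4129303) (nat_lit 0x340900) (nat_lit 6))
 (.p (nat_lit 0x20421f7502) (nat_lit 0x44041a) (nat_lit 5)))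
 (.n (.p (nat_lit 0xe4815bd02) (nat_lit 0x500605) (nat_lit 5))
 (.p (nat_lit 0x19a25fb02) (nat_lit 0x400122) (nat_lit 27))))))
 (.n (.n (.n (.n (.n (.p (nat_lit 0x517034f02) (nat_lit 0x500100) (nat_lit 15))
 (.p (nat_lit 0x26e30d5d02) (nat_lit 0x20000600) (nat_lit 40)))
 (.p (nat_lit 0xdea03df02) (nat_lit 0x300607) (nat_lit 5)))
 (.n (.p (nat_lit 0x62e198302) (nat_lit 0x540102) (nat_lit 29))
 (.p (nat_lit 0x1fd238702) (nat_lit 0x300623) (nat_lit 30))))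
 (.n (.n (.n (.p (nat_lit 0x10ed0eeb02) (nat_lit 0x452700) (nat_lit 16))
 (.p (nat_lit 0x2a228ad02) (nat_lit 0x354a621b0000000000000) (nat_lit 49)))
 (.p (nat_lit 0x136511cf02) (nat_lit 0x500815) (nat_lit 15)))
 (.n (.p (nat_lit 0x9d609d409d209cc0f230f2106) (nat_lit 0x3000048604) (nat_lit 52))
 (.p (nat_lit 0x8324eb02) (nat_lit 0x300b04) (nat_lit 28)))))
 (.n (.n (.n (.n (.p (nat_lit 0x9940ab902) (nat_lit 0x440400) (nat_lit 4))
 (.p (nat_lit 0x28360e3f02) (nat_lit 0x12b00) (nat_lit 47)))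
 (.p (nat_lit 0x1934182d02) (nat_lit 0x500a0f) (nat_lit 4)))
 (.n (.p (nat_lit 0x6d1cc302) (nat_lit 0x340303) (nat_lit 30))
 (.p (nat_lit 0x7d3060f02) (nat_lit 0x14012a) (nat_lit 15))))
 (.n (.n (.p (nat_lit 0xc4151d02) (nat_lit 0x500b00) (nat_lit 1))
 (.p (nat_lit 0xa1e0a1a0a180a140d1f0d1906) (nat_lit 0x900004451c) (nat_lit 51)))
 (.n (.p (nat_lit 0x142e142c142a1428142612b906) (nat_lit 0x800056805) (nat_lit 51))
 (.p (nat_lit 0x276f02b702) (nat_lit 0x40080000000) (nat_lit 40))))))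

def c256_251 : Tr :=
 .n (.n (.n (.n (.n (.n (.p (nat_lit 0x37102c302) (nat_lit 0x408000) (nat_lit 16))
 (.p (nat_lit 0x276927e102) (nat_lit 0xa0080000400) (nat_lit 36)))
 (.p (nat_lit 0x1720171e171c1718171608db06) (nat_lit 0x2000096307) (nat_lit 52)))
 (.n (.p (nat_lit 0x14660dcb02) (nat_lit 0x340901) (nat_lit 5))
 (.p (nat_lit 0x23722370236e236c236a2368020207) (nat_lit 0x40123) (nat_lit 8))))
 (.n (.n (.n (.p (nat_lit 0xf8a0f860f820f800de10ddd06) (nat_lit 0xa000012700) (nat_lit 52))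
 (.p (nat_lit 0x730288d02) (nat_lit 0x356221ca4000200040000) (nat_lit 50)))
 (.p (nat_lit 0x164c164a1648164416420c4d06) (nat_lit 0x2000016515) (nat_lit 52)))
 (.n (.p (nat_lit 0x811080502) (nat_lit 0x456204) (nat_lit 16))
 (.p (nat_lit 0x15de15dc15da15d815d61f6d06) (nat_lit 0x1000001022f) (nat_lit 52)))))
 (.n (.n (.n (.n (.p (nat_lit 0x960095e095a095807b307ad06) (nat_lit 0x480004a300) (nat_lit 51))
 (.p (nat_lit 0x2727282302) (nat_lit 0x1c0060000900) (nat_lit 37)))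
 (.p (nat_lit 0xc4204d302) (nat_lit 0x30050e) (nat_lit 5)))
 (.n (.p (nat_lit 0xdc20dbe0dbc0dba0db817cb06) (nat_lit 0x8000052b02) (nat_lit 52))
 (.p (nat_lit 0x2138217702) (nat_lit 0x129) (nat_lit 4))))
 (.n (.n (.p (nat_lit 0x1533135b02) (nat_lit 0x406a00) (nat_lit 16))
 (.p (nat_lit 0x13b813b413b213b013ae043d06) (nat_lit 0x80000d201c) (nat_lit 52)))
 (.n (.p (nat_lit 0x66a066806660664066010f306) (nat_lit 0x1000044705) (nat_lit 51))
 (.p (nat_lit 0x289267902) (nat_lit 0x50032c) (nat_lit 28))))))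
 (.n (.n (.n (.n (.n (.p (nat_lit 0x680067e067a06780676051306) (nat_lit 0x4000080200) (nat_lit 51))
 (.p (nat_lit 0x2737102f02) (nat_lit 0xc0060000700) (nat_lit 41)))
 (.p (nat_lit 0x1caa1b8d02) (nat_lit 0x34020a) (nat_lit 5)))
 (.n (.p (nat_lit 0x1472107702) (nat_lit 0x340902) (nat_lit 5))
 (.p (nat_lit 0x219e219c219a2198219616db06) (nat_lit 0x800090b23) (nat_lit 51))))
 (.n (.n (.p (nat_lit 0x1266126412621260125e10ad06) (nat_lit 0x800054800) (nat_lit 51))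
 (.p (nat_lit 0x1ada19ad02) (nat_lit 0x540517) (nat_lit 5)))
 (.n (.p (nat_lit 0x14f814f614f214f014ee17e106) (nat_lit 0x40000ceb04) (nat_lit 51))
 (.p (nat_lit 0x125256f02) (nat_lit 0x200411) (nat_lit 28)))))
 (.n (.n (.n (.n (.p (nat_lit 0x2c50a6d02) (nat_lit 0x500500) (nat_lit 15))
 (.p (nat_lit 0x488284f02) (nat_lit 0x4a0d84344000100000000) (nat_lit 49)))
 (.p (nat_lit 0x1e121c5502) (nat_lit 0x540b11) (nat_lit 4)))
 (.n (.p (nat_lit 0x1570156e156c156a15680067156707) (nat_lit 0xa03) (nat_lit 7))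
 (.p (nat_lit 0x8f20bed02) (nat_lit 0x20032a) (nat_lit 5))))
 (.n (.n (.p (nat_lit 0x178f15f902) (nat_lit 0x540b00) (nat_lit 16))
 (.p (nat_lit 0x193a186302) (nat_lit 0x200a1d) (nat_lit 5)))
 (.n (.p (nat_lit 0x13b813b413b213b013ae120106) (nat_lit 0x8000092806) (nat_lit 52))
 (.p (nat_lit 0x268d065502) (nat_lit 0x260000000200) (nat_lit 38))))))

def c128_123 : Tr := .n c256_123 c256_251

def c64_59 : Tr := .n c128_59 c128_123

def c32_27 : Tr := .n c64_27 c64_59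

def c16_11 : Tr := .n c32_11 c32_27

def c8_3 : Tr := .n c16_3 c16_11

def c256_7 : Tr :=
 .n (.n (.n (.n (.n (.n (.p (nat_lit 0x1500130011000d04) (nat_lit 0x511900000) (nat_lit 21))
 (.p (nat_lit 0x27b8190302) (nat_lit 0xc200) (nat_lit 47)))
 (.p (nat_lit 0x21f7120302) (nat_lit 0x506806) (nat_lit 16)))
 (.n (.p (nat_lit 0x17b915f102) (nat_lit 0x14ab00) (nat_lit 16))
 (.p (nat_lit 0xfac0faa0fa80fa60fa4195506) (nat_lit 0x1000009401e) (nat_lit 51))))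
 (.n (.n (.n (.p (nat_lit 0xc5d0a6b02) (nat_lit 0x406500) (nat_lit 16))
 (.p (nat_lit 0x56a285102) (nat_lit 0x4a8876344000100040000) (nat_lit 49)))
 (.p (nat_lit 0x13b227f02) (nat_lit 0x340512) (nat_lit 30)))
 (.n (.p (nat_lit 0x131613141312130e130c156b06) (nat_lit 0x200000ca03) (nat_lit 52))
 (.p (nat_lit 0xade0ad80ad60ad408f708f506) (nat_lit 0xc00008032a) (nat_lit 51)))))
 (.n (.n (.n (.n (.p (nat_lit 0x6a206a0069e069c069a069806) (nat_lit 0xa200) (nat_lit 52))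
 (.p (nat_lit 0x28061aab02) (nat_lit 0x60004700) (nat_lit 48)))
 (.p (nat_lit 0x1cdc1b5302) (nat_lit 0x4030a) (nat_lit 5)))
 (.n (.p (nat_lit 0x11661162115e115c1475147106) (nat_lit 0xa00004c902) (nat_lit 51))
 (.p (nat_lit 0x17ae0b3d02) (nat_lit 0x240b23) (nat_lit 5))))
 (.n (.n (.p (nat_lit 0x128d10ad02) (nat_lit 0x40800) (nat_lit 15))
 (.p (nat_lit 0x1ae419f502) (nat_lit 0x400917) (nat_lit 5)))
 (.n (.p (nat_lit 0x47a047804760472047000a3047507) (nat_lit 0x240005) (nat_lit 7))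
 (.p (nat_lit 0x14b257b02) (nat_lit 0x300415) (nat_lit 28))))))
 (.n (.n (.n (.n (.n (.p (nat_lit 0x392037b02) (nat_lit 0x340000) (nat_lit 4))
 (.p (nat_lit 0x269327e502) (nat_lit 0x200000000500) (nat_lit 37)))
 (.p (nat_lit 0x2246224422422240223e223c00e007) (nat_lit 0x40307) (nat_lit 8)))
 (.n (.p (nat_lit 0x2b402b202b002ae146b146906) (nat_lit 0x18000040901) (nat_lit 51))
 (.p (nat_lit 0x6060af302) (nat_lit 0x340123) (nat_lit 4))))
 (.n (.n (.n (.p (nat_lit 0xfba0fb80fb20fb00ddf0ddd06) (nat_lit 0x6000016700) (nat_lit 51))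
 (.p (nat_lit 0x1112288f02) (nat_lit 0x356221ca4000200000600) (nat_lit 50)))
 (.p (nat_lit 0xd0a06a502) (nat_lit 0x40515) (nat_lit 5)))
 (.n (.p (nat_lit 0xb9013f102) (nat_lit 0x340404) (nat_lit 5))
 (.p (nat_lit 0x1fd4207502) (nat_lit 0x40032f) (nat_lit 4)))))
 (.n (.n (.n (.n (.p (nat_lit 0x99707b702) (nat_lit 0x540300) (nat_lit 15))
 (.p (nat_lit 0x2822156d02) (nat_lit 0x6000e900) (nat_lit 47)))
 (.p (nat_lit 0xc4b0c3f02) (nat_lit 0x10650e) (nat_lit 16)))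
 (.n (.p (nat_lit 0x1b501b4e1b4c1b4a1b481b4606) (nat_lit 0x84003) (nat_lit 52))
 (.p (nat_lit 0x21c221a102) (nat_lit 0x729) (nat_lit 4))))
 (.n (.n (.p (nat_lit 0x155d135502) (nat_lit 0x10ea00) (nat_lit 16))
 (.p (nat_lit 0x445043902) (nat_lit 0x24a01c) (nat_lit 16)))
 (.n (.p (nat_lit 0xac60ac20ac00abe0abc10f906) (nat_lit 0x80000c8705) (nat_lit 51))
 (.p (nat_lit 0x26822680267e267c267a0233028a07) (nat_lit 0x40692c) (nat_lit 25))))))

def c256_135 : Tr :=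
 .n (.n (.n (.n (.n (.n (.p (nat_lit 0x1bd01bb01ac03) (nat_lit 0x42c0001c) (nat_lit 19))
 (.p (nat_lit 0x27cc0b6b02) (nat_lit 0x40042300) (nat_lit 48)))
 (.p (nat_lit 0x10806f902) (nat_lit 0x200207) (nat_lit 1)))
 (.n (.p (nat_lit 0x11e80ea302) (nat_lit 0x400801) (nat_lit 5))
 (.p (nat_lit 0x97609740970096e20dd20d706) (nat_lit 0x12000054721) (nat_lit 51))))
 (.n (.n (.n (.p (nat_lit 0xe3d0d7102) (nat_lit 0x512600) (nat_lit 16))
 (.p (nat_lit 0x172d171d1583157513bb13b51219120f102f10210e590e4b28720d) (nat_lit 0x568872b44000000040600) (nat_lit 33)))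
 (.p (nat_lit 0xa8e229902) (nat_lit 0x400415) (nat_lit 29)))
 (.n (.p (nat_lit 0x17d2119b02) (nat_lit 0x240b03) (nat_lit 5))
 (.p (nat_lit 0x192c192a192619241922027d192907) (nat_lit 0x34092b) (nat_lit 7)))))
 (.n (.n (.n (.n (.p (nat_lit 0x6ea082302) (nat_lit 0x100300) (nat_lit 5))
 (.p (nat_lit 0x2719110d02) (nat_lit 0x2a0060000800) (nat_lit 38)))
 (.p (nat_lit 0xa7a059702) (nat_lit 0x40e) (nat_lit 5)))
 (.n (.p (nat_lit 0xaba0ab80ab60ab40ab0162d06) (nat_lit 0x10000c8a02) (nat_lit 52))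
 (.p (nat_lit 0x1a0c1a4f02) (nat_lit 0x140225) (nat_lit 5))))
 (.n (.n (.p (nat_lit 0x12941290128e128c0020000b00071297129309) (nat_lit 0x2b40900) (nat_lit 10))
 (.p (nat_lit 0x20fe1f8302) (nat_lit 0x81a) (nat_lit 5)))
 (.n (.p (nat_lit 0x16aa16a816a616a416a20e4906) (nat_lit 0x10000092605) (nat_lit 51))
 (.p (nat_lit 0x260626042602260025fe0009020207) (nat_lit 0x404023) (nat_lit 25))))))
 (.n (.n (.n (.n (.n (.p (nat_lit 0x537034b02) (nat_lit 0x30a100) (nat_lit 16))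
 (.p (nat_lit 0x26c527f702) (nat_lit 0x1e0020000600) (nat_lit 36)))
 (.p (nat_lit 0xef80ef40ef20ef00eee00dd0ef707) (nat_lit 0x440607) (nat_lit 7)))
 (.n (.p (nat_lit 0x71c199702) (nat_lit 0x500202) (nat_lit 29))
 (.p (nat_lit 0xefc0a3702) (nat_lit 0x140623) (nat_lit 4))))
 (.n (.n (.n (.p (nat_lit 0xfc8110702) (nat_lit 0x800) (nat_lit 4))
 (.p (nat_lit 0x1729171b1587157313c513b11211120b102d10250e570e5528ae0d) (nat_lit 0x350521a82800000040600) (nat_lit 33)))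
 (.p (nat_lit 0x14b22eb02) (nat_lit 0x300915) (nat_lit 30)))
 (.n (.p (nat_lit 0x12e612e412e212de12dc0f2306) (nat_lit 0x2000052604) (nat_lit 51))
 (.p (nat_lit 0x1dc24fd02) (nat_lit 0x100305) (nat_lit 27)))))
 (.n (.n (.n (.n (.p (nat_lit 0xade0ada0ad80ad60ad4099506) (nat_lit 0x80000c0400) (nat_lit 51))
 (.p (nat_lit 0x2709164702) (nat_lit 0xa0040000b00) (nat_lit 38)))
 (.p (nat_lit 0x1cba1bc702) (nat_lit 0x500311) (nat_lit 4)))
 (.n (.p (nat_lit 0xaa01cf102) (nat_lit 0x400403) (nat_lit 29))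
 (.p (nat_lit 0x7140cad02) (nat_lit 0x40022a) (nat_lit 5))))
 (.n (.n (.p (nat_lit 0x168a1688168616821680151706) (nat_lit 0x2000010b00) (nat_lit 52))
 (.p (nat_lit 0x10d4087d02) (nat_lit 0x14071c) (nat_lit 5)))
 (.n (.p (nat_lit 0x64c172f02) (nat_lit 0x40106) (nat_lit 5))
 (.p (nat_lit 0x26af27ad02) (nat_lit 0x40000000100) (nat_lit 37))))))

def c128_7 : Tr := .n c256_7 c256_135

def c256_71 : Tr :=
 .n (.n (.n (.n (.n (.n (.p (nat_lit 0xb300af00ac03) (nat_lit 0x21000005) (nat_lit 19))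
 (.p (nat_lit 0x275d066902) (nat_lit 0x160080000200) (nat_lit 40)))
 (.p (nat_lit 0x13ac13aa13a813a613a200bd13a507) (nat_lit 0x100906) (nat_lit 7)))
 (.n (.p (nat_lit 0x62b061f02) (nat_lit 0x350101) (nat_lit 16))
 (.p (nat_lit 0x15e015de15dc15d815d61f3106) (nat_lit 0x2000010021) (nat_lit 52))))
 (.n (.n (.n (.p (nat_lit 0xd4d0b4d02) (nat_lit 0x554500) (nat_lit 16))
 (.p (nat_lit 0xabc286302) (nat_lit 0x281d30344000400040000) (nat_lit 50)))
 (.p (nat_lit 0x35a228f02) (nat_lit 0x500015) (nat_lit 29)))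
 (.n (.p (nat_lit 0x170817041702170016fe006f170707) (nat_lit 0x400b03) (nat_lit 7))
 (.p (nat_lit 0x15480c1b02) (nat_lit 0x300a2a) (nat_lit 5)))))
 (.n (.n (.n (.n (.p (nat_lit 0x740073e073c073a05f305f106) (nat_lit 0x18000040200) (nat_lit 52))
 (.p (nat_lit 0x280e10e502) (nat_lit 0x54800) (nat_lit 47)))
 (.p (nat_lit 0x8e2057f02) (nat_lit 0x30e) (nat_lit 5)))
 (.n (.p (nat_lit 0x12e412e212e012de12dc156506) (nat_lit 0x10000012a02) (nat_lit 51))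
 (.p (nat_lit 0x21523f702) (nat_lit 0x500824) (nat_lit 30))))
 (.n (.n (.p (nat_lit 0x13441342133e133c11a911a306) (nat_lit 0x4800016900) (nat_lit 52))
 (.p (nat_lit 0x1eda1e2d02) (nat_lit 0x100519) (nat_lit 4)))
 (.n (.p (nat_lit 0x9ca1fe302) (nat_lit 0x540305) (nat_lit 29))
 (.p (nat_lit 0x1a601a401a2019e01dd000b06) (nat_lit 0xd1401c) (nat_lit 26))))))
 (.n (.n (.n (.n (.n (.p (nat_lit 0x344049102) (nat_lit 0x100) (nat_lit 5))
 (.p (nat_lit 0x275327ef02) (nat_lit 0x200080000500) (nat_lit 37)))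
 (.p (nat_lit 0xa780a740a720a7000e600dd00d50a770a6f09) (nat_lit 0x2000407) (nat_lit 10)))
 (.n (.p (nat_lit 0xbc162102) (nat_lit 0x140a01) (nat_lit 1))
 (.p (nat_lit 0x70a0a1f02) (nat_lit 0x500223) (nat_lit 5))))
 (.n (.n (.n (.p (nat_lit 0x1048104610441042103e0ee506) (nat_lit 0x10000c2700) (nat_lit 52))
 (.p (nat_lit 0xc7a289f02) (nat_lit 0x354868ca4000500040000) (nat_lit 49)))
 (.p (nat_lit 0xe0406b702) (nat_lit 0x400615) (nat_lit 5)))
 (.n (.p (nat_lit 0xbb80bb40bb00bae0e3b0e3706) (nat_lit 0xa00000a604) (nat_lit 51))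
 (.p (nat_lit 0x6d24c302) (nat_lit 0x300003) (nat_lit 28)))))
 (.n (.n (.n (.n (.p (nat_lit 0xa280a260a240a2208cd08cb06) (nat_lit 0x1800084400) (nat_lit 51))
 (.p (nat_lit 0x282c147b02) (nat_lit 0x2004ca00) (nat_lit 47)))
 (.p (nat_lit 0x1bf01bee1bec1bea1be811c306) (nat_lit 0x1000009680e) (nat_lit 51)))
 (.n (.p (nat_lit 0x63a1c1102) (nat_lit 0x540103) (nat_lit 29))
 (.p (nat_lit 0x25b243b02) (nat_lit 0x30012a) (nat_lit 30))))
 (.n (.n (.p (nat_lit 0x15e015de15dc15da15d6143f06) (nat_lit 0x1000050a00) (nat_lit 52))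
 (.p (nat_lit 0x60305f702) (nat_lit 0x14a11c) (nat_lit 16)))
 (.n (.p (nat_lit 0x1322131e131c131a131811f506) (nat_lit 0x800008c805) (nat_lit 51))
 (.p (nat_lit 0x268502af02) (nat_lit 0x2e0000000000) (nat_lit 40))))))

def c256_199 : Tr :=
 .n (.n (.n (.n (.n (.n (.p (nat_lit 0x2c202b702) (nat_lit 0x400000) (nat_lit 5))
 (.p (nat_lit 0x269109d902) (nat_lit 0x220000000400) (nat_lit 40)))
 (.p (nat_lit 0x1caf07c302) (nat_lit 0x550207) (nat_lit 16)))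
 (.n (.p (nat_lit 0x13900dbf02) (nat_lit 0x300901) (nat_lit 4))
 (.p (nat_lit 0xbf20bee0bea0be80449044506) (nat_lit 0xa000046023) (nat_lit 51))))
 (.n (.n (.n (.p (nat_lit 0xede0edc0eda0ed80ed60e6d06) (nat_lit 0x100000d4600) (nat_lit 52))
 (.p (nat_lit 0xf48288102) (nat_lit 0x585a12b21000100000600) (nat_lit 50)))
 (.p (nat_lit 0x14722ab02) (nat_lit 0x100515) (nat_lit 30)))
 (.n (.p (nat_lit 0x46c13cb02) (nat_lit 0x440004) (nat_lit 5))
 (.p (nat_lit 0x1b901b8e1b8c1b8a1b881c6306) (nat_lit 0x8000c412d) (nat_lit 51)))))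
 (.n (.n (.n (.n (.p (nat_lit 0x8db06ed02) (nat_lit 0x200300) (nat_lit 16))
 (.p (nat_lit 0x281c1e8502) (nat_lit 0x2004a900) (nat_lit 47)))
 (.p (nat_lit 0xb6205ab02) (nat_lit 0x44040e) (nat_lit 4)))
 (.n (.p (nat_lit 0xeb00eae0eac0ea616f716f506) (nat_lit 0x3000090b02) (nat_lit 51))
 (.p (nat_lit 0x1df61d4b02) (nat_lit 0x300b26) (nat_lit 5))))
 (.n (.n (.p (nat_lit 0x135a148d02) (nat_lit 0x400a00) (nat_lit 4))
 (.p (nat_lit 0x1b73035f02) (nat_lit 0x11001c) (nat_lit 16)))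
 (.n (.p (nat_lit 0x9d609d409d209d009cc100706) (nat_lit 0x1000008705) (nat_lit 52))
 (.p (nat_lit 0x240023e023a023800a3029f06) (nat_lit 0x1502028) (nat_lit 26))))))
 (.n (.n (.n (.n (.n (.p (nat_lit 0x60b042702) (nat_lit 0x548100) (nat_lit 16))
 (.p (nat_lit 0x26cb280102) (nat_lit 0x180020000700) (nat_lit 36)))
 (.p (nat_lit 0x1de316b902) (nat_lit 0x510b07) (nat_lit 16)))
 (.n (.p (nat_lit 0xd300f7902) (nat_lit 0x140502) (nat_lit 5))
 (.p (nat_lit 0x153f137b02) (nat_lit 0x400923) (nat_lit 15))))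
 (.n (.n (.n (.p (nat_lit 0x11e50fcd02) (nat_lit 0x20c800) (nat_lit 16))
 (.p (nat_lit 0x120628bf02) (nat_lit 0x3503a8d84000200040600) (nat_lit 49)))
 (.p (nat_lit 0x179c07a902) (nat_lit 0x340b15) (nat_lit 4)))
 (.n (.p (nat_lit 0x170c133d02) (nat_lit 0x100b04) (nat_lit 4))
 (.p (nat_lit 0xf7253702) (nat_lit 0x50020a) (nat_lit 28)))))
 (.n (.n (.n (.n (.p (nat_lit 0x25a0a6902) (nat_lit 0x300500) (nat_lit 1))
 (.p (nat_lit 0xc8a283f02) (nat_lit 0x4a1a22344000500040000) (nat_lit 50)))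
 (.p (nat_lit 0x1d9a1c3702) (nat_lit 0x240511) (nat_lit 4)))
 (.n (.p (nat_lit 0xe2e116502) (nat_lit 0x400603) (nat_lit 5))
 (.p (nat_lit 0x7d807d607d407d207d0025f07db07) (nat_lit 0x54022a) (nat_lit 7))))
 (.n (.n (.p (nat_lit 0x15f6171f02) (nat_lit 0x440b00) (nat_lit 4))
 (.p (nat_lit 0x1539152d02) (nat_lit 0x10aa1c) (nat_lit 16)))
 (.n (.p (nat_lit 0x1102175102) (nat_lit 0x440706) (nat_lit 5))
 (.p (nat_lit 0x2715049702) (nat_lit 0x2e0060000100) (nat_lit 40))))))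

def c128_71 : Tr := .n c256_71 c256_199

def c64_7 : Tr := .n c128_7 c128_71

def c256_39 : Tr :=
 .n (.n (.n (.n (.n (.n (.p (nat_lit 0x6500610057004e04) (nat_lit 0xad000002) (nat_lit 20))
 (.p (nat_lit 0x270927bf02) (nat_lit 0xa0040000200) (nat_lit 37)))
 (.p (nat_lit 0x92409220920091e091c12c506) (nat_lit 0x8000c6806) (nat_lit 51)))
 (.n (.p (nat_lit 0x53e0e7b02) (nat_lit 0x200101) (nat_lit 5))
 (.p (nat_lit 0x1d941cdb02) (nat_lit 0x50051f) (nat_lit 5))))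
 (.n (.n (.n (.p (nat_lit 0xcba0cb80cb20cb00b490b4706) (nat_lit 0x60000c4500) (nat_lit 52))
 (.p (nat_lit 0xf3a285b02) (nat_lit 0x281d30344000100000600) (nat_lit 49)))
 (.p (nat_lit 0x4a604a404a204a0049c21e506) (nat_lit 0x1000006814) (nat_lit 52)))
 (.n (.p (nat_lit 0x16401dcb02) (nat_lit 0x540a03) (nat_lit 29))
 (.p (nat_lit 0x25b245302) (nat_lit 0x30062a) (nat_lit 30)))))
 (.n (.n (.n (.n (.p (nat_lit 0x70f050f02) (nat_lit 0x10a200) (nat_lit 16))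
 (.p (nat_lit 0x26ab111302) (nat_lit 0x80000000800) (nat_lit 40)))
 (.p (nat_lit 0x1dfc1b9f02) (nat_lit 0x40b0a) (nat_lit 4)))
 (.n (.p (nat_lit 0x48e048a048804860484156306) (nat_lit 0x8000002a02) (nat_lit 52))
 (.p (nat_lit 0x183218b302) (nat_lit 0x240124) (nat_lit 4))))
 (.n (.n (.p (nat_lit 0x11a412d302) (nat_lit 0x100900) (nat_lit 4))
 (.p (nat_lit 0x1baa1c8f02) (nat_lit 0x40018) (nat_lit 4)))
 (.n (.p (nat_lit 0x9cb081302) (nat_lit 0x540205) (nat_lit 15))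
 (.p (nat_lit 0x14d259f02) (nat_lit 0x400915) (nat_lit 28))))))
 (.n (.n (.n (.n (.n (.p (nat_lit 0x41f038f02) (nat_lit 0x140000) (nat_lit 15))
 (.p (nat_lit 0x26eb0bb302) (nat_lit 0x280040000500) (nat_lit 40)))
 (.p (nat_lit 0x102610221020101e101c09a106) (nat_lit 0x80000ce307) (nat_lit 52)))
 (.n (.p (nat_lit 0x1927146502) (nat_lit 0x24a901) (nat_lit 16))
 (.p (nat_lit 0x1032102e102c102a1028060906) (nat_lit 0x80000ce123) (nat_lit 51))))
 (.n (.n (.n (.p (nat_lit 0x10190de102) (nat_lit 0x416700) (nat_lit 16))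
 (.p (nat_lit 0xe58289702) (nat_lit 0x344580ca4000000040600) (nat_lit 50)))
 (.p (nat_lit 0xf4c0f480f460f440f420d1306) (nat_lit 0x800004e515) (nat_lit 51)))
 (.n (.p (nat_lit 0xe3a13fd02) (nat_lit 0x400604) (nat_lit 5))
 (.p (nat_lit 0x4800460040003e000501d106) (nat_lit 0x1314302) (nat_lit 26)))))
 (.n (.n (.n (.n (.p (nat_lit 0x8d009d302) (nat_lit 0x300400) (nat_lit 4))
 (.p (nat_lit 0x268b282902) (nat_lit 0x280000000a00) (nat_lit 37)))
 (.p (nat_lit 0xe010df502) (nat_lit 0x20660e) (nat_lit 16)))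
 (.n (.p (nat_lit 0x550122302) (nat_lit 0x500103) (nat_lit 4))
 (.p (nat_lit 0x2200219302) (nat_lit 0x400829) (nat_lit 5))))
 (.n (.n (.p (nat_lit 0x1444158702) (nat_lit 0x440a00) (nat_lit 5))
 (.p (nat_lit 0x76807660762075e051f051b06) (nat_lit 0x500008811c) (nat_lit 51)))
 (.n (.p (nat_lit 0x11ec14fb02) (nat_lit 0x805) (nat_lit 5))
 (.p (nat_lit 0x269f02a302) (nat_lit 0x140000000000) (nat_lit 38))))))

def c256_167 : Tr :=
 .n (.n (.n (.n (.n (.n (.p (nat_lit 0x25c026502) (nat_lit 0x800060002a) (nat_lit 17))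
 (.p (nat_lit 0x2751081d02) (nat_lit 0x220080000300) (nat_lit 38)))
 (.p (nat_lit 0x7ba02d502) (nat_lit 0x140207) (nat_lit 4)))
 (.n (.p (nat_lit 0x12b60db702) (nat_lit 0x540801) (nat_lit 4))
 (.p (nat_lit 0xbd80bd60bd40bd20bd0037306) (nat_lit 0x10000004023) (nat_lit 52))))
 (.n (.n (.n (.p (nat_lit 0xe6a0e680e660e640e62000b0e6d07) (nat_lit 0x540600) (nat_lit 7))
 (.p (nat_lit 0x826287902) (nat_lit 0x588bb0344000300000000) (nat_lit 50)))
 (.p (nat_lit 0xb6c076502) (nat_lit 0x340415) (nat_lit 5)))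
 (.n (.p (nat_lit 0xe600e5e0e5c0e580e5617d306) (nat_lit 0x20000ccb03) (nat_lit 51))
 (.p (nat_lit 0x1b001ac702) (nat_lit 0x100a2c) (nat_lit 4)))))
 (.n (.n (.n (.n (.p (nat_lit 0x842083e083c083a083806f106) (nat_lit 0x8000080300) (nat_lit 51))
 (.p (nat_lit 0x26af13af02) (nat_lit 0x40000000900) (nat_lit 39)))
 (.p (nat_lit 0x10321030102c102a10280a8106) (nat_lit 0x400008e40e) (nat_lit 51)))
 (.n (.p (nat_lit 0x1641163502) (nat_lit 0x552a02) (nat_lit 16))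
 (.p (nat_lit 0x1bfc1d3502) (nat_lit 0x400126) (nat_lit 5))))
 (.n (.n (.p (nat_lit 0x143f128f02) (nat_lit 0x140900) (nat_lit 15))
 (.p (nat_lit 0xc8c0c880c860c840c82036506) (nat_lit 0x800008a01c) (nat_lit 51)))
 (.n (.p (nat_lit 0x10f90f3302) (nat_lit 0x440605) (nat_lit 15))
 (.p (nat_lit 0x262626222620261e261c006f020207) (nat_lit 0x402823) (nat_lit 25))))))
 (.n (.n (.n (.n (.n (.p (nat_lit 0x426057102) (nat_lit 0x540100) (nat_lit 4))
 (.p (nat_lit 0x27450e5f02) (nat_lit 0x2e0080000600) (nat_lit 41)))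
 (.p (nat_lit 0x1600032b02) (nat_lit 0x340a07) (nat_lit 5)))
 (.n (.p (nat_lit 0x19fe19fc19fa19f819f607e506) (nat_lit 0x800054202) (nat_lit 51))
 (.p (nat_lit 0x1d081d061d041d021d0011df06) (nat_lit 0x10000082823) (nat_lit 51))))
 (.n (.n (.n (.p (nat_lit 0x1170116e116a11680fcf0fcd06) (nat_lit 0x600008c800) (nat_lit 51))
 (.p (nat_lit 0x13c028b502) (nat_lit 0x3503a8d64000300040600) (nat_lit 50)))
 (.p (nat_lit 0x1528152615241522151e0147152107) (nat_lit 0x100a15) (nat_lit 7)))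
 (.n (.p (nat_lit 0x6810e702) (nat_lit 0x140704) (nat_lit 1))
 (.p (nat_lit 0xa5251502) (nat_lit 0x300805) (nat_lit 28)))))
 (.n (.n (.n (.n (.p (nat_lit 0xb5d098f02) (nat_lit 0x142400) (nat_lit 16))
 (.p (nat_lit 0x279b172102) (nat_lit 0x800a0000b00) (nat_lit 39)))
 (.p (nat_lit 0x1d5a1bd702) (nat_lit 0x240411) (nat_lit 5)))
 (.n (.p (nat_lit 0xb910b8502) (nat_lit 0x354403) (nat_lit 16))
 (.p (nat_lit 0x120c120a120612040717071106) (nat_lit 0x1200009022a) (nat_lit 52))))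
 (.n (.n (.p (nat_lit 0x16f9151902) (nat_lit 0x30eb00) (nat_lit 16))
 (.p (nat_lit 0x160f145d02) (nat_lit 0x44091c) (nat_lit 15)))
 (.n (.p (nat_lit 0x1016174502) (nat_lit 0x300706) (nat_lit 5))
 (.p (nat_lit 0x26ef048902) (nat_lit 0x240040000100) (nat_lit 38))))))

def c128_39 : Tr := .n c256_39 c256_167

def c256_103 : Tr :=
 .n (.n (.n (.n (.n (.n (.p (nat_lit 0x14e01480146015104) (nat_lit 0x13000400015) (nat_lit 17))
 (.p (nat_lit 0x26d127cb02) (nat_lit 0x120020000300) (nat_lit 37)))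
 (.p (nat_lit 0x147c16a702) (nat_lit 0x240906) (nat_lit 5)))
 (.n (.p (nat_lit 0x18c418c218c018be18bc18ba06) (nat_lit 0x52401) (nat_lit 52))
 (.p (nat_lit 0x20ac1fbf02) (nat_lit 0x300721) (nat_lit 5))))
 (.n (.n (.n (.p (nat_lit 0xdce0dcc0dca0dc80d690d6706) (nat_lit 0x1800092600) (nat_lit 51))
 (.p (nat_lit 0x736286b02) (nat_lit 0x281d30342800200040000) (nat_lit 50)))
 (.p (nat_lit 0x430042e042a04280162014f01490433042d09) (nat_lit 0x2a40015) (nat_lit 10)))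
 (.n (.p (nat_lit 0xc8c0c880c860c840c82170706) (nat_lit 0x800008ab03) (nat_lit 51))
 (.p (nat_lit 0x16e8246702) (nat_lit 0x100b2a) (nat_lit 29)))))
 (.n (.n (.n (.n (.p (nat_lit 0x7bf05ef02) (nat_lit 0x340200) (nat_lit 16))
 (.p (nat_lit 0x26f1120902) (nat_lit 0x220040000800) (nat_lit 39)))
 (.p (nat_lit 0x6b806b606b406b206b008e306) (nat_lit 0x80000c30e) (nat_lit 51)))
 (.n (.p (nat_lit 0x1632109102) (nat_lit 0x440a02) (nat_lit 4))
 (.p (nat_lit 0x1942188b02) (nat_lit 0x100a24) (nat_lit 4))))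
 (.n (.n (.p (nat_lit 0x13a911a902) (nat_lit 0x316900) (nat_lit 16))
 (.p (nat_lit 0x13fe13fc13fa13f613f41ef106) (nat_lit 0x200004c519) (nat_lit 51)))
 (.n (.p (nat_lit 0xa5205702) (nat_lit 0x340505) (nat_lit 30))
 (.p (nat_lit 0x21c25e502) (nat_lit 0x20051e) (nat_lit 27))))))
 (.n (.n (.n (.n (.n (.p (nat_lit 0x4be04bc04b604b4034b034906) (nat_lit 0x6000008100) (nat_lit 52))
 (.p (nat_lit 0x26990d4f02) (nat_lit 0x1a0000000600) (nat_lit 38)))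
 (.p (nat_lit 0xb58030d02) (nat_lit 0x540407) (nat_lit 5)))
 (.n (.p (nat_lit 0x62b045b02) (nat_lit 0x340002) (nat_lit 15))
 (.p (nat_lit 0x93a093809360934093207cf06) (nat_lit 0x100000c0223) (nat_lit 52))))
 (.n (.n (.n (.p (nat_lit 0x10aa10a610a410a00eeb0ee506) (nat_lit 0x90000d6700) (nat_lit 52))
 (.p (nat_lit 0x110c28a902) (nat_lit 0x350521a84000200000600) (nat_lit 49)))
 (.p (nat_lit 0x14d22d502) (nat_lit 0x440715) (nat_lit 30)))
 (.n (.p (nat_lit 0xf28132302) (nat_lit 0x540604) (nat_lit 5))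
 (.p (nat_lit 0x7e24df02) (nat_lit 0x100a03) (nat_lit 27)))))
 (.n (.n (.n (.n (.p (nat_lit 0xa9708cf02) (nat_lit 0x20c400) (nat_lit 16))
 (.p (nat_lit 0x283413ab02) (nat_lit 0x8000ca00) (nat_lit 48)))
 (.p (nat_lit 0x18f817e702) (nat_lit 0x90f) (nat_lit 4)))
 (.n (.p (nat_lit 0x1c961c941c921c901c8e07f306) (nat_lit 0x10000c0203) (nat_lit 52))
 (.p (nat_lit 0x259244502) (nat_lit 0x24012a) (nat_lit 30))))
 (.n (.n (.p (nat_lit 0x1637143d02) (nat_lit 0x50a00) (nat_lit 16))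
 (.p (nat_lit 0xd16086902) (nat_lit 0x4051c) (nat_lit 4)))
 (.n (.p (nat_lit 0x12be150d02) (nat_lit 0x340805) (nat_lit 5))
 (.p (nat_lit 0x26b502b102) (nat_lit 0x2e0020000000) (nat_lit 40))))))

def c256_231 : Tr :=
 .n (.n (.n (.n (.n (.n (.p (nat_lit 0x30c030a03060304030202c106) (nat_lit 0x4000088000) (nat_lit 51))
 (.p (nat_lit 0x26c527d902) (nat_lit 0x1e0020000400) (nat_lit 37)))
 (.p (nat_lit 0xe600e5e0e5c0e580e5608db06) (nat_lit 0x200008c307) (nat_lit 51)))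
 (.n (.p (nat_lit 0x111c1118111611141112139306) (nat_lit 0x8000010901) (nat_lit 51))
 (.p (nat_lit 0xd640d620d600d5e0d5a052706) (nat_lit 0x100000c123) (nat_lit 51))))
 (.n (.n (.n (.p (nat_lit 0xddc0f3b02) (nat_lit 0x200700) (nat_lit 4))
 (.p (nat_lit 0x1728288502) (nat_lit 0x344580a64000500040600) (nat_lit 50)))
 (.p (nat_lit 0xc7e0c7c0c7a0c780c760c5306) (nat_lit 0x1000008a515) (nat_lit 52)))
 (.n (.p (nat_lit 0x811e5b02) (nat_lit 0x240204) (nat_lit 30))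
 (.p (nat_lit 0x1e841ed102) (nat_lit 0x14022e) (nat_lit 5)))))
 (.n (.n (.n (.n (.p (nat_lit 0x1a807b702) (nat_lit 0x540300) (nat_lit 1))
 (.p (nat_lit 0x274312d702) (nat_lit 0x60000900) (nat_lit 38)))
 (.p (nat_lit 0x13b613b413b013ae0b650b5f06) (nat_lit 0x120000d240e) (nat_lit 52)))
 (.n (.p (nat_lit 0x17cc17c817c617c417c2004717cb07) (nat_lit 0x440b02) (nat_lit 7))
 (.p (nat_lit 0x15c615c415c215c015be1f6106) (nat_lit 0x1000004e128) (nat_lit 51))))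
 (.n (.n (.p (nat_lit 0x1504150214fe14fa1359135506) (nat_lit 0x5000010a00) (nat_lit 51))
 (.p (nat_lit 0x66a0668066606640660043706) (nat_lit 0x100004401c) (nat_lit 51)))
 (.n (.p (nat_lit 0x10f615d102) (nat_lit 0x340705) (nat_lit 4))
 (.p (nat_lit 0x266426622660265e265c0001026007) (nat_lit 0x612a) (nat_lit 25))))))
 (.n (.n (.n (.n (.n (.p (nat_lit 0x510066502) (nat_lit 0x200200) (nat_lit 5))
 (.p (nat_lit 0x26eb0f3b02) (nat_lit 0x280040000700) (nat_lit 38)))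
 (.p (nat_lit 0x1a2e196302) (nat_lit 0x309) (nat_lit 5)))
 (.n (.p (nat_lit 0x1250124e124c12481246139b06) (nat_lit 0x200000c902) (nat_lit 52))
 (.p (nat_lit 0x1f723c902) (nat_lit 0xb23) (nat_lit 30))))
 (.n (.n (.n (.p (nat_lit 0x10b4120d02) (nat_lit 0x440800) (nat_lit 4))
 (.p (nat_lit 0xd4e28c702) (nat_lit 0x3508a9d84000000000600) (nat_lit 49)))
 (.p (nat_lit 0x1aaa199f02) (nat_lit 0x300517) (nat_lit 4)))
 (.n (.p (nat_lit 0x1f23170b02) (nat_lit 0x8b04) (nat_lit 16))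
 (.p (nat_lit 0x105255702) (nat_lit 0x80e) (nat_lit 28)))))
 (.n (.n (.n (.n (.p (nat_lit 0xbe60be40bde0bdc0a690a6706) (nat_lit 0x6000084500) (nat_lit 51))
 (.p (nat_lit 0x738284902) (nat_lit 0x4a1a36344000200040000) (nat_lit 50)))
 (.p (nat_lit 0x1dee1dea1de81de60130012901211ded1de509) (nat_lit 0x2000b11) (nat_lit 10)))
 (.n (.p (nat_lit 0xf1a116f02) (nat_lit 0x440603) (nat_lit 5))
 (.p (nat_lit 0x13c413c213be13bc13ba07d706) (nat_lit 0x40000d222a) (nat_lit 51))))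
 (.n (.n (.p (nat_lit 0x1768176617641762176015f906) (nat_lit 0x100000d0b00) (nat_lit 52))
 (.p (nat_lit 0x16db16cf02) (nat_lit 0xab1c) (nat_lit 16)))
 (.n (.p (nat_lit 0x57c057a05780574057211fd06) (nat_lit 0x2000082806) (nat_lit 51))
 (.p (nat_lit 0x2777049b02) (nat_lit 0x2c00a0000100) (nat_lit 40))))))

def c128_103 : Tr := .n c256_103 c256_231

def c64_39 : Tr := .n c128_39 c128_103

def c32_7 : Tr := .n c64_7 c64_39

def c256_23 : Tr :=
 .n (.n (.n (.n (.n (.n (.p (nat_lit 0x4800460040004b04) (nat_lit 0x19000400002) (nat_lit 17))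
 (.p (nat_lit 0x26d127bd02) (nat_lit 0x120020000200) (nat_lit 37)))
 (.p (nat_lit 0x12cc12ca12c812c612c400c512cf07) (nat_lit 0x540806) (nat_lit 7)))
 (.n (.p (nat_lit 0x44c0e6f02) (nat_lit 0x40001) (nat_lit 4))
 (.p (nat_lit 0x1afa1a2b02) (nat_lit 0x400a1e) (nat_lit 4))))
 (.n (.n (.n (.p (nat_lit 0xb480c8902) (nat_lit 0x340500) (nat_lit 5))
 (.p (nat_lit 0x1486285702) (nat_lit 0x4a8876344000400000600) (nat_lit 49)))
 (.p (nat_lit 0x13c20fd02) (nat_lit 0x500813) (nat_lit 1)))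
 (.n (.p (nat_lit 0x691dc302) (nat_lit 0x140a03) (nat_lit 30))
 (.p (nat_lit 0x9b80bfd02) (nat_lit 0x44032a) (nat_lit 5)))))
 (.n (.n (.n (.n (.p (nat_lit 0x6d406d206d006ce0513050d06) (nat_lit 0x4800092200) (nat_lit 52))
 (.p (nat_lit 0x2789280b02) (nat_lit 0x1a00a0000700) (nat_lit 36)))
 (.p (nat_lit 0x119e119c119a119811961ce706) (nat_lit 0x100000d630a) (nat_lit 51)))
 (.n (.p (nat_lit 0x15600f9f02) (nat_lit 0x300a02) (nat_lit 4))
 (.p (nat_lit 0x1810180e180c180a1806020d180907) (nat_lit 0x100124) (nat_lit 7))))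
 (.n (.n (.p (nat_lit 0x12b510b502) (nat_lit 0x44c800) (nat_lit 16))
 (.p (nat_lit 0x1b1a19b302) (nat_lit 0x240a17) (nat_lit 4)))
 (.n (.p (nat_lit 0x808159302) (nat_lit 0x40205) (nat_lit 4))
 (.p (nat_lit 0x14f258902) (nat_lit 0x500715) (nat_lit 28))))))
 (.n (.n (.n (.n (.n (.p (nat_lit 0x3c003be03bc03ba038f038d06) (nat_lit 0x18000c6000) (nat_lit 52))
 (.p (nat_lit 0x26d527e702) (nat_lit 0xe0020000500) (nat_lit 36)))
 (.p (nat_lit 0x9a0224502) (nat_lit 0x440307) (nat_lit 29)))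
 (.n (.p (nat_lit 0xd640d620d600d5e0d5a146306) (nat_lit 0x100004c901) (nat_lit 51))
 (.p (nat_lit 0x66a0668066606640660060306) (nat_lit 0x1000044123) (nat_lit 51))))
 (.n (.n (.n (.p (nat_lit 0xfe90ddf02) (nat_lit 0x304700) (nat_lit 16))
 (.p (nat_lit 0xab0289302) (nat_lit 0x354221ca4000400040000) (nat_lit 49)))
 (.p (nat_lit 0x38a03880386038403820d0b06) (nat_lit 0x8000c0515) (nat_lit 51)))
 (.n (.p (nat_lit 0x1f021f001efe1efc1efa1ef8008807) (nat_lit 0x604) (nat_lit 8))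
 (.p (nat_lit 0xbe60be40be00bde0bdc20e506) (nat_lit 0x40000c472f) (nat_lit 51)))))
 (.n (.n (.n (.n (.p (nat_lit 0x9c707b102) (nat_lit 0x254300) (nat_lit 16))
 (.p (nat_lit 0x26b1157302) (nat_lit 0x20000000a00) (nat_lit 39)))
 (.p (nat_lit 0xd080d040d020cfe011a010d01070d070d0109) (nat_lit 0x214050e) (nat_lit 10)))
 (.n (.p (nat_lit 0x5481bb702) (nat_lit 0x100103) (nat_lit 29))
 (.p (nat_lit 0x21ca243102) (nat_lit 0x400729) (nat_lit 29))))
 (.n (.n (.p (nat_lit 0x143e157502) (nat_lit 0x140a00) (nat_lit 4))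
 (.p (nat_lit 0x51e094502) (nat_lit 0x30011c) (nat_lit 4)))
 (.n (.p (nat_lit 0x13c413c213be13bc13ba10f706) (nat_lit 0x40000d2705) (nat_lit 51))
 (.p (nat_lit 0x26af02af02) (nat_lit 0x40000000000) (nat_lit 40))))))

def c256_151 : Tr :=
 .n (.n (.n (.n (.n (.n (.p (nat_lit 0x210020e020a021704) (nat_lit 0x6800400024) (nat_lit 17))
 (.p (nat_lit 0x272727d302) (nat_lit 0x1c0060000300) (nat_lit 37)))
 (.p (nat_lit 0x4be04bc04ba04b804b606f506) (nat_lit 0x800008207) (nat_lit 52)))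
 (.n (.p (nat_lit 0x3e12ad02) (nat_lit 0x40801) (nat_lit 1))
 (.p (nat_lit 0x36a0acb02) (nat_lit 0x100023) (nat_lit 5))))
 (.n (.n (.n (.p (nat_lit 0xe660e5b02) (nat_lit 0x240600) (nat_lit 5))
 (.p (nat_lit 0xf48287702) (nat_lit 0x568872b44000100000600) (nat_lit 50)))
 (.p (nat_lit 0xc530a9102) (nat_lit 0x500415) (nat_lit 15)))
 (.n (.p (nat_lit 0x57c057a05780574057217d306) (nat_lit 0x20000c2b03) (nat_lit 51))
 (.p (nat_lit 0x421a1b02) (nat_lit 0x24022c) (nat_lit 1)))))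
 (.n (.n (.n (.n (.p (nat_lit 0x829081d02) (nat_lit 0x400300) (nat_lit 34))
 (.p (nat_lit 0x2763121902) (nat_lit 0x100080000800) (nat_lit 41)))
 (.p (nat_lit 0x57c057a0578057405720a7f06) (nat_lit 0x200008240e) (nat_lit 51)))
 (.n (.p (nat_lit 0x120c120a120812061204163506) (nat_lit 0x100000d0a02) (nat_lit 52))
 (.p (nat_lit 0x1b2c1b2a1b261b241b22021f1b2907) (nat_lit 0x340a25) (nat_lit 7))))
 (.n (.n (.p (nat_lit 0x14061404140214001297129506) (nat_lit 0x180000cc900) (nat_lit 52))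
 (.p (nat_lit 0x36603640360035e035c01a5036307) (nat_lit 0x30001c) (nat_lit 7)))
 (.n (.p (nat_lit 0xa3209f02) (nat_lit 0x240605) (nat_lit 30))
 (.p (nat_lit 0x20c261502) (nat_lit 0x100623) (nat_lit 27))))))
 (.n (.n (.n (.n (.n (.p (nat_lit 0x41c057302) (nat_lit 0x40100) (nat_lit 5))
 (.p (nat_lit 0x27f8101502) (nat_lit 0x40014600) (nat_lit 47)))
 (.p (nat_lit 0x11ae032102) (nat_lit 0x807) (nat_lit 4)))
 (.n (.p (nat_lit 0x7ea104f02) (nat_lit 0x340202) (nat_lit 5))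
 (.p (nat_lit 0x2220ff702) (nat_lit 0x500723) (nat_lit 1))))
 (.n (.n (.n (.p (nat_lit 0xfd0110f02) (nat_lit 0x400800) (nat_lit 4))
 (.p (nat_lit 0xf4c28b302) (nat_lit 0x352868d84000100000600) (nat_lit 50)))
 (.p (nat_lit 0x144c06d102) (nat_lit 0x240915) (nat_lit 4)))
 (.n (.p (nat_lit 0xffe132902) (nat_lit 0x300704) (nat_lit 5))
 (.p (nat_lit 0xbc250902) (nat_lit 0x100605) (nat_lit 27)))))
 (.n (.n (.n (.n (.p (nat_lit 0xb0e0b0a0b080b040995098f06) (nat_lit 0x90000c4400) (nat_lit 52))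
 (.p (nat_lit 0x2725165502) (nat_lit 0x1e0060000b00) (nat_lit 40)))
 (.p (nat_lit 0x1d1e1c1b02) (nat_lit 0x400411) (nat_lit 5)))
 (.n (.p (nat_lit 0xb880b860b820b800b7e006d0b8507) (nat_lit 0x340403) (nat_lit 7))
 (.p (nat_lit 0xaba0ab80ab40ab20ab0071306) (nat_lit 0x400008822a) (nat_lit 52))))
 (.n (.n (.p (nat_lit 0x16c1151902) (nat_lit 0x302b00) (nat_lit 16))
 (.p (nat_lit 0x1a9233702) (nat_lit 0x50081c) (nat_lit 30)))
 (.n (.p (nat_lit 0x2500aaf02) (nat_lit 0x500406) (nat_lit 1))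
 (.p (nat_lit 0x26cd056902) (nat_lit 0x160020000100) (nat_lit 39))))))

def c128_23 : Tr := .n c256_23 c256_151

def c256_87 : Tr :=
 .n (.n (.n (.n (.n (.n (.p (nat_lit 0x10a01080106011104) (nat_lit 0x700040000e) (nat_lit 17))
 (.p (nat_lit 0x27c609ad02) (nat_lit 0x80040200) (nat_lit 48)))
 (.p (nat_lit 0x14d414d214ce14cc13a913a306) (nat_lit 0x480000c906) (nat_lit 52)))
 (.n (.p (nat_lit 0xa960d9102) (nat_lit 0x200401) (nat_lit 5))
 (.p (nat_lit 0x1f401fb502) (nat_lit 0x440021) (nat_lit 5))))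
 (.n (.n (.n (.p (nat_lit 0xd700d6502) (nat_lit 0x500600) (nat_lit 5))
 (.p (nat_lit 0x1020286702) (nat_lit 0x1a2274b50000100040600) (nat_lit 49)))
 (.p (nat_lit 0x42a067902) (nat_lit 0x140015) (nat_lit 5)))
 (.n (.p (nat_lit 0x65e065c065806560654170506) (nat_lit 0x4000004b03) (nat_lit 52))
 (.p (nat_lit 0x161a0c2302) (nat_lit 0x440a2a) (nat_lit 5)))))
 (.n (.n (.n (.n (.p (nat_lit 0x780077e077c077a0778077606) (nat_lit 0xca200) (nat_lit 52))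
 (.p (nat_lit 0x26c1120702) (nat_lit 0x220020000800) (nat_lit 39)))
 (.p (nat_lit 0x8ec08e808e608e408e2010d08eb07) (nat_lit 0x40030e) (nat_lit 7)))
 (.n (.p (nat_lit 0x156f156302) (nat_lit 0x412a02) (nat_lit 16))
 (.p (nat_lit 0x191018bf02) (nat_lit 0x200924) (nat_lit 4))))
 (.n (.n (.p (nat_lit 0x137511a502) (nat_lit 0x108900) (nat_lit 16))
 (.p (nat_lit 0x141614141410140e140c1edf06) (nat_lit 0x400000e519) (nat_lit 52)))
 (.n (.p (nat_lit 0xb9e15af02) (nat_lit 0x440405) (nat_lit 4))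
 (.p (nat_lit 0x1a125cd02) (nat_lit 0x10071c) (nat_lit 28))))))
 (.n (.n (.n (.n (.n (.p (nat_lit 0x10c034d02) (nat_lit 0x400100) (nat_lit 1))
 (.p (nat_lit 0x26b127f302) (nat_lit 0x20000000600) (nat_lit 37)))
 (.p (nat_lit 0xa850a7902) (nat_lit 0x504407) (nat_lit 16)))
 (.n (.p (nat_lit 0x168a1686168416821680162706) (nat_lit 0x8000050a01) (nat_lit 52))
 (.p (nat_lit 0x7c80a2302) (nat_lit 0x240223) (nat_lit 5))))
 (.n (.n (.n (.p (nat_lit 0x10921090108e108c108a108806) (nat_lit 0xd4700) (nat_lit 52))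
 (.p (nat_lit 0x56e28a302) (nat_lit 0x350521a84000100040000) (nat_lit 49)))
 (.p (nat_lit 0xfea22c902) (nat_lit 0x400715) (nat_lit 29)))
 (.n (.p (nat_lit 0xe450e3902) (nat_lit 0x316604) (nat_lit 16))
 (.p (nat_lit 0x70006e006a00680007012106) (nat_lit 0x1816103) (nat_lit 26)))))
 (.n (.n (.n (.n (.p (nat_lit 0xa7108cd02) (nat_lit 0x100400) (nat_lit 16))
 (.p (nat_lit 0x2830170f02) (nat_lit 0x40010a00) (nat_lit 47)))
 (.p (nat_lit 0x16c4050b02) (nat_lit 0x500b0e) (nat_lit 5)))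
 (.n (.p (nat_lit 0x7f0123102) (nat_lit 0x40203) (nat_lit 4))
 (.p (nat_lit 0x3cc03c803c603c20539053306) (nat_lit 0x900000812a) (nat_lit 52))))
 (.n (.n (.p (nat_lit 0x15f7144502) (nat_lit 0x440a00) (nat_lit 15))
 (.p (nat_lit 0xc5e0c5a0c580c560c5401a70c5d07) (nat_lit 0x40051c) (nat_lit 7)))
 (.n (.p (nat_lit 0x12b815e302) (nat_lit 0x40805) (nat_lit 4))
 (.p (nat_lit 0x26c927a702) (nat_lit 0x1a0020000000) (nat_lit 36))))))

def c256_215 : Tr :=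
 .n (.n (.n (.n (.n (.n (.p (nat_lit 0x2da02d802d602d402d202c506) (nat_lit 0x10000084000) (nat_lit 52))
 (.p (nat_lit 0x27d61df102) (nat_lit 0x10400) (nat_lit 47)))
 (.p (nat_lit 0x8de02e702) (nat_lit 0x400307) (nat_lit 4)))
 (.n (.p (nat_lit 0x66a0668066606640660138d06) (nat_lit 0x1000004901) (nat_lit 51))
 (.p (nat_lit 0x52e0aeb02) (nat_lit 0x500123) (nat_lit 5))))
 (.n (.n (.n (.p (nat_lit 0xf150e6502) (nat_lit 0x150600) (nat_lit 16))
 (.p (nat_lit 0x12e0288302) (nat_lit 0x342221ca4000300000600) (nat_lit 50)))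
 (.p (nat_lit 0xc500c4e0c4c0c48015c014f01470c530c4b09) (nat_lit 0x2900515) (nat_lit 10)))
 (.n (.p (nat_lit 0x72013d902) (nat_lit 0x300204) (nat_lit 4))
 (.p (nat_lit 0x1dae248102) (nat_lit 0x20062d) (nat_lit 29)))))
 (.n (.n (.n (.n (.p (nat_lit 0x7ac090f02) (nat_lit 0x40300) (nat_lit 4))
 (.p (nat_lit 0x26fb12e102) (nat_lit 0x180040000900) (nat_lit 40)))
 (.p (nat_lit 0x81e081c081a081808160b5b06) (nat_lit 0x80004640e) (nat_lit 52)))
 (.n (.p (nat_lit 0x17c410a302) (nat_lit 0x140b02) (nat_lit 4))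
 (.p (nat_lit 0x1f221eb902) (nat_lit 0xb27) (nat_lit 5))))
 (.n (.n (.p (nat_lit 0x14d414d014ce14cc135b135306) (nat_lit 0x880000ca00) (nat_lit 52))
 (.p (nat_lit 0x43a093902) (nat_lit 0x34001c) (nat_lit 4)))
 (.n (.p (nat_lit 0x11f7100f02) (nat_lit 0x500705) (nat_lit 15))
 (.p (nat_lit 0x264e264c264a264826460027025207) (nat_lit 0x102729) (nat_lit 25))))))
 (.n (.n (.n (.n (.n (.p (nat_lit 0x649042502) (nat_lit 0x454100) (nat_lit 16))
 (.p (nat_lit 0x270b280302) (nat_lit 0x80040000700) (nat_lit 37)))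
 (.p (nat_lit 0x178c225102) (nat_lit 0x440b07) (nat_lit 29)))
 (.n (.p (nat_lit 0x1396106502) (nat_lit 0x902) (nat_lit 5))
 (.p (nat_lit 0x153c0b2902) (nat_lit 0x300a23) (nat_lit 5))))
 (.n (.n (.n (.p (nat_lit 0x10ac121102) (nat_lit 0x40800) (nat_lit 5))
 (.p (nat_lit 0x9e028c102) (nat_lit 0x332a05d81000400000000) (nat_lit 50)))
 (.p (nat_lit 0x1a8219cf02) (nat_lit 0x40417) (nat_lit 5)))
 (.n (.p (nat_lit 0x1714134502) (nat_lit 0x500b04) (nat_lit 4))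
 (.p (nat_lit 0x254a2548254625442542010700f807) (nat_lit 0x104b0a) (nat_lit 25)))))
 (.n (.n (.n (.n (.p (nat_lit 0xbc40bc20bc00bbe0bba0a6506) (nat_lit 0x1000002500) (nat_lit 52))
 (.p (nat_lit 0xd5c284702) (nat_lit 0x4a1a36344000000000600) (nat_lit 50)))
 (.p (nat_lit 0x1ee71d9b02) (nat_lit 0x254511) (nat_lit 16)))
 (.n (.p (nat_lit 0x1dbe1dbc1dba1db81db61db4007207) (nat_lit 0x40603) (nat_lit 8))
 (.p (nat_lit 0xbb80bb60bb40bb20bae07d306) (nat_lit 0x100004a22a) (nat_lit 51))))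
 (.n (.n (.p (nat_lit 0x174617441742174015f915ef06) (nat_lit 0x1080004eb00) (nat_lit 51))
 (.p (nat_lit 0x1ac01bb01b9098308b505) (nat_lit 0x88d40a1c) (nat_lit 9)))
 (.n (.p (nat_lit 0x11fc175902) (nat_lit 0x200806) (nat_lit 5))
 (.p (nat_lit 0x27b6048d02) (nat_lit 0x80000100) (nat_lit 45))))))

def c128_87 : Tr := .n c256_87 c256_215

def c64_23 : Tr := .n c128_23 c128_87

def c256_55 : Tr :=
 .n (.n (.n (.n (.n (.n (.p (nat_lit 0x7c008d02) (nat_lit 0x800600004) (nat_lit 17))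
 (.p (nat_lit 0x2737066702) (nat_lit 0xc0060000200) (nat_lit 40)))
 (.p (nat_lit 0x13c413c213c013be13ba12c706) (nat_lit 0x10000d2806) (nat_lit 51)))
 (.n (.p (nat_lit 0x27181502) (nat_lit 0x140101) (nat_lit 30))
 (.p (nat_lit 0x1f2d1e1502) (nat_lit 0x16020) (nat_lit 16))))
 (.n (.n (.n (.p (nat_lit 0xd050b4902) (nat_lit 0x342500) (nat_lit 16))
 (.p (nat_lit 0x13be285d02) (nat_lit 0x1a2260b50000300040600) (nat_lit 50)))
 (.p (nat_lit 0x145228502) (nat_lit 0x15) (nat_lit 30)))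
 (.n (.p (nat_lit 0x16fe118b02) (nat_lit 0xb03) (nat_lit 4))
 (.p (nat_lit 0x13840c1102) (nat_lit 0x30092a) (nat_lit 5)))))
 (.n (.n (.n (.n (.p (nat_lit 0x5ec072902) (nat_lit 0x240200) (nat_lit 4))
 (.p (nat_lit 0x2689110702) (nat_lit 0x2a0000000800) (nat_lit 38)))
 (.p (nat_lit 0x216c212502) (nat_lit 0x4030d) (nat_lit 4)))
 (.n (.p (nat_lit 0xbac0baa0ba60ba40ba2156106) (nat_lit 0x400000aa02) (nat_lit 52))
 (.p (nat_lit 0x1c2184f02) (nat_lit 0x140224) (nat_lit 1))))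
 (.n (.n (.p (nat_lit 0x11ac11aa11a611a400100007000111a911a309) (nat_lit 0x1800900) (nat_lit 10))
 (.p (nat_lit 0x1d681c7502) (nat_lit 0x340418) (nat_lit 4)))
 (.n (.p (nat_lit 0x90c090a0908090200b200a300a10907090509) (nat_lit 0x1100305) (nat_lit 10))
 (.p (nat_lit 0x16625ad02) (nat_lit 0x618) (nat_lit 27))))))
 (.n (.n (.n (.n (.n (.p (nat_lit 0x459038f02) (nat_lit 0x14e000) (nat_lit 16))
 (.p (nat_lit 0x27330ba902) (nat_lit 0x100060000500) (nat_lit 38)))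
 (.p (nat_lit 0xa6e03c302) (nat_lit 0x407) (nat_lit 4)))
 (.n (.p (nat_lit 0x175e175c175a17561754155306) (nat_lit 0x2000010a01) (nat_lit 51))
 (.p (nat_lit 0x7000af902) (nat_lit 0x223) (nat_lit 4))))
 (.n (.n (.n (.p (nat_lit 0x102d102102) (nat_lit 0x240700) (nat_lit 34))
 (.p (nat_lit 0x726289d02) (nat_lit 0x356068ca4000200040000) (nat_lit 49)))
 (.p (nat_lit 0x172c172a1728172417220d0f06) (nat_lit 0x20000d6515) (nat_lit 51)))
 (.n (.p (nat_lit 0x65e065c065a065806560e3306) (nat_lit 0x800004604) (nat_lit 52))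
 (.p (nat_lit 0x4800460040003e0005006d06) (nat_lit 0x1314902) (nat_lit 26)))))
 (.n (.n (.n (.n (.p (nat_lit 0x9fa09f809f609f409f209f006) (nat_lit 0x80400) (nat_lit 52))
 (.p (nat_lit 0x26d7282b02) (nat_lit 0xc0020000a00) (nat_lit 36)))
 (.p (nat_lit 0x11ba04f702) (nat_lit 0x10080e) (nat_lit 4)))
 (.n (.p (nat_lit 0x632112702) (nat_lit 0x140103) (nat_lit 5))
 (.p (nat_lit 0x243e243c243a243824362434026007) (nat_lit 0x12a) (nat_lit 8))))
 (.n (.n (.p (nat_lit 0x15b815b615b415b21447144506) (nat_lit 0x1800004ca00) (nat_lit 51))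
 (.p (nat_lit 0x5fa095102) (nat_lit 0x34011c) (nat_lit 4)))
 (.n (.p (nat_lit 0xa520ef02) (nat_lit 0x300805) (nat_lit 30))
 (.p (nat_lit 0x2691038102) (nat_lit 0x220000000000) (nat_lit 41))))))

def c256_183 : Tr :=
 .n (.n (.n (.n (.n (.n (.p (nat_lit 0x2c402c202c002be02bc000102bb07) (nat_lit 0x0) (nat_lit 7))
 (.p (nat_lit 0x277d081f02) (nat_lit 0x2600a0000300) (nat_lit 38)))
 (.p (nat_lit 0x4c804c604c404c204c007c306) (nat_lit 0x100000c8207) (nat_lit 51)))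
 (.n (.p (nat_lit 0x10aa10a810a610a410a012af06) (nat_lit 0x10000d6801) (nat_lit 52))
 (.p (nat_lit 0x444236102) (nat_lit 0x240023) (nat_lit 29))))
 (.n (.n (.n (.p (nat_lit 0xeac0eaa0ea80ea60e6d0e6b06) (nat_lit 0x180000d0600) (nat_lit 51))
 (.p (nat_lit 0xbb8287b02) (nat_lit 0x5898b0b44000500000000) (nat_lit 50)))
 (.p (nat_lit 0x9540950094e094c094a0b6f06) (nat_lit 0x80000c2415) (nat_lit 52)))
 (.n (.p (nat_lit 0x157c157a15781574157217d306) (nat_lit 0x20000d4b03) (nat_lit 52))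
 (.p (nat_lit 0xc300c2e0c2c0c2a0c281aff06) (nat_lit 0x800016a2c) (nat_lit 52)))))
 (.n (.n (.n (.n (.p (nat_lit 0x87a08780876087406ef06ed06) (nat_lit 0x600000c300) (nat_lit 51))
 (.p (nat_lit 0x2818163702) (nat_lit 0x4e900) (nat_lit 48)))
 (.p (nat_lit 0xa8d0a8102) (nat_lit 0x30640e) (nat_lit 16)))
 (.n (.p (nat_lit 0x16f81b3502) (nat_lit 0x300b02) (nat_lit 29))
 (.p (nat_lit 0x1c5e1d0902) (nat_lit 0x440126) (nat_lit 5))))
 (.n (.n (.p (nat_lit 0x1477129702) (nat_lit 0x54e900) (nat_lit 16))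
 (.p (nat_lit 0x13c413c213c013be13ba035f06) (nat_lit 0x100009201c) (nat_lit 51)))
 (.n (.p (nat_lit 0x100c100a10081006100400a9100f07) (nat_lit 0x500705) (nat_lit 7))
 (.p (nat_lit 0x21c263502) (nat_lit 0x200824) (nat_lit 27))))))
 (.n (.n (.n (.n (.n (.p (nat_lit 0x5c405c205c005be05bc05ba06) (nat_lit 0xca100) (nat_lit 52))
 (.p (nat_lit 0x268b101d02) (nat_lit 0x280000000700) (nat_lit 39)))
 (.p (nat_lit 0x16b0033302) (nat_lit 0x100b07) (nat_lit 5)))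
 (.n (.p (nat_lit 0xb7a105902) (nat_lit 0x440402) (nat_lit 5))
 (.p (nat_lit 0x23ba23b823b623b423b223b0020207) (nat_lit 0x923) (nat_lit 8))))
 (.n (.n (.n (.p (nat_lit 0x11a70fcd02) (nat_lit 0x200800) (nat_lit 15))
 (.p (nat_lit 0xc8828bb02) (nat_lit 0x352868d84000500040000) (nat_lit 50)))
 (.p (nat_lit 0x152415221520151e0164014f014d1529152709) (nat_lit 0x2c00a15) (nat_lit 10)))
 (.n (.p (nat_lit 0x1250124e124c1248124610e906) (nat_lit 0x200004c704) (nat_lit 52))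
 (.p (nat_lit 0xa0251d02) (nat_lit 0x100906) (nat_lit 27)))))
 (.n (.n (.n (.n (.p (nat_lit 0xb9d099302) (nat_lit 0x354400) (nat_lit 16))
 (.p (nat_lit 0x82a283d02) (nat_lit 0x260d84344000300000000) (nat_lit 50)))
 (.p (nat_lit 0x11a0119e119c119811961d5b06) (nat_lit 0x20000d6411) (nat_lit 51)))
 (.n (.p (nat_lit 0x2960d4302) (nat_lit 0x540503) (nat_lit 1))
 (.p (nat_lit 0x1f6b071502) (nat_lit 0x41422a) (nat_lit 16))))
 (.n (.n (.p (nat_lit 0xbc15f102) (nat_lit 0x140b00) (nat_lit 1))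
 (.p (nat_lit 0x153208a702) (nat_lit 0x400a1c) (nat_lit 4)))
 (.n (.p (nat_lit 0x11fd101502) (nat_lit 0x200706) (nat_lit 15))
 (.p (nat_lit 0x2739049702) (nat_lit 0xa0060000100) (nat_lit 40))))))

def c128_55 : Tr := .n c256_55 c256_183

def c256_119 : Tr :=
 .n (.n (.n (.n (.n (.n (.p (nat_lit 0x161015f015203) (nat_lit 0x42300015) (nat_lit 19))
 (.p (nat_lit 0x2701082502) (nat_lit 0x120040000300) (nat_lit 40)))
 (.p (nat_lit 0xc5222f02) (nat_lit 0x540906) (nat_lit 30)))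
 (.n (.p (nat_lit 0x18e818e618e418e218e018de06) (nat_lit 0xd2501) (nat_lit 52))
 (.p (nat_lit 0x20d41fc702) (nat_lit 0x140721) (nat_lit 5))))
 (.n (.n (.n (.p (nat_lit 0xe070d7102) (nat_lit 0x504600) (nat_lit 16))
 (.p (nat_lit 0x9dc286d02) (nat_lit 0x568bb0344000400000000) (nat_lit 50)))
 (.p (nat_lit 0xa900a8e0a8c0a8a0a8801450a8707) (nat_lit 0x415) (nat_lit 7)))
 (.n (.p (nat_lit 0x1720171e171a17181716170506) (nat_lit 0x4000096b03) (nat_lit 52))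
 (.p (nat_lit 0x17ba0cf702) (nat_lit 0x240b2a) (nat_lit 5)))))
 (.n (.n (.n (.n (.p (nat_lit 0x7ef05f302) (nat_lit 0x54e200) (nat_lit 16))
 (.p (nat_lit 0x28141da702) (nat_lit 0x40044800) (nat_lit 48)))
 (.p (nat_lit 0x9aa059102) (nat_lit 0x34030e) (nat_lit 5)))
 (.n (.p (nat_lit 0x4980496049404920490163506) (nat_lit 0x10000042a02) (nat_lit 51))
 (.p (nat_lit 0x219241102) (nat_lit 0x25) (nat_lit 30))))
 (.n (.n (.p (nat_lit 0x13be13b2129103) (nat_lit 0x240900) (nat_lit 6))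
 (.p (nat_lit 0x6de06dc06da06d806d61f0f06) (nat_lit 0x2000054619) (nat_lit 52)))
 (.n (.p (nat_lit 0xe4614d302) (nat_lit 0x400605) (nat_lit 4))
 (.p (nat_lit 0x1f201ee01ec01ea024700c306) (nat_lit 0x40a022) (nat_lit 26))))))
 (.n (.n (.n (.n (.n (.p (nat_lit 0x50f034702) (nat_lit 0x100100) (nat_lit 15))
 (.p (nat_lit 0x27f2180702) (nat_lit 0x8600) (nat_lit 47)))
 (.p (nat_lit 0xde603dd02) (nat_lit 0x100607) (nat_lit 5)))
 (.n (.p (nat_lit 0x62c0f5d02) (nat_lit 0x440102) (nat_lit 5))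
 (.p (nat_lit 0xe120a2d02) (nat_lit 0x100623) (nat_lit 4))))
 (.n (.n (.n (.p (nat_lit 0x10db0eed02) (nat_lit 0x546700) (nat_lit 16))
 (.p (nat_lit 0x148428ab02) (nat_lit 0x350521a86800400000600) (nat_lit 49)))
 (.p (nat_lit 0x11cc22e102) (nat_lit 0x400815) (nat_lit 29)))
 (.n (.p (nat_lit 0x82808260824082208200f2906) (nat_lit 0x10000046604) (nat_lit 51))
 (.p (nat_lit 0x8400820080007e009f000b06) (nat_lit 0x516604) (nat_lit 26)))))
 (.n (.n (.n (.n (.p (nat_lit 0x1fc099302) (nat_lit 0x340400) (nat_lit 1))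
 (.p (nat_lit 0x268d172302) (nat_lit 0x260000000b00) (nat_lit 41)))
 (.p (nat_lit 0x192e182702) (nat_lit 0x200a0f) (nat_lit 4)))
 (.n (.p (nat_lit 0x9bc113702) (nat_lit 0x140303) (nat_lit 4))
 (.p (nat_lit 0x2f402f002ee02ec02ea061506) (nat_lit 0x80000c612a) (nat_lit 51))))
 (.n (.n (.p (nat_lit 0xc2151b02) (nat_lit 0x400b00) (nat_lit 1))
 (.p (nat_lit 0xd200d1e0d1a0d1601b601a501a10d1d0d1909) (nat_lit 0x194051c) (nat_lit 10)))
 (.n (.p (nat_lit 0x131413121310130e130c12c306) (nat_lit 0x1000004c805) (nat_lit 52))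
 (.p (nat_lit 0x27a80c4302) (nat_lit 0x60004000) (nat_lit 48))))))

def c256_247 : Tr :=
 .n (.n (.n (.n (.n (.n (.p (nat_lit 0x36502c302) (nat_lit 0x406000) (nat_lit 16))
 (.p (nat_lit 0x27dc08f502) (nat_lit 0x60000400) (nat_lit 48)))
 (.p (nat_lit 0x157c157a15781576157408d706) (nat_lit 0x800094307) (nat_lit 52)))
 (.n (.p (nat_lit 0x14640ec302) (nat_lit 0x240901) (nat_lit 4))
 (.p (nat_lit 0x1811052f02) (nat_lit 0x50c123) (nat_lit 16))))
 (.n (.n (.n (.p (nat_lit 0xf740f720f700f6e0f6c0de306) (nat_lit 0x10000088700) (nat_lit 52))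
 (.p (nat_lit 0x382288d02) (nat_lit 0x356221ca4000000040000) (nat_lit 50)))
 (.p (nat_lit 0x149a14981496149414920c4906) (nat_lit 0x800014515) (nat_lit 51)))
 (.n (.p (nat_lit 0x1e6a1e681e661e62080707ff06) (nat_lit 0x1100004a204) (nat_lit 51))
 (.p (nat_lit 0x1f6c206502) (nat_lit 0x50022f) (nat_lit 5)))))
 (.n (.n (.n (.n (.p (nat_lit 0x95409520950094e094a07af06) (nat_lit 0x10000c2300) (nat_lit 52))
 (.p (nat_lit 0x272b282302) (nat_lit 0x180060000900) (nat_lit 37)))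
 (.p (nat_lit 0xc4005b302) (nat_lit 0x20050e) (nat_lit 4)))
 (.n (.p (nat_lit 0xdb60db40db20dac17c717c506) (nat_lit 0x30000d0b02) (nat_lit 52))
 (.p (nat_lit 0x20ba203902) (nat_lit 0x400728) (nat_lit 4))))
 (.n (.n (.p (nat_lit 0x1525135902) (nat_lit 0x304a00) (nat_lit 16))
 (.p (nat_lit 0x111c1118111611141112043d06) (nat_lit 0x800005001c) (nat_lit 51)))
 (.n (.p (nat_lit 0x48e048c04880486048410f706) (nat_lit 0x4000042705) (nat_lit 52))
 (.p (nat_lit 0x27f267102) (nat_lit 0x32c) (nat_lit 28))))))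
 (.n (.n (.n (.n (.n (.p (nat_lit 0x516066b02) (nat_lit 0x500200) (nat_lit 5))
 (.p (nat_lit 0x273d0f4902) (nat_lit 0x60060000700) (nat_lit 40)))
 (.p (nat_lit 0x1ca81b4b02) (nat_lit 0x24020a) (nat_lit 4)))
 (.n (.p (nat_lit 0x1476147414721470146c0041146f07) (nat_lit 0x140902) (nat_lit 7))
 (.p (nat_lit 0x16e40b3902) (nat_lit 0x500b23) (nat_lit 5))))
 (.n (.n (.p (nat_lit 0x1250124c124a1248124610b506) (nat_lit 0x800004c800) (nat_lit 52))
 (.p (nat_lit 0x1720175017719a919e705) (nat_lit 0xa0b40517) (nat_lit 9)))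
 (.n (.p (nat_lit 0x17e4143b02) (nat_lit 0x540b04) (nat_lit 5))
 (.p (nat_lit 0x12a012601240120010d017b06) (nat_lit 0x2116311) (nat_lit 26)))))
 (.n (.n (.n (.n (.p (nat_lit 0x2bd0a6502) (nat_lit 0x100500) (nat_lit 15))
 (.p (nat_lit 0x164c284d02) (nat_lit 0x4a1a34344000500000600) (nat_lit 49)))
 (.p (nat_lit 0x1e0e1bef02) (nat_lit 0x340b11) (nat_lit 5)))
 (.n (.p (nat_lit 0xf210f1502) (nat_lit 0x154603) (nat_lit 16))
 (.p (nat_lit 0x8ee0be902) (nat_lit 0x32a) (nat_lit 5))))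
 (.n (.n (.p (nat_lit 0xe6b15f702) (nat_lit 0x440b00) (nat_lit 15))
 (.p (nat_lit 0x1936185f02) (nat_lit 0xa1d) (nat_lit 5)))
 (.n (.p (nat_lit 0xd640d620d600d5e0d5a11fb06) (nat_lit 0x100000c806) (nat_lit 51))
 (.p (nat_lit 0x2691065502) (nat_lit 0x220000000200) (nat_lit 38))))))

def c128_119 : Tr := .n c256_119 c256_247

def c64_55 : Tr := .n c128_55 c128_119

def c32_23 : Tr := .n c64_23 c64_55

def c16_7 : Tr := .n c32_7 c32_23

def c256_15 : Tr :=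
 .n (.n (.n (.n (.n (.n (.p (nat_lit 0x28003502) (nat_lit 0x2000600001) (nat_lit 17))
 (.p (nat_lit 0x26e1066302) (nat_lit 0x20020000200) (nat_lit 40)))
 (.p (nat_lit 0x12c8169102) (nat_lit 0x240806) (nat_lit 5)))
 (.n (.p (nat_lit 0x17cd15f902) (nat_lit 0x54eb00) (nat_lit 16))
 (.p (nat_lit 0xfa20fa00f9e0f9c0f98196f06) (nat_lit 0x100005401e) (nat_lit 52))))
 (.n (.n (.n (.p (nat_lit 0xb420c8302) (nat_lit 0x40500) (nat_lit 5))
 (.p (nat_lit 0xc80285102) (nat_lit 0x4a8876344000500040000) (nat_lit 49)))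
 (.p (nat_lit 0x15c615c415c215c015be201706) (nat_lit 0x1000000e413) (nat_lit 51)))
 (.n (.p (nat_lit 0x1636117f02) (nat_lit 0x40a03) (nat_lit 4))
 (.p (nat_lit 0x9b00bf502) (nat_lit 0x4032a) (nat_lit 5)))))
 (.n (.n (.n (.n (.p (nat_lit 0x6ae06ac06aa06a806a6050d06) (nat_lit 0x80008a200) (nat_lit 51))
 (.p (nat_lit 0x28081a6902) (nat_lit 0x80002700) (nat_lit 47)))
 (.p (nat_lit 0x1ce41b9b02) (nat_lit 0x44030a) (nat_lit 4)))
 (.n (.p (nat_lit 0x1635147702) (nat_lit 0x540902) (nat_lit 15))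
 (.p (nat_lit 0x17b40a6102) (nat_lit 0x540b23) (nat_lit 4))))
 (.n (.n (.p (nat_lit 0x129d10b302) (nat_lit 0x342800) (nat_lit 16))
 (.p (nat_lit 0x1af019ff02) (nat_lit 0x500a17) (nat_lit 5)))
 (.n (.p (nat_lit 0x56414ad02) (nat_lit 0x500105) (nat_lit 4))
 (.p (nat_lit 0x14e014c01480146017f000106) (nat_lit 0x1810515) (nat_lit 26))))))
 (.n (.n (.n (.n (.n (.p (nat_lit 0x39603940392038e000e000500010391038d09) (nat_lit 0x1040000) (nat_lit 10))
 (.p (nat_lit 0x27e20ba302) (nat_lit 0x500) (nat_lit 45)))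
 (.p (nat_lit 0x99c02ef02) (nat_lit 0x240307) (nat_lit 5)))
 (.n (.p (nat_lit 0x72e072c072807260724146706) (nat_lit 0x40000c4901) (nat_lit 52))
 (.p (nat_lit 0x60a0af702) (nat_lit 0x540123) (nat_lit 4))))
 (.n (.n (.n (.p (nat_lit 0xfcf0ddf02) (nat_lit 0x300700) (nat_lit 15))
 (.p (nat_lit 0x374289302) (nat_lit 0x354221ca4000000040000) (nat_lit 49)))
 (.p (nat_lit 0xd1206ad02) (nat_lit 0x440515) (nat_lit 5)))
 (.n (.p (nat_lit 0x871ead02) (nat_lit 0x540404) (nat_lit 30))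
 (.p (nat_lit 0x25420df02) (nat_lit 0x4072f) (nat_lit 1)))))
 (.n (.n (.n (.n (.p (nat_lit 0x9ab07b302) (nat_lit 0x342300) (nat_lit 16))
 (.p (nat_lit 0x2785282502) (nat_lit 0x1e00a0000900) (nat_lit 37)))
 (.p (nat_lit 0xd0205bf02) (nat_lit 0x24050e) (nat_lit 4)))
 (.n (.p (nat_lit 0x4661b8502) (nat_lit 0x540003) (nat_lit 29))
 (.p (nat_lit 0x21c6218702) (nat_lit 0x200729) (nat_lit 5))))
 (.n (.n (.p (nat_lit 0x15881586158415821580157e06) (nat_lit 0x40a00) (nat_lit 3))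
 (.p (nat_lit 0x5220520051e051c051a019f051907) (nat_lit 0x11c) (nat_lit 7)))
 (.n (.p (nat_lit 0xf3e0f3c0f3a0f380f3610fb06) (nat_lit 0x1000004e705) (nat_lit 52))
 (.p (nat_lit 0x27422740273e273c273a27382736273427322730272e272c272a27282726272427222720271e271c271a27182716271418) (nat_lit 0x60000000) (nat_lit 35))))))

def c256_143 : Tr :=
 .n (.n (.n (.n (.n (.n (.p (nat_lit 0x1fc01fa01f6020304) (nat_lit 0x6800400023) (nat_lit 17))
 (.p (nat_lit 0x272f27d302) (nat_lit 0x140060000300) (nat_lit 37)))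
 (.p (nat_lit 0x6fe06fa06f806f606f400dd06fd07) (nat_lit 0x400207) (nat_lit 7)))
 (.n (.p (nat_lit 0xfc60fc40fc00fbc11e711e306) (nat_lit 0x5000096801) (nat_lit 51))
 (.p (nat_lit 0x21f6216b02) (nat_lit 0x500822) (nat_lit 5))))
 (.n (.n (.n (.p (nat_lit 0xe570e4b02) (nat_lit 0x40600) (nat_lit 34))
 (.p (nat_lit 0x12dc287502) (nat_lit 0x588872b44000300000600) (nat_lit 50)))
 (.p (nat_lit 0x93a09380936093409320a9106) (nat_lit 0x10000080415) (nat_lit 52)))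
 (.n (.p (nat_lit 0x17d811a102) (nat_lit 0x540b03) (nat_lit 5))
 (.p (nat_lit 0x19ba1ab102) (nat_lit 0x22c) (nat_lit 5)))))
 (.n (.n (.n (.n (.p (nat_lit 0x825081902) (nat_lit 0x200300) (nat_lit 34))
 (.p (nat_lit 0x276b121902) (nat_lit 0x80080000800) (nat_lit 41)))
 (.p (nat_lit 0xa840a820a7e0a7c0a7a010b0a8107) (nat_lit 0x30040e) (nat_lit 7)))
 (.n (.p (nat_lit 0xf4c0f480f440f421633162f06) (nat_lit 0xa00004ea02) (nat_lit 51))
 (.p (nat_lit 0x1a141a101a0e1a0c0228022102191a131a0b09) (nat_lit 0x2040225) (nat_lit 10))))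
 (.n (.n (.p (nat_lit 0x13fe13f813f613f41295129306) (nat_lit 0xc00004c900) (nat_lit 51))
 (.p (nat_lit 0x35e082f02) (nat_lit 0x10001c) (nat_lit 4)))
 (.n (.p (nat_lit 0xf2a209b02) (nat_lit 0x40605) (nat_lit 29))
 (.p (nat_lit 0x20001fe01fa01f80247000706) (nat_lit 0x316123) (nat_lit 26))))))
 (.n (.n (.n (.n (.n (.p (nat_lit 0x54f034d02) (nat_lit 0x410100) (nat_lit 16))
 (.p (nat_lit 0x27f616f502) (nat_lit 0x20010600) (nat_lit 48)))
 (.p (nat_lit 0xfda03eb02) (nat_lit 0x500707) (nat_lit 5)))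
 (.n (.p (nat_lit 0x7e419c302) (nat_lit 0x40202) (nat_lit 29))
 (.p (nat_lit 0x18ac18aa18a818a618a40efd06) (nat_lit 0x1000042623) (nat_lit 51))))
 (.n (.n (.n (.p (nat_lit 0xfcc110b02) (nat_lit 0x200800) (nat_lit 4))
 (.p (nat_lit 0x12e628b102) (nat_lit 0x350521a82800300000600) (nat_lit 50)))
 (.p (nat_lit 0x1529136502) (nat_lit 0x500915) (nat_lit 15)))
 (.n (.p (nat_lit 0xf330f2702) (nat_lit 0x456604) (nat_lit 16))
 (.p (nat_lit 0x25042502250024fc24fa01ed00aa07) (nat_lit 0x20c305) (nat_lit 25)))))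
 (.n (.n (.n (.n (.p (nat_lit 0xaf60af40af20af00aec098f06) (nat_lit 0x10000c2400) (nat_lit 52))
 (.p (nat_lit 0x26e5165302) (nat_lit 0x2e0040000b00) (nat_lit 40)))
 (.p (nat_lit 0x1d181c1502) (nat_lit 0x100411) (nat_lit 5)))
 (.n (.p (nat_lit 0xb7e1d2302) (nat_lit 0x40403) (nat_lit 29))
 (.p (nat_lit 0x4980496049404920490071706) (nat_lit 0x1000000222a) (nat_lit 51))))
 (.n (.n (.p (nat_lit 0xd67151302) (nat_lit 0xb00) (nat_lit 15))
 (.p (nat_lit 0x1a1232f02) (nat_lit 0x10081c) (nat_lit 30)))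
 (.n (.p (nat_lit 0xaa6166502) (nat_lit 0x100406) (nat_lit 5))
 (.p (nat_lit 0x27ac06f502) (nat_lit 0xa100) (nat_lit 47))))))

def c128_15 : Tr := .n c256_15 c256_143

def c256_79 : Tr :=
 .n (.n (.n (.n (.n (.n (.p (nat_lit 0xd100cd00c803) (nat_lit 0xa0800006) (nat_lit 19))
 (.p (nat_lit 0x275527c702) (nat_lit 0x1e0080000200) (nat_lit 36)))
 (.p (nat_lit 0x13aa177502) (nat_lit 0x400906) (nat_lit 4)))
 (.n (.p (nat_lit 0x7e20e8f02) (nat_lit 0x540201) (nat_lit 5))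
 (.p (nat_lit 0x1dd234702) (nat_lit 0x140021) (nat_lit 30))))
 (.n (.n (.n (.p (nat_lit 0xd6a0d5302) (nat_lit 0x200600) (nat_lit 4))
 (.p (nat_lit 0x910286502) (nat_lit 0x281d30346800300040000) (nat_lit 49)))
 (.p (nat_lit 0x4ca04c804c604c204c0035506) (nat_lit 0x2000088015) (nat_lit 51)))
 (.n (.p (nat_lit 0x2ac02aa02a802a602a416ff06) (nat_lit 0x800000b03) (nat_lit 52))
 (.p (nat_lit 0x20882086208420822080154b06) (nat_lit 0x800008ea2a) (nat_lit 51)))))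
 (.n (.n (.n (.n (.p (nat_lit 0x76807660764075e05ed05eb06) (nat_lit 0x30000c8200) (nat_lit 51))
 (.p (nat_lit 0x26c7121302) (nat_lit 0x1c0020000800) (nat_lit 41)))
 (.p (nat_lit 0x8e6058302) (nat_lit 0x20030e) (nat_lit 5)))
 (.n (.p (nat_lit 0x16fb156302) (nat_lit 0x400a02) (nat_lit 15))
 (.p (nat_lit 0x18f623ff02) (nat_lit 0x340824) (nat_lit 29))))
 (.n (.n (.p (nat_lit 0x135b11ab02) (nat_lit 0x400900) (nat_lit 15))
 (.p (nat_lit 0x1ee01e6b02) (nat_lit 0x400519) (nat_lit 5)))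
 (.n (.p (nat_lit 0xb9615a902) (nat_lit 0x40405) (nat_lit 4))
 (.p (nat_lit 0x25be25bc25ba25b825b6000501aa07) (nat_lit 0x20a11c) (nat_lit 25))))))
 (.n (.n (.n (.n (.n (.p (nat_lit 0x4940488034903) (nat_lit 0x200100) (nat_lit 6))
 (.p (nat_lit 0x278727f102) (nat_lit 0x1c00a0000500) (nat_lit 37)))
 (.p (nat_lit 0xbf20bf00bec0bea0be80a7506) (nat_lit 0x4000006407) (nat_lit 51)))
 (.n (.p (nat_lit 0x16260edf02) (nat_lit 0x440a01) (nat_lit 4))
 (.p (nat_lit 0x717070b02) (nat_lit 0x500223) (nat_lit 16))))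
 (.n (.n (.n (.p (nat_lit 0x107a1078107210700ee90ee706) (nat_lit 0x60000d2700) (nat_lit 51))
 (.p (nat_lit 0x81a28a102) (nat_lit 0x340a621b0000300000000) (nat_lit 49)))
 (.p (nat_lit 0xfe4078302) (nat_lit 0x100715) (nat_lit 4)))
 (.n (.p (nat_lit 0x13c213c013be13bc13ba0e3d06) (nat_lit 0x10000092604) (nat_lit 51))
 (.p (nat_lit 0x6b24cb02) (nat_lit 0x200103) (nat_lit 28)))))
 (.n (.n (.n (.n (.p (nat_lit 0xa600a5e0a5c0a5a0a5808cf06) (nat_lit 0x2000096400) (nat_lit 52))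
 (.p (nat_lit 0x26f1283102) (nat_lit 0x220040000a00) (nat_lit 37)))
 (.p (nat_lit 0x129e05df02) (nat_lit 0x54080e) (nat_lit 5)))
 (.n (.p (nat_lit 0x1c541c521c501c4e1c4c1c4a06) (nat_lit 0xd6103) (nat_lit 52))
 (.p (nat_lit 0x53a0538053605340266025702550533053109) (nat_lit 0x80012a) (nat_lit 10))))
 (.n (.n (.p (nat_lit 0x15ec15ea15e815e6143f143d06) (nat_lit 0x18000d0a00) (nat_lit 52))
 (.p (nat_lit 0x1fa0c5902) (nat_lit 0x20051c) (nat_lit 1)))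
 (.n (.p (nat_lit 0x20f711ef02) (nat_lit 0x102805) (nat_lit 16))
 (.p (nat_lit 0x26e102b102) (nat_lit 0x20020000000) (nat_lit 40))))))

def c256_207 : Tr :=
 .n (.n (.n (.n (.n (.n (.p (nat_lit 0x2d002ce02cc02ca02c802bb06) (nat_lit 0x800004000) (nat_lit 52))
 (.p (nat_lit 0x268727d502) (nat_lit 0x2c0000000400) (nat_lit 36)))
 (.p (nat_lit 0x8d803ad02) (nat_lit 0x100307) (nat_lit 5)))
 (.n (.p (nat_lit 0x1394138e138c138a003a002d002b1393139109) (nat_lit 0x2300901) (nat_lit 10))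
 (.p (nat_lit 0x5280a0102) (nat_lit 0x200123) (nat_lit 4))))
 (.n (.n (.n (.p (nat_lit 0xeef0e6302) (nat_lit 0x40600) (nat_lit 16))
 (.p (nat_lit 0x1658288102) (nat_lit 0x585a12b21000500000600) (nat_lit 50)))
 (.p (nat_lit 0xc50077302) (nat_lit 0x400515) (nat_lit 5)))
 (.n (.p (nat_lit 0x55f055302) (nat_lit 0x216104) (nat_lit 16))
 (.p (nat_lit 0x6e1c7f02) (nat_lit 0x40022d) (nat_lit 1)))))
 (.n (.n (.n (.n (.p (nat_lit 0x8ef06e902) (nat_lit 0xa300) (nat_lit 16))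
 (.p (nat_lit 0x270512e102) (nat_lit 0xe0040000900) (nat_lit 40)))
 (.p (nat_lit 0x38a03880386038403820b5b06) (nat_lit 0x8000c040e) (nat_lit 51)))
 (.n (.p (nat_lit 0x170716fb02) (nat_lit 0x412b02) (nat_lit 16))
 (.p (nat_lit 0x1e201eaf02) (nat_lit 0x127) (nat_lit 5))))
 (.n (.n (.p (nat_lit 0x14ac14aa14a814a6135b135306) (nat_lit 0x8800002a00) (nat_lit 52))
 (.p (nat_lit 0x434231502) (nat_lit 0x4001c) (nat_lit 29)))
 (.n (.p (nat_lit 0xd640d620d600d5e0d5a100706) (nat_lit 0x100000c705) (nat_lit 51))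
 (.p (nat_lit 0x250024e024c0246023d00bd06) (nat_lit 0x1112129) (nat_lit 26))))))
 (.n (.n (.n (.n (.n (.p (nat_lit 0x62d042502) (nat_lit 0x44e100) (nat_lit 16))
 (.p (nat_lit 0x28001a1902) (nat_lit 0x2004a700) (nat_lit 48)))
 (.p (nat_lit 0xd9224d02) (nat_lit 0x240b07) (nat_lit 30)))
 (.n (.p (nat_lit 0x2880d3902) (nat_lit 0x540502) (nat_lit 1))
 (.p (nat_lit 0x15380a4702) (nat_lit 0x100a23) (nat_lit 4))))
 (.n (.n (.n (.p (nat_lit 0x11f90fc902) (nat_lit 0x16800) (nat_lit 16))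
 (.p (nat_lit 0x2ae28c102) (nat_lit 0x332a05d81000000000000) (nat_lit 50)))
 (.p (nat_lit 0x1902184302) (nat_lit 0x916) (nat_lit 4)))
 (.n (.p (nat_lit 0x1710134102) (nat_lit 0x300b04) (nat_lit 4))
 (.p (nat_lit 0xf5253f02) (nat_lit 0x400a0a) (nat_lit 28)))))
 (.n (.n (.n (.n (.p (nat_lit 0xa6c0a680a660a640a6200090a6b07) (nat_lit 0x400500) (nat_lit 7))
 (.p (nat_lit 0x1112284502) (nat_lit 0x4a1a22344000200000600) (nat_lit 50)))
 (.p (nat_lit 0x12b227702) (nat_lit 0x540511) (nat_lit 30)))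
 (.n (.p (nat_lit 0x108410821080107e107c0e3106) (nat_lit 0x10000014603) (nat_lit 51))
 (.p (nat_lit 0x65e065c065a0658065607d106) (nat_lit 0x80004422a) (nat_lit 52))))
 (.n (.n (.p (nat_lit 0x172d172102) (nat_lit 0x540b00) (nat_lit 34))
 (.p (nat_lit 0x160808ad02) (nat_lit 0x140a1c) (nat_lit 4)))
 (.n (.p (nat_lit 0xdce0dca0dc80dc60dc4110306) (nat_lit 0x80000d2706) (nat_lit 51))
 (.p (nat_lit 0x2761056f02) (nat_lit 0x120080000100) (nat_lit 39))))))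

def c128_79 : Tr := .n c256_79 c256_207

def c64_15 : Tr := .n c128_15 c128_79

def c256_47 : Tr :=
 .n (.n (.n (.n (.n (.n (.p (nat_lit 0x790077007403) (nat_lit 0xa1100003) (nat_lit 19))
 (.p (nat_lit 0x27c0065902) (nat_lit 0x40000200) (nat_lit 45)))
 (.p (nat_lit 0xd580d560d540d520d5012c506) (nat_lit 0x80004c806) (nat_lit 52)))
 (.n (.p (nat_lit 0x1805054502) (nat_lit 0x506101) (nat_lit 16))
 (.p (nat_lit 0x1e181e9102) (nat_lit 0x200020) (nat_lit 4))))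
 (.n (.n (.n (.p (nat_lit 0xcfc0cf80cf40cf20b4b0b4706) (nat_lit 0xa0000d6500) (nat_lit 51))
 (.p (nat_lit 0x164a285b02) (nat_lit 0x281d30344000500000600) (nat_lit 49)))
 (.p (nat_lit 0x220a215702) (nat_lit 0x440814) (nat_lit 5)))
 (.n (.p (nat_lit 0x142e142c142a14261424163b06) (nat_lit 0x2000056a03) (nat_lit 51))
 (.p (nat_lit 0xf0e0cd702) (nat_lit 0x44062a) (nat_lit 5)))))
 (.n (.n (.n (.n (.p (nat_lit 0x721051302) (nat_lit 0x312200) (nat_lit 16))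
 (.p (nat_lit 0x268f280d02) (nat_lit 0x240000000800) (nat_lit 36)))
 (.p (nat_lit 0x3d803d603d203d003ce1e0306) (nat_lit 0x40000c8b0a) (nat_lit 52)))
 (.n (.p (nat_lit 0x92409220920091e091c155b06) (nat_lit 0x800086a02) (nat_lit 51))
 (.p (nat_lit 0x1838187d02) (nat_lit 0x540124) (nat_lit 5))))
 (.n (.n (.p (nat_lit 0x11a812e302) (nat_lit 0x300900) (nat_lit 5))
 (.p (nat_lit 0x181231102) (nat_lit 0x440018) (nat_lit 30)))
 (.n (.p (nat_lit 0x90615a302) (nat_lit 0x200305) (nat_lit 4))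
 (.p (nat_lit 0x18125a902) (nat_lit 0x400018) (nat_lit 28))))))
 (.n (.n (.n (.n (.n (.p (nat_lit 0x437038f02) (nat_lit 0x146000) (nat_lit 16))
 (.p (nat_lit 0x27ea20e302) (nat_lit 0x40054500) (nat_lit 48)))
 (.p (nat_lit 0x172c172817261724172209a106) (nat_lit 0x80000d6307) (nat_lit 51)))
 (.n (.p (nat_lit 0x15520ecf02) (nat_lit 0x200a01) (nat_lit 4))
 (.p (nat_lit 0x148e148c148814861484060706) (nat_lit 0x4000054123) (nat_lit 52))))
 (.n (.n (.n (.p (nat_lit 0xee4101f02) (nat_lit 0x140700) (nat_lit 4))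
 (.p (nat_lit 0x1580289702) (nat_lit 0x344580ca4000400040600) (nat_lit 50)))
 (.p (nat_lit 0x12da12d812d612d412d00d0d06) (nat_lit 0x1000052515) (nat_lit 52)))
 (.n (.p (nat_lit 0x2b802b602b402b202b00e3306) (nat_lit 0x800000604) (nat_lit 51))
 (.p (nat_lit 0x4800460040003e0007028306) (nat_lit 0x1a14502) (nat_lit 26)))))
 (.n (.n (.n (.n (.p (nat_lit 0x9e109d502) (nat_lit 0x400400) (nat_lit 34))
 (.p (nat_lit 0x2826157302) (nat_lit 0x40a00) (nat_lit 45)))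
 (.p (nat_lit 0x10c404ef02) (nat_lit 0x34070e) (nat_lit 4)))
 (.n (.p (nat_lit 0x1bfb054d02) (nat_lit 0x308103) (nat_lit 16))
 (.p (nat_lit 0x220e219702) (nat_lit 0x140829) (nat_lit 5))))
 (.n (.n (.p (nat_lit 0x159c159a15981596143f143d06) (nat_lit 0x18000c4a00) (nat_lit 52))
 (.p (nat_lit 0x5f4085102) (nat_lit 0x4011c) (nat_lit 5)))
 (.n (.p (nat_lit 0xac00b100b514fd15d905) (nat_lit 0x41900805) (nat_lit 9))
 (.p (nat_lit 0x269702a302) (nat_lit 0x1c0000000000) (nat_lit 38))))))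

def c256_175 : Tr :=
 .n (.n (.n (.n (.n (.n (.p (nat_lit 0x28602840282028b04) (nat_lit 0xe00040002c) (nat_lit 17))
 (.p (nat_lit 0x27a1081f02) (nat_lit 0x200a0000300) (nat_lit 38)))
 (.p (nat_lit 0x7c207be07bc07ba07b800dd07c107) (nat_lit 0x440207) (nat_lit 7)))
 (.n (.p (nat_lit 0x106e106a10681066106412b506) (nat_lit 0x8000052801) (nat_lit 51))
 (.p (nat_lit 0x4400ad502) (nat_lit 0x40023) (nat_lit 5))))
 (.n (.n (.n (.p (nat_lit 0xea20ea00e9e0e9c0e9a0e6d06) (nat_lit 0x10000050600) (nat_lit 51))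
 (.p (nat_lit 0x496287b02) (nat_lit 0x5898b0b44000100000000) (nat_lit 50)))
 (.p (nat_lit 0xb70076902) (nat_lit 0x540415) (nat_lit 5)))
 (.n (.p (nat_lit 0x111c111811161114111217d706) (nat_lit 0x8000050b03) (nat_lit 51))
 (.p (nat_lit 0x1b061aa102) (nat_lit 0x400a2c) (nat_lit 5)))))
 (.n (.n (.n (.n (.p (nat_lit 0x85a085808560852085006ed06) (nat_lit 0x2000082300) (nat_lit 51))
 (.p (nat_lit 0x269113bb02) (nat_lit 0x220000000900) (nat_lit 41)))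
 (.p (nat_lit 0x13c413c213be13bc13ba0a8106) (nat_lit 0x400009240e) (nat_lit 51)))
 (.n (.p (nat_lit 0x16f41b3102) (nat_lit 0x100b02) (nat_lit 29))
 (.p (nat_lit 0x1c581d3b02) (nat_lit 0x140126) (nat_lit 4))))
 (.n (.n (.p (nat_lit 0x1455128d02) (nat_lit 0x46900) (nat_lit 16))
 (.p (nat_lit 0x10241020101e101c0367036306) (nat_lit 0x1400008e01c) (nat_lit 52)))
 (.n (.p (nat_lit 0x100e100c100a1006100400a3100907) (nat_lit 0x200705) (nat_lit 7))
 (.p (nat_lit 0x2140210020e020a0221002706) (nat_lit 0x2110124) (nat_lit 26))))))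
 (.n (.n (.n (.n (.n (.p (nat_lit 0x5a0059c059805960425042106) (nat_lit 0xa000048100) (nat_lit 51))
 (.p (nat_lit 0x269327ff02) (nat_lit 0x200000000700) (nat_lit 36)))
 (.p (nat_lit 0x1604160215fe15fc00e400db00d5160115fb09) (nat_lit 0x1840a07) (nat_lit 10)))
 (.n (.p (nat_lit 0x1a621a601a5e1a5c1a5a1a5806) (nat_lit 0x94402) (nat_lit 52))
 (.p (nat_lit 0x1fb23a902) (nat_lit 0x240823) (nat_lit 30))))
 (.n (.n (.n (.p (nat_lit 0x119411921190118e118a0fcb06) (nat_lit 0x1000016800) (nat_lit 52))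
 (.p (nat_lit 0x57c28bb02) (nat_lit 0x352868d84000100040000) (nat_lit 50)))
 (.p (nat_lit 0x152606dd02) (nat_lit 0x400a15) (nat_lit 4)))
 (.n (.p (nat_lit 0x10ea133502) (nat_lit 0x340704) (nat_lit 5))
 (.p (nat_lit 0xc000be00bc00ba000b01f106) (nat_lit 0x2c10306) (nat_lit 26)))))
 (.n (.n (.n (.n (.p (nat_lit 0xb73098d02) (nat_lit 0x4e400) (nat_lit 16))
 (.p (nat_lit 0x278b172102) (nat_lit 0x1800a0000b00) (nat_lit 39)))
 (.p (nat_lit 0x1d601bdb02) (nat_lit 0x540411) (nat_lit 5)))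
 (.n (.p (nat_lit 0x1d7e1d7c1d7a1d781d761d7406) (nat_lit 0x4503) (nat_lit 52))
 (.p (nat_lit 0x1658165616541650164e071106) (nat_lit 0x200001622a) (nat_lit 51))))
 (.n (.n (.p (nat_lit 0x1711151902) (nat_lit 0x312b00) (nat_lit 16))
 (.p (nat_lit 0x1ac01bb01b9097108a105) (nat_lit 0x8a900a1c) (nat_lit 9)))
 (.n (.p (nat_lit 0xdaa0da80da60da40da0101306) (nat_lit 0x1000010706) (nat_lit 52))
 (.p (nat_lit 0x27b021e702) (nat_lit 0x40016100) (nat_lit 47))))))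

def c128_47 : Tr := .n c256_47 c256_175

def c256_111 : Tr :=
 .n (.n (.n (.n (.n (.n (.p (nat_lit 0x14c0144015303) (nat_lit 0x8800500015) (nat_lit 17))
 (.p (nat_lit 0x270927cf02) (nat_lit 0xa0040000300) (nat_lit 37)))
 (.p (nat_lit 0x148016ab02) (nat_lit 0x440906) (nat_lit 5)))
 (.n (.p (nat_lit 0x18dc18d818d618d418d20c6506) (nat_lit 0x8000092501) (nat_lit 51))
 (.p (nat_lit 0x85a085608540852085020af06) (nat_lit 0x8000082721) (nat_lit 51))))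
 (.n (.n (.n (.p (nat_lit 0xde50d6702) (nat_lit 0x600) (nat_lit 16))
 (.p (nat_lit 0x2b0286d02) (nat_lit 0x568bb0344000000000000) (nat_lit 50)))
 (.p (nat_lit 0x5ac05a805a605a405a2043106) (nat_lit 0x80000c8015) (nat_lit 52)))
 (.n (.p (nat_lit 0x121a1218121412121210170506) (nat_lit 0x4000090b03) (nat_lit 51))
 (.p (nat_lit 0x16f00c3102) (nat_lit 0x500b2a) (nat_lit 4)))))
 (.n (.n (.n (.n (.p (nat_lit 0x7d305eb02) (nat_lit 0x14a200) (nat_lit 16))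
 (.p (nat_lit 0x26e7120902) (nat_lit 0x2c0040000800) (nat_lit 39)))
 (.p (nat_lit 0x105226102) (nat_lit 0x4030e) (nat_lit 30)))
 (.n (.p (nat_lit 0x16321630162c162a0060004900431635162f09) (nat_lit 0x2a40a02) (nat_lit 10))
 (.p (nat_lit 0x1946240b02) (nat_lit 0x300a24) (nat_lit 29))))
 (.n (.n (.p (nat_lit 0x7e128f02) (nat_lit 0x140900) (nat_lit 1))
 (.p (nat_lit 0x768076607640762075e1f0706) (nat_lit 0x1000088619) (nat_lit 51)))
 (.n (.p (nat_lit 0xe4014cd02) (nat_lit 0x100605) (nat_lit 4))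
 (.p (nat_lit 0x1e201e001de01da01a9023b06) (nat_lit 0x290e521) (nat_lit 26))))))
 (.n (.n (.n (.n (.n (.p (nat_lit 0x4d604d404d204d004ce034506) (nat_lit 0x80000a100) (nat_lit 51))
 (.p (nat_lit 0x268f0e4b02) (nat_lit 0x240000000600) (nat_lit 39)))
 (.p (nat_lit 0xc240c220c200c1e0b550b4f06) (nat_lit 0x48000d4407) (nat_lit 51)))
 (.n (.p (nat_lit 0x626197b02) (nat_lit 0x140102) (nat_lit 29))
 (.p (nat_lit 0x7d707cb02) (nat_lit 0x340223) (nat_lit 16))))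
 (.n (.n (.n (.p (nat_lit 0x10bf0eed02) (nat_lit 0x540700) (nat_lit 16))
 (.p (nat_lit 0xd5828ab02) (nat_lit 0x350521a86800000000600) (nat_lit 49)))
 (.p (nat_lit 0x11c606bd02) (nat_lit 0x100815) (nat_lit 4)))
 (.n (.p (nat_lit 0x49804960494049204900f2906) (nat_lit 0x10000042604) (nat_lit 51))
 (.p (nat_lit 0x8400820080007c000b00fb06) (nat_lit 0x290c004) (nat_lit 26)))))
 (.n (.n (.n (.n (.p (nat_lit 0xabd0ab102) (nat_lit 0x40400) (nat_lit 34))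
 (.p (nat_lit 0x26ab171702) (nat_lit 0x80000000b00) (nat_lit 39)))
 (.p (nat_lit 0x191817f102) (nat_lit 0x4090f) (nat_lit 4)))
 (.n (.p (nat_lit 0x8fc113102) (nat_lit 0x200303) (nat_lit 4))
 (.p (nat_lit 0x6160bcf02) (nat_lit 0x54012a) (nat_lit 4))))
 (.n (.n (.p (nat_lit 0xbe151702) (nat_lit 0x200b00) (nat_lit 1))
 (.p (nat_lit 0xd1c096902) (nat_lit 0x34051c) (nat_lit 5)))
 (.n (.p (nat_lit 0x12c215ed02) (nat_lit 0x540805) (nat_lit 4))
 (.p (nat_lit 0x26ff02a702) (nat_lit 0x140040000000) (nat_lit 38))))))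

def c256_239 : Tr :=
 .n (.n (.n (.n (.n (.n (.p (nat_lit 0x34b02c102) (nat_lit 0x300000) (nat_lit 15))
 (.p (nat_lit 0x27da20b702) (nat_lit 0x40014400) (nat_lit 48)))
 (.p (nat_lit 0x111c111a11181114111208db06) (nat_lit 0x2000010307) (nat_lit 51)))
 (.n (.p (nat_lit 0x1911138f02) (nat_lit 0x208901) (nat_lit 16))
 (.p (nat_lit 0x12da12d812d612d412d0052706) (nat_lit 0x1000012123) (nat_lit 52))))
 (.n (.n (.n (.p (nat_lit 0xf4b0f3f02) (nat_lit 0x400700) (nat_lit 34))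
 (.p (nat_lit 0x730288b02) (nat_lit 0x342221ca4000200040000) (nat_lit 50)))
 (.p (nat_lit 0x102410221020101e101c0c5306) (nat_lit 0x1000008e515) (nat_lit 52)))
 (.n (.p (nat_lit 0x190080702) (nat_lit 0x540204) (nat_lit 1))
 (.p (nat_lit 0x1f62205d02) (nat_lit 0x22f) (nat_lit 5)))))
 (.n (.n (.n (.n (.p (nat_lit 0x92e092c092a092807b707ad06) (nat_lit 0x10800040300) (nat_lit 51))
 (.p (nat_lit 0x2733282302) (nat_lit 0x100060000900) (nat_lit 37)))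
 (.p (nat_lit 0x1d610b6502) (nat_lit 0x55040e) (nat_lit 16)))
 (.n (.p (nat_lit 0x17cc17c817c617c2005c0047004117cb17c509) (nat_lit 0x2140b02) (nat_lit 10))
 (.p (nat_lit 0x241242502) (nat_lit 0x400628) (nat_lit 30))))
 (.n (.n (.p (nat_lit 0x1510150e150a15061359135506) (nat_lit 0x5000090a00) (nat_lit 51))
 (.p (nat_lit 0xd640d620d600d5e0d5a043706) (nat_lit 0x100004c01c) (nat_lit 51)))
 (.n (.p (nat_lit 0x10fa15d502) (nat_lit 0x540705) (nat_lit 4))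
 (.p (nat_lit 0x255266702) (nat_lit 0x32a) (nat_lit 28))))))
 (.n (.n (.n (.n (.n (.p (nat_lit 0x667065b02) (nat_lit 0x300200) (nat_lit 34))
 (.p (nat_lit 0x280211e502) (nat_lit 0x40016700) (nat_lit 47)))
 (.p (nat_lit 0x1201ca502) (nat_lit 0x4020a) (nat_lit 1)))
 (.n (.p (nat_lit 0x1288128612841282128013a106) (nat_lit 0x10000096902) (nat_lit 52))
 (.p (nat_lit 0x16e00a5502) (nat_lit 0x300b23) (nat_lit 4))))
 (.n (.n (.n (.p (nat_lit 0x121b120f02) (nat_lit 0x540800) (nat_lit 34))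
 (.p (nat_lit 0x148628c702) (nat_lit 0x3508a9d84000400000600) (nat_lit 49)))
 (.p (nat_lit 0xfac0faa0fa80fa60fa41aaf06) (nat_lit 0x10000094517) (nat_lit 51)))
 (.n (.p (nat_lit 0x17de134b02) (nat_lit 0x240b04) (nat_lit 4))
 (.p (nat_lit 0x125256502) (nat_lit 0x200311) (nat_lit 28)))))
 (.n (.n (.n (.n (.p (nat_lit 0xbfe0bfc0bf80bf40a690a6506) (nat_lit 0x5000086500) (nat_lit 51))
 (.p (nat_lit 0xd4e284d02) (nat_lit 0x4a1a34344000000000600) (nat_lit 49)))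
 (.p (nat_lit 0x4fc04fa04f804f604f41def06) (nat_lit 0x10000010b11) (nat_lit 52)))
 (.n (.p (nat_lit 0x106e106c106a10640f170f1506) (nat_lit 0x3000052603) (nat_lit 51))
 (.p (nat_lit 0x171e171c171a171607db07d306) (nat_lit 0x110000d622a) (nat_lit 52))))
 (.n (.n (.p (nat_lit 0x17821780177c177a177815f506) (nat_lit 0x40000d2b00) (nat_lit 52))
 (.p (nat_lit 0x17fc185702) (nat_lit 0x10011d) (nat_lit 4)))
 (.n (.p (nat_lit 0x81c081a08160814120311fd06) (nat_lit 0x12000006806) (nat_lit 52))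
 (.p (nat_lit 0x26af073102) (nat_lit 0x40000000200) (nat_lit 41))))))

def c128_111 : Tr := .n c256_111 c256_239

def c64_47 : Tr := .n c128_47 c128_111

def c32_15 : Tr := .n c64_15 c64_47

def c256_31 : Tr :=
 .n (.n (.n (.n (.n (.n (.p (nat_lit 0x40004f02) (nat_lit 0x1000600002) (nat_lit 17))
 (.p (nat_lit 0x26c7065702) (nat_lit 0x1c0020000200) (nat_lit 38)))
 (.p (nat_lit 0x65e065c065a0658065412c706) (nat_lit 0x1000044806) (nat_lit 52)))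
 (.n (.p (nat_lit 0x4540e7702) (nat_lit 0x540001) (nat_lit 4))
 (.p (nat_lit 0x6e1b7702) (nat_lit 0x40001f) (nat_lit 1))))
 (.n (.n (.n (.p (nat_lit 0xc980c960c900c8e0b490b4706) (nat_lit 0x6000042500) (nat_lit 51))
 (.p (nat_lit 0x111c285902) (nat_lit 0x4a8874b44000200000600) (nat_lit 50)))
 (.p (nat_lit 0x176a176817661764176021bb06) (nat_lit 0x10000d0414) (nat_lit 52)))
 (.n (.p (nat_lit 0x6d1dc702) (nat_lit 0x340a03) (nat_lit 30))
 (.p (nat_lit 0x2456245424522450244e244c026007) (nat_lit 0x62a) (nat_lit 8)))))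
 (.n (.n (.n (.n (.p (nat_lit 0x6f5050d02) (nat_lit 0x200) (nat_lit 16))
 (.p (nat_lit 0x26b1110702) (nat_lit 0x20000000800) (nat_lit 38)))
 (.p (nat_lit 0x1dda1b6702) (nat_lit 0x100b0a) (nat_lit 5)))
 (.n (.p (nat_lit 0x15621560155e155c155a0049156507) (nat_lit 0x500a02) (nat_lit 7))
 (.p (nat_lit 0xd7a0d780d760d740d72180b06) (nat_lit 0x2000080124) (nat_lit 51))))
 (.n (.n (.p (nat_lit 0x12c710af02) (nat_lit 0x156800) (nat_lit 16))
 (.p (nat_lit 0x1b201a0902) (nat_lit 0x540a17) (nat_lit 5)))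
 (.n (.p (nat_lit 0x80e14b502) (nat_lit 0x340205) (nat_lit 5))
 (.p (nat_lit 0x25922590258e258c258a0171015007) (nat_lit 0x50c815) (nat_lit 25))))))
 (.n (.n (.n (.n (.n (.p (nat_lit 0x3f203f003ee03ec038f038d06) (nat_lit 0x18000ce000) (nat_lit 51))
 (.p (nat_lit 0x27e6044302) (nat_lit 0x20046500) (nat_lit 48)))
 (.p (nat_lit 0x65e065c065806560654099f06) (nat_lit 0x4000044307) (nat_lit 52)))
 (.n (.p (nat_lit 0x149a1496149414921490146906) (nat_lit 0x8000054901) (nat_lit 51))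
 (.p (nat_lit 0xaba0ab80ab60ab40ab0060306) (nat_lit 0x10000c8123) (nat_lit 52))))
 (.n (.n (.n (.p (nat_lit 0x10030de302) (nat_lit 0x512700) (nat_lit 16))
 (.p (nat_lit 0x1116289502) (nat_lit 0x356068ca4000200000600) (nat_lit 50)))
 (.p (nat_lit 0x81c081a0818081608140d1506) (nat_lit 0x10000046515) (nat_lit 52)))
 (.n (.p (nat_lit 0xe3613f902) (nat_lit 0x200604) (nat_lit 5))
 (.p (nat_lit 0x25249302) (nat_lit 0x801) (nat_lit 28)))))
 (.n (.n (.n (.n (.p (nat_lit 0x1f808cd02) (nat_lit 0x100400) (nat_lit 1))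
 (.p (nat_lit 0x2691282902) (nat_lit 0x220000000a00) (nat_lit 37)))
 (.p (nat_lit 0x1ee50d0102) (nat_lit 0x15250e) (nat_lit 16)))
 (.n (.p (nat_lit 0x54c1bbb02) (nat_lit 0x300103) (nat_lit 29))
 (.p (nat_lit 0x21f8218d02) (nat_lit 0x829) (nat_lit 5))))
 (.n (.n (.p (nat_lit 0x1583157702) (nat_lit 0x240a00) (nat_lit 34))
 (.p (nat_lit 0x522084f02) (nat_lit 0x50011c) (nat_lit 5)))
 (.n (.p (nat_lit 0x20d510f302) (nat_lit 0x146705) (nat_lit 16))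
 (.p (nat_lit 0x26a702a302) (nat_lit 0xc0000000000) (nat_lit 38))))))

def c256_159 : Tr :=
 .n (.n (.n (.n (.n (.n (.p (nat_lit 0x25e025a0254026104) (nat_lit 0x1480040002a) (nat_lit 17))
 (.p (nat_lit 0x27d20a8d02) (nat_lit 0x60002300) (nat_lit 47)))
 (.p (nat_lit 0x50a05080504050206fb06f506) (nat_lit 0x4800016207) (nat_lit 51)))
 (.n (.p (nat_lit 0x12b00eab02) (nat_lit 0x240801) (nat_lit 5))
 (.p (nat_lit 0x37009ed02) (nat_lit 0x400023) (nat_lit 4))))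
 (.n (.n (.n (.p (nat_lit 0x2c0e6b02) (nat_lit 0x440600) (nat_lit 1))
 (.p (nat_lit 0x1658287702) (nat_lit 0x568872b44000500000600) (nat_lit 50)))
 (.p (nat_lit 0xb700b6e0b6c0b6a0b6601470b6907) (nat_lit 0x140415) (nat_lit 7)))
 (.n (.p (nat_lit 0x918091609140912090e17d106) (nat_lit 0x10000c6b03) (nat_lit 52))
 (.p (nat_lit 0x107a10781074107210701a1d06) (nat_lit 0x40000d222c) (nat_lit 51)))))
 (.n (.n (.n (.n (.p (nat_lit 0x836083408320830082e082c06) (nat_lit 0x300) (nat_lit 52))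
 (.p (nat_lit 0x275b121902) (nat_lit 0x180080000800) (nat_lit 41)))
 (.p (nat_lit 0x9e209de09dc09da09d80a8306) (nat_lit 0x800000840e) (nat_lit 51)))
 (.n (.p (nat_lit 0x1658165616541650164e162f06) (nat_lit 0x2000056a02) (nat_lit 51))
 (.p (nat_lit 0x1bf41d2f02) (nat_lit 0x126) (nat_lit 5))))
 (.n (.n (.p (nat_lit 0x142e142c142a1428128f128d06) (nat_lit 0x1800056900) (nat_lit 51))
 (.p (nat_lit 0x48e048a048804860484036506) (nat_lit 0x800000201c) (nat_lit 52)))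
 (.n (.p (nat_lit 0xf3420a502) (nat_lit 0x540605) (nat_lit 29))
 (.p (nat_lit 0x22e262102) (nat_lit 0x200823) (nat_lit 27))))))
 (.n (.n (.n (.n (.n (.p (nat_lit 0x10a042302) (nat_lit 0x340100) (nat_lit 1))
 (.p (nat_lit 0x27fa16f902) (nat_lit 0x60010600) (nat_lit 48)))
 (.p (nat_lit 0x1b901b8e1b8c1b881b8611b106) (nat_lit 0x2000084807) (nat_lit 51)))
 (.n (.p (nat_lit 0x7ee0f6b02) (nat_lit 0x540202) (nat_lit 4))
 (.p (nat_lit 0x12a110dd02) (nat_lit 0x40723) (nat_lit 15))))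
 (.n (.n (.n (.p (nat_lit 0x112c112a112811260fd10fc906) (nat_lit 0x8800082800) (nat_lit 51))
 (.p (nat_lit 0x165428b302) (nat_lit 0x352868d84000500000600) (nat_lit 50)))
 (.p (nat_lit 0x1e6c1e6a1e681e641e62144d06) (nat_lit 0x200004a915) (nat_lit 51)))
 (.n (.p (nat_lit 0x117c117a1178117611740ff906) (nat_lit 0x800014704) (nat_lit 52))
 (.p (nat_lit 0xa800a600a4009e0081000306) (nat_lit 0x1110705) (nat_lit 26)))))
 (.n (.n (.n (.n (.p (nat_lit 0xb49099302) (nat_lit 0x340400) (nat_lit 15))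
 (.p (nat_lit 0x2753172b02) (nat_lit 0x200080000b00) (nat_lit 41)))
 (.p (nat_lit 0x1d851d1b02) (nat_lit 0x200411) (nat_lit 15)))
 (.n (.p (nat_lit 0xb881d2d02) (nat_lit 0x540403) (nat_lit 29))
 (.p (nat_lit 0xf4c0f480f460f440f42071506) (nat_lit 0x800000e22a) (nat_lit 51))))
 (.n (.n (.p (nat_lit 0x16d9151d02) (nat_lit 0x506b00) (nat_lit 16))
 (.p (nat_lit 0x1e961e941e921e901e8e136706) (nat_lit 0x80000091c) (nat_lit 52)))
 (.n (.p (nat_lit 0x1010173f02) (nat_lit 0x706) (nat_lit 5))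
 (.p (nat_lit 0x26ff048902) (nat_lit 0x140040000100) (nat_lit 38))))))

def c128_31 : Tr := .n c256_31 c256_159

def c256_95 : Tr :=
 .n (.n (.n (.n (.n (.n (.p (nat_lit 0x12601240120012d04) (nat_lit 0x6800400011) (nat_lit 17))
 (.p (nat_lit 0x268727c902) (nat_lit 0x2c0000000300) (nat_lit 36)))
 (.p (nat_lit 0x1478222502) (nat_lit 0x40906) (nat_lit 29)))
 (.n (.p (nat_lit 0x1886188418821880187e0a9906) (nat_lit 0x4000012401) (nat_lit 51))
 (.p (nat_lit 0x20a61fb902) (nat_lit 0x721) (nat_lit 5))))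
 (.n (.n (.n (.p (nat_lit 0xdb60db40db20db00dae0dac06) (nat_lit 0x90600) (nat_lit 52))
 (.p (nat_lit 0x1720286702) (nat_lit 0x1a2274b50000500040600) (nat_lit 49)))
 (.p (nat_lit 0x430074f02) (nat_lit 0x440015) (nat_lit 4)))
 (.n (.p (nat_lit 0x92409220920091e091c16ff06) (nat_lit 0x800086b03) (nat_lit 51))
 (.p (nat_lit 0x206e206c206a20682066161b06) (nat_lit 0x80000c4a2a) (nat_lit 52)))))
 (.n (.n (.n (.n (.p (nat_lit 0x7ad05e902) (nat_lit 0x40200) (nat_lit 15))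
 (.p (nat_lit 0x2701111702) (nat_lit 0x120040000800) (nat_lit 40)))
 (.p (nat_lit 0x68a068806860684068208e306) (nat_lit 0x80000830e) (nat_lit 52)))
 (.n (.p (nat_lit 0x162c1b0d02) (nat_lit 0x140a02) (nat_lit 29))
 (.p (nat_lit 0x9fa09f609f409f209f0191506) (nat_lit 0x8000080924) (nat_lit 52))))
 (.n (.n (.p (nat_lit 0x139111a902) (nat_lit 0x30c900) (nat_lit 16))
 (.p (nat_lit 0x1ef01e3b02) (nat_lit 0x240519) (nat_lit 5)))
 (.n (.p (nat_lit 0x20450ba102) (nat_lit 0x544405) (nat_lit 16))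
 (.p (nat_lit 0x1dc25d902) (nat_lit 0x100a1c) (nat_lit 27))))))
 (.n (.n (.n (.n (.n (.p (nat_lit 0x34a0348034603440022000b0009034f034d09) (nat_lit 0x2c00100) (nat_lit 10))
 (.p (nat_lit 0x26a927f302) (nat_lit 0xa0000000600) (nat_lit 37)))
 (.p (nat_lit 0xb52030702) (nat_lit 0x240407) (nat_lit 5)))
 (.n (.p (nat_lit 0x458103702) (nat_lit 0x140002) (nat_lit 4))
 (.p (nat_lit 0x7cc237d02) (nat_lit 0x440223) (nat_lit 29))))
 (.n (.n (.n (.p (nat_lit 0x109e109c109a109610940ee706) (nat_lit 0x2000056700) (nat_lit 52))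
 (.p (nat_lit 0xc7a28a302) (nat_lit 0x350521a84000500040000) (nat_lit 49)))
 (.p (nat_lit 0x22d622d422d222d022ce22cc015007) (nat_lit 0x40715) (nat_lit 8)))
 (.n (.p (nat_lit 0xf22131d02) (nat_lit 0x240604) (nat_lit 5))
 (.p (nat_lit 0x6b24d702) (nat_lit 0x200603) (nat_lit 28)))))
 (.n (.n (.n (.n (.p (nat_lit 0xa8108d102) (nat_lit 0x302400) (nat_lit 16))
 (.p (nat_lit 0x2723158502) (nat_lit 0x200060000a00) (nat_lit 41)))
 (.p (nat_lit 0x214c214a214821462144179706) (nat_lit 0x10000050b0e) (nat_lit 51)))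
 (.n (.p (nat_lit 0x6b1c8702) (nat_lit 0x240203) (nat_lit 30))
 (.p (nat_lit 0x60c0c9b02) (nat_lit 0x4012a) (nat_lit 5))))
 (.n (.n (.p (nat_lit 0x161b144502) (nat_lit 0x44aa00) (nat_lit 16))
 (.p (nat_lit 0xaf60af20af00aee0aec0c5d06) (nat_lit 0x800008251c) (nat_lit 52)))
 (.n (.p (nat_lit 0xa1210b02) (nat_lit 0x140805) (nat_lit 30))
 (.p (nat_lit 0x26bd02b102) (nat_lit 0x260020000000) (nat_lit 40))))))

def c256_223 : Tr :=
 .n (.n (.n (.n (.n (.n (.p (nat_lit 0x2f402f002ee02ec02c302bb06) (nat_lit 0x8800086000) (nat_lit 51))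
 (.p (nat_lit 0x26d509cf02) (nat_lit 0xe0020000400) (nat_lit 38)))
 (.p (nat_lit 0x8e008de08dc08d600e800d900d708db08d909) (nat_lit 0x1100307) (nat_lit 10)))
 (.n (.p (nat_lit 0xaba0ab80ab60ab40ab0138d06) (nat_lit 0x1000088901) (nat_lit 52))
 (.p (nat_lit 0x65e065c065806560654052b06) (nat_lit 0x4000004123) (nat_lit 52))))
 (.n (.n (.n (.p (nat_lit 0xf2f0e6702) (nat_lit 0x254600) (nat_lit 16))
 (.p (nat_lit 0x102c288502) (nat_lit 0x344580a64000100040600) (nat_lit 50)))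
 (.p (nat_lit 0x65e065a0658065606540c5106) (nat_lit 0x8000004515) (nat_lit 52)))
 (.n (.p (nat_lit 0x7fc13df02) (nat_lit 0x40204) (nat_lit 4))
 (.p (nat_lit 0x1e4e1ec702) (nat_lit 0x20022e) (nat_lit 4)))))
 (.n (.n (.n (.n (.p (nat_lit 0x7b0091302) (nat_lit 0x240300) (nat_lit 4))
 (.p (nat_lit 0x26f112e102) (nat_lit 0x220040000900) (nat_lit 40)))
 (.p (nat_lit 0xe600e5c0e5a0e580e560b6306) (nat_lit 0x80000cc40e) (nat_lit 51)))
 (.n (.p (nat_lit 0x17c61b3f02) (nat_lit 0x240b02) (nat_lit 29))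
 (.p (nat_lit 0x1f56202502) (nat_lit 0x40128) (nat_lit 4))))
 (.n (.n (.p (nat_lit 0x14ec14e814e614e4135b135306) (nat_lit 0x880000ea00) (nat_lit 52))
 (.p (nat_lit 0x1ac01b901bb0841093b05) (nat_lit 0xa544001c) (nat_lit 9)))
 (.n (.p (nat_lit 0x9f20c702) (nat_lit 0x40705) (nat_lit 30))
 (.p (nat_lit 0x255265b02) (nat_lit 0x12a) (nat_lit 28))))))
 (.n (.n (.n (.n (.n (.p (nat_lit 0x516051405120510050e0001050d07) (nat_lit 0x200) (nat_lit 7))
 (.p (nat_lit 0x26f30f3b02) (nat_lit 0x200040000700) (nat_lit 38)))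
 (.p (nat_lit 0xef5178b02) (nat_lit 0x340b07) (nat_lit 15)))
 (.n (.p (nat_lit 0x6e139f02) (nat_lit 0x400902) (nat_lit 1))
 (.p (nat_lit 0x16dd153902) (nat_lit 0x100a23) (nat_lit 15))))
 (.n (.n (.n (.p (nat_lit 0x10b0121502) (nat_lit 0x240800) (nat_lit 5))
 (.p (nat_lit 0x73228c302) (nat_lit 0x3508a9d84000200040000) (nat_lit 50)))
 (.p (nat_lit 0x1d631a8302) (nat_lit 0x52417) (nat_lit 16)))
 (.n (.p (nat_lit 0x15de15dc15da15d815d6171506) (nat_lit 0x10000010b04) (nat_lit 52))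
 (.p (nat_lit 0x10e010c0106010400db000506) (nat_lit 0x1a0a40e) (nat_lit 26)))))
 (.n (.n (.n (.n (.p (nat_lit 0xbda0bd80bd60bd40bd20bd006) (nat_lit 0x4500) (nat_lit 52))
 (.p (nat_lit 0x1490284702) (nat_lit 0x4a1a36344000400000600) (nat_lit 50)))
 (.p (nat_lit 0x1dea1c4502) (nat_lit 0x300b11) (nat_lit 4)))
 (.n (.p (nat_lit 0xf141db702) (nat_lit 0x140603) (nat_lit 29))
 (.p (nat_lit 0x102610241020101e101c07d706) (nat_lit 0x40000ce22a) (nat_lit 52))))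
 (.n (.n (.p (nat_lit 0x175c175a1756175415f915f306) (nat_lit 0x12000050b00) (nat_lit 51))
 (.p (nat_lit 0x16d008b902) (nat_lit 0x100b1c) (nat_lit 4)))
 (.n (.p (nat_lit 0x1202175f02) (nat_lit 0x500806) (nat_lit 5))
 (.p (nat_lit 0x279d049b02) (nat_lit 0x600a0000100) (nat_lit 40))))))

def c128_95 : Tr := .n c256_95 c256_223

def c64_31 : Tr := .n c128_31 c128_95

def c256_63 : Tr :=
 .n (.n (.n (.n (.n (.n (.p (nat_lit 0xa800a400a000ab04) (nat_lit 0x15000400005) (nat_lit 17))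
 (.p (nat_lit 0x276d066902) (nat_lit 0x60080000200) (nat_lit 40)))
 (.p (nat_lit 0x220f12c702) (nat_lit 0x148806) (nat_lit 16)))
 (.n (.p (nat_lit 0x620181b02) (nat_lit 0x440101) (nat_lit 29))
 (.p (nat_lit 0x1f321fa902) (nat_lit 0x300021) (nat_lit 4))))
 (.n (.n (.n (.p (nat_lit 0xd210b4d02) (nat_lit 0x546500) (nat_lit 16))
 (.p (nat_lit 0x382286302) (nat_lit 0x281d30344000000040000) (nat_lit 50)))
 (.p (nat_lit 0x356067102) (nat_lit 0x300015) (nat_lit 5)))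
 (.n (.p (nat_lit 0x1702127902) (nat_lit 0x200b03) (nat_lit 5))
 (.p (nat_lit 0x15420ce302) (nat_lit 0xa2a) (nat_lit 4)))))
 (.n (.n (.n (.n (.p (nat_lit 0x14e05f302) (nat_lit 0x540200) (nat_lit 1))
 (.p (nat_lit 0x280e139702) (nat_lit 0xc800) (nat_lit 47)))
 (.p (nat_lit 0x21da211d02) (nat_lit 0x80d) (nat_lit 4)))
 (.n (.p (nat_lit 0x1032102c102a10281563156106) (nat_lit 0xc00008ea02) (nat_lit 51))
 (.p (nat_lit 0x1a0d184f02) (nat_lit 0x150224) (nat_lit 16))))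
 (.n (.n (.p (nat_lit 0x13221320131e131c131811a506) (nat_lit 0x100008c900) (nat_lit 51))
 (.p (nat_lit 0x6e1dab02) (nat_lit 0x440518) (nat_lit 1)))
 (.n (.p (nat_lit 0x9c41fdb02) (nat_lit 0x140305) (nat_lit 29))
 (.p (nat_lit 0x18e018c018a0186017b008706) (nat_lit 0xd0e519) (nat_lit 26))))))
 (.n (.n (.n (.n (.n (.p (nat_lit 0x471038d02) (nat_lit 0x54000) (nat_lit 16))
 (.p (nat_lit 0x27ec0ba902) (nat_lit 0x60000500) (nat_lit 45)))
 (.p (nat_lit 0xa7403c902) (nat_lit 0x300407) (nat_lit 4)))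
 (.n (.p (nat_lit 0x1949155702) (nat_lit 0x408a01) (nat_lit 16))
 (.p (nat_lit 0x1a4070702) (nat_lit 0x300223) (nat_lit 1))))
 (.n (.n (.n (.p (nat_lit 0xeec0ee80ee60ee40ee200090eeb07) (nat_lit 0x440700) (nat_lit 7))
 (.p (nat_lit 0x382289f02) (nat_lit 0x354868ca4000000040000) (nat_lit 50)))
 (.p (nat_lit 0x14522b502) (nat_lit 0x615) (nat_lit 30)))
 (.n (.p (nat_lit 0x81e081a081608140e3b0e3706) (nat_lit 0xa000006604) (nat_lit 52))
 (.p (nat_lit 0x4524b702) (nat_lit 0x300b02) (nat_lit 28)))))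
 (.n (.n (.n (.n (.p (nat_lit 0xa120a100a0e0a0c0a0808cd06) (nat_lit 0x1000082400) (nat_lit 51))
 (.p (nat_lit 0x26c9158102) (nat_lit 0x1a0020000a00) (nat_lit 41)))
 (.p (nat_lit 0x11c205d702) (nat_lit 0x50080e) (nat_lit 5)))
 (.n (.p (nat_lit 0x636122b02) (nat_lit 0x340103) (nat_lit 4))
 (.p (nat_lit 0x257243702) (nat_lit 0x10012a) (nat_lit 30))))
 (.n (.n (.p (nat_lit 0x15d415d215d015ce15cc15ca06) (nat_lit 0xcea00) (nat_lit 52))
 (.p (nat_lit 0x75c075a0758075405f905f506) (nat_lit 0x280004811c) (nat_lit 51)))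
 (.n (.p (nat_lit 0x11f611f411f211ec00b200a300a111f111ef09) (nat_lit 0x1100805) (nat_lit 10))
 (.p (nat_lit 0x268b02af02) (nat_lit 0x280000000000) (nat_lit 40))))))

def c256_191 : Tr :=
 .n (.n (.n (.n (.n (.n (.p (nat_lit 0x2be02a702) (nat_lit 0x200000) (nat_lit 4))
 (.p (nat_lit 0x26af27d502) (nat_lit 0x40000000400) (nat_lit 36)))
 (.p (nat_lit 0x5e605e405e205e007c107b906) (nat_lit 0x88000d6207) (nat_lit 52)))
 (.n (.p (nat_lit 0x12cb12b302) (nat_lit 0x354801) (nat_lit 16))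
 (.p (nat_lit 0x44a09fb02) (nat_lit 0x540023) (nat_lit 4))))
 (.n (.n (.n (.p (nat_lit 0xec80ec60ec20ec00ebe0e6906) (nat_lit 0x40000d2600) (nat_lit 52))
 (.p (nat_lit 0xab6287d02) (nat_lit 0x585a12b21000400040000) (nat_lit 49)))
 (.p (nat_lit 0x20430b6f02) (nat_lit 0x454415) (nat_lit 16)))
 (.n (.p (nat_lit 0x1e1117d702) (nat_lit 0x442b03) (nat_lit 16))
 (.p (nat_lit 0x297247b02) (nat_lit 0x50012d) (nat_lit 30)))))
 (.n (.n (.n (.n (.p (nat_lit 0x8c808c608c408c208c006e906) (nat_lit 0x800096300) (nat_lit 52))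
 (.p (nat_lit 0x26c7281d02) (nat_lit 0x1c0020000900) (nat_lit 37)))
 (.p (nat_lit 0xb640b620b600b5e0b5c01050b5b07) (nat_lit 0x4040e) (nat_lit 7)))
 (.n (.p (nat_lit 0x16fc1b3902) (nat_lit 0x500b02) (nat_lit 29))
 (.p (nat_lit 0x1c671c5b02) (nat_lit 0x240126) (nat_lit 16))))
 (.n (.n (.p (nat_lit 0xa2135702) (nat_lit 0x200a00) (nat_lit 1))
 (.p (nat_lit 0x172c172a172817220361035f06) (nat_lit 0x300009601c) (nat_lit 51)))
 (.n (.p (nat_lit 0x65e065c065a06580656100506) (nat_lit 0x800004705) (nat_lit 52))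
 (.p (nat_lit 0x246263d02) (nat_lit 0xa24) (nat_lit 27))))))
 (.n (.n (.n (.n (.n (.p (nat_lit 0x5f9042102) (nat_lit 0x246100) (nat_lit 16))
 (.p (nat_lit 0x27fc102902) (nat_lit 0x40700) (nat_lit 46)))
 (.p (nat_lit 0x211a21182116211416b116af06) (nat_lit 0x1800084b07) (nat_lit 52)))
 (.n (.p (nat_lit 0x431a9102) (nat_lit 0x200502) (nat_lit 30))
 (.p (nat_lit 0x13780a4302) (nat_lit 0x300923) (nat_lit 5))))
 (.n (.n (.n (.p (nat_lit 0x11bf0fcf02) (nat_lit 0x302800) (nat_lit 16))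
 (.p (nat_lit 0xaba28bd02) (nat_lit 0x352868d64000400040000) (nat_lit 49)))
 (.p (nat_lit 0x16c606e102) (nat_lit 0x200b15) (nat_lit 5)))
 (.n (.p (nat_lit 0x10f910ed02) (nat_lit 0x456704) (nat_lit 16))
 (.p (nat_lit 0xdb252902) (nat_lit 0x300407) (nat_lit 28)))))
 (.n (.n (.n (.n (.p (nat_lit 0xa640bb102) (nat_lit 0x100500) (nat_lit 5))
 (.p (nat_lit 0x578283f02) (nat_lit 0x4a1a22344000100040000) (nat_lit 50)))
 (.p (nat_lit 0x1b621b601b5e1b5c1d8b1d8906) (nat_lit 0x18000088511) (nat_lit 51)))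
 (.n (.p (nat_lit 0xe300e2e0e2c0e2a0e2600690e2907) (nat_lit 0x100603) (nat_lit 7))
 (.p (nat_lit 0x7d40be102) (nat_lit 0x24022a) (nat_lit 5))))
 (.n (.n (.p (nat_lit 0x1726171a15f303) (nat_lit 0x240b00) (nat_lit 6))
 (.p (nat_lit 0x15321530152c152a01bc01a901a31535152f09) (nat_lit 0x2a00a1c) (nat_lit 10)))
 (.n (.p (nat_lit 0x10fc21d102) (nat_lit 0x140706) (nat_lit 29))
 (.p (nat_lit 0x272727b502) (nat_lit 0x1c0060000100) (nat_lit 36))))))

def c128_63 : Tr := .n c256_63 c256_191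

def c256_127 : Tr :=
 .n (.n (.n (.n (.n (.n (.p (nat_lit 0x1a601a401a001ab04) (nat_lit 0xd00040001c) (nat_lit 17))
 (.p (nat_lit 0x26ed27cd02) (nat_lit 0x260040000300) (nat_lit 36)))
 (.p (nat_lit 0x15ba15b815b415b21483147d06) (nat_lit 0x1200004c906) (nat_lit 51)))
 (.n (.p (nat_lit 0x11e20e9d02) (nat_lit 0x100801) (nat_lit 5))
 (.p (nat_lit 0x20dc200f02) (nat_lit 0x540721) (nat_lit 4))))
 (.n (.n (.n (.p (nat_lit 0xe1d0d6902) (nat_lit 0x10a600) (nat_lit 16))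
 (.p (nat_lit 0x736286f02) (nat_lit 0x588872b44000200040000) (nat_lit 50)))
 (.p (nat_lit 0xa900a8e0a8c0a880a8601490a8b07) (nat_lit 0x200415) (nat_lit 7)))
 (.n (.p (nat_lit 0x1df3170102) (nat_lit 0x108b03) (nat_lit 16))
 (.p (nat_lit 0x192218df02) (nat_lit 0x4092b) (nat_lit 4)))))
 (.n (.n (.n (.n (.p (nat_lit 0x81e081c081a08180816081406) (nat_lit 0x300) (nat_lit 2))
 (.p (nat_lit 0x2725110d02) (nat_lit 0x1e0060000800) (nat_lit 38)))
 (.p (nat_lit 0x9ae226b02) (nat_lit 0x54030e) (nat_lit 29)))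
 (.n (.p (nat_lit 0x81e081c081808160814163106) (nat_lit 0x4000046a02) (nat_lit 52))
 (.p (nat_lit 0x195e1a7502) (nat_lit 0x400025) (nat_lit 5))))
 (.n (.n (.p (nat_lit 0x129413c302) (nat_lit 0x440900) (nat_lit 5))
 (.p (nat_lit 0x208a1f7902) (nat_lit 0x4051a) (nat_lit 4)))
 (.n (.p (nat_lit 0x168816861684168216800e4906) (nat_lit 0x10000010605) (nat_lit 52))
 (.p (nat_lit 0x1f201f001ee01ec01db01a106) (nat_lit 0x112822) (nat_lit 26))))))
 (.n (.n (.n (.n (.n (.p (nat_lit 0x521034d02) (nat_lit 0x406100) (nat_lit 16))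
 (.p (nat_lit 0x26db0d5d02) (nat_lit 0x80020000600) (nat_lit 40)))
 (.p (nat_lit 0xfd70deb02) (nat_lit 0x300607) (nat_lit 15)))
 (.n (.p (nat_lit 0x633062702) (nat_lit 0x152102) (nat_lit 16))
 (.p (nat_lit 0xe180a3302) (nat_lit 0x500623) (nat_lit 4))))
 (.n (.n (.n (.p (nat_lit 0x10f70ee902) (nat_lit 0x354700) (nat_lit 16))
 (.p (nat_lit 0x65c28ad02) (nat_lit 0x354a621b0000200000000) (nat_lit 49)))
 (.p (nat_lit 0x22ee22ec22ea22e822e622e4015007) (nat_lit 0x915) (nat_lit 8)))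
 (.n (.p (nat_lit 0xbac0baa0ba60ba40ba20f2506) (nat_lit 0x400004a604) (nat_lit 52))
 (.p (nat_lit 0xa800a400a2009e0003010106) (nat_lit 0xc0e005) (nat_lit 26)))))
 (.n (.n (.n (.n (.p (nat_lit 0x9960abb02) (nat_lit 0x540400) (nat_lit 4))
 (.p (nat_lit 0x26db171902) (nat_lit 0x80020000b00) (nat_lit 39)))
 (.p (nat_lit 0x1a66198702) (nat_lit 0x300410) (nat_lit 5)))
 (.n (.p (nat_lit 0x9c21cc702) (nat_lit 0x540303) (nat_lit 29))
 (.p (nat_lit 0x70e0bd302) (nat_lit 0x10022a) (nat_lit 4))))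
 (.n (.n (.p (nat_lit 0x1660165e165c165a151b151706) (nat_lit 0xa000080b00) (nat_lit 52))
 (.p (nat_lit 0x4350d1702) (nat_lit 0x4051c) (nat_lit 15)))
 (.n (.p (nat_lit 0x1350134e1348134612bf12bd06) (nat_lit 0x60000d6805) (nat_lit 52))
 (.p (nat_lit 0x275102b702) (nat_lit 0x220080000000) (nat_lit 40))))))

def c256_255 : Tr :=
 .n (.n (.n (.n (.n (.n (.p (nat_lit 0x381037502) (nat_lit 0x40000) (nat_lit 34))
 (.p (nat_lit 0x26af27e302) (nat_lit 0x40000000500) (nat_lit 36)))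
 (.p (nat_lit 0xa7708df02) (nat_lit 0x400307) (nat_lit 15)))
 (.n (.p (nat_lit 0x146a0ec902) (nat_lit 0x540901) (nat_lit 4))
 (.p (nat_lit 0x6020aef02) (nat_lit 0x140123) (nat_lit 4))))
 (.n (.n (.n (.p (nat_lit 0xfa20fa00f9e0f9a0f980ddd06) (nat_lit 0x2000014700) (nat_lit 52))
 (.p (nat_lit 0xac6288d02) (nat_lit 0x356221ca4000400040000) (nat_lit 50)))
 (.p (nat_lit 0xc570c4b02) (nat_lit 0x108515) (nat_lit 16)))
 (.n (.p (nat_lit 0xb8a130502) (nat_lit 0x40404) (nat_lit 4))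
 (.p (nat_lit 0x1f92206d02) (nat_lit 0x34022f) (nat_lit 4)))))
 (.n (.n (.n (.n (.p (nat_lit 0x96c096a0966096407b307ad06) (nat_lit 0x48000ca300) (nat_lit 51))
 (.p (nat_lit 0x271d12d702) (nat_lit 0x260060000900) (nat_lit 38)))
 (.p (nat_lit 0xc4604d702) (nat_lit 0x50050e) (nat_lit 5)))
 (.n (.p (nat_lit 0xed40ed20ed00ecc0eca17c706) (nat_lit 0x2000054b02) (nat_lit 52))
 (.p (nat_lit 0x2140217f02) (nat_lit 0x400129) (nat_lit 4))))
 (.n (.n (.p (nat_lit 0x1543135302) (nat_lit 0xaa00) (nat_lit 16))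
 (.p (nat_lit 0x157c157a157815761574043506) (nat_lit 0x8000d401c) (nat_lit 52)))
 (.n (.p (nat_lit 0x82a082808240822082010f706) (nat_lit 0x4000046705) (nat_lit 51))
 (.p (nat_lit 0x2880286028402820257021906) (nat_lit 0x81432c) (nat_lit 26))))))
 (.n (.n (.n (.n (.n (.p (nat_lit 0x67e067c067a06780676051706) (nat_lit 0x10000080200) (nat_lit 51))
 (.p (nat_lit 0x272f102f02) (nat_lit 0x140060000700) (nat_lit 41)))
 (.p (nat_lit 0x1cae1b9102) (nat_lit 0x54020a) (nat_lit 5)))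
 (.n (.p (nat_lit 0x1474107902) (nat_lit 0x440902) (nat_lit 5))
 (.p (nat_lit 0x1dfb16e502) (nat_lit 0x510b23) (nat_lit 16))))
 (.n (.n (.p (nat_lit 0x127e127c12781276127410b306) (nat_lit 0x4000056800) (nat_lit 51))
 (.p (nat_lit 0xfa00f9e0f9c0f9a0f981adb06) (nat_lit 0x10000054517) (nat_lit 52)))
 (.n (.p (nat_lit 0x1504150214fe14fc14fa17e106) (nat_lit 0x4000050b04) (nat_lit 51))
 (.p (nat_lit 0x257425722570256e256c007f012c07) (nat_lit 0x114411) (nat_lit 25)))))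
 (.n (.n (.n (.n (.p (nat_lit 0xc4b0a6502) (nat_lit 0x104500) (nat_lit 16))
 (.p (nat_lit 0x81c284f02) (nat_lit 0x4a0d84344000300000000) (nat_lit 49)))
 (.p (nat_lit 0x4b204b004ac04aa04a81e0f06) (nat_lit 0x40000c6b11) (nat_lit 52)))
 (.n (.p (nat_lit 0x156a126102) (nat_lit 0x200a03) (nat_lit 5))
 (.p (nat_lit 0x8f60bf102) (nat_lit 0x40032a) (nat_lit 5))))
 (.n (.n (.p (nat_lit 0x179f15f902) (nat_lit 0x544b00) (nat_lit 16))
 (.p (nat_lit 0x1941193702) (nat_lit 0xaa1d) (nat_lit 16)))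
 (.n (.p (nat_lit 0x164c164a16481644164211fd06) (nat_lit 0x2000016806) (nat_lit 52))
 (.p (nat_lit 0x2689065502) (nat_lit 0x2a0000000200) (nat_lit 38))))))

def c128_127 : Tr := .n c256_127 c256_255

def c64_63 : Tr := .n c128_63 c128_127

def c32_31 : Tr := .n c64_31 c64_63

def c16_15 : Tr := .n c32_15 c32_31

def c8_7 : Tr := .n c16_7 c16_15

def c4_3 : Tr := .n c8_3 c8_7

def b3 : Tr := c4_3

theorem hb2_3 : allp (tst G49 true (getA DT)) b3 = true := by decide +kernel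

end Vale.Agent.P032.H437.Ev3
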