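import Vale.Agent.P032.H437.SatP
import Vale.Agent.P032.H437.SatH

namespace Vale.Agent.P032.H437.Ev3
open Vale.Agent.P032.H859.Rup Vale.Agent.P032.H437

def a128_0 : TA :=
 .n (.n (.n (.n (.n (.n (.l (nat_lit 0x0))
 (.l (nat_lit 0xc7215)))
 (.l (nat_lit 0x107044)))
 (.n (.n (.l (nat_lit 0xa2044))
 (.l (nat_lit 0x4700a)))
 (.l (nat_lit 0xc11d4))))
 (.n (.n (.n (.l (nat_lit 0xea075))
 (.l (nat_lit 0x128247)))
 (.l (nat_lit 0x26045)))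
 (.n (.l (nat_lit 0x62a5))
 (.l (nat_lit 0x12d4)))))
 (.n (.n (.n (.n (.l (nat_lit 0x140230))
 (.l (nat_lit 0x108294)))
 (.l (nat_lit 0x108064)))
 (.n (.l (nat_lit 0x81235))
 (.l (nat_lit 0x6a176))))
 (.n (.n (.n (.l (nat_lit 0x21234))
 (.l (nat_lit 0x40233)))
 (.l (nat_lit 0xea074)))
 (.n (.l (nat_lit 0x86154))
 (.l (nat_lit 0xab0a4))))))
 (.n (.n (.n (.n (.n (.l (nat_lit 0x1000c0))
 (.l (nat_lit 0x481a4)))
 (.l (nat_lit 0xe7064)))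
 (.n (.l (nat_lit 0x143034))
 (.l (nat_lit 0x1490f4))))
 (.n (.n (.n (.l (nat_lit 0xb0e6))
 (.l (nat_lit 0xc3053)))
 (.l (nat_lit 0xc8056)))
 (.n (.l (nat_lit 0x650e4))
 (.l (nat_lit 0x21266)))))
 (.n (.n (.n (.n (.l (nat_lit 0x144076))
 (.l (nat_lit 0x8a157)))
 (.l (nat_lit 0x122046)))
 (.n (.l (nat_lit 0x102235))
 (.l (nat_lit 0x4a2c4))))
 (.n (.n (.n (.l (nat_lit 0x2234))
 (.l (nat_lit 0x1280009)))
 (.l (nat_lit 0x4b034)))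
 (.n (.l (nat_lit 0xe6234))
 (.l (nat_lit 0x106047))))))

def a128_64 : TA :=
 .n (.n (.n (.n (.n (.n (.l (nat_lit 0x80040))
 (.l (nat_lit 0x272f6)))
 (.l (nat_lit 0x8a026)))
 (.n (.n (.l (nat_lit 0x1271c6))
 (.l (nat_lit 0x161684ac840600c)))
 (.l (nat_lit 0x49246))))
 (.n (.n (.n (.l (nat_lit 0xe0064))
 (.l (nat_lit 0x862d7)))
 (.l (nat_lit 0x129064)))
 (.n (.l (nat_lit 0x165005))
 (.l (nat_lit 0x1422d4)))))
 (.n (.n (.n (.n (.l (nat_lit 0x402c0))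
 (.l (nat_lit 0x125127)))
 (.l (nat_lit 0x2b035)))
 (.n (.l (nat_lit 0xc40e4))
 (.l (nat_lit 0x16a256))))
 (.n (.n (.n (.l (nat_lit 0x160156))
 (.l (nat_lit 0xc92c3)))
 (.l (nat_lit 0x8065)))
 (.n (.l (nat_lit 0x21016))
 (.l (nat_lit 0x166195))))))
 (.n (.n (.n (.n (.n (.l (nat_lit 0x100180))
 (.l (nat_lit 0x141295)))
 (.l (nat_lit 0x6a035)))
 (.n (.l (nat_lit 0x12a1c6))
 (.l (nat_lit 0x121027))))
 (.n (.n (.n (.l (nat_lit 0x430e6))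
 (.l (nat_lit 0x7153)))
 (.l (nat_lit 0x6a006)))
 (.n (.l (nat_lit 0xc1015))
 (.l (nat_lit 0x5114)))))
 (.n (.n (.n (.n (.l (nat_lit 0x20006))
 (.l (nat_lit 0x6237)))
 (.l (nat_lit 0x492a4)))
 (.n (.l (nat_lit 0x64034))
 (.l (nat_lit 0xe0037))))
 (.n (.n (.n (.l (nat_lit 0x165155))
 (.l (nat_lit 0x2340009)))
 (.l (nat_lit 0x129065)))
 (.n (.l (nat_lit 0x9025))
 (.l (nat_lit 0x1651a5))))))

def a64_0 : TA := .n a128_0 a128_64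

def a128_32 : TA :=
 .n (.n (.n (.n (.n (.n (.l (nat_lit 0x40020))
 (.l (nat_lit 0xe41a4)))
 (.l (nat_lit 0x61025)))
 (.n (.n (.l (nat_lit 0x1201c6))
 (.l (nat_lit 0x1286888d102600c)))
 (.l (nat_lit 0x144165))))
 (.n (.n (.n (.l (nat_lit 0x20234))
 (.l (nat_lit 0x212a7)))
 (.l (nat_lit 0xaa004)))
 (.n (.l (nat_lit 0x850e4))
 (.l (nat_lit 0x4b115)))))
 (.n (.n (.n (.n (.l (nat_lit 0x100280))
 (.l (nat_lit 0xa3077)))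
 (.l (nat_lit 0xe4036)))
 (.n (.l (nat_lit 0x89236))
 (.l (nat_lit 0x1401e6))))
 (.n (.n (.n (.l (nat_lit 0xe1044))
 (.l (nat_lit 0xca243)))
 (.l (nat_lit 0x16a034)))
 (.n (.l (nat_lit 0x46054))
 (.l (nat_lit 0x6196))))))
 (.n (.n (.n (.n (.n (.l (nat_lit 0x80140))
 (.l (nat_lit 0x101294)))
 (.l (nat_lit 0x64035)))
 (.n (.l (nat_lit 0x411c5))
 (.l (nat_lit 0xa244))))
 (.n (.n (.n (.l (nat_lit 0xc1014))
 (.l (nat_lit 0x14a0a3)))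
 (.l (nat_lit 0x14a234)))
 (.n (.l (nat_lit 0x125034))
 (.l (nat_lit 0x121265)))))
 (.n (.n (.n (.n (.l (nat_lit 0x12b076))
 (.l (nat_lit 0x10a1c7)))
 (.l (nat_lit 0xcb045)))
 (.n (.l (nat_lit 0x16b236))
 (.l (nat_lit 0xeb027))))
 (.n (.n (.n (.l (nat_lit 0xc0155))
 (.l (nat_lit 0x2c0009)))
 (.l (nat_lit 0x47066)))
 (.n (.l (nat_lit 0x147005))
 (.l (nat_lit 0x120214))))))

def a128_96 : TA :=
 .n (.n (.n (.n (.n (.n (.l (nat_lit 0xc0060))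
 (.l (nat_lit 0x872f4)))
 (.l (nat_lit 0x670e4)))
 (.n (.n (.l (nat_lit 0x6b1c5))
 (.l (nat_lit 0xcca8176040000c)))
 (.l (nat_lit 0xc9245))))
 (.n (.n (.n (.l (nat_lit 0x240e6))
 (.l (nat_lit 0x80033)))
 (.l (nat_lit 0x65055)))
 (.n (.l (nat_lit 0x832a5))
 (.l (nat_lit 0xa3037)))))
 (.n (.n (.n (.n (.l (nat_lit 0xc0004))
 (.l (nat_lit 0x7157)))
 (.l (nat_lit 0x128054)))
 (.n (.l (nat_lit 0xa4006))
 (.l (nat_lit 0x1222c5))))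
 (.n (.n (.n (.l (nat_lit 0xc8155))
 (.l (nat_lit 0x2240009)))
 (.l (nat_lit 0xcb0e4)))
 (.n (.l (nat_lit 0x69015))
 (.l (nat_lit 0x14b276))))))
 (.n (.n (.n (.n (.n (.l (nat_lit 0xac01c2))
 (.l (nat_lit 0x164144)))
 (.l (nat_lit 0x1080e4)))
 (.n (.l (nat_lit 0x123034))
 (.l (nat_lit 0x1022c4))))
 (.n (.n (.n (.l (nat_lit 0xe50e5))
 (.l (nat_lit 0x51c3)))
 (.l (nat_lit 0x47056)))
 (.n (.l (nat_lit 0x109015))
 (.l (nat_lit 0x2a037)))))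
 (.n (.n (.n (.n (.l (nat_lit 0x163075))
 (.l (nat_lit 0x8a237)))
 (.l (nat_lit 0xe9006)))
 (.n (.l (nat_lit 0xc12a5))
 (.l (nat_lit 0x3115))))
 (.n (.n (.n (.l (nat_lit 0x122074))
 (.l (nat_lit 0x8200a)))
 (.l (nat_lit 0x16b2a4)))
 (.n (.l (nat_lit 0xab026))
 (.l (nat_lit 0x107216))))))

def a64_32 : TA := .n a128_32 a128_96

def a32_0 : TA := .n a64_0 a64_32

def a128_16 : TA :=
 .n (.n (.n (.n (.n (.n (.l (nat_lit 0xac0002))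
 (.l (nat_lit 0x124057)))
 (.l (nat_lit 0xa7005)))
 (.n (.n (.l (nat_lit 0x3006))
 (.l (nat_lit 0x8900b)))
 (.l (nat_lit 0x440f6))))
 (.n (.n (.n (.l (nat_lit 0xa1004))
 (.l (nat_lit 0x86287)))
 (.l (nat_lit 0x127045)))
 (.n (.l (nat_lit 0xaa2a6))
 (.l (nat_lit 0x64115)))))
 (.n (.n (.n (.n (.l (nat_lit 0x100250))
 (.l (nat_lit 0x109067)))
 (.l (nat_lit 0x101035)))
 (.n (.l (nat_lit 0x62236))
 (.l (nat_lit 0x1622c4))))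
 (.n (.n (.n (.l (nat_lit 0x121014))
 (.l (nat_lit 0x88233)))
 (.l (nat_lit 0x6a014)))
 (.n (.l (nat_lit 0xc62a4))
 (.l (nat_lit 0x1274))))))
 (.n (.n (.n (.n (.n (.l (nat_lit 0x110))
 (.l (nat_lit 0xc80d5)))
 (.l (nat_lit 0x81036)))
 (.n (.l (nat_lit 0xe3006))
 (.l (nat_lit 0x1690f4))))
 (.n (.n (.n (.l (nat_lit 0x1011c4))
 (.l (nat_lit 0xc9063)))
 (.l (nat_lit 0x4a154)))
 (.n (.l (nat_lit 0x1651c4))
 (.l (nat_lit 0x144114)))))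
 (.n (.n (.n (.n (.l (nat_lit 0x8075))
 (.l (nat_lit 0x11c7)))
 (.l (nat_lit 0x126046)))
 (.n (.l (nat_lit 0x167235))
 (.l (nat_lit 0x16a174))))
 (.n (.n (.n (.l (nat_lit 0xc2044))
 (.l (nat_lit 0x22c0009)))
 (.l (nat_lit 0x16b005)))
 (.n (.l (nat_lit 0x66044))
 (.l (nat_lit 0x14b047))))))

def a128_80 : TA :=
 .n (.n (.n (.n (.n (.n (.l (nat_lit 0x40050))
 (.l (nat_lit 0xe6057)))
 (.l (nat_lit 0x2b025)))
 (.n (.n (.l (nat_lit 0x4a1c5))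
 (.l (nat_lit 0xd029886c00000c)))
 (.l (nat_lit 0x104164))))
 (.n (.n (.n (.l (nat_lit 0x830e5))
 (.l (nat_lit 0x84023)))
 (.l (nat_lit 0xa0055)))
 (.n (.l (nat_lit 0x1212a6))
 (.l (nat_lit 0x125185)))))
 (.n (.n (.n (.n (.l (nat_lit 0x100300))
 (.l (nat_lit 0xa4157)))
 (.l (nat_lit 0x28234)))
 (.n (.l (nat_lit 0x104034))
 (.l (nat_lit 0x10a2c6))))
 (.n (.n (.n (.l (nat_lit 0x105155))
 (.l (nat_lit 0x1200009)))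
 (.l (nat_lit 0x149066)))
 (.n (.l (nat_lit 0xc8016))
 (.l (nat_lit 0x140206))))))
 (.n (.n (.n (.n (.n (.l (nat_lit 0x401c0))
 (.l (nat_lit 0x7295)))
 (.l (nat_lit 0x16b036)))
 (.n (.l (nat_lit 0x123074))
 (.l (nat_lit 0x105175))))
 (.n (.n (.n (.l (nat_lit 0x1440e6))
 (.l (nat_lit 0x149153)))
 (.l (nat_lit 0x43055)))
 (.n (.l (nat_lit 0x8015))
 (.l (nat_lit 0x165114)))))
 (.n (.n (.n (.n (.l (nat_lit 0x142076))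
 (.l (nat_lit 0x108237)))
 (.l (nat_lit 0x149024)))
 (.n (.l (nat_lit 0x164054))
 (.l (nat_lit 0x6b0a5))))
 (.n (.n (.n (.l (nat_lit 0xca156))
 (.l (nat_lit 0x340009)))
 (.l (nat_lit 0x6b1c4)))
 (.n (.l (nat_lit 0x10a025))
 (.l (nat_lit 0x143057))))))

def a64_16 : TA := .n a128_16 a128_80

def a128_48 : TA :=
 .n (.n (.n (.n (.n (.n (.l (nat_lit 0xa80022))
 (.l (nat_lit 0x822f6)))
 (.l (nat_lit 0x125025)))
 (.n (.n (.l (nat_lit 0x851c5))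
 (.l (nat_lit 0xa074c0d1a0000c)))
 (.l (nat_lit 0x4a1d6))))
 (.n (.n (.n (.l (nat_lit 0x20034))
 (.l (nat_lit 0x10a2a7)))
 (.l (nat_lit 0x29014)))
 (.n (.l (nat_lit 0x85014))
 (.l (nat_lit 0x161264)))))
 (.n (.n (.n (.n (.l (nat_lit 0x1002a1))
 (.l (nat_lit 0x230e7)))
 (.l (nat_lit 0x8a036)))
 (.n (.l (nat_lit 0x16b235))
 (.l (nat_lit 0x12a255))))
 (.n (.n (.n (.l (nat_lit 0x2006))
 (.l (nat_lit 0xc12a3)))
 (.l (nat_lit 0x160065)))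
 (.n (.l (nat_lit 0x166006))
 (.l (nat_lit 0x162047))))))
 (.n (.n (.n (.n (.n (.l (nat_lit 0x880152))
 (.l (nat_lit 0x1620d4)))
 (.l (nat_lit 0x86036)))
 (.n (.l (nat_lit 0x1451c6))
 (.l (nat_lit 0x140254))))
 (.n (.n (.n (.l (nat_lit 0xc1054))
 (.l (nat_lit 0x3113)))
 (.l (nat_lit 0xca024)))
 (.n (.l (nat_lit 0xc6006))
 (.l (nat_lit 0x164114)))))
 (.n (.n (.n (.n (.l (nat_lit 0x801c4))
 (.l (nat_lit 0xa0237)))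
 (.l (nat_lit 0x89154)))
 (.n (.l (nat_lit 0xe40e4))
 (.l (nat_lit 0xa40a6))))
 (.n (.n (.n (.l (nat_lit 0x64156))
 (.l (nat_lit 0x1300009)))
 (.l (nat_lit 0x28065)))
 (.n (.l (nat_lit 0x22025))
 (.l (nat_lit 0x161284))))))

def a128_112 : TA :=
 .n (.n (.n (.n (.n (.n (.l (nat_lit 0x100071))
 (.l (nat_lit 0x672f4)))
 (.l (nat_lit 0xe7234)))
 (.n (.l (nat_lit 0x143074))
 (.l (nat_lit 0x692b5))))
 (.n (.n (.n (.l (nat_lit 0x1650e6))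
 (.l (nat_lit 0xca033)))
 (.l (nat_lit 0x166055)))
 (.n (.l (nat_lit 0x1492a5))
 (.l (nat_lit 0xa30a4)))))
 (.n (.n (.n (.n (.l (nat_lit 0x43075))
 (.l (nat_lit 0x108157)))
 (.l (nat_lit 0x89006)))
 (.n (.l (nat_lit 0x1236))
 (.l (nat_lit 0x89174))))
 (.n (.n (.n (.l (nat_lit 0x8b156))
 (.l (nat_lit 0x240009)))
 (.l (nat_lit 0xcb234)))
 (.n (.l (nat_lit 0x16a015))
 (.l (nat_lit 0x105194))))))
 (.n (.n (.n (.n (.n (.l (nat_lit 0xc0210))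
 (.l (nat_lit 0x1480d4)))
 (.l (nat_lit 0x8014)))
 (.n (.l (nat_lit 0x104006))
 (.l (nat_lit 0x145176))))
 (.n (.n (.n (.l (nat_lit 0x6b0e5))
 (.l (nat_lit 0x51e3)))
 (.l (nat_lit 0x148055)))
 (.n (.l (nat_lit 0x107004))
 (.l (nat_lit 0x10b0a4)))))
 (.n (.n (.n (.n (.l (nat_lit 0x106076))
 (.l (nat_lit 0x22247)))
 (.l (nat_lit 0x62045)))
 (.n (.l (nat_lit 0xa22a6))
 (.l (nat_lit 0x8b116))))
 (.n (.n (.n (.l (nat_lit 0xe2014))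
 (.l (nat_lit 0x10400a)))
 (.l (nat_lit 0xeb044)))
 (.n (.l (nat_lit 0xc70e4))
 (.l (nat_lit 0x123057))))))

def a64_48 : TA := .n a128_48 a128_112

def a32_16 : TA := .n a64_16 a64_48

def a16_0 : TA := .n a32_0 a32_16

def a128_8 : TA :=
 .n (.n (.n (.n (.n (.n (.l (nat_lit 0x600002))
 (.l (nat_lit 0x44134)))
 (.l (nat_lit 0x7064)))
 (.n (.n (.l (nat_lit 0x122054))
 (.l (nat_lit 0x4800a)))
 (.l (nat_lit 0x141244))))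
 (.n (.n (.n (.l (nat_lit 0x14b075))
 (.l (nat_lit 0x257)))
 (.l (nat_lit 0x87045)))
 (.n (.l (nat_lit 0xc92a6))
 (.l (nat_lit 0x161037)))))
 (.n (.n (.n (.n (.l (nat_lit 0xc0240))
 (.l (nat_lit 0xa8294)))
 (.l (nat_lit 0x28006)))
 (.n (.l (nat_lit 0x121236))
 (.l (nat_lit 0xe2254))))
 (.n (.n (.n (.l (nat_lit 0xa12a4))
 (.l (nat_lit 0x142233)))
 (.l (nat_lit 0x16a1c4)))
 (.n (.l (nat_lit 0x6234))
 (.l (nat_lit 0x12b114))))))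
 (.n (.n (.n (.n (.n (.l (nat_lit 0x1000e1))
 (.l (nat_lit 0x128057)))
 (.l (nat_lit 0x148005)))
 (.n (.l (nat_lit 0x63005))
 (.l (nat_lit 0x89244))))
 (.n (.n (.n (.l (nat_lit 0x82004))
 (.l (nat_lit 0x8053)))
 (.l (nat_lit 0x168056)))
 (.n (.l (nat_lit 0xe5154))
 (.l (nat_lit 0xcb265)))))
 (.n (.n (.n (.n (.l (nat_lit 0x86075))
 (.l (nat_lit 0x120187)))
 (.l (nat_lit 0x86045)))
 (.n (.l (nat_lit 0x47235))
 (.l (nat_lit 0xea027))))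
 (.n (.n (.n (.l (nat_lit 0x822a4))
 (.l (nat_lit 0x280009)))
 (.l (nat_lit 0xcb044)))
 (.n (.l (nat_lit 0x1662a4))
 (.l (nat_lit 0xe6194))))))

def a128_72 : TA :=
 .n (.n (.n (.n (.n (.n (.l (nat_lit 0x800042))
 (.l (nat_lit 0x1251a4)))
 (.l (nat_lit 0x12a025)))
 (.n (.n (.l (nat_lit 0x891c5))
 (.l (nat_lit 0xd508872900000c)))
 (.l (nat_lit 0x10a245))))
 (.n (.n (.n (.l (nat_lit 0x1006))
 (.l (nat_lit 0x145013)))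
 (.l (nat_lit 0xa006)))
 (.n (.l (nat_lit 0x412a6))
 (.l (nat_lit 0xa0185)))))
 (.n (.n (.n (.n (.l (nat_lit 0x802d0))
 (.l (nat_lit 0x4157)))
 (.l (nat_lit 0xa9004)))
 (.n (.l (nat_lit 0x144154))
 (.l (nat_lit 0x85027))))
 (.n (.n (.n (.l (nat_lit 0xa4155))
 (.l (nat_lit 0x2200009)))
 (.l (nat_lit 0xa8066)))
 (.n (.l (nat_lit 0x4015))
 (.l (nat_lit 0x80205))))))
 (.n (.n (.n (.n (.n (.l (nat_lit 0x140190))
 (.l (nat_lit 0x88296)))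
 (.l (nat_lit 0xcb035)))
 (.n (.l (nat_lit 0xa4004))
 (.l (nat_lit 0x82027))))
 (.n (.n (.n (.l (nat_lit 0xe30e6))
 (.l (nat_lit 0xc8153)))
 (.l (nat_lit 0x161056)))
 (.n (.l (nat_lit 0x84016))
 (.l (nat_lit 0xc51f4)))))
 (.n (.n (.n (.n (.l (nat_lit 0xa0004))
 (.l (nat_lit 0xa6237)))
 (.l (nat_lit 0xc9014)))
 (.n (.l (nat_lit 0xe4044))
 (.l (nat_lit 0x1620a6))))
 (.n (.n (.n (.l (nat_lit 0x167155))
 (.l (nat_lit 0x1340009)))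
 (.l (nat_lit 0x6b0e4)))
 (.n (.l (nat_lit 0xa9025))
 (.l (nat_lit 0xa22f4))))))

def a64_8 : TA := .n a128_8 a128_72

def a128_40 : TA :=
 .n (.n (.n (.n (.n (.n (.l (nat_lit 0x200022))
 (.l (nat_lit 0x25057)))
 (.l (nat_lit 0x122026)))
 (.n (.n (.l (nat_lit 0x211c6))
 (.l (nat_lit 0x12a21d8d102000c)))
 (.l (nat_lit 0xe2244))))
 (.n (.n (.n (.l (nat_lit 0xe0014))
 (.l (nat_lit 0x862a7)))
 (.l (nat_lit 0x129154)))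
 (.n (.l (nat_lit 0x105154))
 (.l (nat_lit 0xeb115)))))
 (.n (.n (.n (.n (.l (nat_lit 0x140290))
 (.l (nat_lit 0x12b077)))
 (.l (nat_lit 0x146035)))
 (.n (.l (nat_lit 0xb235))
 (.l (nat_lit 0xa2256))))
 (.n (.n (.n (.l (nat_lit 0xe1064))
 (.l (nat_lit 0x9293)))
 (.l (nat_lit 0x4b006)))
 (.n (.l (nat_lit 0xe6005))
 (.l (nat_lit 0xc22e4))))))
 (.n (.n (.n (.n (.n (.l (nat_lit 0x100151))
 (.l (nat_lit 0x28146)))
 (.l (nat_lit 0x145035)))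
 (.n (.l (nat_lit 0xe11c5))
 (.l (nat_lit 0x801e4))))
 (.n (.n (.n (.l (nat_lit 0x141034))
 (.l (nat_lit 0x830e3)))
 (.l (nat_lit 0x4a014)))
 (.n (.l (nat_lit 0x46005))
 (.l (nat_lit 0x640a4)))))
 (.n (.n (.n (.n (.l (nat_lit 0x154))
 (.l (nat_lit 0x237)))
 (.l (nat_lit 0x16b045)))
 (.n (.l (nat_lit 0x64074))
 (.l (nat_lit 0x1620a5))))
 (.n (.n (.n (.l (nat_lit 0x160155))
 (.l (nat_lit 0x2300009)))
 (.l (nat_lit 0x127066)))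
 (.n (.l (nat_lit 0x60026))
 (.l (nat_lit 0x88136))))))

def a128_104 : TA :=
 .n (.n (.n (.n (.n (.n (.l (nat_lit 0xa40062))
 (.l (nat_lit 0x167057)))
 (.l (nat_lit 0x127154)))
 (.n (.l (nat_lit 0xc4004))
 (.l (nat_lit 0x145017))))
 (.n (.n (.n (.l (nat_lit 0x850e6))
 (.l (nat_lit 0x141033)))
 (.l (nat_lit 0xc6055)))
 (.n (.l (nat_lit 0x1632a5))
 (.l (nat_lit 0x1401f6)))))
 (.n (.n (.n (.n (.l (nat_lit 0x142075))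
 (.l (nat_lit 0xa7157)))
 (.l (nat_lit 0x9005)))
 (.n (.l (nat_lit 0x100236))
 (.l (nat_lit 0x25174))))
 (.n (.n (.n (.l (nat_lit 0xa9155))
 (.l (nat_lit 0x1240009)))
 (.l (nat_lit 0x4b1c4)))
 (.n (.l (nat_lit 0xca015))
 (.l (nat_lit 0x622e6))))))
 (.n (.n (.n (.n (.n (.l (nat_lit 0xc01e0))
 (.l (nat_lit 0x67067)))
 (.l (nat_lit 0x81c4)))
 (.n (.l (nat_lit 0x84005))
 (.l (nat_lit 0x64176))))
 (.n (.n (.n (.l (nat_lit 0x480e6))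
 (.l (nat_lit 0xc71c3)))
 (.l (nat_lit 0xe7055)))
 (.n (.l (nat_lit 0xaa016))
 (.l (nat_lit 0x8b037)))))
 (.n (.n (.n (.n (.l (nat_lit 0x64075))
 (.l (nat_lit 0x10b237)))
 (.l (nat_lit 0xc1045)))
 (.n (.l (nat_lit 0x22a5))
 (.l (nat_lit 0x144115))))
 (.n (.n (.n (.l (nat_lit 0x222a4))
 (.l (nat_lit 0xc300a)))
 (.l (nat_lit 0x6b034)))
 (.n (.l (nat_lit 0x108004))
 (.l (nat_lit 0x432f4))))))

def a64_40 : TA := .n a128_40 a128_104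

def a32_8 : TA := .n a64_8 a64_40

def a128_24 : TA :=
 .n (.n (.n (.n (.n (.n (.l (nat_lit 0x100011))
 (.l (nat_lit 0x7285)))
 (.l (nat_lit 0x127006)))
 (.n (.n (.l (nat_lit 0x801c5))
 (.l (nat_lit 0x8a00b)))
 (.l (nat_lit 0x61244))))
 (.n (.n (.n (.l (nat_lit 0x120154))
 (.l (nat_lit 0x107297)))
 (.l (nat_lit 0x2b046)))
 (.n (.l (nat_lit 0x14b2a5))
 (.l (nat_lit 0x145115)))))
 (.n (.n (.n (.n (.l (nat_lit 0xc0260))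
 (.l (nat_lit 0x3077)))
 (.l (nat_lit 0x22035)))
 (.n (.l (nat_lit 0x106235))
 (.l (nat_lit 0x43094))))
 (.n (.n (.n (.l (nat_lit 0x21034))
 (.l (nat_lit 0x14b233)))
 (.l (nat_lit 0xea024)))
 (.n (.l (nat_lit 0x146034))
 (.l (nat_lit 0xc5195))))))
 (.n (.n (.n (.n (.n (.l (nat_lit 0x800112))
 (.l (nat_lit 0x64146)))
 (.l (nat_lit 0x83035)))
 (.n (.l (nat_lit 0x1401c6))
 (.l (nat_lit 0xca0f4))))
 (.n (.n (.n (.l (nat_lit 0x12a4))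
 (.l (nat_lit 0x820a3)))
 (.l (nat_lit 0xca1c4)))
 (.n (.l (nat_lit 0x65024))
 (.l (nat_lit 0x41266)))))
 (.n (.n (.n (.n (.l (nat_lit 0xb076))
 (.l (nat_lit 0x881c7)))
 (.l (nat_lit 0x67046)))
 (.n (.l (nat_lit 0x4b236))
 (.l (nat_lit 0x4b027))))
 (.n (.n (.n (.l (nat_lit 0x22006))
 (.l (nat_lit 0x12c0009)))
 (.l (nat_lit 0xa1066)))
 (.n (.l (nat_lit 0xe6054))
 (.l (nat_lit 0x80214))))))

def a128_88 : TA :=
 .n (.n (.n (.n (.n (.n (.l (nat_lit 0x400052))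
 (.l (nat_lit 0x147214)))
 (.l (nat_lit 0xa8004)))
 (.n (.n (.l (nat_lit 0xea1c5))
 (.l (nat_lit 0xd41486a0a0600c)))
 (.l (nat_lit 0x61245))))
 (.n (.n (.n (.l (nat_lit 0x1230e5))
 (.l (nat_lit 0xb023)))
 (.l (nat_lit 0x62056)))
 (.n (.l (nat_lit 0x222a5))
 (.l (nat_lit 0x3114)))))
 (.n (.n (.n (.n (.l (nat_lit 0x40006))
 (.l (nat_lit 0x105157)))
 (.l (nat_lit 0xa8014)))
 (.n (.l (nat_lit 0x24005))
 (.l (nat_lit 0x22c6))))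
 (.n (.n (.n (.l (nat_lit 0x46156))
 (.l (nat_lit 0x200009)))
 (.l (nat_lit 0x4b074)))
 (.n (.l (nat_lit 0x168016))
 (.l (nat_lit 0x81276))))))
 (.n (.n (.n (.n (.n (.l (nat_lit 0x2001c2))
 (.l (nat_lit 0x88295)))
 (.l (nat_lit 0x88074)))
 (.n (.l (nat_lit 0x232a4))
 (.l (nat_lit 0x6a175))))
 (.n (.n (.n (.l (nat_lit 0x450e5))
 (.l (nat_lit 0xc6183)))
 (.l (nat_lit 0x164055)))
 (.n (.l (nat_lit 0xa8015))
 (.l (nat_lit 0xc62d4)))))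
 (.n (.n (.n (.n (.l (nat_lit 0xc3076))
 (.l (nat_lit 0x9237)))
 (.l (nat_lit 0x69005)))
 (.n (.l (nat_lit 0x45006))
 (.l (nat_lit 0x120184))))
 (.n (.n (.n (.l (nat_lit 0xa3004))
 (.l (nat_lit 0x8100b)))
 (.l (nat_lit 0xeb234)))
 (.n (.l (nat_lit 0xb026))
 (.l (nat_lit 0x60216))))))

def a64_24 : TA := .n a128_24 a128_88

def a128_56 : TA :=
 .n (.n (.n (.n (.n (.n (.l (nat_lit 0x140030))
 (.l (nat_lit 0x432f5)))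
 (.l (nat_lit 0x29026)))
 (.n (.n (.l (nat_lit 0x1251c5))
 (.l (nat_lit 0x16221cad102600c)))
 (.l (nat_lit 0x141245))))
 (.n (.n (.n (.l (nat_lit 0x20054))
 (.l (nat_lit 0x12d7)))
 (.l (nat_lit 0xa9024)))
 (.n (.l (nat_lit 0xc5034))
 (.l (nat_lit 0x64185)))))
 (.n (.n (.n (.n (.l (nat_lit 0x8402a2))
 (.l (nat_lit 0xa5117)))
 (.l (nat_lit 0x12a036)))
 (.n (.l (nat_lit 0x44074))
 (.l (nat_lit 0x80256))))
 (.n (.n (.n (.l (nat_lit 0xc0156))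
 (.l (nat_lit 0x32c3)))
 (.l (nat_lit 0xc7065)))
 (.n (.l (nat_lit 0x60015))
 (.l (nat_lit 0x65195))))))
 (.n (.n (.n (.n (.n (.l (nat_lit 0x140170))
 (.l (nat_lit 0xa30d4)))
 (.l (nat_lit 0x166036)))
 (.n (.l (nat_lit 0x4a1c6))
 (.l (nat_lit 0xa01e4))))
 (.n (.n (.n (.l (nat_lit 0x161005))
 (.l (nat_lit 0xc4113)))
 (.l (nat_lit 0x14a034)))
 (.n (.l (nat_lit 0x146004))
 (.l (nat_lit 0x1212d5)))))
 (.n (.n (.n (.n (.l (nat_lit 0x100234))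
 (.l (nat_lit 0x121237)))
 (.l (nat_lit 0x1491c4)))
 (.n (.l (nat_lit 0x164154))
 (.l (nat_lit 0x1f4))))
 (.n (.n (.n (.l (nat_lit 0xc5156))
 (.l (nat_lit 0x300009)))
 (.l (nat_lit 0x89065)))
 (.n (.l (nat_lit 0xa4025))
 (.l (nat_lit 0x641a6))))))

def a128_120 : TA :=
 .n (.n (.n (.n (.n (.n (.l (nat_lit 0x800a0))
 (.l (nat_lit 0x108057)))
 (.l (nat_lit 0x27054)))
 (.n (.l (nat_lit 0x432a4))
 (.l (nat_lit 0xc8244))))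
 (.n (.n (.n (.l (nat_lit 0x1270e5))
 (.l (nat_lit 0x2053)))
 (.l (nat_lit 0x67056)))
 (.n (.l (nat_lit 0x16a2a5))
 (.l (nat_lit 0x104037)))))
 (.n (.n (.n (.n (.l (nat_lit 0xe3076))
 (.l (nat_lit 0x29157)))
 (.l (nat_lit 0x2046)))
 (.n (.l (nat_lit 0xa1235))
 (.l (nat_lit 0x14a174))))
 (.n (.n (.n (.l (nat_lit 0x103004))
 (.l (nat_lit 0x2280009)))
 (.l (nat_lit 0x14b2a4)))
 (.n (.l (nat_lit 0x66074))
 (.l (nat_lit 0xa5194))))))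
 (.n (.n (.n (.n (.n (.l (nat_lit 0x100220))
 (.l (nat_lit 0x88224)))
 (.l (nat_lit 0x88054)))
 (.n (.l (nat_lit 0x20235))
 (.l (nat_lit 0x89176))))
 (.n (.n (.n (.l (nat_lit 0x122004))
 (.l (nat_lit 0xc7213)))
 (.l (nat_lit 0x6b004)))
 (.n (.l (nat_lit 0x60e4))
 (.l (nat_lit 0xb264)))))
 (.n (.n (.n (.n (.l (nat_lit 0x127076))
 (.l (nat_lit 0x88247)))
 (.l (nat_lit 0xe4046)))
 (.n (.l (nat_lit 0x1032a6))
 (.l (nat_lit 0x12b116))))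
 (.n (.n (.n (.l (nat_lit 0x22034))
 (.l (nat_lit 0x14500b)))
 (.l (nat_lit 0x290f5)))
 (.n (.l (nat_lit 0x87234))
 (.l (nat_lit 0x60215))))))

def a64_56 : TA := .n a128_56 a128_120

def a32_24 : TA := .n a64_24 a64_56

def a16_8 : TA := .n a32_8 a32_24

def a8_0 : TA := .n a16_0 a16_8

def a128_4 : TA :=
 .n (.n (.n (.n (.n (.n (.l (nat_lit 0x100000))
 (.l (nat_lit 0x67215)))
 (.l (nat_lit 0x87054)))
 (.n (.n (.l (nat_lit 0x22054))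
 (.l (nat_lit 0x10700b)))
 (.l (nat_lit 0x41244))))
 (.n (.n (.n (.l (nat_lit 0x4b075))
 (.l (nat_lit 0x8a247)))
 (.l (nat_lit 0x126045)))
 (.n (.l (nat_lit 0x1062a5))
 (.l (nat_lit 0x61037)))))
 (.n (.n (.n (.n (.l (nat_lit 0xac0232))
 (.l (nat_lit 0xe8144)))
 (.l (nat_lit 0xa8005)))
 (.n (.l (nat_lit 0x21236))
 (.l (nat_lit 0x16a176))))
 (.n (.n (.n (.l (nat_lit 0x121234))
 (.l (nat_lit 0x42233)))
 (.l (nat_lit 0x6a1c4)))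
 (.n (.l (nat_lit 0x61c4))
 (.l (nat_lit 0x2b114))))))
 (.n (.n (.n (.n (.n (.l (nat_lit 0x800e0))
 (.l (nat_lit 0x28057)))
 (.l (nat_lit 0x48005)))
 (.n (.l (nat_lit 0xc3054))
 (.l (nat_lit 0xc9164))))
 (.n (.n (.n (.l (nat_lit 0x10b0e6))
 (.l (nat_lit 0x46053)))
 (.l (nat_lit 0x68056)))
 (.n (.l (nat_lit 0x1650e4))
 (.l (nat_lit 0x121266)))))
 (.n (.n (.n (.n (.l (nat_lit 0xe4076))
 (.l (nat_lit 0x20187)))
 (.l (nat_lit 0x124045)))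
 (.n (.l (nat_lit 0xa2235))
 (.l (nat_lit 0x14a2c4))))
 (.n (.n (.n (.l (nat_lit 0x102234))
 (.l (nat_lit 0xa80009)))
 (.l (nat_lit 0x14b034)))
 (.n (.l (nat_lit 0x662a4))
 (.l (nat_lit 0x86194))))))

def a128_68 : TA :=
 .n (.n (.n (.n (.n (.n (.l (nat_lit 0x100041))
 (.l (nat_lit 0x1672f6)))
 (.l (nat_lit 0x2a025)))
 (.n (.n (.l (nat_lit 0xc81c6))
 (.l (nat_lit 0xd588872900000c)))
 (.l (nat_lit 0xa245))))
 (.n (.n (.n (.l (nat_lit 0x81005))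
 (.l (nat_lit 0x5013)))
 (.l (nat_lit 0x8a005)))
 (.n (.l (nat_lit 0xe5006))
 (.l (nat_lit 0xe2037)))))
 (.n (.n (.n (.n (.l (nat_lit 0x1402c0))
 (.l (nat_lit 0x80157)))
 (.l (nat_lit 0x12b035)))
 (.n (.l (nat_lit 0x44154))
 (.l (nat_lit 0xe4174))))
 (.n (.n (.n (.l (nat_lit 0x104155))
 (.l (nat_lit 0x2a00009)))
 (.l (nat_lit 0x108065)))
 (.n (.l (nat_lit 0x22016))
 (.l (nat_lit 0xe22e4))))))
 (.n (.n (.n (.n (.n (.l (nat_lit 0x40190))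
 (.l (nat_lit 0xc7296)))
 (.l (nat_lit 0x16a035)))
 (.n (.l (nat_lit 0xcb1c6))
 (.l (nat_lit 0x104106))))
 (.n (.n (.n (.l (nat_lit 0x1430e6))
 (.l (nat_lit 0x147153)))
 (.l (nat_lit 0x16a006)))
 (.n (.l (nat_lit 0xa1015))
 (.l (nat_lit 0x105114)))))
 (.n (.n (.n (.n (.l (nat_lit 0x120006))
 (.l (nat_lit 0x106237)))
 (.l (nat_lit 0x1492a4)))
 (.n (.l (nat_lit 0x164034))
 (.l (nat_lit 0x620a6))))
 (.n (.n (.n (.l (nat_lit 0x147155))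
 (.l (nat_lit 0x1b40009)))
 (.l (nat_lit 0xab074)))
 (.n (.l (nat_lit 0x109025))
 (.l (nat_lit 0x1081a6))))))

def a64_4 : TA := .n a128_4 a128_68

def a128_36 : TA :=
 .n (.n (.n (.n (.n (.n (.l (nat_lit 0x140020))
 (.l (nat_lit 0x822f5)))
 (.l (nat_lit 0x161025)))
 (.n (.n (.l (nat_lit 0x811c6))
 (.l (nat_lit 0x12868d8d102000c)))
 (.l (nat_lit 0xc9165))))
 (.n (.n (.n (.l (nat_lit 0x120234))
 (.l (nat_lit 0x1212a7)))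
 (.l (nat_lit 0x29154)))
 (.n (.l (nat_lit 0x5154))
 (.l (nat_lit 0x14b115)))))
 (.n (.n (.n (.n (.l (nat_lit 0x40290))
 (.l (nat_lit 0x2b077)))
 (.l (nat_lit 0x46035)))
 (.n (.l (nat_lit 0x8a235))
 (.l (nat_lit 0xe01e5))))
 (.n (.n (.n (.l (nat_lit 0x121054))
 (.l (nat_lit 0x87293)))
 (.l (nat_lit 0xcb005)))
 (.n (.l (nat_lit 0x146054))
 (.l (nat_lit 0x146196))))))
 (.n (.n (.n (.n (.n (.l (nat_lit 0x80150))
 (.l (nat_lit 0x88146)))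
 (.l (nat_lit 0x45035)))
 (.n (.l (nat_lit 0x1411c5))
 (.l (nat_lit 0x10a244))))
 (.n (.n (.n (.l (nat_lit 0x41034))
 (.l (nat_lit 0x10b0a3)))
 (.l (nat_lit 0xca2a4)))
 (.n (.l (nat_lit 0xe5054))
 (.l (nat_lit 0x8b266)))))
 (.n (.n (.n (.n (.l (nat_lit 0x81004))
 (.l (nat_lit 0xa0217)))
 (.l (nat_lit 0x6b045)))
 (.n (.l (nat_lit 0xe5004))
 (.l (nat_lit 0x620a5))))
 (.n (.n (.n (.l (nat_lit 0x60155))
 (.l (nat_lit 0x2b00009)))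
 (.l (nat_lit 0x147066)))
 (.n (.l (nat_lit 0xc7006))
 (.l (nat_lit 0x104135))))))

def a128_100 : TA :=
 .n (.n (.n (.n (.n (.n (.l (nat_lit 0x140061))
 (.l (nat_lit 0x67057)))
 (.l (nat_lit 0x1670e4)))
 (.n (.l (nat_lit 0x16b1c5))
 (.l (nat_lit 0x45017))))
 (.n (.n (.n (.l (nat_lit 0x1240e6))
 (.l (nat_lit 0x41033)))
 (.l (nat_lit 0x165055)))
 (.n (.l (nat_lit 0x632a5))
 (.l (nat_lit 0x1f6)))))
 (.n (.n (.n (.n (.l (nat_lit 0x42075))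
 (.l (nat_lit 0x107157)))
 (.l (nat_lit 0xa8064)))
 (.n (.l (nat_lit 0x236))
 (.l (nat_lit 0x8a2c5))))
 (.n (.n (.n (.l (nat_lit 0x89155))
 (.l (nat_lit 0x1a40009)))
 (.l (nat_lit 0xcb154)))
 (.n (.l (nat_lit 0x169015))
 (.l (nat_lit 0xc22e5))))))
 (.n (.n (.n (.n (.n (.l (nat_lit 0x1401d0))
 (.l (nat_lit 0xc7294)))
 (.l (nat_lit 0x88154)))
 (.n (.l (nat_lit 0x123054))
 (.l (nat_lit 0xe2027))))
 (.n (.n (.n (.l (nat_lit 0x460e5))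
 (.l (nat_lit 0x1451c3)))
 (.l (nat_lit 0x147056)))
 (.n (.l (nat_lit 0xa9016))
 (.l (nat_lit 0x12a037)))))
 (.n (.n (.n (.n (.l (nat_lit 0xc4075))
 (.l (nat_lit 0xb237)))
 (.l (nat_lit 0x60046)))
 (.n (.l (nat_lit 0xa12a5))
 (.l (nat_lit 0x4115))))
 (.n (.n (.n (.l (nat_lit 0xa2234))
 (.l (nat_lit 0x300a)))
 (.l (nat_lit 0xeb024)))
 (.n (.l (nat_lit 0x8004))
 (.l (nat_lit 0xa7216))))))

def a64_36 : TA := .n a128_36 a128_100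

def a32_4 : TA := .n a64_4 a64_36

def a128_20 : TA :=
 .n (.n (.n (.n (.n (.n (.l (nat_lit 0x80010))
 (.l (nat_lit 0xa1285)))
 (.l (nat_lit 0x27006)))
 (.n (.n (.l (nat_lit 0x103006))
 (.l (nat_lit 0xa00b)))
 (.l (nat_lit 0xca0f5))))
 (.n (.n (.n (.l (nat_lit 0x20154))
 (.l (nat_lit 0x7297)))
 (.l (nat_lit 0x8b046)))
 (.n (.l (nat_lit 0x4b2a5))
 (.l (nat_lit 0x164115)))))
 (.n (.n (.n (.n (.l (nat_lit 0x800252))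
 (.l (nat_lit 0xa9067)))
 (.l (nat_lit 0xa1035)))
 (.n (.l (nat_lit 0x162236))
 (.l (nat_lit 0xca1e5))))
 (.n (.n (.n (.l (nat_lit 0xa1024))
 (.l (nat_lit 0xb233)))
 (.l (nat_lit 0x16a014)))
 (.n (.l (nat_lit 0x46034))
 (.l (nat_lit 0x141274))))))
 (.n (.n (.n (.n (.n (.l (nat_lit 0x100110))
 (.l (nat_lit 0xa30d5)))
 (.l (nat_lit 0xa1036)))
 (.n (.l (nat_lit 0x401c6))
 (.l (nat_lit 0xe92b4))))
 (.n (.n (.n (.l (nat_lit 0x81234))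
 (.l (nat_lit 0xc4073)))
 (.l (nat_lit 0x14a154)))
 (.n (.l (nat_lit 0xe5014))
 (.l (nat_lit 0xe4037)))))
 (.n (.n (.n (.n (.l (nat_lit 0x6a076))
 (.l (nat_lit 0x1011c7)))
 (.l (nat_lit 0xc7046)))
 (.n (.l (nat_lit 0xca236))
 (.l (nat_lit 0xea254))))
 (.n (.n (.n (.l (nat_lit 0xa2005))
 (.l (nat_lit 0x1ac0009)))
 (.l (nat_lit 0xeb006)))
 (.n (.l (nat_lit 0x166044))
 (.l (nat_lit 0xcb274))))))

def a128_84 : TA :=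
 .n (.n (.n (.n (.n (.n (.l (nat_lit 0x140050))
 (.l (nat_lit 0x47214)))
 (.l (nat_lit 0x12b025)))
 (.n (.n (.l (nat_lit 0x14a1c5))
 (.l (nat_lit 0xd41486a100600c)))
 (.l (nat_lit 0xc1246))))
 (.n (.n (.n (.l (nat_lit 0x230e5))
 (.l (nat_lit 0x49023)))
 (.l (nat_lit 0x81055)))
 (.n (.l (nat_lit 0x822a6))
 (.l (nat_lit 0xa20a4)))))
 (.n (.n (.n (.n (.l (nat_lit 0xc0005))
 (.l (nat_lit 0x5157)))
 (.l (nat_lit 0x128234)))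
 (.n (.l (nat_lit 0x84064))
 (.l (nat_lit 0x85174))))
 (.n (.n (.n (.l (nat_lit 0xa5156))
 (.l (nat_lit 0xa00009)))
 (.l (nat_lit 0xe9066)))
 (.n (.l (nat_lit 0x68016))
 (.l (nat_lit 0xe4047))))))
 (.n (.n (.n (.n (.n (.l (nat_lit 0x1401c0))
 (.l (nat_lit 0x107295)))
 (.l (nat_lit 0xc9004)))
 (.n (.l (nat_lit 0xa30e4))
 (.l (nat_lit 0xe5176))))
 (.n (.n (.n (.l (nat_lit 0xe40e5))
 (.l (nat_lit 0x100183)))
 (.l (nat_lit 0x24055)))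
 (.n (.l (nat_lit 0x108015))
 (.l (nat_lit 0xe5184)))))
 (.n (.n (.n (.n (.l (nat_lit 0x162076))
 (.l (nat_lit 0xa8237)))
 (.l (nat_lit 0xc9064)))
 (.n (.l (nat_lit 0xc5005))
 (.l (nat_lit 0x16b0a5))))
 (.n (.n (.n (.l (nat_lit 0xeb155))
 (.l (nat_lit 0xc000a)))
 (.l (nat_lit 0x16b1c4)))
 (.n (.l (nat_lit 0xaa026))
 (.l (nat_lit 0xc0215))))))

def a64_20 : TA := .n a128_20 a128_84

def a128_52 : TA :=
 .n (.n (.n (.n (.n (.n (.l (nat_lit 0x40030))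
 (.l (nat_lit 0x622f5)))
 (.l (nat_lit 0x89026)))
 (.n (.n (.l (nat_lit 0x251c5))
 (.l (nat_lit 0xa074c0d0a0000c)))
 (.l (nat_lit 0x1245))))
 (.n (.n (.n (.l (nat_lit 0x20044))
 (.l (nat_lit 0x8b2a7)))
 (.l (nat_lit 0x129014)))
 (.n (.l (nat_lit 0x105024))
 (.l (nat_lit 0xe12d4)))))
 (.n (.n (.n (.n (.l (nat_lit 0x4002a2))
 (.l (nat_lit 0x1230e7)))
 (.l (nat_lit 0x2a036)))
 (.n (.l (nat_lit 0xc5004))
 (.l (nat_lit 0x104104))))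
 (.n (.n (.n (.l (nat_lit 0x102006))
 (.l (nat_lit 0x432a3)))
 (.l (nat_lit 0x144066)))
 (.n (.l (nat_lit 0xe6004))
 (.l (nat_lit 0xc5196))))))
 (.n (.n (.n (.n (.n (.l (nat_lit 0x40170))
 (.l (nat_lit 0x108226)))
 (.l (nat_lit 0x26036)))
 (.n (.l (nat_lit 0xe51c6))
 (.l (nat_lit 0x103096))))
 (.n (.n (.n (.l (nat_lit 0x61005))
 (.l (nat_lit 0x103113)))
 (.l (nat_lit 0x4a034)))
 (.n (.l (nat_lit 0x46004))
 (.l (nat_lit 0xe4184)))))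
 (.n (.n (.n (.n (.l (nat_lit 0x234))
 (.l (nat_lit 0x21237)))
 (.l (nat_lit 0x491c4)))
 (.n (.l (nat_lit 0x64154))
 (.l (nat_lit 0x8b0a6))))
 (.n (.n (.n (.l (nat_lit 0x164156))
 (.l (nat_lit 0xb00009)))
 (.l (nat_lit 0x128065)))
 (.n (.l (nat_lit 0x122025))
 (.l (nat_lit 0xc22f4))))))

def a128_116 : TA :=
 .n (.n (.n (.n (.n (.n (.l (nat_lit 0x440072))
 (.l (nat_lit 0x8057)))
 (.l (nat_lit 0xa7044)))
 (.n (.l (nat_lit 0xc30e4))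
 (.l (nat_lit 0x1692b5))))
 (.n (.n (.n (.l (nat_lit 0x1070e5))
 (.l (nat_lit 0x4b043)))
 (.l (nat_lit 0xc7055)))
 (.n (.l (nat_lit 0x14a2a5))
 (.l (nat_lit 0x4037)))))
 (.n (.n (.n (.n (.l (nat_lit 0x143075))
 (.l (nat_lit 0x89157)))
 (.l (nat_lit 0x21046)))
 (.n (.l (nat_lit 0x101236))
 (.l (nat_lit 0x4a174))))
 (.n (.n (.n (.l (nat_lit 0x3004))
 (.l (nat_lit 0x2a80009)))
 (.l (nat_lit 0x4b2a4)))
 (.n (.l (nat_lit 0xe7004))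
 (.l (nat_lit 0x125124))))))
 (.n (.n (.n (.n (.n (.l (nat_lit 0x220))
 (.l (nat_lit 0xc8144)))
 (.l (nat_lit 0x108014)))
 (.n (.l (nat_lit 0x80235))
 (.l (nat_lit 0x125175))))
 (.n (.n (.n (.l (nat_lit 0x22004))
 (.l (nat_lit 0x1051e3)))
 (.l (nat_lit 0xe8055)))
 (.n (.l (nat_lit 0x86074))
 (.l (nat_lit 0x8b114)))))
 (.n (.n (.n (.n (.l (nat_lit 0x107076))
 (.l (nat_lit 0x122247)))
 (.l (nat_lit 0x162045)))
 (.n (.l (nat_lit 0x32a6))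
 (.l (nat_lit 0x2b116))))
 (.n (.n (.n (.l (nat_lit 0xa2024))
 (.l (nat_lit 0x4500b)))
 (.l (nat_lit 0x490f5)))
 (.n (.l (nat_lit 0xc7154))
 (.l (nat_lit 0xc0216))))))

def a64_52 : TA := .n a128_52 a128_116

def a32_20 : TA := .n a64_20 a64_52

def a16_4 : TA := .n a32_4 a32_20

def a128_12 : TA :=
 .n (.n (.n (.n (.n (.n (.l (nat_lit 0x640002))
 (.l (nat_lit 0x24057)))
 (.l (nat_lit 0x107064)))
 (.n (.n (.l (nat_lit 0x83005))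
 (.l (nat_lit 0x900a)))
 (.l (nat_lit 0xe1017))))
 (.n (.n (.n (.l (nat_lit 0x12b075))
 (.l (nat_lit 0x100257)))
 (.l (nat_lit 0x27045)))
 (.n (.l (nat_lit 0x8a2a6))
 (.l (nat_lit 0xc4116)))))
 (.n (.n (.n (.n (.l (nat_lit 0x250))
 (.l (nat_lit 0x9067)))
 (.l (nat_lit 0x128006)))
 (.n (.l (nat_lit 0x82236))
 (.l (nat_lit 0x622c4))))
 (.n (.n (.n (.l (nat_lit 0x21014))
 (.l (nat_lit 0xc6233)))
 (.l (nat_lit 0xea2a4)))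
 (.n (.l (nat_lit 0x146234))
 (.l (nat_lit 0x80204))))))
 (.n (.n (.n (.n (.n (.l (nat_lit 0x4400e2))
 (.l (nat_lit 0x1220d5)))
 (.l (nat_lit 0xc8006)))
 (.n (.l (nat_lit 0x163005))
 (.l (nat_lit 0x290f4))))
 (.n (.n (.n (.l (nat_lit 0x11c4))
 (.l (nat_lit 0x148053)))
 (.l (nat_lit 0xcb004)))
 (.n (.l (nat_lit 0x651c4))
 (.l (nat_lit 0x44114)))))
 (.n (.n (.n (.n (.l (nat_lit 0x66075))
 (.l (nat_lit 0xa01c7)))
 (.l (nat_lit 0x26046)))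
 (.n (.l (nat_lit 0x147235))
 (.l (nat_lit 0x6a174))))
 (.n (.n (.n (.l (nat_lit 0x2024))
 (.l (nat_lit 0x2ac0009)))
 (.l (nat_lit 0x6b005)))
 (.n (.l (nat_lit 0xe6034))
 (.l (nat_lit 0x4b047))))))

def a128_76 : TA :=
 .n (.n (.n (.n (.n (.n (.l (nat_lit 0xa80042))
 (.l (nat_lit 0xc6284)))
 (.l (nat_lit 0x8b025)))
 (.n (.n (.l (nat_lit 0x691c5))
 (.l (nat_lit 0xd581a32900000c)))
 (.l (nat_lit 0x840f4))))
 (.n (.n (.n (.l (nat_lit 0x101006))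
 (.l (nat_lit 0x108013)))
 (.l (nat_lit 0x10a006)))
 (.n (.l (nat_lit 0x1412a6))
 (.l (nat_lit 0x25185)))))
 (.n (.n (.n (.n (.l (nat_lit 0x1002d1))
 (.l (nat_lit 0x104157)))
 (.l (nat_lit 0x680e4)))
 (.n (.l (nat_lit 0xc4014))
 (.l (nat_lit 0xa2c6))))
 (.n (.n (.n (.l (nat_lit 0x5155))
 (.l (nat_lit 0x1a00009)))
 (.l (nat_lit 0x9066)))
 (.n (.l (nat_lit 0x144015))
 (.l (nat_lit 0x206))))))
 (.n (.n (.n (.n (.n (.l (nat_lit 0xc01b0))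
 (.l (nat_lit 0xa8296)))
 (.l (nat_lit 0x6b036)))
 (.n (.l (nat_lit 0x23074))
 (.l (nat_lit 0x5175))))
 (.n (.n (.n (.l (nat_lit 0x440e6))
 (.l (nat_lit 0x49153)))
 (.l (nat_lit 0xe2055)))
 (.n (.l (nat_lit 0xa5016))
 (.l (nat_lit 0x65114)))))
 (.n (.n (.n (.n (.l (nat_lit 0x42076))
 (.l (nat_lit 0x8237)))
 (.l (nat_lit 0x49024)))
 (.n (.l (nat_lit 0x64054))
 (.l (nat_lit 0xe30a5))))
 (.n (.n (.n (.l (nat_lit 0x149156))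
 (.l (nat_lit 0xb40009)))
 (.l (nat_lit 0x6b154)))
 (.n (.l (nat_lit 0xa025))
 (.l (nat_lit 0x43057))))))

def a64_12 : TA := .n a128_12 a128_76

def a128_44 : TA :=
 .n (.n (.n (.n (.n (.n (.l (nat_lit 0x440022))
 (.l (nat_lit 0x125057)))
 (.l (nat_lit 0x124026)))
 (.n (.n (.l (nat_lit 0x1211c6))
 (.l (nat_lit 0x12a21d2d100600c)))
 (.l (nat_lit 0x811d5))))
 (.n (.n (.n (.l (nat_lit 0x60024))
 (.l (nat_lit 0xa2a7)))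
 (.l (nat_lit 0xa91c4)))
 (.n (.l (nat_lit 0x851c4))
 (.l (nat_lit 0x61264)))))
 (.n (.n (.n (.n (.l (nat_lit 0x802a0))
 (.l (nat_lit 0x830e7)))
 (.l (nat_lit 0xe6035)))
 (.n (.l (nat_lit 0x2b235))
 (.l (nat_lit 0x2a255))))
 (.n (.n (.n (.l (nat_lit 0x82005))
 (.l (nat_lit 0x149293)))
 (.l (nat_lit 0x14b006)))
 (.n (.l (nat_lit 0x66006))
 (.l (nat_lit 0x62047))))))
 (.n (.n (.n (.n (.n (.l (nat_lit 0x440152))
 (.l (nat_lit 0x168146)))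
 (.l (nat_lit 0x125035)))
 (.n (.l (nat_lit 0x451c6))
 (.l (nat_lit 0x40254))))
 (.n (.n (.n (.l (nat_lit 0x141044))
 (.l (nat_lit 0x880e3)))
 (.l (nat_lit 0x14a014)))
 (.n (.l (nat_lit 0x146005))
 (.l (nat_lit 0x64114)))))
 (.n (.n (.n (.n (.l (nat_lit 0x100154))
 (.l (nat_lit 0x100237)))
 (.l (nat_lit 0xca004)))
 (.n (.l (nat_lit 0x164074))
 (.l (nat_lit 0x1230a6))))
 (.n (.n (.n (.l (nat_lit 0xc4156))
 (.l (nat_lit 0x1b00009)))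
 (.l (nat_lit 0x88066)))
 (.n (.l (nat_lit 0xa1026))
 (.l (nat_lit 0x61284))))))

def a128_108 : TA :=
 .n (.n (.n (.n (.n (.n (.l (nat_lit 0x80070))
 (.l (nat_lit 0xe7214)))
 (.l (nat_lit 0x1271c4)))
 (.n (.l (nat_lit 0x43074))
 (.l (nat_lit 0xe92b6))))
 (.n (.n (.n (.l (nat_lit 0x250e6))
 (.l (nat_lit 0xc6033)))
 (.l (nat_lit 0x66055)))
 (.n (.l (nat_lit 0x1662a6))
 (.l (nat_lit 0x1051f6)))))
 (.n (.n (.n (.n (.l (nat_lit 0xe2075))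
 (.l (nat_lit 0x8157)))
 (.l (nat_lit 0x109005)))
 (.n (.l (nat_lit 0xa0236))
 (.l (nat_lit 0x125174))))
 (.n (.n (.n (.l (nat_lit 0x4a155))
 (.l (nat_lit 0xa40009)))
 (.l (nat_lit 0x14b1c4)))
 (.n (.l (nat_lit 0x6a015))
 (.l (nat_lit 0x5194))))))
 (.n (.n (.n (.n (.n (.l (nat_lit 0x1001f0))
 (.l (nat_lit 0x167067)))
 (.l (nat_lit 0x8234)))
 (.n (.l (nat_lit 0x4006))
 (.l (nat_lit 0x5176))))
 (.n (.n (.n (.l (nat_lit 0x680e6))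
 (.l (nat_lit 0x4a1c3)))
 (.l (nat_lit 0x48055)))
 (.n (.l (nat_lit 0x7004))
 (.l (nat_lit 0xb0a4)))))
 (.n (.n (.n (.n (.l (nat_lit 0x164075))
 (.l (nat_lit 0xab237)))
 (.l (nat_lit 0xc2045)))
 (.n (.l (nat_lit 0x1022a5))
 (.l (nat_lit 0x124116))))
 (.n (.n (.n (.l (nat_lit 0x1222a4))
 (.l (nat_lit 0x4400b)))
 (.l (nat_lit 0x16b034)))
 (.n (.l (nat_lit 0x107074))
 (.l (nat_lit 0x23057))))))

def a64_44 : TA := .n a128_44 a128_108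

def a32_12 : TA := .n a64_12 a64_44

def a128_28 : TA :=
 .n (.n (.n (.n (.n (.n (.l (nat_lit 0x840012))
 (.l (nat_lit 0x107285)))
 (.l (nat_lit 0xe0025)))
 (.n (.n (.l (nat_lit 0x201c6))
 (.l (nat_lit 0x8b00b)))
 (.l (nat_lit 0x161244))))
 (.n (.n (.n (.l (nat_lit 0xa01c4))
 (.l (nat_lit 0x812a7)))
 (.l (nat_lit 0x12b046)))
 (.n (.l (nat_lit 0x12b2a5))
 (.l (nat_lit 0xe5115)))))
 (.n (.n (.n (.n (.l (nat_lit 0x280))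
 (.l (nat_lit 0x103077)))
 (.l (nat_lit 0x122035)))
 (.n (.l (nat_lit 0xa6235))
 (.l (nat_lit 0x1e6))))
 (.n (.n (.n (.l (nat_lit 0x121034))
 (.l (nat_lit 0x108243)))
 (.l (nat_lit 0x6a034)))
 (.n (.l (nat_lit 0xc6044))
 (.l (nat_lit 0x65196))))))
 (.n (.n (.n (.n (.n (.l (nat_lit 0x80120))
 (.l (nat_lit 0x1294)))
 (.l (nat_lit 0xa3035)))
 (.n (.l (nat_lit 0xe01c5))
 (.l (nat_lit 0x4a1d4))))
 (.n (.n (.n (.l (nat_lit 0x1012a4))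
 (.l (nat_lit 0x4a0a3)))
 (.l (nat_lit 0x4a234)))
 (.n (.l (nat_lit 0x165024))
 (.l (nat_lit 0x21265)))))
 (.n (.n (.n (.n (.l (nat_lit 0x14b076))
 (.l (nat_lit 0xa1c7)))
 (.l (nat_lit 0x167046)))
 (.n (.l (nat_lit 0x14b236))
 (.l (nat_lit 0x14b027))))
 (.n (.n (.n (.l (nat_lit 0x162006))
 (.l (nat_lit 0xac0009)))
 (.l (nat_lit 0x84065)))
 (.n (.l (nat_lit 0x47005))
 (.l (nat_lit 0x20214))))))

def a128_92 : TA :=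
 .n (.n (.n (.n (.n (.n (.l (nat_lit 0xa40052))
 (.l (nat_lit 0xc7284)))
 (.l (nat_lit 0xa7074)))
 (.n (.n (.l (nat_lit 0x4b1c5))
 (.l (nat_lit 0xd4a1a35900000c)))
 (.l (nat_lit 0x161245))))
 (.n (.n (.n (.l (nat_lit 0x840e5))
 (.l (nat_lit 0x10b023)))
 (.l (nat_lit 0x63056)))
 (.n (.l (nat_lit 0x1222a5))
 (.l (nat_lit 0x103114)))))
 (.n (.n (.n (.n (.l (nat_lit 0x140006))
 (.l (nat_lit 0x86157)))
 (.l (nat_lit 0x28054)))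
 (.n (.l (nat_lit 0x124005))
 (.l (nat_lit 0x222c5))))
 (.n (.n (.n (.l (nat_lit 0x146156))
 (.l (nat_lit 0x2a40009)))
 (.l (nat_lit 0x14b074)))
 (.n (.l (nat_lit 0xc9016))
 (.l (nat_lit 0xb276))))))
 (.n (.n (.n (.n (.n (.l (nat_lit 0xa401c2))
 (.l (nat_lit 0x24144)))
 (.l (nat_lit 0x80e4)))
 (.n (.l (nat_lit 0x1232a4))
 (.l (nat_lit 0x16a175))))
 (.n (.n (.n (.l (nat_lit 0x1450e5))
 (.l (nat_lit 0x411c3)))
 (.l (nat_lit 0xc6056)))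
 (.n (.l (nat_lit 0x9015))
 (.l (nat_lit 0xa6037)))))
 (.n (.n (.n (.n (.l (nat_lit 0x63075))
 (.l (nat_lit 0x109237)))
 (.l (nat_lit 0x169005)))
 (.n (.l (nat_lit 0x145006))
 (.l (nat_lit 0x81037))))
 (.n (.n (.n (.l (nat_lit 0x22074))
 (.l (nat_lit 0x200b)))
 (.l (nat_lit 0x6b2a4)))
 (.n (.l (nat_lit 0x10b026))
 (.l (nat_lit 0x7216))))))

def a64_28 : TA := .n a128_28 a128_92

def a128_60 : TA :=
 .n (.n (.n (.n (.n (.n (.l (nat_lit 0xa80032))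
 (.l (nat_lit 0x472f6)))
 (.l (nat_lit 0x129026)))
 (.n (.n (.l (nat_lit 0x1061c6))
 (.l (nat_lit 0x1622ec0d100000c)))
 (.l (nat_lit 0xe1246))))
 (.n (.n (.n (.l (nat_lit 0x120054))
 (.l (nat_lit 0x1012d7)))
 (.l (nat_lit 0x29064)))
 (.n (.l (nat_lit 0x65005))
 (.l (nat_lit 0x422d4)))))
 (.n (.n (.n (.n (.l (nat_lit 0xac02a2))
 (.l (nat_lit 0x25127)))
 (.l (nat_lit 0x8b036)))
 (.n (.l (nat_lit 0x144074))
 (.l (nat_lit 0x2a256))))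
 (.n (.n (.n (.l (nat_lit 0x60156))
 (.l (nat_lit 0x1432c3)))
 (.l (nat_lit 0xa7065)))
 (.n (.l (nat_lit 0x41016))
 (.l (nat_lit 0x165195))))))
 (.n (.n (.n (.n (.n (.l (nat_lit 0x180))
 (.l (nat_lit 0x41295)))
 (.l (nat_lit 0xca035)))
 (.n (.l (nat_lit 0x14a1c6))
 (.l (nat_lit 0x21027))))
 (.n (.n (.n (.l (nat_lit 0xe1006))
 (.l (nat_lit 0x84153)))
 (.l (nat_lit 0xea005)))
 (.n (.l (nat_lit 0x120016))
 (.l (nat_lit 0x822d5)))))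
 (.n (.n (.n (.n (.l (nat_lit 0xa0005))
 (.l (nat_lit 0xa2237)))
 (.l (nat_lit 0xc9234)))
 (.n (.l (nat_lit 0xe4024))
 (.l (nat_lit 0x1401f4))))
 (.n (.n (.n (.l (nat_lit 0x65155))
 (.l (nat_lit 0x2b40009)))
 (.l (nat_lit 0x29065)))
 (.n (.l (nat_lit 0x65026))
 (.l (nat_lit 0x251a5))))))

def a128_124 : TA :=
 .n (.n (.n (.n (.n (.n (.l (nat_lit 0x1000a1))
 (.l (nat_lit 0x88134)))
 (.l (nat_lit 0x127054)))
 (.n (.l (nat_lit 0x1432a4))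
 (.l (nat_lit 0x90f4))))
 (.n (.n (.n (.l (nat_lit 0x880e5))
 (.l (nat_lit 0x142053)))
 (.l (nat_lit 0x167056)))
 (.n (.l (nat_lit 0xeb2a6))
 (.l (nat_lit 0x81265)))))
 (.n (.n (.n (.n (.l (nat_lit 0x44076))
 (.l (nat_lit 0x129157)))
 (.l (nat_lit 0x22046)))
 (.n (.l (nat_lit 0x2235))
 (.l (nat_lit 0xca1e4))))
 (.n (.n (.n (.l (nat_lit 0x82074))
 (.l (nat_lit 0x1a80009)))
 (.l (nat_lit 0xcb024)))
 (.n (.l (nat_lit 0x166074))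
 (.l (nat_lit 0x6047))))))
 (.n (.n (.n (.n (.n (.l (nat_lit 0x40230))
 (.l (nat_lit 0x8294)))
 (.l (nat_lit 0x8064)))
 (.n (.l (nat_lit 0x120235))
 (.l (nat_lit 0x8a176))))
 (.n (.n (.n (.l (nat_lit 0xa11c4))
 (.l (nat_lit 0xc1223)))
 (.l (nat_lit 0x16b004)))
 (.n (.l (nat_lit 0x1060e4))
 (.l (nat_lit 0x10b264)))))
 (.n (.n (.n (.n (.l (nat_lit 0xc8076))
 (.l (nat_lit 0x28247)))
 (.l (nat_lit 0x86046)))
 (.n (.l (nat_lit 0xa32a6))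
 (.l (nat_lit 0x81264))))
 (.n (.n (.n (.l (nat_lit 0x122034))
 (.l (nat_lit 0x8600b)))
 (.l (nat_lit 0x1690f5)))
 (.n (.l (nat_lit 0x7044))
 (.l (nat_lit 0x160215))))))

def a64_60 : TA := .n a128_60 a128_124

def a32_28 : TA := .n a64_28 a64_60

def a16_12 : TA := .n a32_12 a32_28

def a8_4 : TA := .n a16_4 a16_12

def a4_0 : TA := .n a8_0 a8_4

def a128_2 : TA :=
 .n (.n (.n (.n (.n (.n (.l (nat_lit 0x80000))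
 (.l (nat_lit 0x147215)))
 (.l (nat_lit 0x7054)))
 (.n (.n (.l (nat_lit 0x122044))
 (.l (nat_lit 0x8700a)))
 (.l (nat_lit 0x1411d4))))
 (.n (.n (.n (.l (nat_lit 0x16a075))
 (.l (nat_lit 0xa247)))
 (.l (nat_lit 0xa6045)))
 (.n (.l (nat_lit 0x862a5))
 (.l (nat_lit 0xc12d4)))))
 (.n (.n (.n (.n (.l (nat_lit 0x140231))
 (.l (nat_lit 0x28144)))
 (.l (nat_lit 0x28005)))
 (.n (.l (nat_lit 0x101235))
 (.l (nat_lit 0xea176))))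
 (.n (.n (.n (.l (nat_lit 0xa1234))
 (.l (nat_lit 0xc0233)))
 (.l (nat_lit 0x16a074)))
 (.n (.l (nat_lit 0x106154))
 (.l (nat_lit 0x12b0a4))))))
 (.n (.n (.n (.n (.n (.l (nat_lit 0xe0))
 (.l (nat_lit 0x1081a4)))
 (.l (nat_lit 0x167064)))
 (.n (.l (nat_lit 0x43054))
 (.l (nat_lit 0x49164))))
 (.n (.n (.n (.l (nat_lit 0x8b0e6))
 (.l (nat_lit 0x143053)))
 (.l (nat_lit 0x148056)))
 (.n (.l (nat_lit 0xe50e4))
 (.l (nat_lit 0xa1266)))))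
 (.n (.n (.n (.n (.l (nat_lit 0x64076))
 (.l (nat_lit 0x10a157)))
 (.l (nat_lit 0x24045)))
 (.n (.l (nat_lit 0x22235))
 (.l (nat_lit 0xca2c4))))
 (.n (.n (.n (.l (nat_lit 0x82234))
 (.l (nat_lit 0xe80009)))
 (.l (nat_lit 0xcb034)))
 (.n (.l (nat_lit 0x166234))
 (.l (nat_lit 0x6194))))))

def a128_66 : TA :=
 .n (.n (.n (.n (.n (.n (.l (nat_lit 0x100040))
 (.l (nat_lit 0xa72f6)))
 (.l (nat_lit 0x10a026)))
 (.n (.n (.l (nat_lit 0x81c6))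
 (.l (nat_lit 0xd116029902600c)))
 (.l (nat_lit 0x109246))))
 (.n (.n (.n (.l (nat_lit 0x1005))
 (.l (nat_lit 0x1062d7)))
 (.l (nat_lit 0xa005)))
 (.n (.l (nat_lit 0x65006))
 (.l (nat_lit 0x62037)))))
 (.n (.n (.n (.n (.l (nat_lit 0xc02c0))
 (.l (nat_lit 0x157)))
 (.l (nat_lit 0xab035)))
 (.n (.l (nat_lit 0x1440e4))
 (.l (nat_lit 0x64174))))
 (.n (.n (.n (.l (nat_lit 0x84155))
 (.l (nat_lit 0x2e00009)))
 (.l (nat_lit 0x88065)))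
 (.n (.l (nat_lit 0xe1016))
 (.l (nat_lit 0x622e4))))))
 (.n (.n (.n (.n (.n (.l (nat_lit 0x100181))
 (.l (nat_lit 0x47296)))
 (.l (nat_lit 0xea035)))
 (.n (.l (nat_lit 0xb1c6))
 (.l (nat_lit 0x84106))))
 (.n (.n (.n (.l (nat_lit 0xc30e6))
 (.l (nat_lit 0xc7153)))
 (.l (nat_lit 0xea006)))
 (.n (.l (nat_lit 0x21015))
 (.l (nat_lit 0x85114)))))
 (.n (.n (.n (.n (.l (nat_lit 0xa0006))
 (.l (nat_lit 0x86237)))
 (.l (nat_lit 0xc92a4)))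
 (.n (.l (nat_lit 0xe4034))
 (.l (nat_lit 0x160037))))
 (.n (.n (.n (.l (nat_lit 0x87155))
 (.l (nat_lit 0x1f40009)))
 (.l (nat_lit 0x2b074)))
 (.n (.l (nat_lit 0x89025))
 (.l (nat_lit 0x481a6))))))

def a64_2 : TA := .n a128_2 a128_66

def a128_34 : TA :=
 .n (.n (.n (.n (.n (.n (.l (nat_lit 0xc0020))
 (.l (nat_lit 0x1641a4)))
 (.l (nat_lit 0xe1025)))
 (.n (.n (.l (nat_lit 0x11c6))
 (.l (nat_lit 0x1286888d100600c)))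
 (.l (nat_lit 0x49165))))
 (.n (.n (.n (.l (nat_lit 0xa0234))
 (.l (nat_lit 0xa12a7)))
 (.l (nat_lit 0x12a004)))
 (.n (.l (nat_lit 0x1050e4))
 (.l (nat_lit 0xcb115)))))
 (.n (.n (.n (.n (.l (nat_lit 0x100281))
 (.l (nat_lit 0x123077)))
 (.l (nat_lit 0x164036)))
 (.n (.l (nat_lit 0xa235))
 (.l (nat_lit 0x601e5))))
 (.n (.n (.n (.l (nat_lit 0xa1054))
 (.l (nat_lit 0x14a243)))
 (.l (nat_lit 0x4b005)))
 (.n (.l (nat_lit 0xc6054))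
 (.l (nat_lit 0x86196))))))
 (.n (.n (.n (.n (.n (.l (nat_lit 0x150))
 (.l (nat_lit 0x8146)))
 (.l (nat_lit 0x124035)))
 (.n (.l (nat_lit 0xc11c5))
 (.l (nat_lit 0x8a244))))
 (.n (.n (.n (.l (nat_lit 0x141014))
 (.l (nat_lit 0x8b0a3)))
 (.l (nat_lit 0x4a2a4)))
 (.n (.l (nat_lit 0x65054))
 (.l (nat_lit 0xb266)))))
 (.n (.n (.n (.n (.l (nat_lit 0x1004))
 (.l (nat_lit 0x20217)))
 (.l (nat_lit 0x14b045)))
 (.n (.l (nat_lit 0x65004))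
 (.l (nat_lit 0x16b027))))
 (.n (.n (.n (.l (nat_lit 0x140155))
 (.l (nat_lit 0x2f00009)))
 (.l (nat_lit 0xc7066)))
 (.n (.l (nat_lit 0x47006))
 (.l (nat_lit 0x44135))))))

def a128_98 : TA :=
 .n (.n (.n (.n (.n (.n (.l (nat_lit 0x140060))
 (.l (nat_lit 0x1472f4)))
 (.l (nat_lit 0xe70e4)))
 (.n (.n (.l (nat_lit 0xeb1c5))
 (.l (nat_lit 0xd422a76102600c)))
 (.l (nat_lit 0x149245))))
 (.n (.n (.n (.l (nat_lit 0xa40e6))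
 (.l (nat_lit 0x140033)))
 (.l (nat_lit 0xe5055)))
 (.n (.l (nat_lit 0x1432a5))
 (.l (nat_lit 0x123037)))))
 (.n (.n (.n (.n (.l (nat_lit 0x140004))
 (.l (nat_lit 0x87157)))
 (.l (nat_lit 0x28064)))
 (.n (.l (nat_lit 0x124006))
 (.l (nat_lit 0xa2c5))))
 (.n (.n (.n (.l (nat_lit 0x148155))
 (.l (nat_lit 0x1e40009)))
 (.l (nat_lit 0x14b0e4)))
 (.n (.l (nat_lit 0xe9015))
 (.l (nat_lit 0x422e5))))))
 (.n (.n (.n (.n (.n (.l (nat_lit 0x801d0))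
 (.l (nat_lit 0x47294)))
 (.l (nat_lit 0x8154)))
 (.n (.l (nat_lit 0x63054))
 (.l (nat_lit 0x62027))))
 (.n (.n (.n (.l (nat_lit 0x1650e5))
 (.l (nat_lit 0x851c3)))
 (.l (nat_lit 0xc7056)))
 (.n (.l (nat_lit 0x29016))
 (.l (nat_lit 0xaa037)))))
 (.n (.n (.n (.n (.l (nat_lit 0x44075))
 (.l (nat_lit 0x10a237)))
 (.l (nat_lit 0x169006)))
 (.n (.l (nat_lit 0x1412a5))
 (.l (nat_lit 0xc3115))))
 (.n (.n (.n (.l (nat_lit 0x22234))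
 (.l (nat_lit 0xc200a)))
 (.l (nat_lit 0x6b024)))
 (.n (.l (nat_lit 0x12b026))
 (.l (nat_lit 0x27216))))))

def a64_34 : TA := .n a128_34 a128_98

def a32_2 : TA := .n a64_2 a64_34

def a128_18 : TA :=
 .n (.n (.n (.n (.n (.n (.l (nat_lit 0x10))
 (.l (nat_lit 0x21285)))
 (.l (nat_lit 0x127005)))
 (.n (.n (.l (nat_lit 0x83006))
 (.l (nat_lit 0x14900b)))
 (.l (nat_lit 0xc40f6))))
 (.n (.n (.n (.l (nat_lit 0x121004))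
 (.l (nat_lit 0x106287)))
 (.l (nat_lit 0xb046)))
 (.n (.l (nat_lit 0x16a2a6))
 (.l (nat_lit 0xe4115)))))
 (.n (.n (.n (.n (.l (nat_lit 0x100251))
 (.l (nat_lit 0x29067)))
 (.l (nat_lit 0x21035)))
 (.n (.l (nat_lit 0xe2236))
 (.l (nat_lit 0x4a1e5))))
 (.n (.n (.n (.l (nat_lit 0x21024))
 (.l (nat_lit 0x108233)))
 (.l (nat_lit 0xea014)))
 (.n (.l (nat_lit 0x1462a4))
 (.l (nat_lit 0xc1274))))))
 (.n (.n (.n (.n (.n (.l (nat_lit 0x80110))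
 (.l (nat_lit 0x230d5)))
 (.l (nat_lit 0x141036)))
 (.n (.l (nat_lit 0x163006))
 (.l (nat_lit 0x692b4))))
 (.n (.n (.n (.l (nat_lit 0x1234))
 (.l (nat_lit 0x4073)))
 (.l (nat_lit 0xca154)))
 (.n (.l (nat_lit 0x65014))
 (.l (nat_lit 0x64037)))))
 (.n (.n (.n (.n (.l (nat_lit 0xc8075))
 (.l (nat_lit 0x811c7)))
 (.l (nat_lit 0x7046)))
 (.n (.l (nat_lit 0x4a236))
 (.l (nat_lit 0x6a254))))
 (.n (.n (.n (.l (nat_lit 0x22005))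
 (.l (nat_lit 0x1ec0009)))
 (.l (nat_lit 0x6b006)))
 (.n (.l (nat_lit 0xe6044))
 (.l (nat_lit 0x4b274))))))

def a128_82 : TA :=
 .n (.n (.n (.n (.n (.n (.l (nat_lit 0xc0050))
 (.l (nat_lit 0x166057)))
 (.l (nat_lit 0xab025)))
 (.n (.n (.l (nat_lit 0xca1c5))
 (.l (nat_lit 0xd41486a102600c)))
 (.l (nat_lit 0x1246))))
 (.n (.n (.n (.l (nat_lit 0x1030e5))
 (.l (nat_lit 0x144023)))
 (.l (nat_lit 0x160055)))
 (.n (.l (nat_lit 0x22a6))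
 (.l (nat_lit 0x220a4)))))
 (.n (.n (.n (.n (.l (nat_lit 0x40005))
 (.l (nat_lit 0x124157)))
 (.l (nat_lit 0xa8234)))
 (.n (.l (nat_lit 0x4064))
 (.l (nat_lit 0x5174))))
 (.n (.n (.n (.l (nat_lit 0x25156))
 (.l (nat_lit 0xe00009)))
 (.l (nat_lit 0x69066)))
 (.n (.l (nat_lit 0x148016))
 (.l (nat_lit 0x64047))))))
 (.n (.n (.n (.n (.n (.l (nat_lit 0xc01c0))
 (.l (nat_lit 0x87295)))
 (.l (nat_lit 0x49004)))
 (.n (.l (nat_lit 0x230e4))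
 (.l (nat_lit 0x25176))))
 (.n (.n (.n (.l (nat_lit 0x640e5))
 (.l (nat_lit 0x80183)))
 (.l (nat_lit 0x103055)))
 (.n (.l (nat_lit 0x88015))
 (.l (nat_lit 0x65184)))))
 (.n (.n (.n (.n (.l (nat_lit 0xe2076))
 (.l (nat_lit 0x28237)))
 (.l (nat_lit 0x49064)))
 (.n (.l (nat_lit 0x45005))
 (.l (nat_lit 0xeb0a5))))
 (.n (.n (.n (.l (nat_lit 0x6b155))
 (.l (nat_lit 0xb)))
 (.l (nat_lit 0xeb1c4)))
 (.n (.l (nat_lit 0x2a026))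
 (.l (nat_lit 0x40215))))))

def a64_18 : TA := .n a128_18 a128_82

def a128_50 : TA :=
 .n (.n (.n (.n (.n (.n (.l (nat_lit 0xac0022))
 (.l (nat_lit 0x1422f6)))
 (.l (nat_lit 0x9026)))
 (.n (.n (.l (nat_lit 0x1051c5))
 (.l (nat_lit 0xa074c0d1a2000c)))
 (.l (nat_lit 0x10a1d6))))
 (.n (.n (.n (.l (nat_lit 0x120034))
 (.l (nat_lit 0xb2a7)))
 (.l (nat_lit 0xa9014)))
 (.n (.l (nat_lit 0x105014))
 (.l (nat_lit 0x612d4)))))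
 (.n (.n (.n (.n (.l (nat_lit 0x1802a1))
 (.l (nat_lit 0xa30e7)))
 (.l (nat_lit 0x10a036)))
 (.n (.l (nat_lit 0x45004))
 (.l (nat_lit 0x84104))))
 (.n (.n (.n (.l (nat_lit 0x82006))
 (.l (nat_lit 0x1412a3)))
 (.l (nat_lit 0x44066)))
 (.n (.l (nat_lit 0x66004))
 (.l (nat_lit 0x45196))))))
 (.n (.n (.n (.n (.n (.l (nat_lit 0xb00152))
 (.l (nat_lit 0x88226)))
 (.l (nat_lit 0x106036)))
 (.n (.l (nat_lit 0x651c6))
 (.l (nat_lit 0x43096))))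
 (.n (.n (.n (.l (nat_lit 0x141054))
 (.l (nat_lit 0x83113)))
 (.l (nat_lit 0x14a024)))
 (.n (.l (nat_lit 0x146006))
 (.l (nat_lit 0x64184)))))
 (.n (.n (.n (.n (.l (nat_lit 0x1001c4))
 (.l (nat_lit 0x120237)))
 (.l (nat_lit 0x149154)))
 (.n (.l (nat_lit 0x1640e4))
 (.l (nat_lit 0xb0a6))))
 (.n (.n (.n (.l (nat_lit 0xe4156))
 (.l (nat_lit 0xf00009)))
 (.l (nat_lit 0xa8065)))
 (.n (.l (nat_lit 0xa2025))
 (.l (nat_lit 0x422f4))))))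

def a128_114 : TA :=
 .n (.n (.n (.n (.n (.n (.l (nat_lit 0x600072))
 (.l (nat_lit 0xe72f4)))
 (.l (nat_lit 0x27044)))
 (.n (.l (nat_lit 0x430e4))
 (.l (nat_lit 0xe92b5))))
 (.n (.n (.n (.l (nat_lit 0x870e5))
 (.l (nat_lit 0x14a033)))
 (.l (nat_lit 0x47055)))
 (.n (.l (nat_lit 0x4a2a5))
 (.l (nat_lit 0x1230a4)))))
 (.n (.n (.n (.n (.l (nat_lit 0xc3075))
 (.l (nat_lit 0x9157)))
 (.l (nat_lit 0x109006)))
 (.n (.l (nat_lit 0x81236))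
 (.l (nat_lit 0x109174))))
 (.n (.n (.n (.l (nat_lit 0x10b156))
 (.l (nat_lit 0x2e80009)))
 (.l (nat_lit 0x14b234)))
 (.n (.l (nat_lit 0x67004))
 (.l (nat_lit 0x65124))))))
 (.n (.n (.n (.n (.n (.l (nat_lit 0x140210))
 (.l (nat_lit 0x48144)))
 (.l (nat_lit 0x88014)))
 (.n (.l (nat_lit 0x235))
 (.l (nat_lit 0xa5175))))
 (.n (.n (.n (.l (nat_lit 0xeb0e5))
 (.l (nat_lit 0x851e3)))
 (.l (nat_lit 0x68055)))
 (.n (.l (nat_lit 0x6074))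
 (.l (nat_lit 0xb114)))))
 (.n (.n (.n (.n (.l (nat_lit 0x87076))
 (.l (nat_lit 0xa2247)))
 (.l (nat_lit 0xe2045)))
 (.n (.l (nat_lit 0x1222a6))
 (.l (nat_lit 0x10b116))))
 (.n (.n (.n (.l (nat_lit 0x22024))
 (.l (nat_lit 0x500b)))
 (.l (nat_lit 0x16b044)))
 (.n (.l (nat_lit 0x47154))
 (.l (nat_lit 0x40216))))))

def a64_50 : TA := .n a128_50 a128_114

def a32_18 : TA := .n a64_18 a64_50

def a16_2 : TA := .n a32_2 a32_18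

def a128_10 : TA :=
 .n (.n (.n (.n (.n (.n (.l (nat_lit 0xa00002))
 (.l (nat_lit 0x104134)))
 (.l (nat_lit 0x87064)))
 (.n (.n (.l (nat_lit 0x3005))
 (.l (nat_lit 0x8800a)))
 (.l (nat_lit 0x61017))))
 (.n (.n (.n (.l (nat_lit 0xab075))
 (.l (nat_lit 0x80257)))
 (.l (nat_lit 0x107045)))
 (.n (.l (nat_lit 0x1492a6))
 (.l (nat_lit 0x44116)))))
 (.n (.n (.n (.n (.l (nat_lit 0x140240))
 (.l (nat_lit 0x128294)))
 (.l (nat_lit 0xa8006)))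
 (.n (.l (nat_lit 0x2236))
 (.l (nat_lit 0x162254))))
 (.n (.n (.n (.l (nat_lit 0x1212a4))
 (.l (nat_lit 0x46233)))
 (.l (nat_lit 0x6a2a4)))
 (.n (.l (nat_lit 0xc6234))
 (.l (nat_lit 0x204))))))
 (.n (.n (.n (.n (.n (.l (nat_lit 0x4000e2))
 (.l (nat_lit 0xa20d5)))
 (.l (nat_lit 0x48006)))
 (.n (.l (nat_lit 0xe3005))
 (.l (nat_lit 0x109244))))
 (.n (.n (.n (.l (nat_lit 0x102004))
 (.l (nat_lit 0xc8053)))
 (.l (nat_lit 0x4b004)))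
 (.n (.l (nat_lit 0x165154))
 (.l (nat_lit 0x14b265)))))
 (.n (.n (.n (.n (.l (nat_lit 0x146075))
 (.l (nat_lit 0x201c7)))
 (.l (nat_lit 0x106045)))
 (.n (.l (nat_lit 0xc7235))
 (.l (nat_lit 0x16a027))))
 (.n (.n (.n (.l (nat_lit 0x1022a4))
 (.l (nat_lit 0x2ec0009)))
 (.l (nat_lit 0x14b044)))
 (.n (.l (nat_lit 0x66034))
 (.l (nat_lit 0x166194))))))

def a128_74 : TA :=
 .n (.n (.n (.n (.n (.n (.l (nat_lit 0xa40042))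
 (.l (nat_lit 0x6284)))
 (.l (nat_lit 0xb025)))
 (.n (.n (.l (nat_lit 0x1491c5))
 (.l (nat_lit 0xd581a32900600c)))
 (.l (nat_lit 0x40f4))))
 (.n (.n (.n (.l (nat_lit 0x81006))
 (.l (nat_lit 0x48013)))
 (.l (nat_lit 0x8a006)))
 (.n (.l (nat_lit 0xc12a6))
 (.l (nat_lit 0x120185)))))
 (.n (.n (.n (.n (.l (nat_lit 0x1002d0))
 (.l (nat_lit 0x84157)))
 (.l (nat_lit 0x129004)))
 (.n (.l (nat_lit 0x44014))
 (.l (nat_lit 0x105027))))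
 (.n (.n (.n (.l (nat_lit 0x124155))
 (.l (nat_lit 0x1e00009)))
 (.l (nat_lit 0x128066)))
 (.n (.l (nat_lit 0x84015))
 (.l (nat_lit 0x100205))))))
 (.n (.n (.n (.n (.n (.l (nat_lit 0x801a0))
 (.l (nat_lit 0x148296)))
 (.l (nat_lit 0x14b035)))
 (.n (.l (nat_lit 0x124004))
 (.l (nat_lit 0x102027))))
 (.n (.n (.n (.l (nat_lit 0x1630e6))
 (.l (nat_lit 0x148153)))
 (.l (nat_lit 0x62055)))
 (.n (.l (nat_lit 0x104016))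
 (.l (nat_lit 0x1451f4)))))
 (.n (.n (.n (.n (.l (nat_lit 0x120004))
 (.l (nat_lit 0x126237)))
 (.l (nat_lit 0x149014)))
 (.n (.l (nat_lit 0x164044))
 (.l (nat_lit 0x630a5))))
 (.n (.n (.n (.l (nat_lit 0x89156))
 (.l (nat_lit 0xf40009)))
 (.l (nat_lit 0xeb0e4)))
 (.n (.l (nat_lit 0x129025))
 (.l (nat_lit 0x1622f4))))))

def a64_10 : TA := .n a128_10 a128_74

def a128_42 : TA :=
 .n (.n (.n (.n (.n (.n (.l (nat_lit 0x800022))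
 (.l (nat_lit 0xa5057)))
 (.l (nat_lit 0x24026)))
 (.n (.n (.l (nat_lit 0xa11c6))
 (.l (nat_lit 0x12a21d2d102600c)))
 (.l (nat_lit 0x11d5))))
 (.n (.n (.n (.l (nat_lit 0x160014))
 (.l (nat_lit 0x1062a7)))
 (.l (nat_lit 0x291c4)))
 (.n (.l (nat_lit 0x51c4))
 (.l (nat_lit 0x16b115)))))
 (.n (.n (.n (.n (.l (nat_lit 0x2a0))
 (.l (nat_lit 0x30e7)))
 (.l (nat_lit 0x66035)))
 (.n (.l (nat_lit 0xcb235))
 (.l (nat_lit 0x122256))))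
 (.n (.n (.n (.l (nat_lit 0x2005))
 (.l (nat_lit 0xc9293)))
 (.l (nat_lit 0xcb006)))
 (.n (.l (nat_lit 0x166005))
 (.l (nat_lit 0x1422e4))))))
 (.n (.n (.n (.n (.n (.l (nat_lit 0x200152))
 (.l (nat_lit 0xe8146)))
 (.l (nat_lit 0xa5035)))
 (.n (.l (nat_lit 0x1611c5))
 (.l (nat_lit 0x1401e4))))
 (.n (.n (.n (.l (nat_lit 0xc1044))
 (.l (nat_lit 0x1430e3)))
 (.l (nat_lit 0xca014)))
 (.n (.l (nat_lit 0xc6005))
 (.l (nat_lit 0xe40a4)))))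
 (.n (.n (.n (.n (.l (nat_lit 0x80154))
 (.l (nat_lit 0x80237)))
 (.l (nat_lit 0x4a004)))
 (.n (.l (nat_lit 0xe4074))
 (.l (nat_lit 0x630a6))))
 (.n (.n (.n (.l (nat_lit 0x44156))
 (.l (nat_lit 0x1f00009)))
 (.l (nat_lit 0x8066)))
 (.n (.l (nat_lit 0x160026))
 (.l (nat_lit 0x148136))))))

def a128_106 : TA :=
 .n (.n (.n (.n (.n (.n (.l (nat_lit 0x70))
 (.l (nat_lit 0x67214)))
 (.l (nat_lit 0x671c4)))
 (.n (.l (nat_lit 0x144004))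
 (.l (nat_lit 0x692b6))))
 (.n (.n (.n (.l (nat_lit 0x1050e6))
 (.l (nat_lit 0x46033)))
 (.l (nat_lit 0x146055)))
 (.n (.l (nat_lit 0x662a6))
 (.l (nat_lit 0x451f6)))))
 (.n (.n (.n (.n (.l (nat_lit 0x62075))
 (.l (nat_lit 0x127157)))
 (.l (nat_lit 0x89005)))
 (.n (.l (nat_lit 0x20236))
 (.l (nat_lit 0xa5174))))
 (.n (.n (.n (.l (nat_lit 0x169155))
 (.l (nat_lit 0xe40009)))
 (.l (nat_lit 0xcb1c4)))
 (.n (.l (nat_lit 0x14a015))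
 (.l (nat_lit 0xe22e6))))))
 (.n (.n (.n (.n (.n (.l (nat_lit 0x1401e0))
 (.l (nat_lit 0xe7067)))
 (.l (nat_lit 0xc81c4)))
 (.n (.l (nat_lit 0x104005))
 (.l (nat_lit 0xe4176))))
 (.n (.n (.n (.l (nat_lit 0xc80e6))
 (.l (nat_lit 0x1471c3)))
 (.l (nat_lit 0x167055)))
 (.n (.l (nat_lit 0x12a016))
 (.l (nat_lit 0x10b037)))))
 (.n (.n (.n (.n (.l (nat_lit 0xe4075))
 (.l (nat_lit 0x2b237)))
 (.l (nat_lit 0x141045)))
 (.n (.l (nat_lit 0x822a5))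
 (.l (nat_lit 0x64116))))
 (.n (.n (.n (.l (nat_lit 0xa22a4))
 (.l (nat_lit 0x400a)))
 (.l (nat_lit 0xeb034)))
 (.n (.l (nat_lit 0x87074))
 (.l (nat_lit 0x1032f4))))))

def a64_42 : TA := .n a128_42 a128_106

def a32_10 : TA := .n a64_10 a64_42

def a128_26 : TA :=
 .n (.n (.n (.n (.n (.n (.l (nat_lit 0x180011))
 (.l (nat_lit 0x87285)))
 (.l (nat_lit 0x20025)))
 (.n (.n (.l (nat_lit 0x1001c5))
 (.l (nat_lit 0x10a00a)))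
 (.l (nat_lit 0xe1244))))
 (.n (.n (.n (.l (nat_lit 0x201c4))
 (.l (nat_lit 0x12a7)))
 (.l (nat_lit 0xab046)))
 (.n (.l (nat_lit 0xab2a5))
 (.l (nat_lit 0x65115)))))
 (.n (.n (.n (.n (.l (nat_lit 0x140260))
 (.l (nat_lit 0x83077)))
 (.l (nat_lit 0xa2035)))
 (.n (.l (nat_lit 0x26235))
 (.l (nat_lit 0x103094))))
 (.n (.n (.n (.l (nat_lit 0xa1034))
 (.l (nat_lit 0x88243)))
 (.l (nat_lit 0x16a024)))
 (.n (.l (nat_lit 0x46044))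
 (.l (nat_lit 0x145195))))))
 (.n (.n (.n (.n (.n (.l (nat_lit 0x120))
 (.l (nat_lit 0x124146)))
 (.l (nat_lit 0x143035)))
 (.n (.l (nat_lit 0x601c5))
 (.l (nat_lit 0x14a0f4))))
 (.n (.n (.n (.l (nat_lit 0x812a4))
 (.l (nat_lit 0x1020a3)))
 (.l (nat_lit 0x14a1c4)))
 (.n (.l (nat_lit 0xe5024))
 (.l (nat_lit 0x101266)))))
 (.n (.n (.n (.n (.l (nat_lit 0x8b076))
 (.l (nat_lit 0x1081c7)))
 (.l (nat_lit 0xe7046)))
 (.n (.l (nat_lit 0xcb236))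
 (.l (nat_lit 0xcb027))))
 (.n (.n (.n (.l (nat_lit 0xe2006))
 (.l (nat_lit 0xec0009)))
 (.l (nat_lit 0x121066)))
 (.n (.l (nat_lit 0x166054))
 (.l (nat_lit 0x100214))))))

def a128_90 : TA :=
 .n (.n (.n (.n (.n (.n (.l (nat_lit 0x640052))
 (.l (nat_lit 0x47284)))
 (.l (nat_lit 0x128004)))
 (.n (.n (.l (nat_lit 0x16a1c5))
 (.l (nat_lit 0xd40ea35902600c)))
 (.l (nat_lit 0xe1245))))
 (.n (.n (.n (.l (nat_lit 0x40e5))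
 (.l (nat_lit 0x8b023)))
 (.l (nat_lit 0xe2056)))
 (.n (.l (nat_lit 0xa22a5))
 (.l (nat_lit 0x83114)))))
 (.n (.n (.n (.n (.l (nat_lit 0xc0006))
 (.l (nat_lit 0x6157)))
 (.l (nat_lit 0x128014)))
 (.n (.l (nat_lit 0xa4005))
 (.l (nat_lit 0xc22c6))))
 (.n (.n (.n (.l (nat_lit 0xc6156))
 (.l (nat_lit 0x2e40009)))
 (.l (nat_lit 0xcb074)))
 (.n (.l (nat_lit 0x49016))
 (.l (nat_lit 0x101276))))))
 (.n (.n (.n (.n (.n (.l (nat_lit 0xa001c2))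
 (.l (nat_lit 0x108295)))
 (.l (nat_lit 0x108074)))
 (.n (.l (nat_lit 0xa32a4))
 (.l (nat_lit 0xea175))))
 (.n (.n (.n (.l (nat_lit 0xc50e5))
 (.l (nat_lit 0x146183)))
 (.l (nat_lit 0x46056)))
 (.n (.l (nat_lit 0x128015))
 (.l (nat_lit 0x26037)))))
 (.n (.n (.n (.n (.l (nat_lit 0x143076))
 (.l (nat_lit 0x89237)))
 (.l (nat_lit 0xe9005)))
 (.n (.l (nat_lit 0xc5006))
 (.l (nat_lit 0x1037))))
 (.n (.n (.n (.l (nat_lit 0x123004))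
 (.l (nat_lit 0xc100a)))
 (.l (nat_lit 0x16b234)))
 (.n (.l (nat_lit 0x8b026))
 (.l (nat_lit 0x120216))))))

def a64_26 : TA := .n a128_26 a128_90

def a128_58 : TA :=
 .n (.n (.n (.n (.n (.n (.l (nat_lit 0x140031))
 (.l (nat_lit 0x1032f5)))
 (.l (nat_lit 0xa9026)))
 (.n (.n (.l (nat_lit 0x61c6))
 (.l (nat_lit 0x16221cad100600c)))
 (.l (nat_lit 0x61246))))
 (.n (.n (.n (.l (nat_lit 0xa0054))
 (.l (nat_lit 0x812d7)))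
 (.l (nat_lit 0x129024)))
 (.n (.l (nat_lit 0x145034))
 (.l (nat_lit 0xe4185)))))
 (.n (.n (.n (.n (.l (nat_lit 0xa802a2))
 (.l (nat_lit 0x125117)))
 (.l (nat_lit 0xb036)))
 (.n (.l (nat_lit 0xc4074))
 (.l (nat_lit 0x100256))))
 (.n (.n (.n (.l (nat_lit 0x140156))
 (.l (nat_lit 0x832c3)))
 (.l (nat_lit 0x147065)))
 (.n (.l (nat_lit 0x120015))
 (.l (nat_lit 0xe5195))))))
 (.n (.n (.n (.n (.n (.l (nat_lit 0xa00172))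
 (.l (nat_lit 0x1630d4)))
 (.l (nat_lit 0x4a035)))
 (.n (.l (nat_lit 0xca1c6))
 (.l (nat_lit 0x1201e4))))
 (.n (.n (.n (.l (nat_lit 0x61006))
 (.l (nat_lit 0x144113)))
 (.l (nat_lit 0x6a005)))
 (.n (.l (nat_lit 0x60016))
 (.l (nat_lit 0x22d5)))))
 (.n (.n (.n (.n (.l (nat_lit 0x20005))
 (.l (nat_lit 0x22237)))
 (.l (nat_lit 0x49234)))
 (.n (.l (nat_lit 0x64024))
 (.l (nat_lit 0x801f4))))
 (.n (.n (.n (.l (nat_lit 0x145156))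
 (.l (nat_lit 0x2f40009)))
 (.l (nat_lit 0x109065)))
 (.n (.l (nat_lit 0x124025))
 (.l (nat_lit 0x1241a6))))))

def a128_122 : TA :=
 .n (.n (.n (.n (.n (.n (.l (nat_lit 0x1000a0))
 (.l (nat_lit 0x8134)))
 (.l (nat_lit 0xa7054)))
 (.n (.l (nat_lit 0xc32a4))
 (.l (nat_lit 0xa8244))))
 (.n (.n (.n (.l (nat_lit 0x80e5))
 (.l (nat_lit 0x82053)))
 (.l (nat_lit 0xe7056)))
 (.n (.l (nat_lit 0x6b2a6))
 (.l (nat_lit 0x1265)))))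
 (.n (.n (.n (.n (.l (nat_lit 0x163076))
 (.l (nat_lit 0xa9157)))
 (.l (nat_lit 0x102046)))
 (.n (.l (nat_lit 0x121235))
 (.l (nat_lit 0x4a1e4))))
 (.n (.n (.n (.l (nat_lit 0x2074))
 (.l (nat_lit 0x1e80009)))
 (.l (nat_lit 0x4b024)))
 (.n (.l (nat_lit 0xe6074))
 (.l (nat_lit 0x125194))))))
 (.n (.n (.n (.n (.n (.l (nat_lit 0x100221))
 (.l (nat_lit 0x108224)))
 (.l (nat_lit 0x108054)))
 (.n (.l (nat_lit 0xa0235))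
 (.l (nat_lit 0x109176))))
 (.n (.n (.n (.l (nat_lit 0x211c4))
 (.l (nat_lit 0x1223)))
 (.l (nat_lit 0xeb004)))
 (.n (.l (nat_lit 0x860e4))
 (.l (nat_lit 0x8b264)))))
 (.n (.n (.n (.n (.l (nat_lit 0x8076))
 (.l (nat_lit 0x108247)))
 (.l (nat_lit 0x6046)))
 (.n (.l (nat_lit 0x232a6))
 (.l (nat_lit 0x1264))))
 (.n (.n (.n (.l (nat_lit 0xa2034))
 (.l (nat_lit 0x600a)))
 (.l (nat_lit 0xe90f5)))
 (.n (.l (nat_lit 0x107234))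
 (.l (nat_lit 0xe0215))))))

def a64_58 : TA := .n a128_58 a128_122

def a32_26 : TA := .n a64_26 a64_58

def a16_10 : TA := .n a32_10 a32_26

def a8_2 : TA := .n a16_2 a16_10

def a128_6 : TA :=
 .n (.n (.n (.n (.n (.n (.l (nat_lit 0x200002))
 (.l (nat_lit 0x127215)))
 (.l (nat_lit 0x107054)))
 (.n (.n (.l (nat_lit 0xa2054))
 (.l (nat_lit 0x800a)))
 (.l (nat_lit 0xc1244))))
 (.n (.n (.n (.l (nat_lit 0xcb075))
 (.l (nat_lit 0x10a247)))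
 (.l (nat_lit 0x7045)))
 (.n (.l (nat_lit 0x92a6))
 (.l (nat_lit 0xe1037)))))
 (.n (.n (.n (.n (.l (nat_lit 0x40240))
 (.l (nat_lit 0x168144)))
 (.l (nat_lit 0x128005)))
 (.n (.l (nat_lit 0xa1236))
 (.l (nat_lit 0x62254))))
 (.n (.n (.n (.l (nat_lit 0x212a4))
 (.l (nat_lit 0xc2233)))
 (.l (nat_lit 0xea1c4)))
 (.n (.l (nat_lit 0x1061c4))
 (.l (nat_lit 0xab114))))))
 (.n (.n (.n (.n (.n (.l (nat_lit 0x1000e0))
 (.l (nat_lit 0xa8057)))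
 (.l (nat_lit 0xc8005)))
 (.n (.l (nat_lit 0x143054))
 (.l (nat_lit 0x9244))))
 (.n (.n (.n (.l (nat_lit 0x2004))
 (.l (nat_lit 0x106053)))
 (.l (nat_lit 0xe8056)))
 (.n (.l (nat_lit 0x65154))
 (.l (nat_lit 0x4b265)))))
 (.n (.n (.n (.n (.l (nat_lit 0x164076))
 (.l (nat_lit 0xa0187)))
 (.l (nat_lit 0x6045)))
 (.n (.l (nat_lit 0x122235))
 (.l (nat_lit 0x6a027))))
 (.n (.n (.n (.l (nat_lit 0x22a4))
 (.l (nat_lit 0x680009)))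
 (.l (nat_lit 0x4b044)))
 (.n (.l (nat_lit 0xe62a4))
 (.l (nat_lit 0x146194))))))

def a128_70 : TA :=
 .n (.n (.n (.n (.n (.n (.l (nat_lit 0x180041))
 (.l (nat_lit 0x651a4)))
 (.l (nat_lit 0xaa025)))
 (.n (.n (.l (nat_lit 0x91c5))
 (.l (nat_lit 0xd588872902000c)))
 (.l (nat_lit 0x8a245))))
 (.n (.n (.n (.l (nat_lit 0x101005))
 (.l (nat_lit 0x85013)))
 (.l (nat_lit 0x10a005)))
 (.n (.l (nat_lit 0x165006))
 (.l (nat_lit 0x162037)))))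
 (.n (.n (.n (.n (.l (nat_lit 0x2d0))
 (.l (nat_lit 0x100157)))
 (.l (nat_lit 0x29004)))
 (.n (.l (nat_lit 0xc4154))
 (.l (nat_lit 0x5027))))
 (.n (.n (.n (.l (nat_lit 0x24155))
 (.l (nat_lit 0x2600009)))
 (.l (nat_lit 0x28066)))
 (.n (.l (nat_lit 0xe2016))
 (.l (nat_lit 0x205))))))
 (.n (.n (.n (.n (.n (.l (nat_lit 0xc0190))
 (.l (nat_lit 0x8296)))
 (.l (nat_lit 0x4b035)))
 (.n (.l (nat_lit 0x24004))
 (.l (nat_lit 0x2027))))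
 (.n (.n (.n (.l (nat_lit 0x630e6))
 (.l (nat_lit 0x48153)))
 (.l (nat_lit 0xe1056)))
 (.n (.l (nat_lit 0x121015))
 (.l (nat_lit 0x51f4)))))
 (.n (.n (.n (.n (.l (nat_lit 0x20004))
 (.l (nat_lit 0x26237)))
 (.l (nat_lit 0x49014)))
 (.n (.l (nat_lit 0x64044))
 (.l (nat_lit 0xe20a6))))
 (.n (.n (.n (.l (nat_lit 0xa7155))
 (.l (nat_lit 0x1740009)))
 (.l (nat_lit 0x12b074)))
 (.n (.l (nat_lit 0x29025))
 (.l (nat_lit 0x222f4))))))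

def a64_6 : TA := .n a128_6 a128_70

def a128_38 : TA :=
 .n (.n (.n (.n (.n (.n (.l (nat_lit 0x140021))
 (.l (nat_lit 0x1022f5)))
 (.l (nat_lit 0x62026)))
 (.n (.n (.l (nat_lit 0x1011c6))
 (.l (nat_lit 0x12868d0d100600c)))
 (.l (nat_lit 0x22244))))
 (.n (.n (.n (.l (nat_lit 0x20014))
 (.l (nat_lit 0x62a7)))
 (.l (nat_lit 0xa9154)))
 (.n (.l (nat_lit 0x85154))
 (.l (nat_lit 0x6b115)))))
 (.n (.n (.n (.n (.l (nat_lit 0xc0290))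
 (.l (nat_lit 0xab077)))
 (.l (nat_lit 0xc6035)))
 (.n (.l (nat_lit 0x10a235))
 (.l (nat_lit 0x1601e5))))
 (.n (.n (.n (.l (nat_lit 0x21064))
 (.l (nat_lit 0x107293)))
 (.l (nat_lit 0x14b005)))
 (.n (.l (nat_lit 0x66005))
 (.l (nat_lit 0x422e4))))))
 (.n (.n (.n (.n (.n (.l (nat_lit 0x100150))
 (.l (nat_lit 0x108146)))
 (.l (nat_lit 0xc5035)))
 (.n (.l (nat_lit 0x611c5))
 (.l (nat_lit 0x1e4))))
 (.n (.n (.n (.l (nat_lit 0xc1034))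
 (.l (nat_lit 0x30e3)))
 (.l (nat_lit 0x14a2a4)))
 (.n (.l (nat_lit 0x165054))
 (.l (nat_lit 0x10b266)))))
 (.n (.n (.n (.n (.l (nat_lit 0x101004))
 (.l (nat_lit 0x120217)))
 (.l (nat_lit 0xeb045)))
 (.n (.l (nat_lit 0x165004))
 (.l (nat_lit 0xe20a5))))
 (.n (.n (.n (.l (nat_lit 0xe0155))
 (.l (nat_lit 0x2700009)))
 (.l (nat_lit 0xa7066)))
 (.n (.l (nat_lit 0x147006))
 (.l (nat_lit 0x8136))))))

def a128_102 : TA :=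
 .n (.n (.n (.n (.n (.n (.l (nat_lit 0xa00062))
 (.l (nat_lit 0xe7057)))
 (.l (nat_lit 0xa7154)))
 (.n (.l (nat_lit 0x44004))
 (.l (nat_lit 0xc5017))))
 (.n (.n (.n (.l (nat_lit 0x50e6))
 (.l (nat_lit 0xc1033)))
 (.l (nat_lit 0x46055)))
 (.n (.l (nat_lit 0xe32a5))
 (.l (nat_lit 0x801f6)))))
 (.n (.n (.n (.n (.l (nat_lit 0xc2075))
 (.l (nat_lit 0x27157)))
 (.l (nat_lit 0x128064)))
 (.n (.l (nat_lit 0x80236))
 (.l (nat_lit 0x10a2c5))))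
 (.n (.n (.n (.l (nat_lit 0x149155))
 (.l (nat_lit 0x1640009)))
 (.l (nat_lit 0x14b154)))
 (.n (.l (nat_lit 0x4a015))
 (.l (nat_lit 0x1422e5))))))
 (.n (.n (.n (.n (.n (.l (nat_lit 0x401e0))
 (.l (nat_lit 0x147294)))
 (.l (nat_lit 0x108154)))
 (.n (.l (nat_lit 0x4005))
 (.l (nat_lit 0x162027))))
 (.n (.n (.n (.l (nat_lit 0x1460e5))
 (.l (nat_lit 0x471c3)))
 (.l (nat_lit 0x67055)))
 (.n (.l (nat_lit 0x129016))
 (.l (nat_lit 0xb037)))))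
 (.n (.n (.n (.n (.l (nat_lit 0x144075))
 (.l (nat_lit 0x8b237)))
 (.l (nat_lit 0x160046)))
 (.n (.l (nat_lit 0x1212a5))
 (.l (nat_lit 0xc4115))))
 (.n (.n (.n (.l (nat_lit 0x122234))
 (.l (nat_lit 0x8300a)))
 (.l (nat_lit 0x16b024)))
 (.n (.l (nat_lit 0x88004))
 (.l (nat_lit 0x127216))))))

def a64_38 : TA := .n a128_38 a128_102

def a32_6 : TA := .n a64_6 a64_38

def a128_22 : TA :=
 .n (.n (.n (.n (.n (.n (.l (nat_lit 0x100010))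
 (.l (nat_lit 0x121285)))
 (.l (nat_lit 0xa7006)))
 (.n (.n (.l (nat_lit 0x1c5))
 (.l (nat_lit 0x4a00b)))
 (.l (nat_lit 0x14a0f5))))
 (.n (.n (.n (.l (nat_lit 0xa0154))
 (.l (nat_lit 0x87297)))
 (.l (nat_lit 0x10b046)))
 (.n (.l (nat_lit 0xcb2a5))
 (.l (nat_lit 0x85115)))))
 (.n (.n (.n (.n (.l (nat_lit 0x40260))
 (.l (nat_lit 0x129067)))
 (.l (nat_lit 0x121035)))
 (.n (.l (nat_lit 0x46235))
 (.l (nat_lit 0x14a1e5))))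
 (.n (.n (.n (.l (nat_lit 0x121024))
 (.l (nat_lit 0xcb233)))
 (.l (nat_lit 0x6a024)))
 (.n (.l (nat_lit 0xc6034))
 (.l (nat_lit 0x45195))))))
 (.n (.n (.n (.n (.n (.l (nat_lit 0x100111))
 (.l (nat_lit 0x1630d5)))
 (.l (nat_lit 0x161036)))
 (.n (.l (nat_lit 0xc01c6))
 (.l (nat_lit 0x1692b4))))
 (.n (.n (.n (.l (nat_lit 0x101234))
 (.l (nat_lit 0x144073)))
 (.l (nat_lit 0x4a1c4)))
 (.n (.l (nat_lit 0x165014))
 (.l (nat_lit 0x164037)))))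
 (.n (.n (.n (.n (.l (nat_lit 0x12a076))
 (.l (nat_lit 0x81c7)))
 (.l (nat_lit 0x147046)))
 (.n (.l (nat_lit 0x14a236))
 (.l (nat_lit 0x16a254))))
 (.n (.n (.n (.l (nat_lit 0x122005))
 (.l (nat_lit 0x16c0009)))
 (.l (nat_lit 0x16b006)))
 (.n (.l (nat_lit 0x66054))
 (.l (nat_lit 0x214))))))

def a128_86 : TA :=
 .n (.n (.n (.n (.n (.n (.l (nat_lit 0x140051))
 (.l (nat_lit 0xc7214)))
 (.l (nat_lit 0x28004)))
 (.n (.n (.l (nat_lit 0x6a1c5))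
 (.l (nat_lit 0xd529886c00000c)))
 (.l (nat_lit 0x141246))))
 (.n (.n (.n (.l (nat_lit 0xa30e5))
 (.l (nat_lit 0x109023)))
 (.l (nat_lit 0x141055)))
 (.n (.l (nat_lit 0x1022a6))
 (.l (nat_lit 0x1220a4)))))
 (.n (.n (.n (.n (.l (nat_lit 0x140005))
 (.l (nat_lit 0x85157)))
 (.l (nat_lit 0x28014)))
 (.n (.l (nat_lit 0x104064))
 (.l (nat_lit 0x105174))))
 (.n (.n (.n (.l (nat_lit 0x125156))
 (.l (nat_lit 0x600009)))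
 (.l (nat_lit 0x169066)))
 (.n (.l (nat_lit 0xe8016))
 (.l (nat_lit 0x164047))))))
 (.n (.n (.n (.n (.n (.l (nat_lit 0x1401c1))
 (.l (nat_lit 0x8295)))
 (.l (nat_lit 0x149004)))
 (.n (.l (nat_lit 0x1230e4))
 (.l (nat_lit 0x165176))))
 (.n (.n (.n (.l (nat_lit 0x1640e5))
 (.l (nat_lit 0x6183)))
 (.l (nat_lit 0xe4055)))
 (.n (.l (nat_lit 0x28015))
 (.l (nat_lit 0x165184)))))
 (.n (.n (.n (.n (.l (nat_lit 0x43076))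
 (.l (nat_lit 0x128237)))
 (.l (nat_lit 0x149064)))
 (.n (.l (nat_lit 0x145005))
 (.l (nat_lit 0xa0184))))
 (.n (.n (.n (.l (nat_lit 0x23004))
 (.l (nat_lit 0x100b)))
 (.l (nat_lit 0x6b234)))
 (.n (.l (nat_lit 0x12a026))
 (.l (nat_lit 0x140215))))))

def a64_22 : TA := .n a128_22 a128_86

def a128_54 : TA :=
 .n (.n (.n (.n (.n (.n (.l (nat_lit 0xc0030))
 (.l (nat_lit 0xe22f5)))
 (.l (nat_lit 0x109026)))
 (.n (.n (.l (nat_lit 0xa51c5))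
 (.l (nat_lit 0x15a2ec0d100000c)))
 (.l (nat_lit 0x81245))))
 (.n (.n (.n (.l (nat_lit 0x120044))
 (.l (nat_lit 0x10b2a7)))
 (.l (nat_lit 0x29024)))
 (.n (.l (nat_lit 0x45034))
 (.l (nat_lit 0x1612d4)))))
 (.n (.n (.n (.n (.l (nat_lit 0x4402a2))
 (.l (nat_lit 0x25117)))
 (.l (nat_lit 0xaa036)))
 (.n (.l (nat_lit 0x145004))
 (.l (nat_lit 0x256))))
 (.n (.n (.n (.l (nat_lit 0x156))
 (.l (nat_lit 0x1032a3)))
 (.l (nat_lit 0x47065)))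
 (.n (.l (nat_lit 0x166004))
 (.l (nat_lit 0x145196))))))
 (.n (.n (.n (.n (.n (.l (nat_lit 0xc0170))
 (.l (nat_lit 0x230d4)))
 (.l (nat_lit 0xa6036)))
 (.n (.l (nat_lit 0x1651c6))
 (.l (nat_lit 0x201e4))))
 (.n (.n (.n (.l (nat_lit 0xe1005))
 (.l (nat_lit 0x4113)))
 (.l (nat_lit 0xca034)))
 (.n (.l (nat_lit 0xc6004))
 (.l (nat_lit 0xa12d5)))))
 (.n (.n (.n (.n (.l (nat_lit 0x80234))
 (.l (nat_lit 0xa1237)))
 (.l (nat_lit 0xc91c4)))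
 (.n (.l (nat_lit 0xe4154))
 (.l (nat_lit 0x10b0a6))))
 (.n (.n (.n (.l (nat_lit 0x45156))
 (.l (nat_lit 0x700009)))
 (.l (nat_lit 0x9065)))
 (.n (.l (nat_lit 0x24025))
 (.l (nat_lit 0x1422f4))))))

def a128_118 : TA :=
 .n (.n (.n (.n (.n (.n (.l (nat_lit 0xa0))
 (.l (nat_lit 0x88057)))
 (.l (nat_lit 0x127044)))
 (.n (.l (nat_lit 0x1430e4))
 (.l (nat_lit 0x48244))))
 (.n (.n (.n (.l (nat_lit 0xa70e5))
 (.l (nat_lit 0x10b043)))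
 (.l (nat_lit 0x147055)))
 (.n (.l (nat_lit 0x6a2a5))
 (.l (nat_lit 0x84037)))))
 (.n (.n (.n (.n (.l (nat_lit 0x63076))
 (.l (nat_lit 0x109157)))
 (.l (nat_lit 0xe1046)))
 (.n (.l (nat_lit 0x21235))
 (.l (nat_lit 0xca174))))
 (.n (.n (.n (.l (nat_lit 0x83004))
 (.l (nat_lit 0x2680009)))
 (.l (nat_lit 0xcb2a4)))
 (.n (.l (nat_lit 0x167004))
 (.l (nat_lit 0x25194))))))
 (.n (.n (.n (.n (.n (.l (nat_lit 0x80220))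
 (.l (nat_lit 0x148144)))
 (.l (nat_lit 0x8054)))
 (.n (.l (nat_lit 0x100235))
 (.l (nat_lit 0x9176))))
 (.n (.n (.n (.l (nat_lit 0xa2004))
 (.l (nat_lit 0x47213)))
 (.l (nat_lit 0x168055)))
 (.n (.l (nat_lit 0x106074))
 (.l (nat_lit 0x10b114)))))
 (.n (.n (.n (.n (.l (nat_lit 0xa7076))
 (.l (nat_lit 0x8247)))
 (.l (nat_lit 0x64046)))
 (.n (.l (nat_lit 0x832a6))
 (.l (nat_lit 0xab116))))
 (.n (.n (.n (.l (nat_lit 0x122024))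
 (.l (nat_lit 0xc500a)))
 (.l (nat_lit 0x1090f5)))
 (.n (.l (nat_lit 0x147154))
 (.l (nat_lit 0x140216))))))

def a64_54 : TA := .n a128_54 a128_118

def a32_22 : TA := .n a64_22 a64_54

def a16_6 : TA := .n a32_6 a32_22

def a128_14 : TA :=
 .n (.n (.n (.n (.n (.n (.l (nat_lit 0x680002))
 (.l (nat_lit 0xa4057)))
 (.l (nat_lit 0x27005)))
 (.n (.n (.l (nat_lit 0x103005))
 (.l (nat_lit 0x4900b)))
 (.l (nat_lit 0x161017))))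
 (.n (.n (.n (.l (nat_lit 0x21004))
 (.l (nat_lit 0x6287)))
 (.l (nat_lit 0xa7045)))
 (.n (.l (nat_lit 0x14a2a6))
 (.l (nat_lit 0x144116)))))
 (.n (.n (.n (.n (.l (nat_lit 0x80250))
 (.l (nat_lit 0x89067)))
 (.l (nat_lit 0x81035)))
 (.n (.l (nat_lit 0x102236))
 (.l (nat_lit 0xe22c4))))
 (.n (.n (.n (.l (nat_lit 0xa1014))
 (.l (nat_lit 0x8233)))
 (.l (nat_lit 0x16a2a4)))
 (.n (.l (nat_lit 0x462a4))
 (.l (nat_lit 0x100204))))))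
 (.n (.n (.n (.n (.n (.l (nat_lit 0x800f0))
 (.l (nat_lit 0x80d5)))
 (.l (nat_lit 0x148006)))
 (.n (.l (nat_lit 0x63006))
 (.l (nat_lit 0xe90f4))))
 (.n (.n (.n (.l (nat_lit 0x811c4))
 (.l (nat_lit 0x49063)))
 (.l (nat_lit 0x14b004)))
 (.n (.l (nat_lit 0xe51c4))
 (.l (nat_lit 0xc4114)))))
 (.n (.n (.n (.n (.l (nat_lit 0x126075))
 (.l (nat_lit 0x1201c7)))
 (.l (nat_lit 0xa6046)))
 (.n (.l (nat_lit 0xa7235))
 (.l (nat_lit 0xea174))))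
 (.n (.n (.n (.l (nat_lit 0x142024))
 (.l (nat_lit 0x26c0009)))
 (.l (nat_lit 0xeb005)))
 (.n (.l (nat_lit 0x166034))
 (.l (nat_lit 0xcb047))))))

def a128_78 : TA :=
 .n (.n (.n (.n (.n (.n (.l (nat_lit 0xac0042))
 (.l (nat_lit 0x66057)))
 (.l (nat_lit 0x10b025)))
 (.n (.n (.l (nat_lit 0xe91c5))
 (.l (nat_lit 0xd581a32902000c)))
 (.l (nat_lit 0x4164))))
 (.n (.n (.n (.l (nat_lit 0x30e5))
 (.l (nat_lit 0x4023)))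
 (.l (nat_lit 0x20055)))
 (.n (.l (nat_lit 0x612a6))
 (.l (nat_lit 0xa5185)))))
 (.n (.n (.n (.n (.l (nat_lit 0x1002f0))
 (.l (nat_lit 0x24157)))
 (.l (nat_lit 0xe80e4)))
 (.n (.l (nat_lit 0x144014))
 (.l (nat_lit 0x8a2c6))))
 (.n (.n (.n (.l (nat_lit 0x85155))
 (.l (nat_lit 0x1600009)))
 (.l (nat_lit 0x89066)))
 (.n (.l (nat_lit 0x48016))
 (.l (nat_lit 0xc0206))))))
 (.n (.n (.n (.n (.n (.l (nat_lit 0x1401b0))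
 (.l (nat_lit 0x128296)))
 (.l (nat_lit 0xeb036)))
 (.n (.l (nat_lit 0xa3074))
 (.l (nat_lit 0x85175))))
 (.n (.n (.n (.l (nat_lit 0xc40e6))
 (.l (nat_lit 0xc9153)))
 (.l (nat_lit 0x162055)))
 (.n (.l (nat_lit 0x125016))
 (.l (nat_lit 0xe5114)))))
 (.n (.n (.n (.n (.l (nat_lit 0xc2076))
 (.l (nat_lit 0x88237)))
 (.l (nat_lit 0xc9024)))
 (.n (.l (nat_lit 0xe4054))
 (.l (nat_lit 0x1630a5))))
 (.n (.n (.n (.l (nat_lit 0x4a156))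
 (.l (nat_lit 0x740009)))
 (.l (nat_lit 0xeb154)))
 (.n (.l (nat_lit 0x8a025))
 (.l (nat_lit 0xc3057))))))

def a64_14 : TA := .n a128_14 a128_78

def a128_46 : TA :=
 .n (.n (.n (.n (.n (.n (.l (nat_lit 0x840022))
 (.l (nat_lit 0x22f6)))
 (.l (nat_lit 0xa5025)))
 (.n (.n (.l (nat_lit 0x51c5))
 (.l (nat_lit 0x688982d402600c)))
 (.l (nat_lit 0x1411d5))))
 (.n (.n (.n (.l (nat_lit 0x120024))
 (.l (nat_lit 0x8a2a7)))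
 (.l (nat_lit 0x1291c4)))
 (.n (.l (nat_lit 0x1051c4))
 (.l (nat_lit 0xe1264)))))
 (.n (.n (.n (.n (.l (nat_lit 0x1002a0))
 (.l (nat_lit 0x1030e7)))
 (.l (nat_lit 0x166035)))
 (.n (.l (nat_lit 0xeb235))
 (.l (nat_lit 0xaa255))))
 (.n (.n (.n (.l (nat_lit 0x102005))
 (.l (nat_lit 0x412a3)))
 (.l (nat_lit 0x60065)))
 (.n (.l (nat_lit 0xe6006))
 (.l (nat_lit 0xe2047))))))
 (.n (.n (.n (.n (.n (.l (nat_lit 0xa40152))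
 (.l (nat_lit 0xe20d4)))
 (.l (nat_lit 0x6036)))
 (.n (.l (nat_lit 0xc51c6))
 (.l (nat_lit 0xc0254))))
 (.n (.n (.n (.l (nat_lit 0x41054))
 (.l (nat_lit 0x1080e3)))
 (.l (nat_lit 0x4a024)))
 (.n (.l (nat_lit 0x46006))
 (.l (nat_lit 0xe4114)))))
 (.n (.n (.n (.n (.l (nat_lit 0x1c4))
 (.l (nat_lit 0x20237)))
 (.l (nat_lit 0x14a004)))
 (.n (.l (nat_lit 0x640e4))
 (.l (nat_lit 0x240a6))))
 (.n (.n (.n (.l (nat_lit 0x144156))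
 (.l (nat_lit 0x1700009)))
 (.l (nat_lit 0x108066)))
 (.n (.l (nat_lit 0x121026))
 (.l (nat_lit 0xe1284))))))

def a128_110 : TA :=
 .n (.n (.n (.n (.n (.n (.l (nat_lit 0x100070))
 (.l (nat_lit 0x167214)))
 (.l (nat_lit 0x27234)))
 (.n (.l (nat_lit 0xc3074))
 (.l (nat_lit 0x1692b6))))
 (.n (.n (.n (.l (nat_lit 0xe50e6))
 (.l (nat_lit 0xa033)))
 (.l (nat_lit 0xe6055)))
 (.n (.l (nat_lit 0x492a5))
 (.l (nat_lit 0x230a4)))))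
 (.n (.n (.n (.n (.l (nat_lit 0x162075))
 (.l (nat_lit 0x88157)))
 (.l (nat_lit 0x9006)))
 (.n (.l (nat_lit 0x120236))
 (.l (nat_lit 0x9174))))
 (.n (.n (.n (.l (nat_lit 0x10a155))
 (.l (nat_lit 0x640009)))
 (.l (nat_lit 0x4b234)))
 (.n (.l (nat_lit 0xea015))
 (.l (nat_lit 0x85194))))))
 (.n (.n (.n (.n (.n (.l (nat_lit 0x40210))
 (.l (nat_lit 0x880d4)))
 (.l (nat_lit 0x108234)))
 (.n (.l (nat_lit 0x84006))
 (.l (nat_lit 0x85176))))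
 (.n (.n (.n (.l (nat_lit 0xe80e6))
 (.l (nat_lit 0x10a1c3)))
 (.l (nat_lit 0xc8055)))
 (.n (.l (nat_lit 0x87004))
 (.l (nat_lit 0x8b0a4)))))
 (.n (.n (.n (.n (.l (nat_lit 0x46076))
 (.l (nat_lit 0x12b237)))
 (.l (nat_lit 0x142045)))
 (.n (.l (nat_lit 0x222a6))
 (.l (nat_lit 0xb116))))
 (.n (.n (.n (.l (nat_lit 0x22014))
 (.l (nat_lit 0xc400a)))
 (.l (nat_lit 0x6b044)))
 (.n (.l (nat_lit 0x70e4))
 (.l (nat_lit 0xa3057))))))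

def a64_46 : TA := .n a128_46 a128_110

def a32_14 : TA := .n a64_14 a64_46

def a128_30 : TA :=
 .n (.n (.n (.n (.n (.n (.l (nat_lit 0xb00012))
 (.l (nat_lit 0x241a4)))
 (.l (nat_lit 0x160025)))
 (.n (.n (.l (nat_lit 0xa01c6))
 (.l (nat_lit 0x983610d100000c)))
 (.l (nat_lit 0x44165))))
 (.n (.n (.n (.l (nat_lit 0x1201c4))
 (.l (nat_lit 0x1012a7)))
 (.l (nat_lit 0x2a004)))
 (.n (.l (nat_lit 0x50e4))
 (.l (nat_lit 0x165115)))))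
 (.n (.n (.n (.n (.l (nat_lit 0x80280))
 (.l (nat_lit 0x23077)))
 (.l (nat_lit 0x24036)))
 (.n (.l (nat_lit 0x9236))
 (.l (nat_lit 0x801e6))))
 (.n (.n (.n (.l (nat_lit 0x21044))
 (.l (nat_lit 0xa243)))
 (.l (nat_lit 0xea034)))
 (.n (.l (nat_lit 0x146044))
 (.l (nat_lit 0xe5196))))))
 (.n (.n (.n (.n (.n (.l (nat_lit 0x140120))
 (.l (nat_lit 0x81294)))
 (.l (nat_lit 0x163035)))
 (.n (.l (nat_lit 0x1601c5))
 (.l (nat_lit 0x10a1d4))))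
 (.n (.n (.n (.l (nat_lit 0x41014))
 (.l (nat_lit 0xca0a3)))
 (.l (nat_lit 0xca234)))
 (.n (.l (nat_lit 0xa5034))
 (.l (nat_lit 0xa1265)))))
 (.n (.n (.n (.n (.l (nat_lit 0xab076))
 (.l (nat_lit 0x8a1c7)))
 (.l (nat_lit 0x4b045)))
 (.n (.l (nat_lit 0xab236))
 (.l (nat_lit 0x6b027))))
 (.n (.n (.n (.l (nat_lit 0x40155))
 (.l (nat_lit 0x6c0009)))
 (.l (nat_lit 0x104065)))
 (.n (.l (nat_lit 0xc7005))
 (.l (nat_lit 0xa0214))))))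

def a128_94 : TA :=
 .n (.n (.n (.n (.n (.n (.l (nat_lit 0x40060))
 (.l (nat_lit 0x147284)))
 (.l (nat_lit 0x127074)))
 (.n (.n (.l (nat_lit 0x10b1c5))
 (.l (nat_lit 0xd4a1a35902000c)))
 (.l (nat_lit 0x49245))))
 (.n (.n (.n (.l (nat_lit 0x1040e5))
 (.l (nat_lit 0x33)))
 (.l (nat_lit 0x123056)))
 (.n (.l (nat_lit 0x32a5))
 (.l (nat_lit 0x23037)))))
 (.n (.n (.n (.n (.l (nat_lit 0x40004))
 (.l (nat_lit 0x106157)))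
 (.l (nat_lit 0xa8054)))
 (.n (.l (nat_lit 0x24006))
 (.l (nat_lit 0xa22c5))))
 (.n (.n (.n (.l (nat_lit 0x48155))
 (.l (nat_lit 0x2640009)))
 (.l (nat_lit 0x4b0e4)))
 (.n (.l (nat_lit 0x149016))
 (.l (nat_lit 0x8b276))))))
 (.n (.n (.n (.n (.n (.l (nat_lit 0xa801c2))
 (.l (nat_lit 0xa4144)))
 (.l (nat_lit 0x880e4)))
 (.n (.l (nat_lit 0x63034))
 (.l (nat_lit 0x822c4))))
 (.n (.n (.n (.l (nat_lit 0x650e5))
 (.l (nat_lit 0x1011c3)))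
 (.l (nat_lit 0x146056)))
 (.n (.l (nat_lit 0x89015))
 (.l (nat_lit 0x126037)))))
 (.n (.n (.n (.n (.l (nat_lit 0xe3075))
 (.l (nat_lit 0xa237)))
 (.l (nat_lit 0x69006)))
 (.n (.l (nat_lit 0x412a5))
 (.l (nat_lit 0x101037))))
 (.n (.n (.n (.l (nat_lit 0xa2074))
 (.l (nat_lit 0x4200b)))
 (.l (nat_lit 0xeb2a4)))
 (.n (.l (nat_lit 0x2b026))
 (.l (nat_lit 0x87216))))))

def a64_30 : TA := .n a128_30 a128_94

def a128_62 : TA :=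
 .n (.n (.n (.n (.n (.n (.l (nat_lit 0x40))
 (.l (nat_lit 0x1072f6)))
 (.l (nat_lit 0xa026)))
 (.n (.n (.l (nat_lit 0x671c6))
 (.l (nat_lit 0x161684ac842000c)))
 (.l (nat_lit 0x161246))))
 (.n (.n (.n (.l (nat_lit 0x20064))
 (.l (nat_lit 0x62d7)))
 (.l (nat_lit 0xa9064)))
 (.n (.l (nat_lit 0xe5005))
 (.l (nat_lit 0xc22d4)))))
 (.n (.n (.n (.n (.l (nat_lit 0xc02b0))
 (.l (nat_lit 0xa5127)))
 (.l (nat_lit 0x10b036)))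
 (.n (.l (nat_lit 0x440e4))
 (.l (nat_lit 0xaa256))))
 (.n (.n (.n (.l (nat_lit 0xe0156))
 (.l (nat_lit 0x492c3)))
 (.l (nat_lit 0x127065)))
 (.n (.l (nat_lit 0xc1016))
 (.l (nat_lit 0xe6195))))))
 (.n (.n (.n (.n (.n (.l (nat_lit 0x80180))
 (.l (nat_lit 0xc1295)))
 (.l (nat_lit 0x14a035)))
 (.n (.l (nat_lit 0xaa1c6))
 (.l (nat_lit 0xa1027))))
 (.n (.n (.n (.l (nat_lit 0x161006))
 (.l (nat_lit 0x104153)))
 (.l (nat_lit 0x16a005)))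
 (.n (.l (nat_lit 0x41015))
 (.l (nat_lit 0x1022d5)))))
 (.n (.n (.n (.n (.l (nat_lit 0x120005))
 (.l (nat_lit 0x122237)))
 (.l (nat_lit 0x149234)))
 (.n (.l (nat_lit 0x164024))
 (.l (nat_lit 0x60037))))
 (.n (.n (.n (.l (nat_lit 0xe5155))
 (.l (nat_lit 0x2740009)))
 (.l (nat_lit 0xa9065)))
 (.n (.l (nat_lit 0xe5026))
 (.l (nat_lit 0xa51a5))))))

def a128_126 : TA :=
 .n (.n (.n (.n (.n (.n (.l (nat_lit 0xc00b0))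
 (.l (nat_lit 0x148134)))
 (.l (nat_lit 0x67064)))
 (.n (.l (nat_lit 0x83034))
 (.l (nat_lit 0x890f4))))
 (.n (.n (.n (.l (nat_lit 0x1080e5))
 (.l (nat_lit 0x43053)))
 (.l (nat_lit 0x48056)))
 (.n (.l (nat_lit 0x16b2a6))
 (.l (nat_lit 0x101265)))))
 (.n (.n (.n (.n (.l (nat_lit 0xc4076))
 (.l (nat_lit 0xa157)))
 (.l (nat_lit 0xa2046)))
 (.n (.l (nat_lit 0x82235))
 (.l (nat_lit 0x14a1e4))))
 (.n (.n (.n (.l (nat_lit 0x102074))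
 (.l (nat_lit 0x1680009)))
 (.l (nat_lit 0x14b024)))
 (.n (.l (nat_lit 0x66234))
 (.l (nat_lit 0x86047))))))
 (.n (.n (.n (.n (.n (.l (nat_lit 0xc0230))
 (.l (nat_lit 0x88294)))
 (.l (nat_lit 0x88064)))
 (.n (.l (nat_lit 0x1235))
 (.l (nat_lit 0x10a176))))
 (.n (.n (.n (.l (nat_lit 0x1211c4))
 (.l (nat_lit 0x141223)))
 (.l (nat_lit 0x6a074)))
 (.n (.l (nat_lit 0x6154))
 (.l (nat_lit 0x2b0a4)))))
 (.n (.n (.n (.n (.l (nat_lit 0x6a075))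
 (.l (nat_lit 0xa8247)))
 (.l (nat_lit 0x106046)))
 (.n (.l (nat_lit 0x1232a6))
 (.l (nat_lit 0x101264))))
 (.n (.n (.n (.l (nat_lit 0x22044))
 (.l (nat_lit 0x700b)))
 (.l (nat_lit 0x411d4)))
 (.n (.l (nat_lit 0x87044))
 (.l (nat_lit 0x47215))))))

def a64_62 : TA := .n a128_62 a128_126

def a32_30 : TA := .n a64_30 a64_62

def a16_14 : TA := .n a32_14 a32_30

def a8_6 : TA := .n a16_6 a16_14

def a4_2 : TA := .n a8_2 a8_6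

def a2_0 : TA := .n a4_0 a4_2

def a128_1 : TA :=
 .n (.n (.n (.n (.n (.n (.l (nat_lit 0x40000))
 (.l (nat_lit 0x107215)))
 (.l (nat_lit 0x147044)))
 (.n (.n (.l (nat_lit 0xe2044))
 (.l (nat_lit 0x8700b)))
 (.l (nat_lit 0x1011d4))))
 (.n (.n (.n (.l (nat_lit 0x12a075))
 (.l (nat_lit 0x168247)))
 (.l (nat_lit 0x66045)))
 (.n (.l (nat_lit 0x462a5))
 (.l (nat_lit 0x812d4)))))
 (.n (.n (.n (.n (.l (nat_lit 0x100231))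
 (.l (nat_lit 0x148294)))
 (.l (nat_lit 0x148064)))
 (.n (.l (nat_lit 0xc1235))
 (.l (nat_lit 0xaa176))))
 (.n (.n (.n (.l (nat_lit 0x61234))
 (.l (nat_lit 0x80233)))
 (.l (nat_lit 0x12a074)))
 (.n (.l (nat_lit 0xc6154))
 (.l (nat_lit 0xeb0a4))))))
 (.n (.n (.n (.n (.n (.l (nat_lit 0x800d0))
 (.l (nat_lit 0xc81a4)))
 (.l (nat_lit 0x127064)))
 (.n (.l (nat_lit 0x3054))
 (.l (nat_lit 0x9164))))
 (.n (.n (.n (.l (nat_lit 0x4b0e6))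
 (.l (nat_lit 0x103053)))
 (.l (nat_lit 0x108056)))
 (.n (.l (nat_lit 0xa50e4))
 (.l (nat_lit 0x61266)))))
 (.n (.n (.n (.n (.l (nat_lit 0x24076))
 (.l (nat_lit 0xca157)))
 (.l (nat_lit 0x162046)))
 (.n (.l (nat_lit 0x142235))
 (.l (nat_lit 0x8a2c4))))
 (.n (.n (.n (.l (nat_lit 0x42234))
 (.l (nat_lit 0x1080009)))
 (.l (nat_lit 0x8b034)))
 (.n (.l (nat_lit 0x126234))
 (.l (nat_lit 0x146047))))))

def a128_65 : TA :=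
 .n (.n (.n (.n (.n (.n (.l (nat_lit 0xc0040))
 (.l (nat_lit 0x672f6)))
 (.l (nat_lit 0xca026)))
 (.n (.n (.l (nat_lit 0x1671c6))
 (.l (nat_lit 0xd088872900600c)))
 (.l (nat_lit 0x89246))))
 (.n (.n (.n (.l (nat_lit 0x160064))
 (.l (nat_lit 0xc62d7)))
 (.l (nat_lit 0x169064)))
 (.n (.l (nat_lit 0x25006))
 (.l (nat_lit 0x22037)))))
 (.n (.n (.n (.n (.l (nat_lit 0x802c0))
 (.l (nat_lit 0x165127)))
 (.l (nat_lit 0x6b035)))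
 (.n (.l (nat_lit 0x1040e4))
 (.l (nat_lit 0x24174))))
 (.n (.n (.n (.l (nat_lit 0x44155))
 (.l (nat_lit 0x1492c3)))
 (.l (nat_lit 0x48065)))
 (.n (.l (nat_lit 0xa1016))
 (.l (nat_lit 0x222e4))))))
 (.n (.n (.n (.n (.n (.l (nat_lit 0x140180))
 (.l (nat_lit 0x7296)))
 (.l (nat_lit 0xaa035)))
 (.n (.l (nat_lit 0x16a1c6))
 (.l (nat_lit 0x161027))))
 (.n (.n (.n (.l (nat_lit 0x830e6))
 (.l (nat_lit 0x87153)))
 (.l (nat_lit 0xaa006)))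
 (.n (.l (nat_lit 0x101015))
 (.l (nat_lit 0x45114)))))
 (.n (.n (.n (.n (.l (nat_lit 0x60006))
 (.l (nat_lit 0x46237)))
 (.l (nat_lit 0x892a4)))
 (.n (.l (nat_lit 0xa4034))
 (.l (nat_lit 0x120037))))
 (.n (.n (.n (.l (nat_lit 0x47155))
 (.l (nat_lit 0x2140009)))
 (.l (nat_lit 0x169065)))
 (.n (.l (nat_lit 0x49025))
 (.l (nat_lit 0x81a6))))))

def a64_1 : TA := .n a128_1 a128_65

def a128_33 : TA :=
 .n (.n (.n (.n (.n (.n (.l (nat_lit 0x80020))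
 (.l (nat_lit 0x1241a4)))
 (.l (nat_lit 0xa1025)))
 (.n (.n (.l (nat_lit 0x1601c6))
 (.l (nat_lit 0x12868d8d102600c)))
 (.l (nat_lit 0x9165))))
 (.n (.n (.n (.l (nat_lit 0x60234))
 (.l (nat_lit 0x612a7)))
 (.l (nat_lit 0xea004)))
 (.n (.l (nat_lit 0xc50e4))
 (.l (nat_lit 0x8b115)))))
 (.n (.n (.n (.n (.l (nat_lit 0x140280))
 (.l (nat_lit 0xe3077)))
 (.l (nat_lit 0x124036)))
 (.n (.l (nat_lit 0xc9236))
 (.l (nat_lit 0x201e5))))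
 (.n (.n (.n (.l (nat_lit 0x121044))
 (.l (nat_lit 0x10a243)))
 (.l (nat_lit 0xb005)))
 (.n (.l (nat_lit 0x86054))
 (.l (nat_lit 0x46196))))))
 (.n (.n (.n (.n (.n (.l (nat_lit 0xc0140))
 (.l (nat_lit 0x141294)))
 (.l (nat_lit 0xe4035)))
 (.n (.l (nat_lit 0x811c5))
 (.l (nat_lit 0x4a244))))
 (.n (.n (.n (.l (nat_lit 0x101014))
 (.l (nat_lit 0xb0a3)))
 (.l (nat_lit 0xa2a4)))
 (.n (.l (nat_lit 0x165034))
 (.l (nat_lit 0x161265)))))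
 (.n (.n (.n (.n (.l (nat_lit 0x16b076))
 (.l (nat_lit 0x14a1c7)))
 (.l (nat_lit 0x10b045)))
 (.n (.l (nat_lit 0x25004))
 (.l (nat_lit 0x12b027))))
 (.n (.n (.n (.l (nat_lit 0x100155))
 (.l (nat_lit 0xc0009)))
 (.l (nat_lit 0x87066)))
 (.n (.l (nat_lit 0x7006))
 (.l (nat_lit 0x160214))))))

def a128_97 : TA :=
 .n (.n (.n (.n (.n (.n (.l (nat_lit 0x100060))
 (.l (nat_lit 0x1072f4)))
 (.l (nat_lit 0xa70e4)))
 (.n (.n (.l (nat_lit 0xab1c5))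
 (.l (nat_lit 0xd422a76102000c)))
 (.l (nat_lit 0x109245))))
 (.n (.n (.n (.l (nat_lit 0x640e6))
 (.l (nat_lit 0xc0033)))
 (.l (nat_lit 0xa5055)))
 (.n (.l (nat_lit 0xc32a5))
 (.l (nat_lit 0xe3037)))))
 (.n (.n (.n (.n (.l (nat_lit 0x100004))
 (.l (nat_lit 0x47157)))
 (.l (nat_lit 0x168054)))
 (.n (.l (nat_lit 0xe4006))
 (.l (nat_lit 0x1622c5))))
 (.n (.n (.n (.l (nat_lit 0x108155))
 (.l (nat_lit 0x2040009)))
 (.l (nat_lit 0x10b0e4)))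
 (.n (.l (nat_lit 0xa9015))
 (.l (nat_lit 0x22e5))))))
 (.n (.n (.n (.n (.n (.l (nat_lit 0x401d0))
 (.l (nat_lit 0x7294)))
 (.l (nat_lit 0x1480e4)))
 (.n (.l (nat_lit 0x163034))
 (.l (nat_lit 0x22027))))
 (.n (.n (.n (.l (nat_lit 0x1250e5))
 (.l (nat_lit 0x451c3)))
 (.l (nat_lit 0x87056)))
 (.n (.l (nat_lit 0x149015))
 (.l (nat_lit 0x6a037)))))
 (.n (.n (.n (.n (.l (nat_lit 0x4075))
 (.l (nat_lit 0xca237)))
 (.l (nat_lit 0x129006)))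
 (.n (.l (nat_lit 0x1012a5))
 (.l (nat_lit 0x83115))))
 (.n (.n (.n (.l (nat_lit 0x162074))
 (.l (nat_lit 0xc200b)))
 (.l (nat_lit 0x2b024)))
 (.n (.l (nat_lit 0xeb026))
 (.l (nat_lit 0x147216))))))

def a64_33 : TA := .n a128_33 a128_97

def a32_1 : TA := .n a64_1 a64_33

def a128_17 : TA :=
 .n (.n (.n (.n (.n (.n (.l (nat_lit 0xb00002))
 (.l (nat_lit 0x164057)))
 (.l (nat_lit 0xe7005)))
 (.n (.n (.l (nat_lit 0x43006))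
 (.l (nat_lit 0xc900b)))
 (.l (nat_lit 0x840f6))))
 (.n (.n (.n (.l (nat_lit 0xe1004))
 (.l (nat_lit 0xc6287)))
 (.l (nat_lit 0x167045)))
 (.n (.l (nat_lit 0x12a2a6))
 (.l (nat_lit 0xa4115)))))
 (.n (.n (.n (.n (.l (nat_lit 0x140250))
 (.l (nat_lit 0x149067)))
 (.l (nat_lit 0x141035)))
 (.n (.l (nat_lit 0xa2236))
 (.l (nat_lit 0xa1e5))))
 (.n (.n (.n (.l (nat_lit 0x161014))
 (.l (nat_lit 0xc8233)))
 (.l (nat_lit 0xaa014)))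
 (.n (.l (nat_lit 0x1062a4))
 (.l (nat_lit 0x81274))))))
 (.n (.n (.n (.n (.n (.l (nat_lit 0x40110))
 (.l (nat_lit 0x1480d5)))
 (.l (nat_lit 0x101036)))
 (.n (.l (nat_lit 0x123006))
 (.l (nat_lit 0x292b4))))
 (.n (.n (.n (.l (nat_lit 0x1411c4))
 (.l (nat_lit 0x149063)))
 (.l (nat_lit 0x8a154)))
 (.n (.l (nat_lit 0x25014))
 (.l (nat_lit 0x24037)))))
 (.n (.n (.n (.n (.l (nat_lit 0x88075))
 (.l (nat_lit 0x411c7)))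
 (.l (nat_lit 0x166046)))
 (.n (.l (nat_lit 0xa236))
 (.l (nat_lit 0x2a254))))
 (.n (.n (.n (.l (nat_lit 0x102044))
 (.l (nat_lit 0x20c0009)))
 (.l (nat_lit 0x2b006)))
 (.n (.l (nat_lit 0xa6044))
 (.l (nat_lit 0xb274))))))

def a128_81 : TA :=
 .n (.n (.n (.n (.n (.n (.l (nat_lit 0x80050))
 (.l (nat_lit 0x126057)))
 (.l (nat_lit 0x6b025)))
 (.n (.n (.l (nat_lit 0x8a1c5))
 (.l (nat_lit 0xd41486a102000c)))
 (.l (nat_lit 0x144164))))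
 (.n (.n (.n (.l (nat_lit 0xc30e5))
 (.l (nat_lit 0x104023)))
 (.l (nat_lit 0x120055)))
 (.n (.l (nat_lit 0x1612a6))
 (.l (nat_lit 0x165185)))))
 (.n (.n (.n (.n (.l (nat_lit 0x5))
 (.l (nat_lit 0xe4157)))
 (.l (nat_lit 0x68234)))
 (.n (.l (nat_lit 0x144034))
 (.l (nat_lit 0x14a2c6))))
 (.n (.n (.n (.l (nat_lit 0x145155))
 (.l (nat_lit 0x1000009)))
 (.l (nat_lit 0x29066)))
 (.n (.l (nat_lit 0x108016))
 (.l (nat_lit 0x24047))))))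
 (.n (.n (.n (.n (.n (.l (nat_lit 0x801c0))
 (.l (nat_lit 0x47295)))
 (.l (nat_lit 0x9004)))
 (.n (.l (nat_lit 0x163074))
 (.l (nat_lit 0x145175))))
 (.n (.n (.n (.l (nat_lit 0x240e5))
 (.l (nat_lit 0x183)))
 (.l (nat_lit 0x83055)))
 (.n (.l (nat_lit 0x48015))
 (.l (nat_lit 0x25184)))))
 (.n (.n (.n (.n (.l (nat_lit 0xa2076))
 (.l (nat_lit 0x148237)))
 (.l (nat_lit 0x9064)))
 (.n (.l (nat_lit 0x5005))
 (.l (nat_lit 0xab0a5))))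
 (.n (.n (.n (.l (nat_lit 0x14a156))
 (.l (nat_lit 0x140009)))
 (.l (nat_lit 0xab1c4)))
 (.n (.l (nat_lit 0x14a025))
 (.l (nat_lit 0x215))))))

def a64_17 : TA := .n a128_17 a128_81

def a128_49 : TA :=
 .n (.n (.n (.n (.n (.n (.l (nat_lit 0x8c0022))
 (.l (nat_lit 0x1022f6)))
 (.l (nat_lit 0x165025)))
 (.n (.n (.l (nat_lit 0xc51c5))
 (.l (nat_lit 0xa074c0d102000c)))
 (.l (nat_lit 0x8a1d6))))
 (.n (.n (.n (.l (nat_lit 0x60034))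
 (.l (nat_lit 0x14a2a7)))
 (.l (nat_lit 0x69014)))
 (.n (.l (nat_lit 0xc5014))
 (.l (nat_lit 0x212d4)))))
 (.n (.n (.n (.n (.l (nat_lit 0x1402a1))
 (.l (nat_lit 0x630e7)))
 (.l (nat_lit 0xca036)))
 (.n (.l (nat_lit 0x5004))
 (.l (nat_lit 0x16a255))))
 (.n (.n (.n (.l (nat_lit 0x42006))
 (.l (nat_lit 0x1012a3)))
 (.l (nat_lit 0x4066)))
 (.n (.l (nat_lit 0x26004))
 (.l (nat_lit 0x5196))))))
 (.n (.n (.n (.n (.n (.l (nat_lit 0xa80152))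
 (.l (nat_lit 0x8226)))
 (.l (nat_lit 0xc6036)))
 (.n (.l (nat_lit 0x251c6))
 (.l (nat_lit 0x3096))))
 (.n (.n (.n (.l (nat_lit 0x101054))
 (.l (nat_lit 0x43113)))
 (.l (nat_lit 0x10a024)))
 (.n (.l (nat_lit 0x106006))
 (.l (nat_lit 0x24184)))))
 (.n (.n (.n (.n (.l (nat_lit 0xc01c4))
 (.l (nat_lit 0xe0237)))
 (.l (nat_lit 0x109154)))
 (.n (.l (nat_lit 0x1240e4))
 (.l (nat_lit 0xe40a6))))
 (.n (.n (.n (.l (nat_lit 0xa4156))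
 (.l (nat_lit 0x1100009)))
 (.l (nat_lit 0x68065)))
 (.n (.l (nat_lit 0x62025))
 (.l (nat_lit 0x22f4))))))

def a128_113 : TA :=
 .n (.n (.n (.n (.n (.n (.l (nat_lit 0x140071))
 (.l (nat_lit 0xa72f4)))
 (.l (nat_lit 0x167234)))
 (.n (.l (nat_lit 0x30e4))
 (.l (nat_lit 0xa92b5))))
 (.n (.n (.n (.l (nat_lit 0x70e5))
 (.l (nat_lit 0x10a033)))
 (.l (nat_lit 0x7055)))
 (.n (.l (nat_lit 0xa2a5))
 (.l (nat_lit 0xe30a4)))))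
 (.n (.n (.n (.n (.l (nat_lit 0x83075))
 (.l (nat_lit 0x148157)))
 (.l (nat_lit 0xc9006)))
 (.n (.l (nat_lit 0x41236))
 (.l (nat_lit 0xc9174))))
 (.n (.n (.n (.l (nat_lit 0xcb156))
 (.l (nat_lit 0x40009)))
 (.l (nat_lit 0x10b234)))
 (.n (.l (nat_lit 0x27004))
 (.l (nat_lit 0x145194))))))
 (.n (.n (.n (.n (.n (.l (nat_lit 0x100210))
 (.l (nat_lit 0x8144)))
 (.l (nat_lit 0x48014)))
 (.n (.l (nat_lit 0x144006))
 (.l (nat_lit 0x25175))))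
 (.n (.n (.n (.l (nat_lit 0xab0e5))
 (.l (nat_lit 0x451e3)))
 (.l (nat_lit 0x28055)))
 (.n (.l (nat_lit 0x147004))
 (.l (nat_lit 0x14b0a4)))))
 (.n (.n (.n (.n (.l (nat_lit 0x146076))
 (.l (nat_lit 0x62247)))
 (.l (nat_lit 0xa2045)))
 (.n (.l (nat_lit 0xe22a6))
 (.l (nat_lit 0xcb116))))
 (.n (.n (.n (.l (nat_lit 0x162014))
 (.l (nat_lit 0x500a)))
 (.l (nat_lit 0x12b044)))
 (.n (.l (nat_lit 0x1070e4))
 (.l (nat_lit 0x163057))))))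

def a64_49 : TA := .n a128_49 a128_113

def a32_17 : TA := .n a64_17 a64_49

def a16_1 : TA := .n a32_1 a32_17

def a128_9 : TA :=
 .n (.n (.n (.n (.n (.n (.l (nat_lit 0x800002))
 (.l (nat_lit 0xc4134)))
 (.l (nat_lit 0x47064)))
 (.n (.n (.l (nat_lit 0x162054))
 (.l (nat_lit 0x4800b)))
 (.l (nat_lit 0x21017))))
 (.n (.n (.n (.l (nat_lit 0x6b075))
 (.l (nat_lit 0x40257)))
 (.l (nat_lit 0xc7045)))
 (.n (.l (nat_lit 0x1092a6))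
 (.l (nat_lit 0x4116)))))
 (.n (.n (.n (.n (.l (nat_lit 0x100240))
 (.l (nat_lit 0xe8294)))
 (.l (nat_lit 0x68006)))
 (.n (.l (nat_lit 0x161236))
 (.l (nat_lit 0x122254))))
 (.n (.n (.n (.l (nat_lit 0xe12a4))
 (.l (nat_lit 0x6233)))
 (.l (nat_lit 0x2a2a4)))
 (.n (.l (nat_lit 0x46234))
 (.l (nat_lit 0x16b114))))))
 (.n (.n (.n (.n (.n (.l (nat_lit 0x1400e1))
 (.l (nat_lit 0x168057)))
 (.l (nat_lit 0x8006)))
 (.n (.l (nat_lit 0xa3005))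
 (.l (nat_lit 0xc9244))))
 (.n (.n (.n (.l (nat_lit 0xc2004))
 (.l (nat_lit 0x88053)))
 (.l (nat_lit 0xb004)))
 (.n (.l (nat_lit 0x125154))
 (.l (nat_lit 0x10b265)))))
 (.n (.n (.n (.n (.l (nat_lit 0xc6075))
 (.l (nat_lit 0x160187)))
 (.l (nat_lit 0xc6045)))
 (.n (.l (nat_lit 0x87235))
 (.l (nat_lit 0x12a027))))
 (.n (.n (.n (.l (nat_lit 0xc22a4))
 (.l (nat_lit 0x80009)))
 (.l (nat_lit 0x10b044)))
 (.n (.l (nat_lit 0x26034))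
 (.l (nat_lit 0x126194))))))

def a128_73 : TA :=
 .n (.n (.n (.n (.n (.n (.l (nat_lit 0xa00042))
 (.l (nat_lit 0x1651a4)))
 (.l (nat_lit 0x16a025)))
 (.n (.n (.l (nat_lit 0xc91c5))
 (.l (nat_lit 0xd508872902000c)))
 (.l (nat_lit 0x14a245))))
 (.n (.n (.n (.l (nat_lit 0x41006))
 (.l (nat_lit 0x8013)))
 (.l (nat_lit 0x4a006)))
 (.n (.l (nat_lit 0x812a6))
 (.l (nat_lit 0xe0185)))))
 (.n (.n (.n (.n (.l (nat_lit 0xc02d0))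
 (.l (nat_lit 0x44157)))
 (.l (nat_lit 0xe9004)))
 (.n (.l (nat_lit 0x4014))
 (.l (nat_lit 0xc5027))))
 (.n (.n (.n (.l (nat_lit 0xe4155))
 (.l (nat_lit 0x2000009)))
 (.l (nat_lit 0xe8066)))
 (.n (.l (nat_lit 0x44015))
 (.l (nat_lit 0xc0205))))))
 (.n (.n (.n (.n (.n (.l (nat_lit 0x401a0))
 (.l (nat_lit 0x108296)))
 (.l (nat_lit 0x10b035)))
 (.n (.l (nat_lit 0xe4004))
 (.l (nat_lit 0xc2027))))
 (.n (.n (.n (.l (nat_lit 0x1230e6))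
 (.l (nat_lit 0x108153)))
 (.l (nat_lit 0x22055)))
 (.n (.l (nat_lit 0xc4016))
 (.l (nat_lit 0x1051f4)))))
 (.n (.n (.n (.n (.l (nat_lit 0xe0004))
 (.l (nat_lit 0xe6237)))
 (.l (nat_lit 0x109014)))
 (.n (.l (nat_lit 0x124044))
 (.l (nat_lit 0x230a5))))
 (.n (.n (.n (.l (nat_lit 0x49156))
 (.l (nat_lit 0x1140009)))
 (.l (nat_lit 0xab0e4)))
 (.n (.l (nat_lit 0xe9025))
 (.l (nat_lit 0xe22f4))))))

def a64_9 : TA := .n a128_9 a128_73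

def a128_41 : TA :=
 .n (.n (.n (.n (.n (.n (.l (nat_lit 0x600022))
 (.l (nat_lit 0x65057)))
 (.l (nat_lit 0x162026)))
 (.n (.n (.l (nat_lit 0x611c6))
 (.l (nat_lit 0x12a21d8d102600c)))
 (.l (nat_lit 0x162244))))
 (.n (.n (.n (.l (nat_lit 0x120014))
 (.l (nat_lit 0xc62a7)))
 (.l (nat_lit 0x169154)))
 (.n (.l (nat_lit 0x145154))
 (.l (nat_lit 0x12b115)))))
 (.n (.n (.n (.n (.l (nat_lit 0x100291))
 (.l (nat_lit 0x16b077)))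
 (.l (nat_lit 0x26035)))
 (.n (.l (nat_lit 0x8b235))
 (.l (nat_lit 0xe2256))))
 (.n (.n (.n (.l (nat_lit 0x121064))
 (.l (nat_lit 0x49293)))
 (.l (nat_lit 0x8b006)))
 (.n (.l (nat_lit 0x126005))
 (.l (nat_lit 0x1022e4))))))
 (.n (.n (.n (.n (.n (.l (nat_lit 0x140151))
 (.l (nat_lit 0x68146)))
 (.l (nat_lit 0x65035)))
 (.n (.l (nat_lit 0x1211c5))
 (.l (nat_lit 0xc01e4))))
 (.n (.n (.n (.l (nat_lit 0x81044))
 (.l (nat_lit 0xc30e3)))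
 (.l (nat_lit 0x8a014)))
 (.n (.l (nat_lit 0x86005))
 (.l (nat_lit 0xa40a4)))))
 (.n (.n (.n (.n (.l (nat_lit 0x40154))
 (.l (nat_lit 0x40237)))
 (.l (nat_lit 0xa004)))
 (.n (.l (nat_lit 0xa4074))
 (.l (nat_lit 0x230a6))))
 (.n (.n (.n (.l (nat_lit 0x4156))
 (.l (nat_lit 0x2100009)))
 (.l (nat_lit 0x167066)))
 (.n (.l (nat_lit 0xe0026))
 (.l (nat_lit 0x108136))))))

def a128_105 : TA :=
 .n (.n (.n (.n (.n (.n (.l (nat_lit 0x8c0062))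
 (.l (nat_lit 0x27214)))
 (.l (nat_lit 0x167154)))
 (.n (.l (nat_lit 0x104004))
 (.l (nat_lit 0x292b6))))
 (.n (.n (.n (.l (nat_lit 0xc50e6))
 (.l (nat_lit 0x6033)))
 (.l (nat_lit 0x106055)))
 (.n (.l (nat_lit 0x262a6))
 (.l (nat_lit 0x51f6)))))
 (.n (.n (.n (.n (.l (nat_lit 0x22075))
 (.l (nat_lit 0xe7157)))
 (.l (nat_lit 0x49005)))
 (.n (.l (nat_lit 0x140236))
 (.l (nat_lit 0x65174))))
 (.n (.n (.n (.l (nat_lit 0x129155))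
 (.l (nat_lit 0x1040009)))
 (.l (nat_lit 0x8b1c4)))
 (.n (.l (nat_lit 0x10a015))
 (.l (nat_lit 0xa22e6))))))
 (.n (.n (.n (.n (.n (.l (nat_lit 0x1001e0))
 (.l (nat_lit 0xa7067)))
 (.l (nat_lit 0x881c4)))
 (.n (.l (nat_lit 0xc4005))
 (.l (nat_lit 0xa4176))))
 (.n (.n (.n (.l (nat_lit 0x880e6))
 (.l (nat_lit 0x1071c3)))
 (.l (nat_lit 0x127055)))
 (.n (.l (nat_lit 0xea016))
 (.l (nat_lit 0xcb037)))))
 (.n (.n (.n (.n (.l (nat_lit 0xa4075))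
 (.l (nat_lit 0x14b237)))
 (.l (nat_lit 0x101045)))
 (.n (.l (nat_lit 0x422a5))
 (.l (nat_lit 0x24116))))
 (.n (.n (.n (.l (nat_lit 0x622a4))
 (.l (nat_lit 0xc300b)))
 (.l (nat_lit 0xab034)))
 (.n (.l (nat_lit 0x148004))
 (.l (nat_lit 0xc32f4))))))

def a64_41 : TA := .n a128_41 a128_105

def a32_9 : TA := .n a64_9 a64_41

def a128_25 : TA :=
 .n (.n (.n (.n (.n (.n (.l (nat_lit 0x140011))
 (.l (nat_lit 0x47285)))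
 (.l (nat_lit 0x167006)))
 (.n (.n (.l (nat_lit 0xc01c5))
 (.l (nat_lit 0xca00b)))
 (.l (nat_lit 0xa1244))))
 (.n (.n (.n (.l (nat_lit 0x160154))
 (.l (nat_lit 0x147297)))
 (.l (nat_lit 0x6b046)))
 (.n (.l (nat_lit 0x2b2a5))
 (.l (nat_lit 0x25115)))))
 (.n (.n (.n (.n (.l (nat_lit 0x100260))
 (.l (nat_lit 0x43077)))
 (.l (nat_lit 0x62035)))
 (.n (.l (nat_lit 0x146235))
 (.l (nat_lit 0x83094))))
 (.n (.n (.n (.l (nat_lit 0x61034))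
 (.l (nat_lit 0x8243)))
 (.l (nat_lit 0x12a024)))
 (.n (.l (nat_lit 0x6044))
 (.l (nat_lit 0x105195))))))
 (.n (.n (.n (.n (.n (.l (nat_lit 0x440112))
 (.l (nat_lit 0xa4146)))
 (.l (nat_lit 0x103035)))
 (.n (.l (nat_lit 0x201c5))
 (.l (nat_lit 0x10a0f4))))
 (.n (.n (.n (.l (nat_lit 0x412a4))
 (.l (nat_lit 0xc20a3)))
 (.l (nat_lit 0x10a1c4)))
 (.n (.l (nat_lit 0xa5024))
 (.l (nat_lit 0x81266)))))
 (.n (.n (.n (.n (.l (nat_lit 0x4b076))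
 (.l (nat_lit 0xc81c7)))
 (.l (nat_lit 0xa7046)))
 (.n (.l (nat_lit 0x8b236))
 (.l (nat_lit 0x8b027))))
 (.n (.n (.n (.l (nat_lit 0xa2006))
 (.l (nat_lit 0x10c0009)))
 (.l (nat_lit 0xe1066)))
 (.n (.l (nat_lit 0x126054))
 (.l (nat_lit 0xc0214))))))

def a128_89 : TA :=
 .n (.n (.n (.n (.n (.n (.l (nat_lit 0x440052))
 (.l (nat_lit 0x7284)))
 (.l (nat_lit 0xe8004)))
 (.n (.n (.l (nat_lit 0x12a1c5))
 (.l (nat_lit 0xd4a1a36100600c)))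
 (.l (nat_lit 0xa1245))))
 (.n (.n (.n (.l (nat_lit 0x1630e5))
 (.l (nat_lit 0x4b023)))
 (.l (nat_lit 0xa2056)))
 (.n (.l (nat_lit 0x622a5))
 (.l (nat_lit 0x43114)))))
 (.n (.n (.n (.n (.l (nat_lit 0x80006))
 (.l (nat_lit 0x145157)))
 (.l (nat_lit 0xe8014)))
 (.n (.l (nat_lit 0x64005))
 (.l (nat_lit 0x822c6))))
 (.n (.n (.n (.l (nat_lit 0x86156))
 (.l (nat_lit 0x9)))
 (.l (nat_lit 0x8b074)))
 (.n (.l (nat_lit 0x9016))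
 (.l (nat_lit 0xc1276))))))
 (.n (.n (.n (.n (.n (.l (nat_lit 0x4001c2))
 (.l (nat_lit 0xc8295)))
 (.l (nat_lit 0xc8074)))
 (.n (.l (nat_lit 0x632a4))
 (.l (nat_lit 0xaa175))))
 (.n (.n (.n (.l (nat_lit 0x850e5))
 (.l (nat_lit 0x106183)))
 (.l (nat_lit 0x6056)))
 (.n (.l (nat_lit 0xe8015))
 (.l (nat_lit 0x1062d4)))))
 (.n (.n (.n (.n (.l (nat_lit 0x103076))
 (.l (nat_lit 0x49237)))
 (.l (nat_lit 0xa9005)))
 (.n (.l (nat_lit 0x85006))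
 (.l (nat_lit 0x160184))))
 (.n (.n (.n (.l (nat_lit 0xe3004))
 (.l (nat_lit 0xc100b)))
 (.l (nat_lit 0x12b234)))
 (.n (.l (nat_lit 0x4b026))
 (.l (nat_lit 0xa0216))))))

def a64_25 : TA := .n a128_25 a128_89

def a128_57 : TA :=
 .n (.n (.n (.n (.n (.n (.l (nat_lit 0x100031))
 (.l (nat_lit 0xc32f5)))
 (.l (nat_lit 0x69026)))
 (.n (.n (.l (nat_lit 0x1651c5))
 (.l (nat_lit 0x15a21cad102600c)))
 (.l (nat_lit 0x21246))))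
 (.n (.n (.n (.l (nat_lit 0x60054))
 (.l (nat_lit 0x412d7)))
 (.l (nat_lit 0xe9024)))
 (.n (.l (nat_lit 0x105034))
 (.l (nat_lit 0xa4185)))))
 (.n (.n (.n (.n (.l (nat_lit 0xa402a2))
 (.l (nat_lit 0xe5117)))
 (.l (nat_lit 0x16a036)))
 (.n (.l (nat_lit 0x84074))
 (.l (nat_lit 0xc0256))))
 (.n (.n (.n (.l (nat_lit 0x100156))
 (.l (nat_lit 0x432c3)))
 (.l (nat_lit 0x107065)))
 (.n (.l (nat_lit 0xe0015))
 (.l (nat_lit 0xa5195))))))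
 (.n (.n (.n (.n (.n (.l (nat_lit 0x140171))
 (.l (nat_lit 0x1230d4)))
 (.l (nat_lit 0xa035)))
 (.n (.l (nat_lit 0x8a1c6))
 (.l (nat_lit 0xe01e4))))
 (.n (.n (.n (.l (nat_lit 0x21006))
 (.l (nat_lit 0x104113)))
 (.l (nat_lit 0x2a005)))
 (.n (.l (nat_lit 0x20016))
 (.l (nat_lit 0x1612d5)))))
 (.n (.n (.n (.n (.l (nat_lit 0x140234))
 (.l (nat_lit 0x161237)))
 (.l (nat_lit 0x9234)))
 (.n (.l (nat_lit 0x24024))
 (.l (nat_lit 0x401f4))))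
 (.n (.n (.n (.l (nat_lit 0x105156))
 (.l (nat_lit 0x100009)))
 (.l (nat_lit 0xc9065)))
 (.n (.l (nat_lit 0xe4025))
 (.l (nat_lit 0xe41a6))))))

def a128_121 : TA :=
 .n (.n (.n (.n (.n (.n (.l (nat_lit 0xc00a0))
 (.l (nat_lit 0x148057)))
 (.l (nat_lit 0x67054)))
 (.n (.l (nat_lit 0x832a4))
 (.l (nat_lit 0x28244))))
 (.n (.n (.n (.l (nat_lit 0x1670e5))
 (.l (nat_lit 0x42053)))
 (.l (nat_lit 0xa7056)))
 (.n (.l (nat_lit 0x2b2a6))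
 (.l (nat_lit 0x144037)))))
 (.n (.n (.n (.n (.l (nat_lit 0x123076))
 (.l (nat_lit 0x69157)))
 (.l (nat_lit 0xc2046)))
 (.n (.l (nat_lit 0xe1235))
 (.l (nat_lit 0xa1e4))))
 (.n (.n (.n (.l (nat_lit 0x143004))
 (.l (nat_lit 0x2080009)))
 (.l (nat_lit 0xb024)))
 (.n (.l (nat_lit 0xa6074))
 (.l (nat_lit 0xe5194))))))
 (.n (.n (.n (.n (.n (.l (nat_lit 0x140220))
 (.l (nat_lit 0xc8224)))
 (.l (nat_lit 0xc8054)))
 (.n (.l (nat_lit 0x60235))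
 (.l (nat_lit 0xc9176))))
 (.n (.n (.n (.l (nat_lit 0x162004))
 (.l (nat_lit 0x147213)))
 (.l (nat_lit 0xab004)))
 (.n (.l (nat_lit 0x460e4))
 (.l (nat_lit 0x4b264)))))
 (.n (.n (.n (.n (.l (nat_lit 0x167076))
 (.l (nat_lit 0xc8247)))
 (.l (nat_lit 0x124046)))
 (.n (.l (nat_lit 0x1432a6))
 (.l (nat_lit 0x16b116))))
 (.n (.n (.n (.l (nat_lit 0x62034))
 (.l (nat_lit 0x600b)))
 (.l (nat_lit 0x690f5)))
 (.n (.l (nat_lit 0xc7234))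
 (.l (nat_lit 0xa0215))))))

def a64_57 : TA := .n a128_57 a128_121

def a32_25 : TA := .n a64_25 a64_57

def a16_9 : TA := .n a32_9 a32_25

def a8_1 : TA := .n a16_1 a16_9

def a128_5 : TA :=
 .n (.n (.n (.n (.n (.n (.l (nat_lit 0x140000))
 (.l (nat_lit 0xe7215)))
 (.l (nat_lit 0xc7054)))
 (.n (.n (.l (nat_lit 0x62054))
 (.l (nat_lit 0x14700a)))
 (.l (nat_lit 0x81244))))
 (.n (.n (.n (.l (nat_lit 0x8b075))
 (.l (nat_lit 0xca247)))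
 (.l (nat_lit 0x166045)))
 (.n (.l (nat_lit 0x1462a5))
 (.l (nat_lit 0xa1037)))))
 (.n (.n (.n (.n (.l (nat_lit 0x240))
 (.l (nat_lit 0x128144)))
 (.l (nat_lit 0xe8005)))
 (.n (.l (nat_lit 0x61236))
 (.l (nat_lit 0x22254))))
 (.n (.n (.n (.l (nat_lit 0x161234))
 (.l (nat_lit 0x82233)))
 (.l (nat_lit 0xaa1c4)))
 (.n (.l (nat_lit 0x461c4))
 (.l (nat_lit 0x6b114))))))
 (.n (.n (.n (.n (.n (.l (nat_lit 0xc00e0))
 (.l (nat_lit 0x68057)))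
 (.l (nat_lit 0x88005)))
 (.n (.l (nat_lit 0x103054))
 (.l (nat_lit 0x149164))))
 (.n (.n (.n (.l (nat_lit 0x14b0e6))
 (.l (nat_lit 0x86053)))
 (.l (nat_lit 0xa8056)))
 (.n (.l (nat_lit 0x25154))
 (.l (nat_lit 0xb265)))))
 (.n (.n (.n (.n (.l (nat_lit 0x124076))
 (.l (nat_lit 0x60187)))
 (.l (nat_lit 0x164045)))
 (.n (.l (nat_lit 0xe2235))
 (.l (nat_lit 0x2a027))))
 (.n (.n (.n (.l (nat_lit 0x142234))
 (.l (nat_lit 0x880009)))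
 (.l (nat_lit 0xb044)))
 (.n (.l (nat_lit 0xa62a4))
 (.l (nat_lit 0x106194))))))

def a128_69 : TA :=
 .n (.n (.n (.n (.n (.n (.l (nat_lit 0x140041))
 (.l (nat_lit 0x251a4)))
 (.l (nat_lit 0x6a025)))
 (.n (.n (.l (nat_lit 0x1081c6))
 (.l (nat_lit 0xd088872902000c)))
 (.l (nat_lit 0x4a245))))
 (.n (.n (.n (.l (nat_lit 0xc1005))
 (.l (nat_lit 0x45013)))
 (.l (nat_lit 0xca005)))
 (.n (.l (nat_lit 0x125006))
 (.l (nat_lit 0x122037)))))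
 (.n (.n (.n (.n (.l (nat_lit 0x1002c1))
 (.l (nat_lit 0xc0157)))
 (.l (nat_lit 0x16b035)))
 (.n (.l (nat_lit 0x84154))
 (.l (nat_lit 0x124174))))
 (.n (.n (.n (.l (nat_lit 0x144155))
 (.l (nat_lit 0x2800009)))
 (.l (nat_lit 0x148065)))
 (.n (.l (nat_lit 0xa2016))
 (.l (nat_lit 0x1622e4))))))
 (.n (.n (.n (.n (.n (.l (nat_lit 0x80190))
 (.l (nat_lit 0x107296)))
 (.l (nat_lit 0xb035)))
 (.n (.l (nat_lit 0x10b1c6))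
 (.l (nat_lit 0x144106))))
 (.n (.n (.n (.l (nat_lit 0x230e6))
 (.l (nat_lit 0x8153)))
 (.l (nat_lit 0xa1056)))
 (.n (.l (nat_lit 0xe1015))
 (.l (nat_lit 0x145114)))))
 (.n (.n (.n (.n (.l (nat_lit 0x160006))
 (.l (nat_lit 0x146237)))
 (.l (nat_lit 0x9014)))
 (.n (.l (nat_lit 0x24044))
 (.l (nat_lit 0xa20a6))))
 (.n (.n (.n (.l (nat_lit 0x67155))
 (.l (nat_lit 0x1940009)))
 (.l (nat_lit 0xeb074)))
 (.n (.l (nat_lit 0x149025))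
 (.l (nat_lit 0x1481a6))))))

def a64_5 : TA := .n a128_5 a128_69

def a128_37 : TA :=
 .n (.n (.n (.n (.n (.n (.l (nat_lit 0x100021))
 (.l (nat_lit 0xc22f5)))
 (.l (nat_lit 0x22026)))
 (.n (.n (.l (nat_lit 0xc11c6))
 (.l (nat_lit 0x12868d0d102600c)))
 (.l (nat_lit 0x149165))))
 (.n (.n (.n (.l (nat_lit 0x160234))
 (.l (nat_lit 0x1612a7)))
 (.l (nat_lit 0x69154)))
 (.n (.l (nat_lit 0x45154))
 (.l (nat_lit 0x2b115)))))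
 (.n (.n (.n (.n (.l (nat_lit 0x80290))
 (.l (nat_lit 0x6b077)))
 (.l (nat_lit 0x86035)))
 (.n (.l (nat_lit 0xca235))
 (.l (nat_lit 0x1201e5))))
 (.n (.n (.n (.l (nat_lit 0x161054))
 (.l (nat_lit 0xc7293)))
 (.l (nat_lit 0x10b005)))
 (.n (.l (nat_lit 0x26005))
 (.l (nat_lit 0x22e4))))))
 (.n (.n (.n (.n (.n (.l (nat_lit 0xc0150))
 (.l (nat_lit 0xc8146)))
 (.l (nat_lit 0x85035)))
 (.n (.l (nat_lit 0x211c5))
 (.l (nat_lit 0x14a244))))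
 (.n (.n (.n (.l (nat_lit 0x81034))
 (.l (nat_lit 0x14b0a3)))
 (.l (nat_lit 0x10a2a4)))
 (.n (.l (nat_lit 0x125054))
 (.l (nat_lit 0xcb266)))))
 (.n (.n (.n (.n (.l (nat_lit 0xc1004))
 (.l (nat_lit 0xe0217)))
 (.l (nat_lit 0xab045)))
 (.n (.l (nat_lit 0x125004))
 (.l (nat_lit 0xa20a5))))
 (.n (.n (.n (.l (nat_lit 0xa0155))
 (.l (nat_lit 0x2900009)))
 (.l (nat_lit 0x67066)))
 (.n (.l (nat_lit 0x107006))
 (.l (nat_lit 0x144135))))))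

def a128_101 : TA :=
 .n (.n (.n (.n (.n (.n (.l (nat_lit 0x400062))
 (.l (nat_lit 0xa7057)))
 (.l (nat_lit 0x67154)))
 (.n (.l (nat_lit 0x4004))
 (.l (nat_lit 0x85017))))
 (.n (.n (.n (.l (nat_lit 0x1640e6))
 (.l (nat_lit 0x81033)))
 (.l (nat_lit 0x6055)))
 (.n (.l (nat_lit 0xa32a5))
 (.l (nat_lit 0x401f6)))))
 (.n (.n (.n (.n (.l (nat_lit 0x82075))
 (.l (nat_lit 0x147157)))
 (.l (nat_lit 0xe8064)))
 (.n (.l (nat_lit 0x40236))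
 (.l (nat_lit 0xca2c5))))
 (.n (.n (.n (.l (nat_lit 0x109155))
 (.l (nat_lit 0x1840009)))
 (.l (nat_lit 0x10b154)))
 (.n (.l (nat_lit 0xa015))
 (.l (nat_lit 0x1022e5))))))
 (.n (.n (.n (.n (.n (.l (nat_lit 0x1e0))
 (.l (nat_lit 0x107294)))
 (.l (nat_lit 0xc8154)))
 (.n (.l (nat_lit 0x163054))
 (.l (nat_lit 0x122027))))
 (.n (.n (.n (.l (nat_lit 0xc60e5))
 (.l (nat_lit 0x71c3)))
 (.l (nat_lit 0x27055)))
 (.n (.l (nat_lit 0xe9016))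
 (.l (nat_lit 0x16a037)))))
 (.n (.n (.n (.n (.l (nat_lit 0x104075))
 (.l (nat_lit 0x4b237)))
 (.l (nat_lit 0x120046)))
 (.n (.l (nat_lit 0xe12a5))
 (.l (nat_lit 0x84115))))
 (.n (.n (.n (.l (nat_lit 0xe2234))
 (.l (nat_lit 0x4300b)))
 (.l (nat_lit 0x12b024)))
 (.n (.l (nat_lit 0x48004))
 (.l (nat_lit 0xe7216))))))

def a64_37 : TA := .n a128_37 a128_101

def a32_5 : TA := .n a64_5 a64_37

def a128_21 : TA :=
 .n (.n (.n (.n (.n (.n (.l (nat_lit 0xc0010))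
 (.l (nat_lit 0xe1285)))
 (.l (nat_lit 0x67006)))
 (.n (.n (.l (nat_lit 0x143006))
 (.l (nat_lit 0x4a00a)))
 (.l (nat_lit 0x10a0f5))))
 (.n (.n (.n (.l (nat_lit 0x60154))
 (.l (nat_lit 0x47297)))
 (.l (nat_lit 0xcb046)))
 (.n (.l (nat_lit 0x8b2a5))
 (.l (nat_lit 0x5115)))))
 (.n (.n (.n (.n (.l (nat_lit 0xa00252))
 (.l (nat_lit 0xe9067)))
 (.l (nat_lit 0xe1035)))
 (.n (.l (nat_lit 0x6235))
 (.l (nat_lit 0x10a1e5))))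
 (.n (.n (.n (.l (nat_lit 0xe1024))
 (.l (nat_lit 0x4b233)))
 (.l (nat_lit 0x2a024)))
 (.n (.l (nat_lit 0x86034))
 (.l (nat_lit 0x5195))))))
 (.n (.n (.n (.n (.n (.l (nat_lit 0x140110))
 (.l (nat_lit 0x1230d5)))
 (.l (nat_lit 0xe1036)))
 (.n (.l (nat_lit 0x801c6))
 (.l (nat_lit 0x1292b4))))
 (.n (.n (.n (.l (nat_lit 0xc1234))
 (.l (nat_lit 0x104073)))
 (.l (nat_lit 0xa1c4)))
 (.n (.l (nat_lit 0x125014))
 (.l (nat_lit 0x124037)))))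
 (.n (.n (.n (.n (.l (nat_lit 0xea076))
 (.l (nat_lit 0x1411c7)))
 (.l (nat_lit 0x107046)))
 (.n (.l (nat_lit 0x10a236))
 (.l (nat_lit 0x12a254))))
 (.n (.n (.n (.l (nat_lit 0xe2005))
 (.l (nat_lit 0x18c0009)))
 (.l (nat_lit 0x12b006)))
 (.n (.l (nat_lit 0x26054))
 (.l (nat_lit 0x14b274))))))

def a128_85 : TA :=
 .n (.n (.n (.n (.n (.n (.l (nat_lit 0x100051))
 (.l (nat_lit 0x87214)))
 (.l (nat_lit 0x16b025)))
 (.n (.n (.l (nat_lit 0x2a1c5))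
 (.l (nat_lit 0xd41486a1a0600c)))
 (.l (nat_lit 0x101246))))
 (.n (.n (.n (.l (nat_lit 0x630e5))
 (.l (nat_lit 0x89023)))
 (.l (nat_lit 0xc1055)))
 (.n (.l (nat_lit 0xc22a6))
 (.l (nat_lit 0xe20a4)))))
 (.n (.n (.n (.n (.l (nat_lit 0x100005))
 (.l (nat_lit 0x45157)))
 (.l (nat_lit 0x168234)))
 (.n (.l (nat_lit 0xc4064))
 (.l (nat_lit 0xc5174))))
 (.n (.n (.n (.l (nat_lit 0xe5156))
 (.l (nat_lit 0x800009)))
 (.l (nat_lit 0x129066)))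
 (.n (.l (nat_lit 0xa8016))
 (.l (nat_lit 0x124047))))))
 (.n (.n (.n (.n (.n (.l (nat_lit 0x1001c1))
 (.l (nat_lit 0x147295)))
 (.l (nat_lit 0x109004)))
 (.n (.l (nat_lit 0xe30e4))
 (.l (nat_lit 0x125176))))
 (.n (.n (.n (.l (nat_lit 0x1240e5))
 (.l (nat_lit 0x140183)))
 (.l (nat_lit 0x64055)))
 (.n (.l (nat_lit 0x148015))
 (.l (nat_lit 0x125184)))))
 (.n (.n (.n (.n (.l (nat_lit 0x3076))
 (.l (nat_lit 0xe8237)))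
 (.l (nat_lit 0x109064)))
 (.n (.l (nat_lit 0x105005))
 (.l (nat_lit 0x20184))))
 (.n (.n (.n (.l (nat_lit 0x16b155))
 (.l (nat_lit 0x10000a)))
 (.l (nat_lit 0x2b234)))
 (.n (.l (nat_lit 0xea026))
 (.l (nat_lit 0x100215))))))

def a64_21 : TA := .n a128_21 a128_85

def a128_53 : TA :=
 .n (.n (.n (.n (.n (.n (.l (nat_lit 0x80030))
 (.l (nat_lit 0xa22f5)))
 (.l (nat_lit 0xc9026)))
 (.n (.n (.l (nat_lit 0x651c5))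
 (.l (nat_lit 0xa074c0d0a2000c)))
 (.l (nat_lit 0x41245))))
 (.n (.n (.n (.l (nat_lit 0x60044))
 (.l (nat_lit 0xcb2a7)))
 (.l (nat_lit 0x169014)))
 (.n (.l (nat_lit 0x145024))
 (.l (nat_lit 0x1212d4)))))
 (.n (.n (.n (.n (.l (nat_lit 0x6002a2))
 (.l (nat_lit 0x1630e7)))
 (.l (nat_lit 0x6a036)))
 (.n (.l (nat_lit 0x105004))
 (.l (nat_lit 0x144104))))
 (.n (.n (.n (.l (nat_lit 0x142006))
 (.l (nat_lit 0x832a3)))
 (.l (nat_lit 0x7065)))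
 (.n (.l (nat_lit 0x126004))
 (.l (nat_lit 0x105196))))))
 (.n (.n (.n (.n (.n (.l (nat_lit 0x80170))
 (.l (nat_lit 0x148226)))
 (.l (nat_lit 0x66036)))
 (.n (.l (nat_lit 0x1251c6))
 (.l (nat_lit 0x143096))))
 (.n (.n (.n (.l (nat_lit 0xa1005))
 (.l (nat_lit 0x143113)))
 (.l (nat_lit 0x8a034)))
 (.n (.l (nat_lit 0x86004))
 (.l (nat_lit 0x212d5)))))
 (.n (.n (.n (.n (.l (nat_lit 0x40234))
 (.l (nat_lit 0x61237)))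
 (.l (nat_lit 0x891c4)))
 (.n (.l (nat_lit 0xa4154))
 (.l (nat_lit 0xcb0a6))))
 (.n (.n (.n (.l (nat_lit 0x5156))
 (.l (nat_lit 0x900009)))
 (.l (nat_lit 0x168065)))
 (.n (.l (nat_lit 0x162025))
 (.l (nat_lit 0x1022f4))))))

def a128_117 : TA :=
 .n (.n (.n (.n (.n (.n (.l (nat_lit 0x640072))
 (.l (nat_lit 0x48057)))
 (.l (nat_lit 0xe7044)))
 (.n (.l (nat_lit 0x1030e4))
 (.l (nat_lit 0x8244))))
 (.n (.n (.n (.l (nat_lit 0x670e5))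
 (.l (nat_lit 0xcb043)))
 (.l (nat_lit 0x107055)))
 (.n (.l (nat_lit 0x2a2a5))
 (.l (nat_lit 0x44037)))))
 (.n (.n (.n (.n (.l (nat_lit 0x23076))
 (.l (nat_lit 0xc9157)))
 (.l (nat_lit 0xa1046)))
 (.n (.l (nat_lit 0x141236))
 (.l (nat_lit 0x8a174))))
 (.n (.n (.n (.l (nat_lit 0x43004))
 (.l (nat_lit 0x2880009)))
 (.l (nat_lit 0x8b2a4)))
 (.n (.l (nat_lit 0x127004))
 (.l (nat_lit 0x165124))))))
 (.n (.n (.n (.n (.n (.l (nat_lit 0x40220))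
 (.l (nat_lit 0x108144)))
 (.l (nat_lit 0x148014)))
 (.n (.l (nat_lit 0xc0235))
 (.l (nat_lit 0x165175))))
 (.n (.n (.n (.l (nat_lit 0x62004))
 (.l (nat_lit 0x7213)))
 (.l (nat_lit 0x128055)))
 (.n (.l (nat_lit 0xc6074))
 (.l (nat_lit 0xcb114)))))
 (.n (.n (.n (.n (.l (nat_lit 0x147076))
 (.l (nat_lit 0x162247)))
 (.l (nat_lit 0x24046)))
 (.n (.l (nat_lit 0x432a6))
 (.l (nat_lit 0x6b116))))
 (.n (.n (.n (.l (nat_lit 0xe2024))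
 (.l (nat_lit 0x8500a)))
 (.l (nat_lit 0x890f5)))
 (.n (.l (nat_lit 0x107154))
 (.l (nat_lit 0x100216))))))

def a64_53 : TA := .n a128_53 a128_117

def a32_21 : TA := .n a64_21 a64_53

def a16_5 : TA := .n a32_5 a32_21

def a128_13 : TA :=
 .n (.n (.n (.n (.n (.n (.l (nat_lit 0x840002))
 (.l (nat_lit 0x64057)))
 (.l (nat_lit 0x147064)))
 (.n (.n (.l (nat_lit 0xc3005))
 (.l (nat_lit 0x900b)))
 (.l (nat_lit 0x121017))))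
 (.n (.n (.n (.l (nat_lit 0x16b075))
 (.l (nat_lit 0x140257)))
 (.l (nat_lit 0x67045)))
 (.n (.l (nat_lit 0xca2a6))
 (.l (nat_lit 0x104116)))))
 (.n (.n (.n (.n (.l (nat_lit 0x40250))
 (.l (nat_lit 0x49067)))
 (.l (nat_lit 0x168006)))
 (.n (.l (nat_lit 0xc2236))
 (.l (nat_lit 0xa22c4))))
 (.n (.n (.n (.l (nat_lit 0x61014))
 (.l (nat_lit 0x146233)))
 (.l (nat_lit 0x12a2a4)))
 (.n (.l (nat_lit 0x62a4))
 (.l (nat_lit 0xc0204))))))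
 (.n (.n (.n (.n (.n (.l (nat_lit 0x8400e2))
 (.l (nat_lit 0x1620d5)))
 (.l (nat_lit 0x108006)))
 (.n (.l (nat_lit 0x23006))
 (.l (nat_lit 0x690f4))))
 (.n (.n (.n (.l (nat_lit 0x411c4))
 (.l (nat_lit 0x9063)))
 (.l (nat_lit 0x10b004)))
 (.n (.l (nat_lit 0xa51c4))
 (.l (nat_lit 0x84114)))))
 (.n (.n (.n (.n (.l (nat_lit 0xe6075))
 (.l (nat_lit 0xe01c7)))
 (.l (nat_lit 0x66046)))
 (.n (.l (nat_lit 0x27235))
 (.l (nat_lit 0xaa174))))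
 (.n (.n (.n (.l (nat_lit 0x102024))
 (.l (nat_lit 0x28c0009)))
 (.l (nat_lit 0xab005)))
 (.n (.l (nat_lit 0x126034))
 (.l (nat_lit 0x8b047))))))

def a128_77 : TA :=
 .n (.n (.n (.n (.n (.n (.l (nat_lit 0x8c0042))
 (.l (nat_lit 0x26057)))
 (.l (nat_lit 0xcb025)))
 (.n (.n (.l (nat_lit 0xa91c5))
 (.l (nat_lit 0xd521a32900000c)))
 (.l (nat_lit 0xc40f4))))
 (.n (.n (.n (.l (nat_lit 0x141006))
 (.l (nat_lit 0x148013)))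
 (.l (nat_lit 0x14a006)))
 (.n (.l (nat_lit 0x212a6))
 (.l (nat_lit 0x65185)))))
 (.n (.n (.n (.n (.l (nat_lit 0x1002e0))
 (.l (nat_lit 0x144157)))
 (.l (nat_lit 0xa80e4)))
 (.n (.l (nat_lit 0x104014))
 (.l (nat_lit 0x4a2c6))))
 (.n (.n (.n (.l (nat_lit 0x45155))
 (.l (nat_lit 0x1800009)))
 (.l (nat_lit 0x49066)))
 (.n (.l (nat_lit 0x8016))
 (.l (nat_lit 0x40206))))))
 (.n (.n (.n (.n (.n (.l (nat_lit 0x1001b0))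
 (.l (nat_lit 0xe8296)))
 (.l (nat_lit 0xab036)))
 (.n (.l (nat_lit 0x63074))
 (.l (nat_lit 0x45175))))
 (.n (.n (.n (.l (nat_lit 0x840e6))
 (.l (nat_lit 0x89153)))
 (.l (nat_lit 0x122055)))
 (.n (.l (nat_lit 0xe5016))
 (.l (nat_lit 0xa5114)))))
 (.n (.n (.n (.n (.l (nat_lit 0x82076))
 (.l (nat_lit 0x48237)))
 (.l (nat_lit 0x89024)))
 (.n (.l (nat_lit 0xa4054))
 (.l (nat_lit 0x1230a5))))
 (.n (.n (.n (.l (nat_lit 0xa156))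
 (.l (nat_lit 0x940009)))
 (.l (nat_lit 0xab154)))
 (.n (.l (nat_lit 0x4a025))
 (.l (nat_lit 0x83057))))))

def a64_13 : TA := .n a128_13 a128_77

def a128_45 : TA :=
 .n (.n (.n (.n (.n (.n (.l (nat_lit 0x640022))
 (.l (nat_lit 0x165057)))
 (.l (nat_lit 0x164026)))
 (.n (.n (.l (nat_lit 0x1611c6))
 (.l (nat_lit 0xa074c0d100600c)))
 (.l (nat_lit 0x1011d5))))
 (.n (.n (.n (.l (nat_lit 0xe0024))
 (.l (nat_lit 0x4a2a7)))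
 (.l (nat_lit 0xe91c4)))
 (.n (.l (nat_lit 0xc51c4))
 (.l (nat_lit 0xa1264)))))
 (.n (.n (.n (.n (.l (nat_lit 0xc02a0))
 (.l (nat_lit 0xc30e7)))
 (.l (nat_lit 0x126035)))
 (.n (.l (nat_lit 0x6b235))
 (.l (nat_lit 0x6a255))))
 (.n (.n (.n (.l (nat_lit 0xc2005))
 (.l (nat_lit 0x12a3)))
 (.l (nat_lit 0x20065)))
 (.n (.l (nat_lit 0xa6006))
 (.l (nat_lit 0xa2047))))))
 (.n (.n (.n (.n (.n (.l (nat_lit 0x840152))
 (.l (nat_lit 0xa20d4)))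
 (.l (nat_lit 0x165035)))
 (.n (.l (nat_lit 0x851c6))
 (.l (nat_lit 0x80254))))
 (.n (.n (.n (.l (nat_lit 0x1054))
 (.l (nat_lit 0xc80e3)))
 (.l (nat_lit 0xa024)))
 (.n (.l (nat_lit 0x6006))
 (.l (nat_lit 0xa4114)))))
 (.n (.n (.n (.n (.l (nat_lit 0x140154))
 (.l (nat_lit 0x140237)))
 (.l (nat_lit 0x10a004)))
 (.n (.l (nat_lit 0x240e4))
 (.l (nat_lit 0x1630a6))))
 (.n (.n (.n (.l (nat_lit 0x104156))
 (.l (nat_lit 0x1900009)))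
 (.l (nat_lit 0xc8066)))
 (.n (.l (nat_lit 0xe1026))
 (.l (nat_lit 0xa1284))))))

def a128_109 : TA :=
 .n (.n (.n (.n (.n (.n (.l (nat_lit 0xc0070))
 (.l (nat_lit 0x127214)))
 (.l (nat_lit 0x1671c4)))
 (.n (.l (nat_lit 0x83074))
 (.l (nat_lit 0x1292b6))))
 (.n (.n (.n (.l (nat_lit 0xa50e6))
 (.l (nat_lit 0x146033)))
 (.l (nat_lit 0xa6055)))
 (.n (.l (nat_lit 0x92a5))
 (.l (nat_lit 0x1451f6)))))
 (.n (.n (.n (.n (.l (nat_lit 0x122075))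
 (.l (nat_lit 0x48157)))
 (.l (nat_lit 0x149005)))
 (.n (.l (nat_lit 0xe0236))
 (.l (nat_lit 0x165174))))
 (.n (.n (.n (.l (nat_lit 0xca155))
 (.l (nat_lit 0x840009)))
 (.l (nat_lit 0xb234)))
 (.n (.l (nat_lit 0xaa015))
 (.l (nat_lit 0x45194))))))
 (.n (.n (.n (.n (.n (.l (nat_lit 0x210))
 (.l (nat_lit 0x80d4)))
 (.l (nat_lit 0x48234)))
 (.n (.l (nat_lit 0x44006))
 (.l (nat_lit 0x45176))))
 (.n (.n (.n (.l (nat_lit 0xa80e6))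
 (.l (nat_lit 0x8a1c3)))
 (.l (nat_lit 0x88055)))
 (.n (.l (nat_lit 0x47004))
 (.l (nat_lit 0x4b0a4)))))
 (.n (.n (.n (.n (.l (nat_lit 0x6076))
 (.l (nat_lit 0xeb237)))
 (.l (nat_lit 0x102045)))
 (.n (.l (nat_lit 0x1422a5))
 (.l (nat_lit 0x164116))))
 (.n (.n (.n (.l (nat_lit 0x1622a4))
 (.l (nat_lit 0x8400a)))
 (.l (nat_lit 0x2b044)))
 (.n (.l (nat_lit 0x147074))
 (.l (nat_lit 0x63057))))))

def a64_45 : TA := .n a128_45 a128_109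

def a32_13 : TA := .n a64_13 a64_45

def a128_29 : TA :=
 .n (.n (.n (.n (.n (.n (.l (nat_lit 0x8c0012))
 (.l (nat_lit 0x147285)))
 (.l (nat_lit 0x120025)))
 (.n (.n (.l (nat_lit 0x601c6))
 (.l (nat_lit 0xcb00b)))
 (.l (nat_lit 0x4165))))
 (.n (.n (.n (.l (nat_lit 0xe01c4))
 (.l (nat_lit 0xc12a7)))
 (.l (nat_lit 0x16b046)))
 (.n (.l (nat_lit 0x16b2a5))
 (.l (nat_lit 0x125115)))))
 (.n (.n (.n (.n (.l (nat_lit 0x40280))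
 (.l (nat_lit 0x143077)))
 (.l (nat_lit 0x162035)))
 (.n (.l (nat_lit 0xe6235))
 (.l (nat_lit 0x401e6))))
 (.n (.n (.n (.l (nat_lit 0x161034))
 (.l (nat_lit 0x148243)))
 (.l (nat_lit 0xaa034)))
 (.n (.l (nat_lit 0x106044))
 (.l (nat_lit 0xa5196))))))
 (.n (.n (.n (.n (.n (.l (nat_lit 0xc0120))
 (.l (nat_lit 0x41294)))
 (.l (nat_lit 0x123035)))
 (.n (.l (nat_lit 0x1201c5))
 (.l (nat_lit 0x8a1d4))))
 (.n (.n (.n (.l (nat_lit 0x1412a4))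
 (.l (nat_lit 0x8a0a3)))
 (.l (nat_lit 0x8a234)))
 (.n (.l (nat_lit 0x65034))
 (.l (nat_lit 0x61265)))))
 (.n (.n (.n (.n (.l (nat_lit 0x6b076))
 (.l (nat_lit 0x4a1c7)))
 (.l (nat_lit 0xb045)))
 (.n (.l (nat_lit 0x2b236))
 (.l (nat_lit 0x2b027))))
 (.n (.n (.n (.l (nat_lit 0x155))
 (.l (nat_lit 0x8c0009)))
 (.l (nat_lit 0xc4065)))
 (.n (.l (nat_lit 0x87005))
 (.l (nat_lit 0x60214))))))

def a128_93 : TA :=
 .n (.n (.n (.n (.n (.n (.l (nat_lit 0x60))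
 (.l (nat_lit 0x107284)))
 (.l (nat_lit 0xe7074)))
 (.n (.n (.l (nat_lit 0xcb1c5))
 (.l (nat_lit 0xd4a1a36102000c)))
 (.l (nat_lit 0x9245))))
 (.n (.n (.n (.l (nat_lit 0xc40e5))
 (.l (nat_lit 0x14b023)))
 (.l (nat_lit 0xa3056)))
 (.n (.l (nat_lit 0x1622a5))
 (.l (nat_lit 0x143114)))))
 (.n (.n (.n (.n (.l (nat_lit 0x4))
 (.l (nat_lit 0xc6157)))
 (.l (nat_lit 0x68054)))
 (.n (.l (nat_lit 0x164005))
 (.l (nat_lit 0x622c5))))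
 (.n (.n (.n (.l (nat_lit 0x8155))
 (.l (nat_lit 0x2840009)))
 (.l (nat_lit 0xb0e4)))
 (.n (.l (nat_lit 0x109016))
 (.l (nat_lit 0x4b276))))))
 (.n (.n (.n (.n (.n (.l (nat_lit 0x8801c2))
 (.l (nat_lit 0x64144)))
 (.l (nat_lit 0x480e4)))
 (.n (.l (nat_lit 0x1632a4))
 (.l (nat_lit 0x22c4))))
 (.n (.n (.n (.l (nat_lit 0x250e5))
 (.l (nat_lit 0xc11c3)))
 (.l (nat_lit 0x106056)))
 (.n (.l (nat_lit 0x49015))
 (.l (nat_lit 0xe6037)))))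
 (.n (.n (.n (.n (.l (nat_lit 0xa3075))
 (.l (nat_lit 0x149237)))
 (.l (nat_lit 0x29006)))
 (.n (.l (nat_lit 0x12a5))
 (.l (nat_lit 0xc1037))))
 (.n (.n (.n (.l (nat_lit 0x62074))
 (.l (nat_lit 0x200a)))
 (.l (nat_lit 0xab2a4)))
 (.n (.l (nat_lit 0x14b026))
 (.l (nat_lit 0x47216))))))

def a64_29 : TA := .n a128_29 a128_93

def a128_61 : TA :=
 .n (.n (.n (.n (.n (.n (.l (nat_lit 0xac0032))
 (.l (nat_lit 0x872f6)))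
 (.l (nat_lit 0x169026)))
 (.n (.n (.l (nat_lit 0x1461c6))
 (.l (nat_lit 0x16262c2d100000c)))
 (.l (nat_lit 0x121246))))
 (.n (.n (.n (.l (nat_lit 0x160054))
 (.l (nat_lit 0x1412d7)))
 (.l (nat_lit 0x69064)))
 (.n (.l (nat_lit 0xa5005))
 (.l (nat_lit 0x822d4)))))
 (.n (.n (.n (.n (.l (nat_lit 0x802b0))
 (.l (nat_lit 0x65127)))
 (.l (nat_lit 0xcb036)))
 (.n (.l (nat_lit 0x40e4))
 (.l (nat_lit 0x6a256))))
 (.n (.n (.n (.l (nat_lit 0xa0156))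
 (.l (nat_lit 0x92c3)))
 (.l (nat_lit 0xe7065)))
 (.n (.l (nat_lit 0x81016))
 (.l (nat_lit 0xa6195))))))
 (.n (.n (.n (.n (.n (.l (nat_lit 0x40180))
 (.l (nat_lit 0x81295)))
 (.l (nat_lit 0x10a035)))
 (.n (.l (nat_lit 0x2a1c6))
 (.l (nat_lit 0x61027))))
 (.n (.n (.n (.l (nat_lit 0x121006))
 (.l (nat_lit 0xc4153)))
 (.l (nat_lit 0x12a005)))
 (.n (.l (nat_lit 0x160016))
 (.l (nat_lit 0xc22d5)))))
 (.n (.n (.n (.n (.l (nat_lit 0xe0005))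
 (.l (nat_lit 0xe2237)))
 (.l (nat_lit 0x109234)))
 (.n (.l (nat_lit 0x124024))
 (.l (nat_lit 0x20037))))
 (.n (.n (.n (.l (nat_lit 0xa5155))
 (.l (nat_lit 0x2940009)))
 (.l (nat_lit 0x69065)))
 (.n (.l (nat_lit 0xa5026))
 (.l (nat_lit 0x651a5))))))

def a128_125 : TA :=
 .n (.n (.n (.n (.n (.n (.l (nat_lit 0x400b0))
 (.l (nat_lit 0x108134)))
 (.l (nat_lit 0x167054)))
 (.n (.l (nat_lit 0x43034))
 (.l (nat_lit 0x490f4))))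
 (.n (.n (.n (.l (nat_lit 0xc80e5))
 (.l (nat_lit 0x3053)))
 (.l (nat_lit 0x8056)))
 (.n (.l (nat_lit 0x12b2a6))
 (.l (nat_lit 0xc1265)))))
 (.n (.n (.n (.n (.l (nat_lit 0x84076))
 (.l (nat_lit 0x169157)))
 (.l (nat_lit 0x62046)))
 (.n (.l (nat_lit 0x42235))
 (.l (nat_lit 0x10a1e4))))
 (.n (.n (.n (.l (nat_lit 0xc2074))
 (.l (nat_lit 0x1880009)))
 (.l (nat_lit 0x10b024)))
 (.n (.l (nat_lit 0x26234))
 (.l (nat_lit 0x46047))))))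
 (.n (.n (.n (.n (.n (.l (nat_lit 0x80230))
 (.l (nat_lit 0x48294)))
 (.l (nat_lit 0x48064)))
 (.n (.l (nat_lit 0x160235))
 (.l (nat_lit 0xca176))))
 (.n (.n (.n (.l (nat_lit 0xe11c4))
 (.l (nat_lit 0x101223)))
 (.l (nat_lit 0x2a074)))
 (.n (.l (nat_lit 0x1460e4))
 (.l (nat_lit 0x14b264)))))
 (.n (.n (.n (.n (.l (nat_lit 0x108076))
 (.l (nat_lit 0x68247)))
 (.l (nat_lit 0xc6046)))
 (.n (.l (nat_lit 0xe32a6))
 (.l (nat_lit 0xc1264))))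
 (.n (.n (.n (.l (nat_lit 0x162034))
 (.l (nat_lit 0xc600a)))
 (.l (nat_lit 0x11d4)))
 (.n (.l (nat_lit 0x47044))
 (.l (nat_lit 0x7215))))))

def a64_61 : TA := .n a128_61 a128_125

def a32_29 : TA := .n a64_29 a64_61

def a16_13 : TA := .n a32_13 a32_29

def a8_5 : TA := .n a16_5 a16_13

def a4_1 : TA := .n a8_1 a8_5

def a128_3 : TA :=
 .n (.n (.n (.n (.n (.n (.l (nat_lit 0xc0000))
 (.l (nat_lit 0x27215)))
 (.l (nat_lit 0x47054)))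
 (.n (.n (.l (nat_lit 0x162044))
 (.l (nat_lit 0xc700a)))
 (.l (nat_lit 0x1244))))
 (.n (.n (.n (.l (nat_lit 0xb075))
 (.l (nat_lit 0x4a247)))
 (.l (nat_lit 0xe6045)))
 (.n (.l (nat_lit 0xc62a5))
 (.l (nat_lit 0x21037)))))
 (.n (.n (.n (.n (.l (nat_lit 0x840232))
 (.l (nat_lit 0x68144)))
 (.l (nat_lit 0x68005)))
 (.n (.l (nat_lit 0x141235))
 (.l (nat_lit 0x12a176))))
 (.n (.n (.n (.l (nat_lit 0xe1234))
 (.l (nat_lit 0x140233)))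
 (.l (nat_lit 0x2a1c4)))
 (.n (.l (nat_lit 0x146154))
 (.l (nat_lit 0x16b0a4))))))
 (.n (.n (.n (.n (.n (.l (nat_lit 0x400e0))
 (.l (nat_lit 0x1481a4)))
 (.l (nat_lit 0x8005)))
 (.n (.l (nat_lit 0x83054))
 (.l (nat_lit 0x89164))))
 (.n (.n (.n (.l (nat_lit 0xcb0e6))
 (.l (nat_lit 0x6053)))
 (.l (nat_lit 0x28056)))
 (.n (.l (nat_lit 0x1250e4))
 (.l (nat_lit 0xe1266)))))
 (.n (.n (.n (.n (.l (nat_lit 0xa4076))
 (.l (nat_lit 0x14a157)))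
 (.l (nat_lit 0xe4045)))
 (.n (.l (nat_lit 0x62235))
 (.l (nat_lit 0x10a2c4))))
 (.n (.n (.n (.l (nat_lit 0xc2234))
 (.l (nat_lit 0xc80009)))
 (.l (nat_lit 0x10b034)))
 (.n (.l (nat_lit 0x262a4))
 (.l (nat_lit 0x46194))))))

def a128_67 : TA :=
 .n (.n (.n (.n (.n (.n (.l (nat_lit 0x140040))
 (.l (nat_lit 0xe72f6)))
 (.l (nat_lit 0x14a026)))
 (.n (.n (.l (nat_lit 0x881c6))
 (.l (nat_lit 0xd088872900000c)))
 (.l (nat_lit 0x149246))))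
 (.n (.n (.n (.l (nat_lit 0x41005))
 (.l (nat_lit 0x1462d7)))
 (.l (nat_lit 0x4a005)))
 (.n (.l (nat_lit 0xa5006))
 (.l (nat_lit 0xa2037)))))
 (.n (.n (.n (.n (.l (nat_lit 0x1002c0))
 (.l (nat_lit 0x40157)))
 (.l (nat_lit 0xeb035)))
 (.n (.l (nat_lit 0x4154))
 (.l (nat_lit 0xa4174))))
 (.n (.n (.n (.l (nat_lit 0xc4155))
 (.l (nat_lit 0x2c00009)))
 (.l (nat_lit 0xc8065)))
 (.n (.l (nat_lit 0x161016))
 (.l (nat_lit 0xa22e4))))))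
 (.n (.n (.n (.n (.n (.l (nat_lit 0x190))
 (.l (nat_lit 0x87296)))
 (.l (nat_lit 0x12a035)))
 (.n (.l (nat_lit 0x8b1c6))
 (.l (nat_lit 0xc4106))))
 (.n (.n (.n (.l (nat_lit 0x1030e6))
 (.l (nat_lit 0x107153)))
 (.l (nat_lit 0x12a006)))
 (.n (.l (nat_lit 0x61015))
 (.l (nat_lit 0xc5114)))))
 (.n (.n (.n (.n (.l (nat_lit 0xe0006))
 (.l (nat_lit 0xc6237)))
 (.l (nat_lit 0x1092a4)))
 (.n (.l (nat_lit 0x124034))
 (.l (nat_lit 0x220a6))))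
 (.n (.n (.n (.l (nat_lit 0x107155))
 (.l (nat_lit 0x1d40009)))
 (.l (nat_lit 0x6b074)))
 (.n (.l (nat_lit 0xc9025))
 (.l (nat_lit 0xc81a6))))))

def a64_3 : TA := .n a128_3 a128_67

def a128_35 : TA :=
 .n (.n (.n (.n (.n (.n (.l (nat_lit 0x100020))
 (.l (nat_lit 0x22f5)))
 (.l (nat_lit 0x121025)))
 (.n (.n (.l (nat_lit 0x411c6))
 (.l (nat_lit 0x12868d8d100600c)))
 (.l (nat_lit 0x89165))))
 (.n (.n (.n (.l (nat_lit 0xe0234))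
 (.l (nat_lit 0xe12a7)))
 (.l (nat_lit 0x16a004)))
 (.n (.l (nat_lit 0x1450e4))
 (.l (nat_lit 0x10b115)))))
 (.n (.n (.n (.n (.l (nat_lit 0x290))
 (.l (nat_lit 0x163077)))
 (.l (nat_lit 0x6035)))
 (.n (.l (nat_lit 0x4a235))
 (.l (nat_lit 0xa01e5))))
 (.n (.n (.n (.l (nat_lit 0xe1054))
 (.l (nat_lit 0x7293)))
 (.l (nat_lit 0x8b005)))
 (.n (.l (nat_lit 0x106054))
 (.l (nat_lit 0x106196))))))
 (.n (.n (.n (.n (.n (.l (nat_lit 0x40150))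
 (.l (nat_lit 0x48146)))
 (.l (nat_lit 0x164035)))
 (.n (.l (nat_lit 0x1011c5))
 (.l (nat_lit 0xca244))))
 (.n (.n (.n (.l (nat_lit 0x1034))
 (.l (nat_lit 0xcb0a3)))
 (.l (nat_lit 0x8a2a4)))
 (.n (.l (nat_lit 0xa5054))
 (.l (nat_lit 0x4b266)))))
 (.n (.n (.n (.n (.l (nat_lit 0x41004))
 (.l (nat_lit 0x60217)))
 (.l (nat_lit 0x2b045)))
 (.n (.l (nat_lit 0xa5004))
 (.l (nat_lit 0x220a5))))
 (.n (.n (.n (.l (nat_lit 0x20155))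
 (.l (nat_lit 0x2d00009)))
 (.l (nat_lit 0x107066)))
 (.n (.l (nat_lit 0x87006))
 (.l (nat_lit 0xc4135))))))

def a128_99 : TA :=
 .n (.n (.n (.n (.n (.n (.l (nat_lit 0x100061))
 (.l (nat_lit 0x27057)))
 (.l (nat_lit 0x1270e4)))
 (.n (.n (.l (nat_lit 0x12b1c5))
 (.l (nat_lit 0xd422a76100600c)))
 (.l (nat_lit 0x5017))))
 (.n (.n (.n (.l (nat_lit 0xe40e6))
 (.l (nat_lit 0x1033)))
 (.l (nat_lit 0x125055)))
 (.n (.l (nat_lit 0x232a5))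
 (.l (nat_lit 0x163037)))))
 (.n (.n (.n (.n (.l (nat_lit 0x2075))
 (.l (nat_lit 0xc7157)))
 (.l (nat_lit 0x68064)))
 (.n (.l (nat_lit 0x164006))
 (.l (nat_lit 0x4a2c5))))
 (.n (.n (.n (.l (nat_lit 0x49155))
 (.l (nat_lit 0x1c40009)))
 (.l (nat_lit 0x8b154)))
 (.n (.l (nat_lit 0x129015))
 (.l (nat_lit 0x822e5))))))
 (.n (.n (.n (.n (.n (.l (nat_lit 0x1001d0))
 (.l (nat_lit 0x87294)))
 (.l (nat_lit 0x48154)))
 (.n (.l (nat_lit 0xa3054))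
 (.l (nat_lit 0xa2027))))
 (.n (.n (.n (.l (nat_lit 0x60e5))
 (.l (nat_lit 0xc51c3)))
 (.l (nat_lit 0x107056)))
 (.n (.l (nat_lit 0x69016))
 (.l (nat_lit 0xea037)))))
 (.n (.n (.n (.n (.l (nat_lit 0x84075))
 (.l (nat_lit 0x14a237)))
 (.l (nat_lit 0x20046)))
 (.n (.l (nat_lit 0x612a5))
 (.l (nat_lit 0x143115))))
 (.n (.n (.n (.l (nat_lit 0x62234))
 (.l (nat_lit 0x10200a)))
 (.l (nat_lit 0xab024)))
 (.n (.l (nat_lit 0x16b026))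
 (.l (nat_lit 0x67216))))))

def a64_35 : TA := .n a128_35 a128_99

def a32_3 : TA := .n a64_3 a64_35

def a128_19 : TA :=
 .n (.n (.n (.n (.n (.n (.l (nat_lit 0x40010))
 (.l (nat_lit 0x61285)))
 (.l (nat_lit 0x167005)))
 (.n (.n (.l (nat_lit 0xc3006))
 (.l (nat_lit 0xa00a)))
 (.l (nat_lit 0x8a0f5))))
 (.n (.n (.n (.l (nat_lit 0x161004))
 (.l (nat_lit 0x146287)))
 (.l (nat_lit 0x4b046)))
 (.n (.l (nat_lit 0xb2a5))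
 (.l (nat_lit 0x124115)))))
 (.n (.n (.n (.n (.l (nat_lit 0x140251))
 (.l (nat_lit 0x69067)))
 (.l (nat_lit 0x61035)))
 (.n (.l (nat_lit 0x122236))
 (.l (nat_lit 0x8a1e5))))
 (.n (.n (.n (.l (nat_lit 0x61024))
 (.l (nat_lit 0x148233)))
 (.l (nat_lit 0x12a014)))
 (.n (.l (nat_lit 0x6034))
 (.l (nat_lit 0x101274))))))
 (.n (.n (.n (.n (.n (.l (nat_lit 0xc0110))
 (.l (nat_lit 0x630d5)))
 (.l (nat_lit 0x61036)))
 (.n (.l (nat_lit 0x1c6))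
 (.l (nat_lit 0xa92b4))))
 (.n (.n (.n (.l (nat_lit 0x41234))
 (.l (nat_lit 0x44073)))
 (.l (nat_lit 0x10a154)))
 (.n (.l (nat_lit 0xa5014))
 (.l (nat_lit 0xa4037)))))
 (.n (.n (.n (.n (.l (nat_lit 0x148075))
 (.l (nat_lit 0xc11c7)))
 (.l (nat_lit 0x87046)))
 (.n (.l (nat_lit 0x8a236))
 (.l (nat_lit 0xaa254))))
 (.n (.n (.n (.l (nat_lit 0x62005))
 (.l (nat_lit 0x1cc0009)))
 (.l (nat_lit 0xab006)))
 (.n (.l (nat_lit 0x126044))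
 (.l (nat_lit 0x8b274))))))

def a128_83 : TA :=
 .n (.n (.n (.n (.n (.n (.l (nat_lit 0x100050))
 (.l (nat_lit 0x7214)))
 (.l (nat_lit 0xeb025)))
 (.n (.n (.l (nat_lit 0x10a1c5))
 (.l (nat_lit 0xd41486a1a2600c)))
 (.l (nat_lit 0x81246))))
 (.n (.n (.n (.l (nat_lit 0x1430e5))
 (.l (nat_lit 0x9023)))
 (.l (nat_lit 0x41055)))
 (.n (.l (nat_lit 0x422a6))
 (.l (nat_lit 0x620a4)))))
 (.n (.n (.n (.n (.l (nat_lit 0x80005))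
 (.l (nat_lit 0x164157)))
 (.l (nat_lit 0xe8234)))
 (.n (.l (nat_lit 0x44064))
 (.l (nat_lit 0x45174))))
 (.n (.n (.n (.l (nat_lit 0x65156))
 (.l (nat_lit 0xc00009)))
 (.l (nat_lit 0xa9066)))
 (.n (.l (nat_lit 0x28016))
 (.l (nat_lit 0xa4047))))))
 (.n (.n (.n (.n (.n (.l (nat_lit 0x1001c0))
 (.l (nat_lit 0xc7295)))
 (.l (nat_lit 0x89004)))
 (.n (.l (nat_lit 0x630e4))
 (.l (nat_lit 0xa5176))))
 (.n (.n (.n (.l (nat_lit 0xa40e5))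
 (.l (nat_lit 0xc0183)))
 (.l (nat_lit 0x143055)))
 (.n (.l (nat_lit 0xc8015))
 (.l (nat_lit 0xa5184)))))
 (.n (.n (.n (.n (.l (nat_lit 0x122076))
 (.l (nat_lit 0x68237)))
 (.l (nat_lit 0x89064)))
 (.n (.l (nat_lit 0x85005))
 (.l (nat_lit 0x12b0a5))))
 (.n (.n (.n (.l (nat_lit 0xab155))
 (.l (nat_lit 0x4000a)))
 (.l (nat_lit 0x12b1c4)))
 (.n (.l (nat_lit 0x6a026))
 (.l (nat_lit 0x80215))))))

def a64_19 : TA := .n a128_19 a128_83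

def a128_51 : TA :=
 .n (.n (.n (.n (.n (.n (.l (nat_lit 0x30))
 (.l (nat_lit 0x222f5)))
 (.l (nat_lit 0x49026)))
 (.n (.n (.l (nat_lit 0x1451c5))
 (.l (nat_lit 0x6889d2d402600c)))
 (.l (nat_lit 0x14a1d6))))
 (.n (.n (.n (.l (nat_lit 0x160034))
 (.l (nat_lit 0x4b2a7)))
 (.l (nat_lit 0xe9014)))
 (.n (.l (nat_lit 0x45024))
 (.l (nat_lit 0xa12d4)))))
 (.n (.n (.n (.n (.l (nat_lit 0x2002a2))
 (.l (nat_lit 0xe30e7)))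
 (.l (nat_lit 0x14a036)))
 (.n (.l (nat_lit 0x85004))
 (.l (nat_lit 0xc4104))))
 (.n (.n (.n (.l (nat_lit 0xc2006))
 (.l (nat_lit 0x32a3)))
 (.l (nat_lit 0xc4066)))
 (.n (.l (nat_lit 0xa6004))
 (.l (nat_lit 0x85196))))))
 (.n (.n (.n (.n (.n (.l (nat_lit 0x170))
 (.l (nat_lit 0xc8226)))
 (.l (nat_lit 0x146036)))
 (.n (.l (nat_lit 0xa51c6))
 (.l (nat_lit 0x83096))))
 (.n (.n (.n (.l (nat_lit 0x21005))
 (.l (nat_lit 0xc3113)))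
 (.l (nat_lit 0xa034)))
 (.n (.l (nat_lit 0x6004))
 (.l (nat_lit 0xa4184)))))
 (.n (.n (.n (.n (.l (nat_lit 0x1401c4))
 (.l (nat_lit 0x160237)))
 (.l (nat_lit 0x91c4)))
 (.n (.l (nat_lit 0x24154))
 (.l (nat_lit 0x4b0a6))))
 (.n (.n (.n (.l (nat_lit 0x124156))
 (.l (nat_lit 0xd00009)))
 (.l (nat_lit 0xe8065)))
 (.n (.l (nat_lit 0xe2025))
 (.l (nat_lit 0x822f4))))))

def a128_115 : TA :=
 .n (.n (.n (.n (.n (.n (.l (nat_lit 0x800072))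
 (.l (nat_lit 0x1672f4)))
 (.l (nat_lit 0x67044)))
 (.n (.l (nat_lit 0x830e4))
 (.l (nat_lit 0x1292b5))))
 (.n (.n (.n (.l (nat_lit 0xc70e5))
 (.l (nat_lit 0xb043)))
 (.l (nat_lit 0x87055)))
 (.n (.l (nat_lit 0xca2a5))
 (.l (nat_lit 0x1630a4)))))
 (.n (.n (.n (.n (.l (nat_lit 0x103075))
 (.l (nat_lit 0x49157)))
 (.l (nat_lit 0x149006)))
 (.n (.l (nat_lit 0xc1236))
 (.l (nat_lit 0xa174))))
 (.n (.n (.n (.l (nat_lit 0x14b156))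
 (.l (nat_lit 0x2c80009)))
 (.l (nat_lit 0xb2a4)))
 (.n (.l (nat_lit 0xa7004))
 (.l (nat_lit 0xa5124))))))
 (.n (.n (.n (.n (.n (.l (nat_lit 0x100211))
 (.l (nat_lit 0x88144)))
 (.l (nat_lit 0xc8014)))
 (.n (.l (nat_lit 0x40235))
 (.l (nat_lit 0xe5175))))
 (.n (.n (.n (.l (nat_lit 0x16b0e5))
 (.l (nat_lit 0xc51e3)))
 (.l (nat_lit 0xa8055)))
 (.n (.l (nat_lit 0x46074))
 (.l (nat_lit 0x4b114)))))
 (.n (.n (.n (.n (.l (nat_lit 0xc7076))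
 (.l (nat_lit 0xe2247)))
 (.l (nat_lit 0x122045)))
 (.n (.l (nat_lit 0x1622a6))
 (.l (nat_lit 0x14b116))))
 (.n (.n (.n (.l (nat_lit 0x62024))
 (.l (nat_lit 0x4500a)))
 (.l (nat_lit 0x90f5)))
 (.n (.l (nat_lit 0x87154))
 (.l (nat_lit 0x80216))))))

def a64_51 : TA := .n a128_51 a128_115

def a32_19 : TA := .n a64_19 a64_51

def a16_3 : TA := .n a32_3 a32_19

def a128_11 : TA :=
 .n (.n (.n (.n (.n (.n (.l (nat_lit 0x440002))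
 (.l (nat_lit 0x144134)))
 (.l (nat_lit 0xc7064)))
 (.n (.n (.l (nat_lit 0x43005))
 (.l (nat_lit 0xc800a)))
 (.l (nat_lit 0xa1017))))
 (.n (.n (.n (.l (nat_lit 0xeb075))
 (.l (nat_lit 0xc0257)))
 (.l (nat_lit 0x147045)))
 (.n (.l (nat_lit 0xa2a6))
 (.l (nat_lit 0x84116)))))
 (.n (.n (.n (.n (.l (nat_lit 0x100241))
 (.l (nat_lit 0x168294)))
 (.l (nat_lit 0xe8006)))
 (.n (.l (nat_lit 0x42236))
 (.l (nat_lit 0x222c4))))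
 (.n (.n (.n (.l (nat_lit 0x1612a4))
 (.l (nat_lit 0x86233)))
 (.l (nat_lit 0xaa2a4)))
 (.n (.l (nat_lit 0x106234))
 (.l (nat_lit 0x40204))))))
 (.n (.n (.n (.n (.n (.l (nat_lit 0xa000e2))
 (.l (nat_lit 0xe20d5)))
 (.l (nat_lit 0x88006)))
 (.n (.l (nat_lit 0x123005))
 (.l (nat_lit 0x149244))))
 (.n (.n (.n (.l (nat_lit 0x142004))
 (.l (nat_lit 0x108053)))
 (.l (nat_lit 0x8b004)))
 (.n (.l (nat_lit 0x251c4))
 (.l (nat_lit 0x4114)))))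
 (.n (.n (.n (.n (.l (nat_lit 0x26075))
 (.l (nat_lit 0x601c7)))
 (.l (nat_lit 0x146045)))
 (.n (.l (nat_lit 0x107235))
 (.l (nat_lit 0x2a174))))
 (.n (.n (.n (.l (nat_lit 0x1422a4))
 (.l (nat_lit 0x2cc0009)))
 (.l (nat_lit 0x2b005)))
 (.n (.l (nat_lit 0xa6034))
 (.l (nat_lit 0xb047))))))

def a128_75 : TA :=
 .n (.n (.n (.n (.n (.n (.l (nat_lit 0x880042))
 (.l (nat_lit 0x86284)))
 (.l (nat_lit 0x4b025)))
 (.n (.n (.l (nat_lit 0x291c5))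
 (.l (nat_lit 0xd116032902600c)))
 (.l (nat_lit 0x440f4))))
 (.n (.n (.n (.l (nat_lit 0xc1006))
 (.l (nat_lit 0xc8013)))
 (.l (nat_lit 0xca006)))
 (.n (.l (nat_lit 0x1012a6))
 (.l (nat_lit 0x160185)))))
 (.n (.n (.n (.n (.l (nat_lit 0x1402d0))
 (.l (nat_lit 0xc4157)))
 (.l (nat_lit 0x169004)))
 (.n (.l (nat_lit 0x84014))
 (.l (nat_lit 0x145027))))
 (.n (.n (.n (.l (nat_lit 0x164155))
 (.l (nat_lit 0x1c00009)))
 (.l (nat_lit 0x168066)))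
 (.n (.l (nat_lit 0xc4015))
 (.l (nat_lit 0x140205))))))
 (.n (.n (.n (.n (.n (.l (nat_lit 0x1401a0))
 (.l (nat_lit 0x68296)))
 (.l (nat_lit 0x2b036)))
 (.n (.l (nat_lit 0x164004))
 (.l (nat_lit 0x142027))))
 (.n (.n (.n (.l (nat_lit 0x40e6))
 (.l (nat_lit 0x9153)))
 (.l (nat_lit 0xa2055)))
 (.n (.l (nat_lit 0x65016))
 (.l (nat_lit 0x25114)))))
 (.n (.n (.n (.n (.l (nat_lit 0x160004))
 (.l (nat_lit 0x166237)))
 (.l (nat_lit 0x9024)))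
 (.n (.l (nat_lit 0x24054))
 (.l (nat_lit 0xa30a5))))
 (.n (.n (.n (.l (nat_lit 0x109156))
 (.l (nat_lit 0xd40009)))
 (.l (nat_lit 0x16b0e4)))
 (.n (.l (nat_lit 0x169025))
 (.l (nat_lit 0x3057))))))

def a64_11 : TA := .n a128_11 a128_75

def a128_43 : TA :=
 .n (.n (.n (.n (.n (.n (.l (nat_lit 0xa00022))
 (.l (nat_lit 0xe5057)))
 (.l (nat_lit 0x64026)))
 (.n (.n (.l (nat_lit 0xe11c6))
 (.l (nat_lit 0x12a21d8d100600c)))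
 (.l (nat_lit 0x411d5))))
 (.n (.n (.n (.l (nat_lit 0x20024))
 (.l (nat_lit 0x1462a7)))
 (.l (nat_lit 0x691c4)))
 (.n (.l (nat_lit 0x451c4))
 (.l (nat_lit 0x21264)))))
 (.n (.n (.n (.n (.l (nat_lit 0x402a0))
 (.l (nat_lit 0x430e7)))
 (.l (nat_lit 0xa6035)))
 (.n (.l (nat_lit 0x10b235))
 (.l (nat_lit 0x162256))))
 (.n (.n (.n (.l (nat_lit 0x42005))
 (.l (nat_lit 0x109293)))
 (.l (nat_lit 0x10b006)))
 (.n (.l (nat_lit 0x26006))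
 (.l (nat_lit 0x22047))))))
 (.n (.n (.n (.n (.n (.l (nat_lit 0x400152))
 (.l (nat_lit 0x128146)))
 (.l (nat_lit 0xe5035)))
 (.n (.l (nat_lit 0x51c6))
 (.l (nat_lit 0x254))))
 (.n (.n (.n (.l (nat_lit 0x101044))
 (.l (nat_lit 0x80e3)))
 (.l (nat_lit 0x10a014)))
 (.n (.l (nat_lit 0x106005))
 (.l (nat_lit 0x24114)))))
 (.n (.n (.n (.n (.l (nat_lit 0xc0154))
 (.l (nat_lit 0xc0237)))
 (.l (nat_lit 0x8a004)))
 (.n (.l (nat_lit 0x124074))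
 (.l (nat_lit 0xa30a6))))
 (.n (.n (.n (.l (nat_lit 0x84156))
 (.l (nat_lit 0x1d00009)))
 (.l (nat_lit 0x48066)))
 (.n (.l (nat_lit 0x61026))
 (.l (nat_lit 0x21284))))))

def a128_107 : TA :=
 .n (.n (.n (.n (.n (.n (.l (nat_lit 0x40070))
 (.l (nat_lit 0xa7214)))
 (.l (nat_lit 0xe71c4)))
 (.n (.l (nat_lit 0x3074))
 (.l (nat_lit 0xa92b6))))
 (.n (.n (.n (.l (nat_lit 0x1450e6))
 (.l (nat_lit 0x86033)))
 (.l (nat_lit 0x26055)))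
 (.n (.l (nat_lit 0x1262a6))
 (.l (nat_lit 0xc51f6)))))
 (.n (.n (.n (.n (.l (nat_lit 0xa2075))
 (.l (nat_lit 0x167157)))
 (.l (nat_lit 0xc9005)))
 (.n (.l (nat_lit 0x60236))
 (.l (nat_lit 0xe5174))))
 (.n (.n (.n (.l (nat_lit 0xa155))
 (.l (nat_lit 0xc40009)))
 (.l (nat_lit 0x10b1c4)))
 (.n (.l (nat_lit 0x2a015))
 (.l (nat_lit 0x1622e6))))))
 (.n (.n (.n (.n (.n (.l (nat_lit 0x1001e1))
 (.l (nat_lit 0x127067)))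
 (.l (nat_lit 0x1081c4)))
 (.n (.l (nat_lit 0x144005))
 (.l (nat_lit 0x124176))))
 (.n (.n (.n (.l (nat_lit 0x1480e6))
 (.l (nat_lit 0xa1c3)))
 (.l (nat_lit 0x8055)))
 (.n (.l (nat_lit 0x16a016))
 (.l (nat_lit 0x14b037)))))
 (.n (.n (.n (.n (.l (nat_lit 0x124075))
 (.l (nat_lit 0x6b237)))
 (.l (nat_lit 0x2045)))
 (.n (.l (nat_lit 0xc22a5))
 (.l (nat_lit 0xa4116))))
 (.n (.n (.n (.l (nat_lit 0xe22a4))
 (.l (nat_lit 0x400b)))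
 (.l (nat_lit 0x12b034)))
 (.n (.l (nat_lit 0xc7074))
 (.l (nat_lit 0x1432f4))))))

def a64_43 : TA := .n a128_43 a128_107

def a32_11 : TA := .n a64_11 a64_43

def a128_27 : TA :=
 .n (.n (.n (.n (.n (.n (.l (nat_lit 0x800012))
 (.l (nat_lit 0xc7285)))
 (.l (nat_lit 0x60025)))
 (.n (.n (.l (nat_lit 0x1401c5))
 (.l (nat_lit 0xb00b)))
 (.l (nat_lit 0x121244))))
 (.n (.n (.n (.l (nat_lit 0x601c4))
 (.l (nat_lit 0x412a7)))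
 (.l (nat_lit 0xeb046)))
 (.n (.l (nat_lit 0xeb2a5))
 (.l (nat_lit 0xa5115)))))
 (.n (.n (.n (.n (.l (nat_lit 0x100270))
 (.l (nat_lit 0xc3077)))
 (.l (nat_lit 0xe2035)))
 (.n (.l (nat_lit 0x66235))
 (.l (nat_lit 0x143094))))
 (.n (.n (.n (.l (nat_lit 0xe1034))
 (.l (nat_lit 0xc8243)))
 (.l (nat_lit 0x2a034)))
 (.n (.l (nat_lit 0x86044))
 (.l (nat_lit 0x25196))))))
 (.n (.n (.n (.n (.n (.l (nat_lit 0x40120))
 (.l (nat_lit 0x164146)))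
 (.l (nat_lit 0x63035)))
 (.n (.l (nat_lit 0xa01c5))
 (.l (nat_lit 0xa1d4))))
 (.n (.n (.n (.l (nat_lit 0xc12a4))
 (.l (nat_lit 0x1420a3)))
 (.l (nat_lit 0xa234)))
 (.n (.l (nat_lit 0x125024))
 (.l (nat_lit 0x141266)))))
 (.n (.n (.n (.n (.l (nat_lit 0xcb076))
 (.l (nat_lit 0x1481c7)))
 (.l (nat_lit 0x127046)))
 (.n (.l (nat_lit 0x10b236))
 (.l (nat_lit 0x10b027))))
 (.n (.n (.n (.l (nat_lit 0x122006))
 (.l (nat_lit 0xcc0009)))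
 (.l (nat_lit 0x4065)))
 (.n (.l (nat_lit 0x7005))
 (.l (nat_lit 0x140214))))))

def a128_91 : TA :=
 .n (.n (.n (.n (.n (.n (.l (nat_lit 0x840052))
 (.l (nat_lit 0x87284)))
 (.l (nat_lit 0x168004)))
 (.n (.n (.l (nat_lit 0xb1c5))
 (.l (nat_lit 0xd4a1a36100000c)))
 (.l (nat_lit 0x121245))))
 (.n (.n (.n (.l (nat_lit 0x440e5))
 (.l (nat_lit 0xcb023)))
 (.l (nat_lit 0x162056)))
 (.n (.l (nat_lit 0xe22a5))
 (.l (nat_lit 0xc3114)))))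
 (.n (.n (.n (.n (.l (nat_lit 0x100006))
 (.l (nat_lit 0x46157)))
 (.l (nat_lit 0x168014)))
 (.n (.l (nat_lit 0xe4005))
 (.l (nat_lit 0x1022c6))))
 (.n (.n (.n (.l (nat_lit 0x106156))
 (.l (nat_lit 0x2c40009)))
 (.l (nat_lit 0x10b074)))
 (.n (.l (nat_lit 0x89016))
 (.l (nat_lit 0x141276))))))
 (.n (.n (.n (.n (.n (.l (nat_lit 0x6401c2))
 (.l (nat_lit 0x148295)))
 (.l (nat_lit 0x148074)))
 (.n (.l (nat_lit 0xe32a4))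
 (.l (nat_lit 0x12a175))))
 (.n (.n (.n (.l (nat_lit 0x1050e5))
 (.l (nat_lit 0x11c3)))
 (.l (nat_lit 0x86056)))
 (.n (.l (nat_lit 0x168015))
 (.l (nat_lit 0x66037)))))
 (.n (.n (.n (.n (.l (nat_lit 0x23075))
 (.l (nat_lit 0xc9237)))
 (.l (nat_lit 0x129005)))
 (.n (.l (nat_lit 0x105006))
 (.l (nat_lit 0x41037))))
 (.n (.n (.n (.l (nat_lit 0x163004))
 (.l (nat_lit 0x10100a)))
 (.l (nat_lit 0x2b2a4)))
 (.n (.l (nat_lit 0xcb026))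
 (.l (nat_lit 0x160216))))))

def a64_27 : TA := .n a128_27 a128_91

def a128_59 : TA :=
 .n (.n (.n (.n (.n (.n (.l (nat_lit 0xa40032))
 (.l (nat_lit 0x1432f5)))
 (.l (nat_lit 0xe9026)))
 (.n (.n (.l (nat_lit 0x461c6))
 (.l (nat_lit 0x15a21cad100600c)))
 (.l (nat_lit 0xa1246))))
 (.n (.n (.n (.l (nat_lit 0xe0054))
 (.l (nat_lit 0xc12d7)))
 (.l (nat_lit 0x169024)))
 (.n (.l (nat_lit 0x25005))
 (.l (nat_lit 0x22d4)))))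
 (.n (.n (.n (.n (.l (nat_lit 0x8c02a2))
 (.l (nat_lit 0x165117)))
 (.l (nat_lit 0x4b036)))
 (.n (.l (nat_lit 0x104074))
 (.l (nat_lit 0x140256))))
 (.n (.n (.n (.l (nat_lit 0x20156))
 (.l (nat_lit 0xc32c3)))
 (.l (nat_lit 0x67065)))
 (.n (.l (nat_lit 0x160015))
 (.l (nat_lit 0x125195))))))
 (.n (.n (.n (.n (.n (.l (nat_lit 0x640172))
 (.l (nat_lit 0x1295)))
 (.l (nat_lit 0x8a035)))
 (.n (.l (nat_lit 0x10a1c6))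
 (.l (nat_lit 0x1601e4))))
 (.n (.n (.n (.l (nat_lit 0xa1006))
 (.l (nat_lit 0x4153)))
 (.l (nat_lit 0xaa005)))
 (.n (.l (nat_lit 0xe0016))
 (.l (nat_lit 0x422d5)))))
 (.n (.n (.n (.n (.l (nat_lit 0x60005))
 (.l (nat_lit 0x62237)))
 (.l (nat_lit 0x89234)))
 (.n (.l (nat_lit 0xa4024))
 (.l (nat_lit 0x1001f4))))
 (.n (.n (.n (.l (nat_lit 0x25155))
 (.l (nat_lit 0x2d40009)))
 (.l (nat_lit 0x149065)))
 (.n (.l (nat_lit 0x25026))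
 (.l (nat_lit 0x1641a6))))))

def a128_123 : TA :=
 .n (.n (.n (.n (.n (.n (.l (nat_lit 0x1400a0))
 (.l (nat_lit 0x48134)))
 (.l (nat_lit 0xe7054)))
 (.n (.l (nat_lit 0x1032a4))
 (.l (nat_lit 0xe8244))))
 (.n (.n (.n (.l (nat_lit 0x480e5))
 (.l (nat_lit 0xc2053)))
 (.l (nat_lit 0x127056)))
 (.n (.l (nat_lit 0xab2a6))
 (.l (nat_lit 0x41265)))))
 (.n (.n (.n (.n (.l (nat_lit 0x4076))
 (.l (nat_lit 0xe9157)))
 (.l (nat_lit 0x142046)))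
 (.n (.l (nat_lit 0x161235))
 (.l (nat_lit 0x8a1e4))))
 (.n (.n (.n (.l (nat_lit 0x42074))
 (.l (nat_lit 0x1c80009)))
 (.l (nat_lit 0x8b024)))
 (.n (.l (nat_lit 0x126074))
 (.l (nat_lit 0x165194))))))
 (.n (.n (.n (.n (.n (.l (nat_lit 0x230))
 (.l (nat_lit 0x148224)))
 (.l (nat_lit 0x148054)))
 (.n (.l (nat_lit 0xe0235))
 (.l (nat_lit 0x4a176))))
 (.n (.n (.n (.l (nat_lit 0x611c4))
 (.l (nat_lit 0x41223)))
 (.l (nat_lit 0x12b004)))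
 (.n (.l (nat_lit 0xc60e4))
 (.l (nat_lit 0xcb264)))))
 (.n (.n (.n (.n (.l (nat_lit 0x88076))
 (.l (nat_lit 0x148247)))
 (.l (nat_lit 0x46046)))
 (.n (.l (nat_lit 0x632a6))
 (.l (nat_lit 0x41264))))
 (.n (.n (.n (.l (nat_lit 0xe2034))
 (.l (nat_lit 0x4600a)))
 (.l (nat_lit 0x1290f5)))
 (.n (.l (nat_lit 0x147234))
 (.l (nat_lit 0x120215))))))

def a64_59 : TA := .n a128_59 a128_123

def a32_27 : TA := .n a64_27 a64_59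

def a16_11 : TA := .n a32_11 a32_27

def a8_3 : TA := .n a16_3 a16_11

def a128_7 : TA :=
 .n (.n (.n (.n (.n (.n (.l (nat_lit 0x400002))
 (.l (nat_lit 0x167215)))
 (.l (nat_lit 0x147054)))
 (.n (.n (.l (nat_lit 0xe2054))
 (.l (nat_lit 0x800b)))
 (.l (nat_lit 0x101244))))
 (.n (.n (.n (.l (nat_lit 0x10b075))
 (.l (nat_lit 0x14a247)))
 (.l (nat_lit 0x47045)))
 (.n (.l (nat_lit 0x892a6))
 (.l (nat_lit 0x121037)))))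
 (.n (.n (.n (.n (.l (nat_lit 0x80240))
 (.l (nat_lit 0x68294)))
 (.l (nat_lit 0x168005)))
 (.n (.l (nat_lit 0xe1236))
 (.l (nat_lit 0xa2254))))
 (.n (.n (.n (.l (nat_lit 0x612a4))
 (.l (nat_lit 0x102233)))
 (.l (nat_lit 0x12a1c4)))
 (.n (.l (nat_lit 0x1461c4))
 (.l (nat_lit 0xeb114))))))
 (.n (.n (.n (.n (.n (.l (nat_lit 0x1400e0))
 (.l (nat_lit 0xe8057)))
 (.l (nat_lit 0x108005)))
 (.n (.l (nat_lit 0x23005))
 (.l (nat_lit 0x49244))))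
 (.n (.n (.n (.l (nat_lit 0x42004))
 (.l (nat_lit 0x146053)))
 (.l (nat_lit 0x128056)))
 (.n (.l (nat_lit 0xa5154))
 (.l (nat_lit 0x8b265)))))
 (.n (.n (.n (.n (.l (nat_lit 0x46075))
 (.l (nat_lit 0xe0187)))
 (.l (nat_lit 0x46045)))
 (.n (.l (nat_lit 0x162235))
 (.l (nat_lit 0xaa027))))
 (.n (.n (.n (.l (nat_lit 0x422a4))
 (.l (nat_lit 0x480009)))
 (.l (nat_lit 0x8b044)))
 (.n (.l (nat_lit 0x1262a4))
 (.l (nat_lit 0xa6194))))))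

def a128_71 : TA :=
 .n (.n (.n (.n (.n (.n (.l (nat_lit 0x400042))
 (.l (nat_lit 0xa51a4)))
 (.l (nat_lit 0xea025)))
 (.n (.n (.l (nat_lit 0x491c5))
 (.l (nat_lit 0xd588872900600c)))
 (.l (nat_lit 0xca245))))
 (.n (.n (.n (.l (nat_lit 0x141005))
 (.l (nat_lit 0xc5013)))
 (.l (nat_lit 0x14a005)))
 (.n (.l (nat_lit 0x12a6))
 (.l (nat_lit 0x20185)))))
 (.n (.n (.n (.n (.l (nat_lit 0x402d0))
 (.l (nat_lit 0x140157)))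
 (.l (nat_lit 0x69004)))
 (.n (.l (nat_lit 0x104154))
 (.l (nat_lit 0x45027))))
 (.n (.n (.n (.l (nat_lit 0x64155))
 (.l (nat_lit 0x2400009)))
 (.l (nat_lit 0x68066)))
 (.n (.l (nat_lit 0x162016))
 (.l (nat_lit 0x40205))))))
 (.n (.n (.n (.n (.n (.l (nat_lit 0x100190))
 (.l (nat_lit 0x48296)))
 (.l (nat_lit 0x8b035)))
 (.n (.l (nat_lit 0x64004))
 (.l (nat_lit 0x42027))))
 (.n (.n (.n (.l (nat_lit 0xa30e6))
 (.l (nat_lit 0x88153)))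
 (.l (nat_lit 0x121056)))
 (.n (.l (nat_lit 0x4016))
 (.l (nat_lit 0x451f4)))))
 (.n (.n (.n (.n (.l (nat_lit 0x60004))
 (.l (nat_lit 0x66237)))
 (.l (nat_lit 0x89014)))
 (.n (.l (nat_lit 0xa4044))
 (.l (nat_lit 0x1220a6))))
 (.n (.n (.n (.l (nat_lit 0x127155))
 (.l (nat_lit 0x1540009)))
 (.l (nat_lit 0x16b074)))
 (.n (.l (nat_lit 0x69025))
 (.l (nat_lit 0x622f4))))))

def a64_7 : TA := .n a128_7 a128_71

def a128_39 : TA :=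
 .n (.n (.n (.n (.n (.n (.l (nat_lit 0x180021))
 (.l (nat_lit 0x1422f5)))
 (.l (nat_lit 0xe2026)))
 (.n (.n (.l (nat_lit 0x1411c6))
 (.l (nat_lit 0x1283610d100000c)))
 (.l (nat_lit 0x62244))))
 (.n (.n (.n (.l (nat_lit 0x60014))
 (.l (nat_lit 0x462a7)))
 (.l (nat_lit 0xe9154)))
 (.n (.l (nat_lit 0xc5154))
 (.l (nat_lit 0xab115)))))
 (.n (.n (.n (.n (.l (nat_lit 0x100290))
 (.l (nat_lit 0xeb077)))
 (.l (nat_lit 0x106035)))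
 (.n (.l (nat_lit 0x14a235))
 (.l (nat_lit 0x62256))))
 (.n (.n (.n (.l (nat_lit 0xa1064))
 (.l (nat_lit 0x147293)))
 (.l (nat_lit 0xb006)))
 (.n (.l (nat_lit 0xa6005))
 (.l (nat_lit 0x822e4))))))
 (.n (.n (.n (.n (.n (.l (nat_lit 0x140150))
 (.l (nat_lit 0x148146)))
 (.l (nat_lit 0x105035)))
 (.n (.l (nat_lit 0xa11c5))
 (.l (nat_lit 0x401e4))))
 (.n (.n (.n (.l (nat_lit 0x101034))
 (.l (nat_lit 0x430e3)))
 (.l (nat_lit 0xa014)))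
 (.n (.l (nat_lit 0x6005))
 (.l (nat_lit 0x240a4)))))
 (.n (.n (.n (.n (.l (nat_lit 0x141004))
 (.l (nat_lit 0x160217)))
 (.l (nat_lit 0x12b045)))
 (.n (.l (nat_lit 0x24074))
 (.l (nat_lit 0x1220a5))))
 (.n (.n (.n (.l (nat_lit 0x120155))
 (.l (nat_lit 0x2500009)))
 (.l (nat_lit 0xe7066)))
 (.n (.l (nat_lit 0x20026))
 (.l (nat_lit 0x48136))))))

def a128_103 : TA :=
 .n (.n (.n (.n (.n (.n (.l (nat_lit 0x840062))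
 (.l (nat_lit 0x127057)))
 (.l (nat_lit 0xe7154)))
 (.n (.l (nat_lit 0x84004))
 (.l (nat_lit 0x105017))))
 (.n (.n (.n (.l (nat_lit 0x450e6))
 (.l (nat_lit 0x101033)))
 (.l (nat_lit 0x86055)))
 (.n (.l (nat_lit 0x1232a5))
 (.l (nat_lit 0x1001f6)))))
 (.n (.n (.n (.n (.l (nat_lit 0x102075))
 (.l (nat_lit 0x67157)))
 (.l (nat_lit 0x168064)))
 (.n (.l (nat_lit 0xc0236))
 (.l (nat_lit 0x14a2c5))))
 (.n (.n (.n (.l (nat_lit 0x69155))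
 (.l (nat_lit 0x1440009)))
 (.l (nat_lit 0xb1c4)))
 (.n (.l (nat_lit 0x8a015))
 (.l (nat_lit 0x222e6))))))
 (.n (.n (.n (.n (.n (.l (nat_lit 0x801e0))
 (.l (nat_lit 0x27067)))
 (.l (nat_lit 0x148154)))
 (.n (.l (nat_lit 0x44005))
 (.l (nat_lit 0x24176))))
 (.n (.n (.n (.l (nat_lit 0x80e6))
 (.l (nat_lit 0x871c3)))
 (.l (nat_lit 0xa7055)))
 (.n (.l (nat_lit 0x169016))
 (.l (nat_lit 0x4b037)))))
 (.n (.n (.n (.n (.l (nat_lit 0x24075))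
 (.l (nat_lit 0xcb237)))
 (.l (nat_lit 0x81045)))
 (.n (.l (nat_lit 0x1612a5))
 (.l (nat_lit 0x104115))))
 (.n (.n (.n (.l (nat_lit 0x162234))
 (.l (nat_lit 0x8300b)))
 (.l (nat_lit 0x2b034)))
 (.n (.l (nat_lit 0xc8004))
 (.l (nat_lit 0x167216))))))

def a64_39 : TA := .n a128_39 a128_103

def a32_7 : TA := .n a64_7 a64_39

def a128_23 : TA :=
 .n (.n (.n (.n (.n (.n (.l (nat_lit 0x140010))
 (.l (nat_lit 0x161285)))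
 (.l (nat_lit 0xe7006)))
 (.n (.n (.l (nat_lit 0x401c5))
 (.l (nat_lit 0x8a00a)))
 (.l (nat_lit 0x21244))))
 (.n (.n (.n (.l (nat_lit 0xe0154))
 (.l (nat_lit 0xc7297)))
 (.l (nat_lit 0x14b046)))
 (.n (.l (nat_lit 0x10b2a5))
 (.l (nat_lit 0xc5115)))))
 (.n (.n (.n (.n (.l (nat_lit 0x80260))
 (.l (nat_lit 0x169067)))
 (.l (nat_lit 0x161035)))
 (.n (.l (nat_lit 0xc6235))
 (.l (nat_lit 0x3094))))
 (.n (.n (.n (.l (nat_lit 0x161024))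
 (.l (nat_lit 0x10b233)))
 (.l (nat_lit 0xaa024)))
 (.n (.l (nat_lit 0x106034))
 (.l (nat_lit 0x85195))))))
 (.n (.n (.n (.n (.n (.l (nat_lit 0x140111))
 (.l (nat_lit 0x24146)))
 (.l (nat_lit 0x43035)))
 (.n (.l (nat_lit 0x1001c6))
 (.l (nat_lit 0x8a0f4))))
 (.n (.n (.n (.l (nat_lit 0x141234))
 (.l (nat_lit 0x20a3)))
 (.l (nat_lit 0x8a1c4)))
 (.n (.l (nat_lit 0x25024))
 (.l (nat_lit 0x1266)))))
 (.n (.n (.n (.n (.l (nat_lit 0x16a076))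
 (.l (nat_lit 0x481c7)))
 (.l (nat_lit 0x27046)))
 (.n (.l (nat_lit 0xb236))
 (.l (nat_lit 0xb027))))
 (.n (.n (.n (.l (nat_lit 0x162005))
 (.l (nat_lit 0x14c0009)))
 (.l (nat_lit 0x21066)))
 (.n (.l (nat_lit 0xa6054))
 (.l (nat_lit 0x40214))))))

def a128_87 : TA :=
 .n (.n (.n (.n (.n (.n (.l (nat_lit 0x200052))
 (.l (nat_lit 0x107214)))
 (.l (nat_lit 0x68004)))
 (.n (.n (.l (nat_lit 0xaa1c5))
 (.l (nat_lit 0xd41486a0a2600c)))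
 (.l (nat_lit 0x21245))))
 (.n (.n (.n (.l (nat_lit 0xe30e5))
 (.l (nat_lit 0x149023)))
 (.l (nat_lit 0x22056)))
 (.n (.l (nat_lit 0x1422a6))
 (.l (nat_lit 0x1620a4)))))
 (.n (.n (.n (.n (.l (nat_lit 0x6))
 (.l (nat_lit 0xc5157)))
 (.l (nat_lit 0x68014)))
 (.n (.l (nat_lit 0x144064))
 (.l (nat_lit 0x145174))))
 (.n (.n (.n (.l (nat_lit 0x165156))
 (.l (nat_lit 0x400009)))
 (.l (nat_lit 0xb074)))
 (.n (.l (nat_lit 0x128016))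
 (.l (nat_lit 0x1276))))))
 (.n (.n (.n (.n (.n (.l (nat_lit 0x1801c1))
 (.l (nat_lit 0x48295)))
 (.l (nat_lit 0x8074)))
 (.n (.l (nat_lit 0x1630e4))
 (.l (nat_lit 0x2a175))))
 (.n (.n (.n (.l (nat_lit 0x50e5))
 (.l (nat_lit 0x46183)))
 (.l (nat_lit 0x124055)))
 (.n (.l (nat_lit 0x68015))
 (.l (nat_lit 0x862d4)))))
 (.n (.n (.n (.n (.l (nat_lit 0x83076))
 (.l (nat_lit 0x168237)))
 (.l (nat_lit 0x29005)))
 (.n (.l (nat_lit 0x5006))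
 (.l (nat_lit 0xe0184))))
 (.n (.n (.n (.l (nat_lit 0x63004))
 (.l (nat_lit 0x100a)))
 (.l (nat_lit 0xab234)))
 (.n (.l (nat_lit 0x16a026))
 (.l (nat_lit 0x20216))))))

def a64_23 : TA := .n a128_23 a128_87

def a128_55 : TA :=
 .n (.n (.n (.n (.n (.n (.l (nat_lit 0x100030))
 (.l (nat_lit 0x1622f5)))
 (.l (nat_lit 0x149026)))
 (.n (.n (.l (nat_lit 0xe51c5))
 (.l (nat_lit 0x16221cad102000c)))
 (.l (nat_lit 0xc1245))))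
 (.n (.n (.n (.l (nat_lit 0x160044))
 (.l (nat_lit 0x14b2a7)))
 (.l (nat_lit 0x69024)))
 (.n (.l (nat_lit 0x85034))
 (.l (nat_lit 0x24185)))))
 (.n (.n (.n (.n (.l (nat_lit 0x6402a2))
 (.l (nat_lit 0x65117)))
 (.l (nat_lit 0xea036)))
 (.n (.l (nat_lit 0x4074))
 (.l (nat_lit 0x40256))))
 (.n (.n (.n (.l (nat_lit 0x40156))
 (.l (nat_lit 0x1432a3)))
 (.l (nat_lit 0x87065)))
 (.n (.l (nat_lit 0x20015))
 (.l (nat_lit 0x25195))))))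
 (.n (.n (.n (.n (.n (.l (nat_lit 0x100170))
 (.l (nat_lit 0x630d4)))
 (.l (nat_lit 0x126036)))
 (.n (.l (nat_lit 0xa1c6))
 (.l (nat_lit 0x601e4))))
 (.n (.n (.n (.l (nat_lit 0x121005))
 (.l (nat_lit 0x84113)))
 (.l (nat_lit 0x10a034)))
 (.n (.l (nat_lit 0x106004))
 (.l (nat_lit 0xe12d5)))))
 (.n (.n (.n (.n (.l (nat_lit 0xc0234))
 (.l (nat_lit 0xe1237)))
 (.l (nat_lit 0x1091c4)))
 (.n (.l (nat_lit 0x124154))
 (.l (nat_lit 0x14b0a6))))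
 (.n (.n (.n (.l (nat_lit 0x85156))
 (.l (nat_lit 0x500009)))
 (.l (nat_lit 0x49065)))
 (.n (.l (nat_lit 0x64025))
 (.l (nat_lit 0x241a6))))))

def a128_119 : TA :=
 .n (.n (.n (.n (.n (.n (.l (nat_lit 0x400a0))
 (.l (nat_lit 0xc8057)))
 (.l (nat_lit 0x167044)))
 (.n (.l (nat_lit 0x32a4))
 (.l (nat_lit 0x88244))))
 (.n (.n (.n (.l (nat_lit 0xe70e5))
 (.l (nat_lit 0x14b043)))
 (.l (nat_lit 0x27056)))
 (.n (.l (nat_lit 0x12a2a5))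
 (.l (nat_lit 0xc4037)))))
 (.n (.n (.n (.n (.l (nat_lit 0xa3076))
 (.l (nat_lit 0x149157)))
 (.l (nat_lit 0x121046)))
 (.n (.l (nat_lit 0x61235))
 (.l (nat_lit 0x10a174))))
 (.n (.n (.n (.l (nat_lit 0xc3004))
 (.l (nat_lit 0x2480009)))
 (.l (nat_lit 0x10b2a4)))
 (.n (.l (nat_lit 0x26074))
 (.l (nat_lit 0x65194))))))
 (.n (.n (.n (.n (.n (.l (nat_lit 0xc0220))
 (.l (nat_lit 0x8224)))
 (.l (nat_lit 0x48054)))
 (.n (.l (nat_lit 0x140235))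
 (.l (nat_lit 0x49176))))
 (.n (.n (.n (.l (nat_lit 0xe2004))
 (.l (nat_lit 0x87213)))
 (.l (nat_lit 0x2b004)))
 (.n (.l (nat_lit 0x146074))
 (.l (nat_lit 0x14b114)))))
 (.n (.n (.n (.n (.l (nat_lit 0xe7076))
 (.l (nat_lit 0x48247)))
 (.l (nat_lit 0xa4046)))
 (.n (.l (nat_lit 0xc32a6))
 (.l (nat_lit 0xeb116))))
 (.n (.n (.n (.l (nat_lit 0x162024))
 (.l (nat_lit 0x10500b)))
 (.l (nat_lit 0x1490f5)))
 (.n (.l (nat_lit 0x47234))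
 (.l (nat_lit 0x20215))))))

def a64_55 : TA := .n a128_55 a128_119

def a32_23 : TA := .n a64_23 a64_55

def a16_7 : TA := .n a32_7 a32_23

def a128_15 : TA :=
 .n (.n (.n (.n (.n (.n (.l (nat_lit 0x880002))
 (.l (nat_lit 0xe4057)))
 (.l (nat_lit 0x67005)))
 (.n (.n (.l (nat_lit 0x143005))
 (.l (nat_lit 0x8900a)))
 (.l (nat_lit 0x40f6))))
 (.n (.n (.n (.l (nat_lit 0x61004))
 (.l (nat_lit 0x46287)))
 (.l (nat_lit 0xe7045)))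
 (.n (.l (nat_lit 0x6a2a6))
 (.l (nat_lit 0x24115)))))
 (.n (.n (.n (.n (.l (nat_lit 0xc0250))
 (.l (nat_lit 0xc9067)))
 (.l (nat_lit 0xc1035)))
 (.n (.l (nat_lit 0x142236))
 (.l (nat_lit 0x1222c4))))
 (.n (.n (.n (.l (nat_lit 0xe1014))
 (.l (nat_lit 0x48233)))
 (.l (nat_lit 0x2a014)))
 (.n (.l (nat_lit 0x862a4))
 (.l (nat_lit 0x140204))))))
 (.n (.n (.n (.n (.n (.l (nat_lit 0xc00f0))
 (.l (nat_lit 0x880d5)))
 (.l (nat_lit 0x41036)))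
 (.n (.l (nat_lit 0xa3006))
 (.l (nat_lit 0x1290f4))))
 (.n (.n (.n (.l (nat_lit 0xc11c4))
 (.l (nat_lit 0x89063)))
 (.l (nat_lit 0xa154)))
 (.n (.l (nat_lit 0x1251c4))
 (.l (nat_lit 0x104114)))))
 (.n (.n (.n (.n (.l (nat_lit 0x166075))
 (.l (nat_lit 0x1601c7)))
 (.l (nat_lit 0xe6046)))
 (.n (.l (nat_lit 0xe7235))
 (.l (nat_lit 0x12a174))))
 (.n (.n (.n (.l (nat_lit 0x2044))
 (.l (nat_lit 0x24c0009)))
 (.l (nat_lit 0x12b005)))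
 (.n (.l (nat_lit 0x26044))
 (.l (nat_lit 0x10b047))))))

def a128_79 : TA :=
 .n (.n (.n (.n (.n (.n (.l (nat_lit 0x50))
 (.l (nat_lit 0xa6057)))
 (.l (nat_lit 0x14b025)))
 (.n (.n (.l (nat_lit 0xa1c5))
 (.l (nat_lit 0xd521a32902000c)))
 (.l (nat_lit 0x44164))))
 (.n (.n (.n (.l (nat_lit 0x430e5))
 (.l (nat_lit 0x44023)))
 (.l (nat_lit 0x60055)))
 (.n (.l (nat_lit 0xe12a6))
 (.l (nat_lit 0xe5185)))))
 (.n (.n (.n (.n (.l (nat_lit 0x1402f0))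
 (.l (nat_lit 0x64157)))
 (.l (nat_lit 0x1680e4)))
 (.n (.l (nat_lit 0x44034))
 (.l (nat_lit 0xca2c6))))
 (.n (.n (.n (.l (nat_lit 0xc5155))
 (.l (nat_lit 0x1400009)))
 (.l (nat_lit 0x109066)))
 (.n (.l (nat_lit 0x88016))
 (.l (nat_lit 0x100206))))))
 (.n (.n (.n (.n (.n (.l (nat_lit 0x1c0))
 (.l (nat_lit 0x168296)))
 (.l (nat_lit 0x12b036)))
 (.n (.l (nat_lit 0xe3074))
 (.l (nat_lit 0xc5175))))
 (.n (.n (.n (.l (nat_lit 0x1040e6))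
 (.l (nat_lit 0x109153)))
 (.l (nat_lit 0x3055)))
 (.n (.l (nat_lit 0x165016))
 (.l (nat_lit 0x125114)))))
 (.n (.n (.n (.n (.l (nat_lit 0x102076))
 (.l (nat_lit 0xc8237)))
 (.l (nat_lit 0x109024)))
 (.n (.l (nat_lit 0x124054))
 (.l (nat_lit 0x2b0a5))))
 (.n (.n (.n (.l (nat_lit 0x8a156))
 (.l (nat_lit 0x540009)))
 (.l (nat_lit 0x16b154)))
 (.n (.l (nat_lit 0xca025))
 (.l (nat_lit 0x103057))))))

def a64_15 : TA := .n a128_15 a128_79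

def a128_47 : TA :=
 .n (.n (.n (.n (.n (.n (.l (nat_lit 0xa40022))
 (.l (nat_lit 0x422f6)))
 (.l (nat_lit 0xe5025)))
 (.n (.n (.l (nat_lit 0x451c5))
 (.l (nat_lit 0xa074c0d100000c)))
 (.l (nat_lit 0xa1d6))))
 (.n (.n (.n (.l (nat_lit 0x160024))
 (.l (nat_lit 0xca2a7)))
 (.l (nat_lit 0x1691c4)))
 (.n (.l (nat_lit 0x1451c4))
 (.l (nat_lit 0x121264)))))
 (.n (.n (.n (.n (.l (nat_lit 0x1402a0))
 (.l (nat_lit 0x1430e7)))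
 (.l (nat_lit 0x4a036)))
 (.n (.l (nat_lit 0x12b235))
 (.l (nat_lit 0xea255))))
 (.n (.n (.n (.l (nat_lit 0x142005))
 (.l (nat_lit 0x812a3)))
 (.l (nat_lit 0xe0065)))
 (.n (.l (nat_lit 0x126006))
 (.l (nat_lit 0x122047))))))
 (.n (.n (.n (.n (.n (.l (nat_lit 0x680152))
 (.l (nat_lit 0x1220d4)))
 (.l (nat_lit 0x46036)))
 (.n (.l (nat_lit 0x1051c6))
 (.l (nat_lit 0x100254))))
 (.n (.n (.n (.l (nat_lit 0x81054))
 (.l (nat_lit 0x1480e3)))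
 (.l (nat_lit 0x8a024)))
 (.n (.l (nat_lit 0x86006))
 (.l (nat_lit 0x124114)))))
 (.n (.n (.n (.n (.l (nat_lit 0x401c4))
 (.l (nat_lit 0x60237)))
 (.l (nat_lit 0x49154)))
 (.n (.l (nat_lit 0xa40e4))
 (.l (nat_lit 0x640a6))))
 (.n (.n (.n (.l (nat_lit 0x24156))
 (.l (nat_lit 0x1500009)))
 (.l (nat_lit 0x148066)))
 (.n (.l (nat_lit 0x161026))
 (.l (nat_lit 0x121284))))))

def a128_111 : TA :=
 .n (.n (.n (.n (.n (.n (.l (nat_lit 0x140070))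
 (.l (nat_lit 0x272f4)))
 (.l (nat_lit 0xa7234)))
 (.n (.l (nat_lit 0x103074))
 (.l (nat_lit 0x292b5))))
 (.n (.n (.n (.l (nat_lit 0x1250e6))
 (.l (nat_lit 0x4a033)))
 (.l (nat_lit 0x126055)))
 (.n (.l (nat_lit 0x1092a5))
 (.l (nat_lit 0x630a4)))))
 (.n (.n (.n (.n (.l (nat_lit 0x3075))
 (.l (nat_lit 0xc8157)))
 (.l (nat_lit 0x49006)))
 (.n (.l (nat_lit 0x160236))
 (.l (nat_lit 0x49174))))
 (.n (.n (.n (.l (nat_lit 0x14a155))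
 (.l (nat_lit 0x440009)))
 (.l (nat_lit 0x8b234)))
 (.n (.l (nat_lit 0x12a015))
 (.l (nat_lit 0xc5194))))))
 (.n (.n (.n (.n (.n (.l (nat_lit 0x80210))
 (.l (nat_lit 0xc80d4)))
 (.l (nat_lit 0x148234)))
 (.n (.l (nat_lit 0xc4006))
 (.l (nat_lit 0xc5176))))
 (.n (.n (.n (.l (nat_lit 0x1680e6))
 (.l (nat_lit 0x14a1c3)))
 (.l (nat_lit 0x108055)))
 (.n (.l (nat_lit 0xc7004))
 (.l (nat_lit 0xcb0a4)))))
 (.n (.n (.n (.n (.l (nat_lit 0xc6076))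
 (.l (nat_lit 0x16b237)))
 (.l (nat_lit 0x22045)))
 (.n (.l (nat_lit 0x622a6))
 (.l (nat_lit 0x4b116))))
 (.n (.n (.n (.l (nat_lit 0xa2014))
 (.l (nat_lit 0xc400b)))
 (.l (nat_lit 0xab044)))
 (.n (.l (nat_lit 0x870e4))
 (.l (nat_lit 0xe3057))))))

def a64_47 : TA := .n a128_47 a128_111

def a32_15 : TA := .n a64_15 a64_47

def a128_31 : TA :=
 .n (.n (.n (.n (.n (.n (.l (nat_lit 0x20))
 (.l (nat_lit 0x641a4)))
 (.l (nat_lit 0x21025)))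
 (.n (.n (.l (nat_lit 0xe01c6))
 (.l (nat_lit 0x1286888d102000c)))
 (.l (nat_lit 0x104165))))
 (.n (.n (.n (.l (nat_lit 0x1601c4))
 (.l (nat_lit 0x1412a7)))
 (.l (nat_lit 0x6a004)))
 (.n (.l (nat_lit 0x450e4))
 (.l (nat_lit 0xb115)))))
 (.n (.n (.n (.n (.l (nat_lit 0xc0280))
 (.l (nat_lit 0x63077)))
 (.l (nat_lit 0xa4036)))
 (.n (.l (nat_lit 0x49236))
 (.l (nat_lit 0xc01e6))))
 (.n (.n (.n (.l (nat_lit 0xa1044))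
 (.l (nat_lit 0x8a243)))
 (.l (nat_lit 0x12a034)))
 (.n (.l (nat_lit 0x6054))
 (.l (nat_lit 0x165196))))))
 (.n (.n (.n (.n (.n (.l (nat_lit 0x100121))
 (.l (nat_lit 0xc1294)))
 (.l (nat_lit 0x24035)))
 (.n (.l (nat_lit 0x11c5))
 (.l (nat_lit 0x14a1d4))))
 (.n (.n (.n (.l (nat_lit 0x81014))
 (.l (nat_lit 0x10a0a3)))
 (.l (nat_lit 0x10a234)))
 (.n (.l (nat_lit 0xe5034))
 (.l (nat_lit 0xe1265)))))
 (.n (.n (.n (.n (.l (nat_lit 0xeb076))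
 (.l (nat_lit 0xca1c7)))
 (.l (nat_lit 0x8b045)))
 (.n (.l (nat_lit 0xeb236))
 (.l (nat_lit 0xab027))))
 (.n (.n (.n (.l (nat_lit 0x80155))
 (.l (nat_lit 0x4c0009)))
 (.l (nat_lit 0x7066)))
 (.n (.l (nat_lit 0x107005))
 (.l (nat_lit 0xe0214))))))

def a128_95 : TA :=
 .n (.n (.n (.n (.n (.n (.l (nat_lit 0x80060))
 (.l (nat_lit 0x472f4)))
 (.l (nat_lit 0x167074)))
 (.n (.n (.l (nat_lit 0x14b1c5))
 (.l (nat_lit 0xd40ea36102600c)))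
 (.l (nat_lit 0x89245))))
 (.n (.n (.n (.l (nat_lit 0x1440e5))
 (.l (nat_lit 0x40033)))
 (.l (nat_lit 0x163056)))
 (.n (.l (nat_lit 0x432a5))
 (.l (nat_lit 0x63037)))))
 (.n (.n (.n (.n (.l (nat_lit 0x80004))
 (.l (nat_lit 0x146157)))
 (.l (nat_lit 0xe8054)))
 (.n (.l (nat_lit 0x64006))
 (.l (nat_lit 0xe22c5))))
 (.n (.n (.n (.l (nat_lit 0x88155))
 (.l (nat_lit 0x2440009)))
 (.l (nat_lit 0x8b0e4)))
 (.n (.l (nat_lit 0x29015))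
 (.l (nat_lit 0xcb276))))))
 (.n (.n (.n (.n (.n (.l (nat_lit 0x8c01c2))
 (.l (nat_lit 0x124144)))
 (.l (nat_lit 0xc80e4)))
 (.n (.l (nat_lit 0xa3034))
 (.l (nat_lit 0xc22c4))))
 (.n (.n (.n (.l (nat_lit 0xa50e5))
 (.l (nat_lit 0x1411c3)))
 (.l (nat_lit 0x7056)))
 (.n (.l (nat_lit 0xc9015))
 (.l (nat_lit 0x166037)))))
 (.n (.n (.n (.n (.l (nat_lit 0x123075))
 (.l (nat_lit 0x4a237)))
 (.l (nat_lit 0xa9006)))
 (.n (.l (nat_lit 0x812a5))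
 (.l (nat_lit 0x141037))))
 (.n (.n (.n (.l (nat_lit 0xe2074))
 (.l (nat_lit 0x8200b)))
 (.l (nat_lit 0x12b2a4)))
 (.n (.l (nat_lit 0x6b026))
 (.l (nat_lit 0xc7216))))))

def a64_31 : TA := .n a128_31 a128_95

def a128_63 : TA :=
 .n (.n (.n (.n (.n (.n (.l (nat_lit 0x40040))
 (.l (nat_lit 0x1472f6)))
 (.l (nat_lit 0x4a026)))
 (.n (.n (.l (nat_lit 0xe71c6))
 (.l (nat_lit 0x161684ac842600c)))
 (.l (nat_lit 0x9246))))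
 (.n (.n (.n (.l (nat_lit 0x60064))
 (.l (nat_lit 0x462d7)))
 (.l (nat_lit 0xe9064)))
 (.n (.l (nat_lit 0x125005))
 (.l (nat_lit 0x1022d4)))))
 (.n (.n (.n (.n (.l (nat_lit 0x2c0))
 (.l (nat_lit 0xe5127)))
 (.l (nat_lit 0x14b036)))
 (.n (.l (nat_lit 0x840e4))
 (.l (nat_lit 0x12a256))))
 (.n (.n (.n (.l (nat_lit 0x120156))
 (.l (nat_lit 0x892c3)))
 (.l (nat_lit 0x167065)))
 (.n (.l (nat_lit 0x141016))
 (.l (nat_lit 0x126195))))))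
 (.n (.n (.n (.n (.n (.l (nat_lit 0xc0180))
 (.l (nat_lit 0x101295)))
 (.l (nat_lit 0x2a035)))
 (.n (.l (nat_lit 0xea1c6))
 (.l (nat_lit 0xe1027))))
 (.n (.n (.n (.l (nat_lit 0x30e6))
 (.l (nat_lit 0x144153)))
 (.l (nat_lit 0x2a006)))
 (.n (.l (nat_lit 0x81015))
 (.l (nat_lit 0x1422d5)))))
 (.n (.n (.n (.n (.l (nat_lit 0x160005))
 (.l (nat_lit 0x162237)))
 (.l (nat_lit 0x92a4)))
 (.n (.l (nat_lit 0x24034))
 (.l (nat_lit 0xa0037))))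
 (.n (.n (.n (.l (nat_lit 0x125155))
 (.l (nat_lit 0x2540009)))
 (.l (nat_lit 0xe9065)))
 (.n (.l (nat_lit 0x125026))
 (.l (nat_lit 0x1251a5))))))

def a128_127 : TA :=
 .n (.n (.n (.n (.n (.n (.l (nat_lit 0x1400b0))
 (.l (nat_lit 0x81a4)))
 (.l (nat_lit 0xa7064)))
 (.n (.l (nat_lit 0x103034))
 (.l (nat_lit 0x1090f4))))
 (.n (.n (.n (.l (nat_lit 0x1480e5))
 (.l (nat_lit 0x83053)))
 (.l (nat_lit 0x88056)))
 (.n (.l (nat_lit 0x250e4))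
 (.l (nat_lit 0x141265)))))
 (.n (.n (.n (.n (.l (nat_lit 0x104076))
 (.l (nat_lit 0x4a157)))
 (.l (nat_lit 0xe2046)))
 (.n (.l (nat_lit 0xc2235))
 (.l (nat_lit 0xa2c4))))
 (.n (.n (.n (.l (nat_lit 0x142074))
 (.l (nat_lit 0x1480009)))
 (.l (nat_lit 0xb034)))
 (.n (.l (nat_lit 0xa6234))
 (.l (nat_lit 0xc6047))))))
 (.n (.n (.n (.n (.n (.l (nat_lit 0x100230))
 (.l (nat_lit 0xc8294)))
 (.l (nat_lit 0xc8064)))
 (.n (.l (nat_lit 0x41235))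
 (.l (nat_lit 0x14a176))))
 (.n (.n (.n (.l (nat_lit 0x1611c4))
 (.l (nat_lit 0x233)))
 (.l (nat_lit 0xaa074)))
 (.n (.l (nat_lit 0x46154))
 (.l (nat_lit 0x6b0a4)))))
 (.n (.n (.n (.n (.l (nat_lit 0xaa075))
 (.l (nat_lit 0xe8247)))
 (.l (nat_lit 0x146046)))
 (.n (.l (nat_lit 0x1632a6))
 (.l (nat_lit 0x141264))))
 (.n (.n (.n (.l (nat_lit 0x62044))
 (.l (nat_lit 0x700a)))
 (.l (nat_lit 0x811d4)))
 (.n (.l (nat_lit 0xc7044))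
 (.l (nat_lit 0x87215))))))

def a64_63 : TA := .n a128_63 a128_127

def a32_31 : TA := .n a64_31 a64_63

def a16_15 : TA := .n a32_15 a32_31

def a8_7 : TA := .n a16_7 a16_15

def a4_3 : TA := .n a8_3 a8_7

def a2_1 : TA := .n a4_1 a4_3

def a1_0 : TA := .n a2_0 a2_1

/-- the table of the atoms -/
def DT : TA := a1_0

end Vale.Agent.P032.H437.Ev3
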